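import Vale.Agent.P177.Len

/-! Further properties of length functions. -/

namespace Vale.Agent.P177

open scoped ENNReal

universe u

theorem Len2_span_smul {R X : Type*} [CommRing R] [AddCommGroup X] [Module R X] (a : R)
    (A : Submodule R X) : Ideal.span {a} • A = A.map (LinearMap.lsmul R X a) := by
  rw [Submodule.ideal_span_singleton_smul]
  rfl

/-- an additive function on modules of finite length is a multiple of the length. -/
theorem Len2_ind {A : Type u} [CommRing A] [IsLocalRing A]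
    (v : ∀ (X : Type u) [AddCommGroup X] [Module A X], ℝ≥0∞)
    (add : ∀ (X' X X'' : Type u) [AddCommGroup X'] [Module A X'] [AddCommGroup X] [Module A X]
      [AddCommGroup X''] [Module A X''] (f : X' →ₗ[A] X) (g : X →ₗ[A] X''), Function.Injective f →
      Function.Exact f g → Function.Surjective g → v X = v X' + v X'')
    (zero : ∀ (X : Type u) [AddCommGroup X] [Module A X], Subsingleton X → v X = 0)
    (H : Type u) [AddCommGroup H] [Module A H] (hH : IsFiniteLength A H) :
    v H = (Module.length A H : ℝ≥0∞) * v (A ⧸ IsLocalRing.maximalIdeal A) := by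
  induction hH with
  | of_subsingleton => rw [zero _ inferInstance, Module.length_eq_zero]; simp
  | @of_simple_quotient M _ _ N hs _ ih =>
    obtain ⟨I, hI, ⟨e⟩⟩ := isSimpleModule_iff_quot_maximal.1 hs
    obtain rfl := IsLocalRing.eq_maximalIdeal hI
    have h1 := add _ _ PUnit e.toLinearMap 0 e.injective
      (fun y => iff_of_true rfl (e.surjective y)) fun y => ⟨0, rfl⟩
    rw [zero PUnit inferInstance, add_zero] at h1
    rw [add _ _ _ N.subtype N.mkQ N.injective_subtype (LinearMap.exact_subtype_mkQ N)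
      N.mkQ_surjective, Module.length_eq_add_of_exact N.subtype N.mkQ N.injective_subtype
      N.mkQ_surjective (LinearMap.exact_subtype_mkQ N), ih, ← h1,
      Module.length_eq_one A (M ⧸ N), ENat.toENNReal_add, add_mul]
    simp

namespace Len

variable {R : Type u} [CommRing R] (Λ : Len R) {X : Type u} [AddCommGroup X] [Module R X]

theorem rel_mul_smul_le (a b : R) (A B : Submodule R X) :
    Λ.rel A (Ideal.span {a * b} • A ⊔ B) ≤
      Λ.rel A (Ideal.span {a} • A ⊔ B) + Λ.rel A (Ideal.span {b} • A ⊔ B) := by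
  refine (Λ.rel_le_add A (Ideal.span {a} • A ⊔ (Ideal.span {a * b} • A ⊔ B)) _).trans
    (add_le_add (Λ.rel_mono le_rfl (sup_le_sup_left le_sup_right _)) ?_)
  rw [Λ.rel_sup, Len2_span_smul a, Λ.rel_map_comap]
  refine Λ.rel_mono le_rfl (sup_le ?_ fun x hx => Submodule.mem_sup_right (B.smul_mem a hx))
  rw [Len2_span_smul, Len2_span_smul]
  rintro _ ⟨x, hx, rfl⟩
  exact Submodule.mem_sup_left ⟨x, hx, mul_smul a b x⟩

theorem Len2_pow (a : R) (k : ℕ) (A B : Submodule R X) :
    Λ.rel A (Ideal.span {a ^ k} • A ⊔ B) ≤ k * Λ.rel A (Ideal.span {a} • A ⊔ B) := by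
  induction k with
  | zero => simp [Λ.rel_of_le]
  | succ k ih =>
    rw [pow_succ, Nat.cast_succ, add_mul, one_mul]
    exact (Λ.rel_mul_smul_le _ _ A B).trans (add_le_add ih le_rfl)

/-- killing powers of a list costs at most the obvious factor. -/
theorem rel_pow_le (as : List R) (k : ℕ) (A B : Submodule R X) :
    Λ.rel A (Ideal.ofList (as.map (· ^ k)) • A ⊔ B) ≤
      (k : ℝ≥0∞) ^ as.length * Λ.rel A (Ideal.ofList as • A ⊔ B) := by
  induction as generalizing B with
  | nil => simp
  | cons a as ih =>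
    rw [List.map_cons, Ideal.ofList_cons, Ideal.ofList_cons, Submodule.sup_smul,
      Submodule.sup_smul, sup_assoc, sup_assoc, List.length_cons, pow_succ', mul_assoc]
    refine (Λ.Len2_pow a k A _).trans (mul_le_mul_right ?_ _)
    rw [sup_left_comm, sup_left_comm (Ideal.span {a} • A)]
    exact ih _

theorem rel_ideal_pow_le (as : List R) (k : ℕ) (A B : Submodule R X) :
    Λ.rel A (Ideal.ofList as ^ k • A ⊔ B) ≤
      (k : ℝ≥0∞) ^ as.length * Λ.rel A (Ideal.ofList as • A ⊔ B) := by
  refine le_trans (Λ.rel_mono le_rfl (sup_le_sup_right (Submodule.smul_mono_left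
    (Ideal.span_le.2 fun x hx => ?_)) _)) (Λ.rel_pow_le as k A B)
  obtain ⟨a, ha, rfl⟩ := List.mem_map.1 hx
  exact Ideal.pow_mem_pow (Ideal.subset_span (s := {r | r ∈ as}) ha) k

theorem rel_ideal_pow_ne_top (I : Ideal R) (hI : I.FG) (k : ℕ) (A : Submodule R X)
    (h : Λ.rel A (I • A) ≠ ⊤) : Λ.rel A (I ^ k • A) ≠ ⊤ := by
  obtain ⟨s, rfl⟩ := hI
  have e : Ideal.span (s : Set R) = Ideal.ofList s.toList :=
    congrArg (Ideal.span (α := R)) (Set.ext fun x => Finset.mem_toList.symm)
  have := Λ.rel_ideal_pow_le s.toList k A ⊥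
  rw [← e, sup_bot_eq, sup_bot_eq] at this
  exact ne_top_of_le_ne_top (ENNReal.mul_ne_top (by simp) h) this

/-- comparison of two pairs of commensurable lattices. -/
theorem rel_compare {A A' B B' : Submodule R X} (g : R) (hB : B ≤ A) (hB' : B' ≤ A')
    (hg : ∀ x ∈ A, g • x ∈ B) (hg' : ∀ x ∈ A', g • x ∈ B') :
    Λ.rel A A' ≤ Λ.rel B B' + Λ.rel A (Ideal.span {g} • A ⊔ A') ∧
      Λ.rel B B' ≤ Λ.rel A A' + Λ.rel B (Ideal.span {g} • B ⊔ B') := by
  constructor
  · refine (Λ.rel_le_add A (B ⊔ A') A').trans ?_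
    rw [Λ.rel_sup, add_comm]
    refine add_le_add (Λ.rel_mono le_rfl hB') (Λ.rel_mono le_rfl (sup_le_sup_right ?_ _))
    rw [Len2_span_smul]
    rintro _ ⟨x, hx, rfl⟩
    exact hg x hx
  · refine (Λ.rel_le_add B (Ideal.span {g} • B ⊔ B') B').trans ?_
    rw [Λ.rel_sup, add_comm]
    refine add_le_add ?_ le_rfl
    rw [Len2_span_smul, Λ.rel_map_comap]
    exact Λ.rel_mono hB hg'

theorem Len2_ker_coker (f : X →ₗ[R] X) {A B : Submodule R X} (hBA : B ≤ A) (hA : A ≤ A.comap f)
    (hB : B ≤ B.comap f) (h : Λ.rel A B ≠ ⊤) :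
    Λ.rel (A ⊓ B.comap f) B = Λ.rel A (A.map f ⊔ B) := by
  have h1 := Λ.rel_add (inf_le_left : A ⊓ B.comap f ≤ A) (le_inf hBA hB)
  have h2 := Λ.rel_add (sup_le (Submodule.map_le_iff_le_comap.2 hA) hBA)
    (le_sup_right : B ≤ A.map f ⊔ B)
  rw [Λ.rel_inf, ← Λ.rel_map_comap] at h1
  rw [Λ.rel_sup, add_comm] at h2
  exact (ENNReal.add_right_inj (ne_top_of_le_ne_top h (h1 ▸ le_self_add))).1 (h1.symm.trans h2)

/-- averaging an Artin-Rees type estimate. -/
theorem mul_rel_le (L : Submodule R X) (q : Ideal R) (g : R) (c j r : ℕ)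
    (hnull : ∀ i : ℕ, Λ.rel (L ⊓ (q ^ (i + c) • L).comap (LinearMap.lsmul R X g)) (q ^ i • L) = 0)
    (hfin : Λ.rel L (q ^ (j + r * c) • L) ≠ ⊤) :
    r * Λ.rel L (Ideal.span {g} • L ⊔ q ^ j • L) ≤ Λ.rel L (q ^ (j + r * c) • L) := by
  have anti : ∀ {i k : ℕ}, i ≤ k → q ^ k • L ≤ q ^ i • L := fun h =>
    Submodule.smul_mono_left (Ideal.pow_le_pow_right h)
  refine le_trans ?_ (Λ.rel_mono (Submodule.smul_le_right (I := q ^ j)) le_rfl)
  induction r with
  | zero => simp
  | succ r ih =>
    have e : j + (r + 1) * c = j + r * c + c := by ring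
    rw [e] at hfin ⊢
    rw [Λ.rel_add (anti (Nat.le_add_right j (r * c))) (anti (Nat.le_add_right _ c)), Nat.cast_succ,
      add_mul, one_mul]
    refine add_le_add (ih (ne_top_of_le_ne_top hfin (Λ.rel_mono le_rfl
      (anti (Nat.le_add_right _ c))))) ?_
    refine (Λ.rel_mono le_rfl (sup_le_sup_left (anti (show j ≤ j + r * c + c by omega)) _)).trans ?_
    rw [Len2_span_smul, ← Λ.Len2_ker_coker (LinearMap.lsmul R X g) Submodule.smul_le_right
      (fun x hx => L.smul_mem g hx) (fun x hx => Submodule.smul_mem _ g hx) hfin]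
    refine (Λ.rel_le_add _ (q ^ (j + r * c) • L) _).trans ?_
    rw [hnull, zero_add]

theorem len_res {R' : Type u} [CommRing R'] [IsLocalRing R] [IsLocalRing R'] (φ : R →+* R')
    [IsLocalHom φ] (hres : ∀ b : R', ∃ a : R, b - φ a ∈ IsLocalRing.maximalIdeal R') :
    (len R).res φ = len R' := by
  refine ext' fun Y _ _ => ?_
  by_cases h : Module.length R' Y = ⊤
  · let := φ.toAlgebra
    let : Module R Y := Module.compHom Y φ
    have : IsScalarTower R R' Y := ⟨fun r s y => mul_smul (φ r) s y⟩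
    have h1 := Submodule.length_le_length_restrictScalars R (⊤ : Submodule R' Y)
    rw [Submodule.restrictScalars_top, Module.length_top, Module.length_top, h, top_le_iff] at h1
    exact congrArg ENat.toENNReal (h1.trans h.symm)
  · rw [Len2_ind _ ((len R).res φ).add ((len R).res φ).zero Y (Module.length_ne_top_iff.1 h)]
    have hb : Function.Bijective (IsLocalRing.ResidueField.map φ) := by
      refine ⟨RingHom.injective _, fun y => ?_⟩
      obtain ⟨b, rfl⟩ := IsLocalRing.residue_surjective y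
      obtain ⟨a, ha⟩ := hres b
      exact ⟨IsLocalRing.residue R a, (Ideal.Quotient.eq.2 ha).symm⟩
    rw [(len R).res_val_of_equiv φ (X := R ⧸ IsLocalRing.maximalIdeal R)
      (Y := R' ⧸ IsLocalRing.maximalIdeal R') (RingEquiv.ofBijective _ hb).toAddEquiv
      fun r x => map_mul (IsLocalRing.ResidueField.map φ) (IsLocalRing.residue R r) x]
    have : IsSimpleModule R (R ⧸ IsLocalRing.maximalIdeal R) :=
      isSimpleModule_iff_quot_maximal.2 ⟨_, inferInstance, ⟨LinearEquiv.refl _ _⟩⟩
    exact (congrArg (_ * ·) ((congrArg ENat.toENNReal (Module.length_eq_one R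
      (R ⧸ IsLocalRing.maximalIdeal R))).trans ENat.toENNReal_one)).trans (mul_one _)

theorem Len2_tensor_quot {A : Type u} [CommRing A] [Algebra A R]
    (L : Type u) [AddCommGroup L] [Module R L] [Module A L] [IsScalarTower A R L] (I : Ideal A) :
    Λ.val (TensorProduct A L (A ⧸ I)) =
      Λ.val (L ⧸ I.map (algebraMap A R) • (⊤ : Submodule R L)) := by
  let f : L →ₗ[R] TensorProduct A L (A ⧸ I) :=
    { toFun := fun x => x ⊗ₜ Ideal.Quotient.mk I 1
      map_add' := fun x y => TensorProduct.add_tmul x y _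
      map_smul' := fun r x => (TensorProduct.smul_tmul' r x _).symm }
  have h1 : ∀ x, TensorProduct.tensorQuotEquivQuotSMul L I (f x) = Submodule.Quotient.mk x :=
    fun x => (TensorProduct.tensorQuotEquivQuotSMul_tmul_mk I x 1).trans (by rw [one_smul])
  have hf : Function.Surjective f := fun y => by
    obtain ⟨x, hx⟩ := Submodule.Quotient.mk_surjective _
      (TensorProduct.tensorQuotEquivQuotSMul L I y)
    exact ⟨x, (TensorProduct.tensorQuotEquivQuotSMul L I).injective ((h1 x).trans hx)⟩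
  refine Λ.congr ((f.quotKerEquivOfSurjective hf).symm.trans (Submodule.quotEquivOfEq _ _ ?_))
  ext x
  rw [LinearMap.mem_ker, ← (TensorProduct.tensorQuotEquivQuotSMul L I).map_eq_zero_iff, h1,
    Submodule.Quotient.mk_eq_zero, ← Submodule.restrictScalars_mem A (I.map (algebraMap A R) • ⊤),
    Ideal.smul_restrictScalars, Submodule.restrictScalars_top]

/-- flat base change. -/
theorem val_baseChange {A : Type u} [CommRing A] [IsLocalRing A] [Algebra A R]
    (L : Type u) [AddCommGroup L] [Module R L] [Module A L] [IsScalarTower A R L] [Module.Flat A L]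
    (H : Type u) [AddCommGroup H] [Module A H] (hH : Module.length A H ≠ ⊤) :
    Λ.val (TensorProduct A L H) = (Module.length A H : ℝ≥0∞) *
      Λ.val (L ⧸ (IsLocalRing.maximalIdeal A).map (algebraMap A R) • (⊤ : Submodule R L)) := by
  rw [← Λ.Len2_tensor_quot]
  refine Len2_ind (fun H _ _ => Λ.val (TensorProduct A L H))
    (fun X' X X'' _ _ _ _ _ _ f g hf hfg hg => ?_) (fun X _ _ _ => Λ.zero _ inferInstance) H
    (Module.length_ne_top_iff.1 hH)
  exact Λ.add _ _ _ (TensorProduct.AlgebraTensorModule.lTensor R L f)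
    (TensorProduct.AlgebraTensorModule.lTensor R L g)
    (Module.Flat.lTensor_preserves_injective_linearMap f hf) (lTensor_exact L hfg hg)
    (LinearMap.lTensor_surjective L hg)

theorem val_quot_map {A : Type u} [CommRing A] [IsLocalRing A] [Algebra A R] [Module.Flat A R]
    (I : Ideal A) (hI : Module.length A (A ⧸ I) ≠ ⊤) :
    Λ.val (R ⧸ I.map (algebraMap A R)) = (Module.length A (A ⧸ I) : ℝ≥0∞) *
      Λ.val (R ⧸ (IsLocalRing.maximalIdeal A).map (algebraMap A R)) := by
  have e : ∀ J : Ideal R, Λ.val (R ⧸ J • (⊤ : Submodule R R)) = Λ.val (R ⧸ J) := fun J =>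
    Λ.congr (Submodule.quotEquivOfEq _ _ (by rw [smul_eq_mul, Ideal.mul_top]))
  rw [← e (I.map _), ← Λ.Len2_tensor_quot, Λ.val_baseChange R _ hI, e]

end Len

end Vale.Agent.P177
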