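import Vale.Agent.P177.PlusDef
import Vale.Agent.P177.Len2

/-! Bounded generation up to small error. -/

namespace Vale.Agent.P177

open scoped ENNReal

universe u

variable {E : Type u} [CommRing E] (Λ : Len E)

theorem APGen_vand {k : Type u} [Field k] (c : k →+* E) {M : Type u} [AddCommGroup M] [Module E M]
    {m : ℕ} (d : Fin m → k) (hd : Function.Injective d) (w : Fin m → M)
    (h : ∀ j < m, ∑ i, c (d i) ^ j • w i = 0) (i₀ : Fin m) : w i₀ = 0 := by
  classical
  have h1 : (Lagrange.basis Finset.univ d i₀).natDegree < m := by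
    rw [Lagrange.natDegree_basis hd.injOn (Finset.mem_univ _), Finset.card_univ, Fintype.card_fin]
    have := i₀.2
    omega
  have h2 : ∑ i, c ((Lagrange.basis Finset.univ d i₀).eval (d i)) • w i = 0 := by
    simp only [Polynomial.eval_eq_sum_range' h1, map_sum, map_mul, map_pow, Finset.sum_smul,
      mul_smul]
    rw [Finset.sum_comm]
    exact Finset.sum_eq_zero fun j hj => by
      rw [← Finset.smul_sum, h j (Finset.mem_range.1 hj), smul_zero]
  rw [Finset.sum_eq_single i₀ (fun i _ hi => by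
    rw [Lagrange.eval_basis_of_ne hi.symm (Finset.mem_univ _), map_zero, zero_smul])
    (fun h => absurd (Finset.mem_univ _) h), Lagrange.eval_basis_self hd.injOn (Finset.mem_univ _),
    map_one, one_smul] at h2
  exact h2

/-- the kernels of a pencil of maps are almost independent. -/
theorem APGen_pencil {k : Type u} [Field k] (c : k →+* E) {M Y : Type u} [AddCommGroup M]
    [Module E M] [AddCommGroup Y] [Module E Y] (α β : M →ₗ[E] Y) {m : ℕ} (d : Fin m → k)
    (hd : Function.Injective d) :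
    ∑ i, Λ.val (LinearMap.ker (c (d i) • α + β)) ≤ Λ.val M +
      m * Λ.val (LinearMap.ker α ⊓ (LinearMap.range α).comap β : Submodule E M) := by
  let P : Type u := ∀ i, LinearMap.ker (c (d i) • α + β)
  let g : ℕ → P →ₗ[E] M := fun j =>
    ∑ i, c (d i) ^ j • ((LinearMap.ker (c (d i) • α + β)).subtype ∘ₗ LinearMap.proj i)
  have hg : ∀ j w, g j w = ∑ i, c (d i) ^ j • (w i : M) := fun j w => by
    simp only [g, LinearMap.sum_apply]
    rfl
  have hβ : ∀ j w, β (g j w) = -α (g (j + 1) w) := fun j w => by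
    rw [hg, hg, map_sum, map_sum, ← Finset.sum_neg_distrib]
    refine Finset.sum_congr rfl fun i _ => ?_
    have h0 : c (d i) • α (w i) + β (w i) = 0 := (w i).2
    rw [map_smul, map_smul, eq_neg_of_add_eq_zero_right h0, pow_succ, mul_smul, smul_neg]
  let N : ℕ → Submodule E P := fun n => ⨅ j < n, LinearMap.ker (g j)
  have hN : ∀ n w, w ∈ N n ↔ ∀ j < n, g j w = 0 := fun n w => by simp [N]
  have hs : ∀ n, N n ⊓ LinearMap.ker (g n) = N (n + 1) := fun n => by
    ext w
    rw [Submodule.mem_inf, hN, hN, LinearMap.mem_ker, Nat.forall_lt_succ_right]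
  have h1 : ∀ n, Λ.val P ≤ Λ.val (N (n + 1)) + (Λ.val M +
      n * Λ.val (LinearMap.ker α ⊓ (LinearMap.range α).comap β : Submodule E M)) := by
    intro n
    induction n with
    | zero =>
      have h0 : N 0 = ⊤ := eq_top_iff.2 fun w _ => (hN 0 w).2 fun j hj => absurd hj (Nat.not_lt_zero j)
      rw [Λ.congr (Submodule.topEquiv (R := E) (M := P)).symm, ← h0, Λ.len_split (g 0), hs,
        Nat.cast_zero, zero_mul, add_zero]
      exact add_le_add le_rfl (Λ.len_sub_le _)
    | succ n ih =>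
      refine ih.trans ?_
      rw [Λ.len_split (g (n + 1)), hs, Nat.cast_succ, add_mul, one_mul, add_assoc,
        add_comm (Λ.val (Submodule.map _ _)), ← add_assoc (Λ.val M)]
      refine add_le_add le_rfl (add_le_add le_rfl (Λ.len_mono ?_))
      rintro _ ⟨w, hw, rfl⟩
      refine ⟨?_, ⟨-g (n + 2) w, by rw [map_neg, hβ]⟩⟩
      have := hβ n w
      rw [(hN _ w).1 hw n n.lt_succ_self, map_zero] at this
      exact neg_eq_zero.1 this.symm
  have h2 : N (m + 1) = ⊥ := eq_bot_iff.2 fun w hw => funext fun i => Subtype.ext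
    (APGen_vand c d hd (fun i => (w i : M))
      (fun j hj => (hg j w).symm.trans ((hN _ w).1 hw j (Nat.lt_succ_of_lt hj))) i)
  have h3 := h1 m
  rw [h2, Λ.zero _ (inferInstance : Subsingleton (⊥ : Submodule E P)), zero_add] at h3
  exact (Λ.val_pi _).ge.trans h3

theorem APGen_le_of_mul {a b C : ℝ≥0∞} (hC : C ≠ ⊤) (h : ∀ m : ℕ, m * a ≤ C + m * b) : a ≤ b := by
  refine ENNReal.le_of_forall_pos_le_add fun ε hε hb => ?_
  obtain ⟨m, hm, hm'⟩ : ∃ m : ℕ, m ≠ 0 ∧ C ≤ m * (ε : ℝ≥0∞) := by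
    obtain ⟨m, hm⟩ := ENNReal.exists_nat_mul_gt (a := (ε : ℝ≥0∞)) (by simpa using hε.ne') hC
    exact ⟨m, by rintro rfl; simp at hm, hm.le⟩
  refine (ENNReal.mul_le_mul_iff_right (a := (m : ℝ≥0∞)) (by simpa using hm) (by simp)).1 ?_
  rw [mul_add, add_comm]
  exact (h m).trans (add_le_add hm' le_rfl)

/-- the pencil lemma. -/
theorem Len.rel_ann_le (k : Type u) [Field k] [Infinite k] (c : k →+* E) {Y : Type u}
    [AddCommGroup Y] [Module E Y] (y y' : Y)
    (hfin : Λ.val (E ⧸ (Ideal.torsionOf E Y y ⊓ Ideal.torsionOf E Y y')) ≠ ⊤) (η : ℝ≥0∞)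
    (h : ∀ a : k, Λ.val (Submodule.span E {y + c a • y'}) ≤ Λ.val (Submodule.span E {y}) + η) :
    Λ.rel (Ideal.torsionOf E Y y • Submodule.span E {y'}) (Submodule.span E {y}) ≤ η := by
  set J := Ideal.torsionOf E Y y ⊓ Ideal.torsionOf E Y y' with hJ
  let α : (E ⧸ J) →ₗ[E] Y := J.liftQ (LinearMap.toSpanSingleton E Y y) inf_le_left
  let β : (E ⧸ J) →ₗ[E] Y := J.liftQ (LinearMap.toSpanSingleton E Y y') inf_le_right
  have hα : LinearMap.range α = Submodule.span E {y} := by
    rw [LinearMap.span_singleton_eq_range]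
    exact Submodule.range_liftQ _ _ _
  have hr : ∀ a : k, a ≠ 0 → LinearMap.range (c a • α + β) =
      Submodule.span E {y + c a⁻¹ • y'} := fun a ha => by
    have hu : IsUnit (c a) := (ha.isUnit).map c
    have e : c a • (y + c a⁻¹ • y') = c a • y + y' := by
      rw [smul_add, smul_smul, ← map_mul, mul_inv_cancel₀ ha, map_one, one_smul]
    rw [← Submodule.span_singleton_smul_eq hu, e, LinearMap.span_singleton_eq_range,
      ← LinearMap.range_comp_of_range_eq_top _ J.range_mkQ]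
    congr 1
    ext
    change c a • ((1 : E) • y) + (1 : E) • y' = (1 : E) • (c a • y + y')
    simp only [one_smul]
  have hK : Ideal.torsionOf E Y y • Submodule.span E {y'} = (LinearMap.ker α).map β := by
    refine le_antisymm (Submodule.smul_le.2 fun a ha x hx => ?_) ?_
    · obtain ⟨b, rfl⟩ := Submodule.mem_span_singleton.1 hx
      refine ⟨Submodule.Quotient.mk (b * a), ?_, ?_⟩
      · change (b * a) • y = 0
        rw [mul_smul, (Ideal.mem_torsionOf_iff y a).1 ha, smul_zero]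
      · change (b * a) • y' = _
        rw [mul_comm, mul_smul]
    · rintro _ ⟨x, hx, rfl⟩
      obtain ⟨a, rfl⟩ := Submodule.Quotient.mk_surjective _ x
      exact Submodule.smul_mem_smul (r := a) hx (Submodule.mem_span_singleton_self y')
  have hy : Λ.val (Submodule.span E {y}) ≠ ⊤ :=
    ne_top_of_le_ne_top hfin (hα ▸ Λ.len_range_le α)
  have h1 : ∀ a : k, a ≠ 0 →
      Λ.val (LinearMap.ker α) ≤ Λ.val (LinearMap.ker (c a • α + β)) + η := fun a ha => by
    refine (ENNReal.add_le_add_iff_right hy).1 ?_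
    have e1 := Λ.len_ker_range α
    have e2 := Λ.len_ker_range (c a • α + β)
    rw [Λ.len_congr_sub hα] at e1
    rw [Λ.len_congr_sub (hr a ha)] at e2
    rw [← e1, e2, add_assoc, add_comm η]
    exact add_le_add le_rfl (h _)
  have h2 : Λ.val (LinearMap.ker α) ≤
      Λ.val (LinearMap.ker α ⊓ (LinearMap.range α).comap β : Submodule E (E ⧸ J)) + η := by
    refine APGen_le_of_mul hfin fun m => ?_
    have : Infinite {a : k // a ≠ 0} := (Set.finite_singleton (0 : k)).infinite_compl.to_subtype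
    let d : Fin m → k := fun i => (Infinite.natEmbedding {a : k // a ≠ 0} i).1
    have hd : Function.Injective d := fun i j e =>
      Fin.ext ((Infinite.natEmbedding {a : k // a ≠ 0}).injective (Subtype.ext e))
    have h3 := Finset.sum_le_sum fun i (_ : i ∈ Finset.univ) =>
      h1 (d i) (Infinite.natEmbedding {a : k // a ≠ 0} i).2
    rw [Finset.sum_add_distrib, Finset.sum_const, Finset.sum_const, Finset.card_univ,
      Fintype.card_fin, nsmul_eq_mul, nsmul_eq_mul] at h3
    rw [mul_add, ← add_assoc]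
    exact h3.trans (add_le_add (APGen_pencil Λ c α β d hd) le_rfl)
  rw [hK, Λ.rel_map_comap, ← hα, ← Λ.rel_inf]
  have h4 := Λ.rel_add (inf_le_left : LinearMap.ker α ⊓ (LinearMap.range α).comap β ≤ _) bot_le
  rw [Λ.rel_bot, Λ.rel_bot] at h4
  rw [h4, add_comm _ η] at h2
  exact (ENNReal.add_le_add_iff_right (ne_top_of_le_ne_top hfin (Λ.len_sub_le _))).1 h2

theorem APGen_span {X : Type u} [AddCommGroup X] [Module E X] (x : X) :
    Λ.val (Submodule.span E {x}) = Λ.val (E ⧸ Ideal.torsionOf E X x) :=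
  (Λ.congr (Ideal.quotTorsionOfEquivSpanSingleton E X x)).symm

theorem APGen_anti {X : Type u} [AddCommGroup X] [Module E X] {A B : Submodule E X} (h : A ≤ B) :
    Λ.val (X ⧸ B) ≤ Λ.val (X ⧸ A) := by
  rw [← Λ.rel_top, ← Λ.rel_top]
  exact Λ.rel_mono le_rfl h

theorem APGen_rel_sup {X : Type u} [AddCommGroup X] [Module E X] (A A' B : Submodule E X) :
    Λ.rel (A ⊔ A') B ≤ Λ.rel A B + Λ.rel A' B := by
  rw [Len.rel, Submodule.map_sup]
  exact Λ.len_sup_le _ _

theorem APGen_rel_span {X : Type u} [AddCommGroup X] [Module E X] (B : Submodule E X) (η : ℝ≥0∞)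
    (s : Finset X) (h : ∀ x ∈ s, Λ.rel (Submodule.span E {x}) B ≤ η) :
    Λ.rel (Submodule.span E (s : Set X)) B ≤ s.card * η := by
  classical
  induction s using Finset.induction_on with
  | empty => rw [Finset.coe_empty, Submodule.span_empty, Λ.rel_of_le bot_le]; exact bot_le
  | insert x s hx ih =>
    rw [Finset.coe_insert, Submodule.span_insert, Finset.card_insert_of_notMem hx, Nat.cast_succ,
      add_mul, one_mul, add_comm]
    exact (APGen_rel_sup Λ _ _ _).trans (add_le_add (h x (Finset.mem_insert_self _ _))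
      (ih fun y hy => h y (Finset.mem_insert_of_mem hy)))

/-- a module all of whose cyclic submodules are small is small. -/
theorem APGen_small (k : Type u) [Field k] [Infinite k] (c : k →+* E) {X : Type u}
    [AddCommGroup X] [Module E X] (hX : Λ.val X ≠ ⊤) (J₀ : Ideal E) (hJ₀ : Λ.val (E ⧸ J₀) ≠ ⊤)
    (hkill : ∀ a ∈ J₀, ∀ x : X, a • x = 0) (δ ε : ℝ≥0∞)
    (hap : ∀ J : Ideal E, J₀ ≤ J → Λ.val (E ⧸ J) ≤ δ →
      ∃ f ∈ J, Λ.val (X ⧸ LinearMap.range (LinearMap.lsmul E X f)) ≤ ε)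
    (Y : Submodule E X) (hY : ∀ y ∈ Y, Λ.val (Submodule.span E {y}) ≤ δ) : Λ.val Y ≤ δ + ε := by
  classical
  rw [← Λ.rel_bot]
  refine Λ.len_rel_le_of_fg _ _ _ fun Y' hY' hfg => ?_
  obtain ⟨s, rfl⟩ := hfg
  rw [Λ.rel_bot]
  refine ENNReal.le_of_forall_pos_le_add fun θ hθ _ => ?_
  obtain ⟨η, hη, hη'⟩ := ENNReal.exists_nnreal_pos_mul_lt (a := (s.card : ℝ≥0∞)) (b := θ)
    (by simp) (by simpa using hθ.ne')
  have hσ : ⨆ y : Y, Λ.val (Submodule.span E {(y : X)}) ≠ ⊤ :=
    ne_top_of_le_ne_top hX (iSup_le fun y => Λ.len_sub_le _)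
  obtain ⟨y, hy⟩ : ∃ y : Y, ∀ z : Y, Λ.val (Submodule.span E {(z : X)}) ≤
      Λ.val (Submodule.span E {(y : X)}) + η := by
    by_contra hc
    push Not at hc
    have h1 : (⨆ y : Y, Λ.val (Submodule.span E {(y : X)})) + η ≤
        ⨆ y : Y, Λ.val (Submodule.span E {(y : X)}) := by
      rw [ENNReal.iSup_add]
      exact iSup_le fun y => (hc y).elim fun z hz => hz.le.trans
        (le_iSup (fun y : Y => Λ.val (Submodule.span E {(y : X)})) z)
    exact absurd h1 (not_le.2 (ENNReal.lt_add_right hσ (by simpa using hη.ne')))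
  have hJ : ∀ x : X, J₀ ≤ Ideal.torsionOf E X x := fun x a ha =>
    (Ideal.mem_torsionOf_iff x a).2 (hkill a ha x)
  obtain ⟨f, hf, hfε⟩ := hap _ (hJ y) ((APGen_span Λ _).ge.trans (hY y y.2))
  rw [Λ.len_split (LinearMap.lsmul E X f), add_comm, add_right_comm]
  refine add_le_add ?_ ((Λ.len_mono inf_le_right).trans ((Λ.ker_eq_coker _ hX).le.trans hfε))
  rw [← Λ.rel_bot]
  refine (Λ.rel_le_add _ (Submodule.span E {(y : X)}) _).trans ?_
  rw [Λ.rel_bot, add_comm, Submodule.map_span, ← Finset.coe_image]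
  refine add_le_add (hY y y.2) ((APGen_rel_span Λ _ η _ fun x hx => ?_).trans ?_)
  · obtain ⟨z, hz, rfl⟩ := Finset.mem_image.1 hx
    have hzY : z ∈ Y := hY' (Submodule.subset_span hz)
    refine le_trans (Λ.rel_mono ?_ le_rfl) (Λ.rel_ann_le k c (y : X) z
      (ne_top_of_le_ne_top hJ₀ (APGen_anti Λ (le_inf (hJ y) (hJ z)))) η fun a =>
        hy ⟨y + c a • z, Y.add_mem y.2 (Y.smul_mem _ hzY)⟩)
    exact (Submodule.span_singleton_le_iff_mem _ _).2
      (Submodule.smul_mem_smul hf (Submodule.mem_span_singleton_self z))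
  · refine le_trans ?_ hη'.le
    rw [mul_comm]
    exact mul_le_mul_right (Nat.cast_le.2 Finset.card_image_le) _

theorem APGen_quot {r : ℕ} (J : Ideal E) {X : Type u} [AddCommGroup X] [Module E X]
    (q : (Fin r → E) →ₗ[E] X) (hq : Function.Surjective q) (h : ∀ a ∈ J, ∀ x : X, a • x = 0) :
    Λ.val X ≤ r * Λ.val (E ⧸ J) :=
  Λ.le_of_span (fun i => q (Pi.basisFun E (Fin r) i)) (by
    rw [show (Set.range fun i => q (Pi.basisFun E (Fin r) i)) = q '' Set.range (Pi.basisFun E (Fin r))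
      from Set.range_comp _ _, ← Submodule.map_span, Module.Basis.span_eq, Submodule.map_top,
      LinearMap.range_eq_top.2 hq]) J fun a ha i => h a ha _

theorem APpt.apGen (k : Type u) [Field k] [Infinite k] (c : k →+* E) {m : Ideal E} (hm : m.FG)
    (hfin : Λ.val (E ⧸ m) ≠ ⊤) (h : APpt Λ m) : APgen Λ m := by
  intro N r ε hε
  have hN : Λ.val (E ⧸ m ^ N) ≠ ⊤ := by
    have := Λ.rel_ideal_pow_ne_top m hm N (⊤ : Submodule E E)
      (by rwa [Λ.rel_top, Ideal.smul_eq_mul, Ideal.mul_top])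
    rwa [Λ.rel_top, Ideal.smul_eq_mul, Ideal.mul_top] at this
  have hε2 : ε / 2 ≠ 0 := (ENNReal.half_pos hε.ne').ne'
  obtain ⟨ε', hε', hε''⟩ := ENNReal.exists_nnreal_pos_mul_lt (a := (r : ℝ≥0∞)) (by simp) hε2
  obtain ⟨δ₀, hδ₀, hap⟩ := h N ε' (by simpa using hε')
  obtain ⟨δ, hδ, hδ'⟩ := ENNReal.lt_iff_exists_nnreal_btwn.1 (lt_min hδ₀ (pos_iff_ne_zero.2 hε2))
  have hkill : ∀ L : Submodule E (Fin r → E), m ^ N • (⊤ : Submodule E (Fin r → E)) ≤ L →
      ∀ a ∈ m ^ N, ∀ x : (Fin r → E) ⧸ L, a • x = 0 := fun L hL a ha x => by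
    obtain ⟨x, rfl⟩ := Submodule.Quotient.mk_surjective _ x
    exact (Submodule.Quotient.mk_eq_zero _).2 (hL (Submodule.smul_mem_smul ha trivial))
  have hbd : ∀ L : Submodule E (Fin r → E), m ^ N • (⊤ : Submodule E (Fin r → E)) ≤ L →
      Λ.val ((Fin r → E) ⧸ L) ≤ r * Λ.val (E ⧸ m ^ N) := fun L hL =>
    APGen_quot Λ _ L.mkQ L.mkQ_surjective (hkill L hL)
  have hC : (r : ℝ≥0∞) * Λ.val (E ⧸ m ^ N) ≠ ⊤ := ENNReal.mul_ne_top (by simp) hN
  have key : ∀ (s : ℕ) (K L : Submodule E (Fin r → E)),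
      m ^ N • (⊤ : Submodule E (Fin r → E)) ≤ L → Λ.val ((Fin r → E) ⧸ L) ≤ s * (δ : ℝ≥0∞) →
      ∃ w : Fin s → Fin r → E, (∀ i, w i ∈ K) ∧
        Λ.rel K (Submodule.span E (Set.range w) ⊔ L) ≤ ε := by
    intro s
    induction s with
    | zero =>
      intro K L _ h0
      refine ⟨0, fun i => i.elim0, (Λ.rel_mono le_top le_sup_right).trans ?_⟩
      rw [Λ.rel_top]
      exact h0.trans (by simp)
    | succ s ih =>
      intro K L hL hs
      by_cases hsm : ∀ x ∈ K, Λ.rel (Submodule.span E {x}) L ≤ δ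
      · refine ⟨0, fun _ => K.zero_mem, (Λ.rel_mono le_rfl le_sup_right).trans ?_⟩
        refine (APGen_small Λ k c (ne_top_of_le_ne_top hC (hbd L hL)) (m ^ N) hN (hkill L hL) δ
          (ε / 2) (fun J hJ hJ' => ?_) (K.map L.mkQ) ?_).trans ?_
        · obtain ⟨f, hf, hf'⟩ := hap J hJ (hJ'.trans (hδ'.le.trans (min_le_left _ _)))
          refine ⟨f, hf, (APGen_quot Λ (Ideal.span {f} ⊔ m ^ N) (Submodule.mkQ _ ∘ₗ L.mkQ)
            ((Submodule.mkQ_surjective _).comp L.mkQ_surjective) fun a ha x => ?_).trans ?_⟩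
          · obtain ⟨x, rfl⟩ := Submodule.Quotient.mk_surjective _ x
            obtain ⟨_, h1, b, hb, rfl⟩ := Submodule.mem_sup.1 ha
            obtain ⟨a, rfl⟩ := Ideal.mem_span_singleton'.1 h1
            refine (Submodule.Quotient.mk_eq_zero _).2 ⟨a • x, ?_⟩
            change f • a • x = (a * f + b) • x
            rw [add_smul, hkill L hL b hb, add_zero, mul_comm, mul_smul]
          · rw [mul_comm]
            exact (mul_le_mul_left hf' _).trans hε''.le
        · rintro _ ⟨x, hx, rfl⟩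
          have := hsm x hx
          rwa [Len.rel, Submodule.map_span, Set.image_singleton] at this
        · exact (add_le_add (hδ'.le.trans (min_le_right _ _)) le_rfl).trans
            (ENNReal.add_halves ε).le
      · push Not at hsm
        obtain ⟨x, hx, hx'⟩ := hsm
        obtain ⟨w, hw, hw'⟩ := ih K (Submodule.span E {x} ⊔ L) (hL.trans le_sup_right) (by
          rw [← Λ.rel_top, Λ.rel_add (le_top : Submodule.span E {x} ⊔ L ≤ ⊤) le_sup_right,
            Λ.rel_sup, Λ.rel_top, Nat.cast_succ, add_mul, one_mul] at hs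
          exact (ENNReal.add_le_add_iff_right ENNReal.coe_ne_top).1
            ((add_le_add le_rfl hx'.le).trans hs))
        refine ⟨Fin.cons x w, fun i => Fin.cases hx hw i, ?_⟩
        rwa [Fin.range_cons, Submodule.span_insert, sup_comm (Submodule.span E {x}), sup_assoc]
  obtain ⟨s, hs⟩ := ENNReal.exists_nat_mul_gt hδ.ne' hC
  exact ⟨s, fun K L hL => key s K L hL ((hbd L hL).trans hs.le)⟩

end Vale.Agent.P177
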