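import Vale.Agent.P177.Kos

/-! Amplification. -/

namespace Vale.Agent.P177

open scoped ENNReal
open RingTheory.Sequence

universe u

namespace Cx

variable {R : Type u} [CommRing R] (Λ : Len R) {N : Type u} [AddCommGroup N] [Module R N]

theorem Amp_comm (F : Cx R) (as bs : List R) (i : ℕ) :
    (((F.kosL as).kosL bs).on N).hl Λ i = (((F.kosL bs).kosL as).on N).hl Λ i := by
  rw [← kosL_append, ← kosL_append]
  exact hl_kosL_perm Λ F List.perm_append_comm i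

theorem Amp_swap (F : Cx R) (as : List R) (a : R) (i : ℕ) :
    (((F.kosL as).kos a).on N).hl Λ i = (((F.kos a).kosL as).on N).hl Λ i :=
  Amp_comm Λ F as [a] i

theorem Amp_one (F : Cx R) : ((F.kos 1).on N).h Λ = 0 :=
  h_on_of_null Λ _ ((Ideal.eq_top_iff_one _).2 (F.mem_Null_kos 1))

theorem Amp_h_pow (F : Cx R) (a : R) (k : ℕ) :
    ((F.kos (a ^ k)).on N).h Λ ≤ k * ((F.kos a).on N).h Λ := by
  induction k with
  | zero => rw [pow_zero, Amp_one]; exact zero_le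
  | succ k ih =>
    rw [pow_succ, Nat.cast_succ, add_mul, one_mul]
    exact (h_kos_mul_le Λ F _ _).trans (add_le_add_left ih _)

theorem Amp_chi_pow (F : Cx R) (a : R) (h : ((F.kos a).on N).h Λ ≠ ⊤) (k : ℕ) :
    ((F.kos (a ^ k)).on N).chi Λ = k * ((F.kos a).on N).chi Λ := by
  induction k with
  | zero => rw [pow_zero, DG.chi_eq_zero_of_h Λ (Amp_one Λ F), Nat.cast_zero, zero_mul]
  | succ k ih =>
    rw [pow_succ, chi_kos_mul Λ F _ _ (ne_top_of_le_ne_top
      (ENNReal.mul_ne_top (ENNReal.natCast_ne_top k) h) (Amp_h_pow Λ F a k)) h, ih]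
    push_cast
    ring

theorem h_kosL_pow_le (F : Cx R) (as : List R) (k : ℕ) :
    ((F.kosL (as.map (· ^ k))).on N).h Λ ≤ (k : ℝ≥0∞) ^ as.length * ((F.kosL as).on N).h Λ := by
  induction as generalizing F with
  | nil => simp
  | cons a as ih =>
    refine (Amp_h_pow Λ (F.kosL (as.map (· ^ k))) a k).trans ?_
    rw [DG.h_congr Λ (Amp_swap Λ F _ a), List.length_cons, pow_succ', mul_assoc]
    refine mul_le_mul_right ((ih (F.kos a)).trans_eq ?_) _
    rw [← DG.h_congr Λ (Amp_swap Λ F as a)]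
    rfl

theorem chi_kosL_pow (F : Cx R) (as : List R) (h : ((F.kosL as).on N).h Λ ≠ ⊤) (k : ℕ) :
    ((F.kosL (as.map (· ^ k))).on N).chi Λ = (k : ℝ) ^ as.length * ((F.kosL as).on N).chi Λ := by
  induction as generalizing F with
  | nil => simp
  | cons a as ih =>
    have h1 : (((F.kos a).kosL as).on N).h Λ ≠ ⊤ := by
      rw [← DG.h_congr Λ (Amp_swap Λ F as a)]
      exact h
    have h2 : (((F.kosL (as.map (· ^ k))).kos a).on N).h Λ ≠ ⊤ := by
      rw [DG.h_congr Λ (Amp_swap Λ F _ a)]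
      exact ne_top_of_le_ne_top (ENNReal.mul_ne_top
        (ENNReal.pow_ne_top (ENNReal.natCast_ne_top k)) h1) (h_kosL_pow_le Λ _ as k)
    refine (Amp_chi_pow Λ (F.kosL (as.map (· ^ k))) a h2 k).trans ?_
    rw [DG.chi_congr Λ (Amp_swap Λ F _ a), ih _ h1, ← DG.chi_congr Λ (Amp_swap Λ F as a),
      List.length_cons, pow_succ', mul_assoc]
    rfl

theorem h_kosL_le (F : Cx R) (as : List R) :
    ((F.kosL as).on N).h Λ ≤ 2 ^ as.length * (F.on N).h Λ := by
  induction as with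
  | nil => simp [kosL]
  | cons a as ih =>
    refine (h_kos_le Λ (F.kosL as) a).trans ?_
    rw [List.length_cons, pow_succ', mul_assoc]
    exact mul_le_mul_right ih _

theorem Amp_kills (F : Cx R) (as : List R) {a : R} (h : a ∈ F.Null ⊔ Module.annihilator R N)
    (i : ℕ) : ((F.kosL as).on N).KillsH a i :=
  killsH_of_mem (sup_le_sup_right (le_sup_left.trans (F.le_Null_kosL as)) _ h) i

theorem h_le_h_kosL (F : Cx R) (as : List R)
    (h : ∀ a ∈ as, a ∈ F.Null ⊔ Module.annihilator R N) :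
    (F.on N).h Λ ≤ ((F.kosL as).on N).h Λ := by
  induction as with
  | nil => exact le_rfl
  | cons a as ih =>
    exact (ih fun b hb => h b (List.mem_cons_of_mem _ hb)).trans
      (h_le_h_kos Λ (F.kosL as) (Amp_kills F as (h a List.mem_cons_self)))

theorem Amp_unif {I : Ideal R} (as : List R) (h : ∀ a ∈ as, a ∈ I.radical) :
    ∃ k : ℕ, 1 ≤ k ∧ ∀ a ∈ as, a ^ k ∈ I := by
  induction as with
  | nil => exact ⟨1, le_rfl, fun _ ha => absurd ha List.not_mem_nil⟩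
  | cons a as ih =>
    obtain ⟨k, hk, hk'⟩ := ih fun b hb => h b (List.mem_cons_of_mem _ hb)
    obtain ⟨m, hm⟩ := h a List.mem_cons_self
    refine ⟨k + m, by omega, fun b hb => ?_⟩
    rcases List.mem_cons.1 hb with rfl | hb
    · exact I.pow_mem_of_pow_mem hm (by omega)
    · exact I.pow_mem_of_pow_mem (hk' b hb) (by omega)

theorem Amp_lin (J : Ideal R) (us : List R) (k : ℕ) {x : R} (hx : x ∈ Ideal.ofList us ⊔ J) :
    x ^ (us.length * k + 1) ∈ Ideal.ofList (us.map (· ^ k)) ⊔ J := by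
  induction us generalizing x with
  | nil => simpa using hx
  | cons u us ih =>
    rw [Ideal.ofList_cons, sup_assoc] at hx
    obtain ⟨y, hy, z, hz, rfl⟩ := Submodule.mem_sup.1 hx
    obtain ⟨r, rfl⟩ := Ideal.mem_span_singleton'.1 hy
    rw [List.map_cons, Ideal.ofList_cons, sup_assoc]
    refine Ideal.add_pow_mem_of_pow_mem_of_le _ (m := k) (n := us.length * k + 1)
      (Ideal.mem_sup_left ?_) (Ideal.mem_sup_right (ih hz)) ?_
    · rw [mul_pow]
      exact Ideal.mul_mem_left _ _ (Ideal.mem_span_singleton_self _)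
    · rw [List.length_cons, add_mul]
      omega

theorem Amp_lin' (J J' : Ideal R) (us zs : List R)
    (h : ∀ z ∈ zs, z ∈ (Ideal.ofList us ⊔ J ⊔ J').radical) : ∃ c : ℕ, 1 ≤ c ∧ ∀ k : ℕ, 1 ≤ k →
      ∀ z ∈ zs, z ^ (c * k) ∈ Ideal.ofList (us.map (· ^ k)) ⊔ J ⊔ J' := by
  obtain ⟨c, hc, hc'⟩ := Amp_unif zs h
  refine ⟨c * (us.length + 1), Nat.mul_pos hc (Nat.succ_pos _), fun k hk z hz => ?_⟩
  have h1 := hc' z hz
  rw [sup_assoc] at h1 ⊢
  have h2 := Amp_lin _ us k h1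
  rw [← pow_mul] at h2
  refine Ideal.pow_mem_of_pow_mem _ h2 ?_
  rw [mul_assoc, add_mul]
  exact Nat.mul_le_mul_left _ (by omega)

theorem Amp_null (F : Cx R) (as : List R) : Ideal.ofList as ⊔ F.Null ⊔ Module.annihilator R N
    ≤ (F.kosL as).Null ⊔ Module.annihilator R N :=
  sup_le_sup_right ((sup_comm _ _).le.trans (F.le_Null_kosL as)) _

/-- finiteness is inherited from a Koszul complex with smaller support. -/
theorem h_ne_top_of_thick (F : Cx R) (as : List R)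
    (h : ∀ a ∈ as, a ∈ (F.Null ⊔ Module.annihilator R N).radical)
    (hfin : (((pt R).kosL as).on N).h Λ ≠ ⊤) : (F.on N).h Λ ≠ ⊤ := by
  obtain ⟨k, -, hk⟩ := Amp_unif as h
  refine ne_top_of_le_ne_top (ENNReal.mul_ne_top (ENNReal.natCast_ne_top _) (ENNReal.mul_ne_top
    (ENNReal.pow_ne_top (ENNReal.natCast_ne_top k)) hfin))
    ((h_le_h_kosL Λ F (as.map (· ^ k)) fun a ha => ?_).trans ((h_kosL_le_card Λ F _).trans
      (mul_le_mul_right (h_kosL_pow_le Λ _ as k) _)))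
  obtain ⟨b, hb, rfl⟩ := List.mem_map.1 ha
  exact hk b hb

theorem exists_growth (F : Cx R) (us zs : List R)
    (h : ∀ z ∈ zs, z ∈ (Ideal.ofList us ⊔ F.Null ⊔ Module.annihilator R N).radical)
    (hfin : ((F.kosL zs).on N).h Λ ≠ ⊤) : ∃ C : ℝ≥0∞, C ≠ ⊤ ∧ ∀ k : ℕ, 1 ≤ k →
      ((F.kosL (us.map (· ^ k))).on N).h Λ ≤ C * (k : ℝ≥0∞) ^ zs.length := by
  obtain ⟨c, -, hc⟩ := Amp_lin' _ _ us zs h
  refine ⟨2 ^ us.length * ((c : ℝ≥0∞) ^ zs.length * ((F.kosL zs).on N).h Λ),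
    ENNReal.mul_ne_top (ENNReal.pow_ne_top ENNReal.ofNat_ne_top) (ENNReal.mul_ne_top
      (ENNReal.pow_ne_top (ENNReal.natCast_ne_top c)) hfin), fun k hk => ?_⟩
  refine (h_le_h_kosL Λ _ (zs.map (· ^ (c * k))) fun a ha => ?_).trans ?_
  · obtain ⟨z, hz, rfl⟩ := List.mem_map.1 ha
    exact Amp_null F _ (hc k hk z hz)
  · rw [DG.h_congr Λ (Amp_comm Λ F _ _)]
    refine (h_kosL_le Λ _ _).trans ((mul_le_mul_right (h_kosL_pow_le Λ F zs (c * k)) _).trans_eq ?_)
    rw [List.length_map, Nat.cast_mul, mul_pow]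
    ring

theorem Amp_map_one (us : List R) : us.map (· ^ 1) = us := by simp

theorem chi_kosL_eq_zero (F : Cx R) (us zs : List R)
    (h : ∀ z ∈ zs, z ∈ (Ideal.ofList us ⊔ F.Null ⊔ Module.annihilator R N).radical)
    (hfin : ((F.kosL zs).on N).h Λ ≠ ⊤) (hlt : zs.length < us.length) :
    ((F.kosL us).on N).h Λ ≠ ⊤ ∧ ((F.kosL us).on N).chi Λ = 0 := by
  obtain ⟨C, hC, hg⟩ := exists_growth Λ F us zs h hfin
  have hne : ∀ k : ℕ, C * (k : ℝ≥0∞) ^ zs.length ≠ ⊤ :=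
    fun k => ENNReal.mul_ne_top hC (ENNReal.pow_ne_top (ENNReal.natCast_ne_top k))
  have h1 : ((F.kosL us).on N).h Λ ≠ ⊤ := by
    have := ne_top_of_le_ne_top (hne 1) (hg 1 le_rfl)
    rwa [Amp_map_one] at this
  refine ⟨h1, ?_⟩
  by_contra h0
  have hp := abs_pos.2 h0
  obtain ⟨k, hk⟩ := exists_nat_gt (C.toReal / |((F.kosL us).on N).chi Λ| + 1)
  have hC0 : 0 ≤ C.toReal / |((F.kosL us).on N).chi Λ| := by positivity
  have hk1 : (1 : ℝ) ≤ k := by linarith
  have hk1' : 1 ≤ k := by exact_mod_cast hk1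
  have h2 := (DG.abs_chi_le Λ (ne_top_of_le_ne_top (hne k) (hg k hk1'))).trans
    (ENNReal.toReal_mono (hne k) (hg k hk1'))
  rw [chi_kosL_pow Λ F us h1, abs_mul, abs_of_nonneg (by positivity), ENNReal.toReal_mul,
    ENNReal.toReal_pow, ENNReal.toReal_natCast] at h2
  have h3 : (k : ℝ) ^ zs.length * k ≤ k ^ us.length := pow_succ (k : ℝ) _ ▸ pow_le_pow_right₀ hk1 hlt
  have h4 : C.toReal < k * |((F.kosL us).on N).chi Λ| := by
    rw [← div_lt_iff₀ hp]
    linarith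
  have h5 : (0 : ℝ) < k ^ zs.length := by positivity
  nlinarith [mul_le_mul_of_nonneg_right h3 hp.le, mul_lt_mul_of_pos_left h4 h5]

theorem Amp_up (G : Cx R) (as : List R) {c : R} (h : ∀ i, 0 < i → (G.on N).KillsH c i) (i : ℕ)
    (hi : as.length < i) : ((G.kosL as).on N).KillsH (c ^ 2 ^ as.length) i := by
  induction as generalizing i with
  | nil => simpa [kosL] using h i hi
  | cons a as ih =>
    rw [List.length_cons] at hi
    obtain ⟨j, rfl⟩ : ∃ j, i = j + 1 := ⟨i - 1, by omega⟩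
    rw [List.length_cons, pow_succ, pow_mul, sq]
    exact killsH_kos_succ (G.kosL as) a (ih _ (by omega)) (ih _ (by omega))

theorem Amp_down (G : Cx R) (as : List R) (ha : ∀ a ∈ as, a ∈ G.Null ⊔ Module.annihilator R N)
    {c : R} {i : ℕ} (h : ((G.kosL as).on N).KillsH c (i + as.length)) : (G.on N).KillsH c i := by
  induction as with
  | nil => exact h
  | cons a as ih =>
    exact ih (fun b hb => ha b (List.mem_cons_of_mem _ hb))
      (killsH_of_kos_succ (G.kosL as) (Amp_kills G as (ha a List.mem_cons_self) _) h)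

theorem Amp_deg (F : Cx R) {D : ℕ} (h : ∀ a, F.deg a ≤ D) (as : List R) (b : (F.kosL as).ι) :
    (F.kosL as).deg b ≤ D + as.length := by
  induction as with
  | nil => exact h b
  | cons a as ih =>
    rcases b with b | b
    · exact (ih b).trans (Nat.le_succ _)
    · exact Nat.succ_le_succ (ih b)

theorem Amp_small (F : Cx R) (us cs : List R)
    (hsm : ∀ c ∈ cs, ∃ ws : List R, ws.length < us.length ∧
      (∀ w ∈ ws, w ∈ (Ideal.ofList us ⊔ (F.kos c).Null ⊔ Module.annihilator R N).radical) ∧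
      (((F.kos c).kosL ws).on N).h Λ ≠ ⊤) : ∃ B : ℝ≥0∞, B ≠ ⊤ ∧ ∀ k : ℕ, 1 ≤ k →
      k * (((F.kosL (us.map (· ^ k))).kos cs.prod).on N).h Λ ≤ B * (k : ℝ≥0∞) ^ us.length := by
  induction cs with
  | nil => exact ⟨0, ENNReal.zero_ne_top, fun k _ => by rw [List.prod_nil, Amp_one]; simp⟩
  | cons c cs ih =>
    obtain ⟨B, hB, hb⟩ := ih fun b hb => hsm b (List.mem_cons_of_mem _ hb)
    obtain ⟨ws, hl, hw, hf⟩ := hsm c List.mem_cons_self
    obtain ⟨C, hC, hg⟩ := exists_growth Λ (F.kos c) us ws hw hf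
    refine ⟨C + B, ENNReal.add_ne_top.2 ⟨hC, hB⟩, fun k hk => ?_⟩
    rw [List.prod_cons, add_mul]
    refine (mul_le_mul_right (h_kos_mul_le Λ _ _ _) _).trans ?_
    rw [mul_add]
    refine add_le_add ?_ (hb k hk)
    rw [DG.h_congr Λ (Amp_swap Λ F _ c)]
    refine (mul_le_mul_right (hg k hk) _).trans ?_
    rw [mul_left_comm, ← pow_succ']
    exact mul_le_mul_right (pow_le_pow_right₀ (by exact_mod_cast hk) hl) _

theorem chi_kosL_pos (F : Cx R) (us zs : List R) (hlen : zs.length = us.length)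
    (hz : ∀ z ∈ zs, z ∈ (Ideal.ofList us ⊔ F.Null ⊔ Module.annihilator R N).radical)
    (hu : ∀ a ∈ us, a ∈ (Ideal.ofList zs ⊔ F.Null ⊔ Module.annihilator R N).radical)
    (hfin : ((F.kosL zs).on N).h Λ ≠ ⊤) (cs : List R)
    (hc : ∀ M i : ℕ, 1 ≤ M → 0 < i → ((F.kosL (zs.map (· ^ M))).on N).KillsH cs.prod i)
    (hsm : ∀ c ∈ cs, ∃ ws : List R, ws.length < us.length ∧
      (∀ w ∈ ws, w ∈ (Ideal.ofList us ⊔ (F.kos c).Null ⊔ Module.annihilator R N).radical) ∧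
      (((F.kos c).kosL ws).on N).h Λ ≠ ⊤)
    (ε : ℝ≥0∞) (hε : ε ≠ 0) (hlow : ∀ M : ℕ, 1 ≤ M →
      ε * (M : ℝ≥0∞) ^ zs.length ≤ ((F.kosL (zs.map (· ^ M))).on N).hl Λ 0) :
    ((F.kosL us).on N).h Λ ≠ ⊤ ∧ 0 < ((F.kosL us).on N).chi Λ := by
  obtain ⟨C, hC, hg⟩ := exists_growth Λ F us zs hz hfin
  have hX : ∀ k : ℕ, 1 ≤ k → ((F.kosL (us.map (· ^ k))).on N).h Λ ≠ ⊤ := fun k hk =>
    ne_top_of_le_ne_top (ENNReal.mul_ne_top hC (ENNReal.pow_ne_top (ENNReal.natCast_ne_top k)))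
      (hg k hk)
  have h1 : ((F.kosL us).on N).h Λ ≠ ⊤ := by
    have := hX 1 le_rfl
    rwa [Amp_map_one] at this
  refine ⟨h1, ?_⟩
  obtain ⟨c0, hc0, hz'⟩ := Amp_lin' _ _ us zs hz
  obtain ⟨c1, hc1, hu'⟩ := Amp_lin' _ _ zs us hu
  obtain ⟨B, hB, hb⟩ := Amp_small Λ F us cs hsm
  have hk : ∀ k : ℕ, 1 ≤ k → ∀ i, 0 < i →
      ((F.kosL (us.map (· ^ k))).on N).KillsH (cs.prod ^ 2 ^ us.length) i := by
    intro k hk i hi
    refine Amp_down _ (zs.map (· ^ (c0 * k))) (fun a ha => ?_) ?_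
    · obtain ⟨z, hz, rfl⟩ := List.mem_map.1 ha
      exact Amp_null F _ (hz' k hk z hz)
    · have h2 := Amp_up (F.kosL (zs.map (· ^ (c0 * k)))) (us.map (· ^ k))
        (fun j hj => hc (c0 * k) j (Nat.mul_pos hc0 hk) hj) (i + (zs.map (· ^ (c0 * k))).length)
        (by simp only [List.length_map]; omega)
      rw [List.length_map, ← kosL_append] at h2
      rw [← kosL_append]
      exact (killsH_kosL_perm F List.perm_append_comm _ _).1 h2
  have hhi : ∀ k : ℕ, 1 ≤ k → ∀ i, 0 < i → (((F.kosL (us.map (· ^ k))).on N).hl Λ i).toReal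
      ≤ 2 ^ us.length * B.toReal * k ^ us.length / k := by
    intro k hk1 i hi
    have h2 : k * ((F.kosL (us.map (· ^ k))).on N).hl Λ i
        ≤ (2 ^ us.length : ℕ) * (B * (k : ℝ≥0∞) ^ us.length) := by
      refine (mul_le_mul_right ((hl_le_hl_kos Λ _ (hk k hk1 i hi)).trans
        ((DG.hl_le_h Λ _ i).trans (Amp_h_pow Λ _ _ _))) _).trans ?_
      rw [mul_left_comm]
      exact mul_le_mul_right (hb k hk1) _
    have h3 := ENNReal.toReal_mono (ENNReal.mul_ne_top (ENNReal.natCast_ne_top _)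
      (ENNReal.mul_ne_top hB (ENNReal.pow_ne_top (ENNReal.natCast_ne_top k)))) h2
    simp only [ENNReal.toReal_mul, ENNReal.toReal_pow, ENNReal.toReal_natCast] at h3
    rw [le_div_iff₀ (by exact_mod_cast hk1)]
    push_cast at h3
    linarith
  have hlo : ∀ M : ℕ, 1 ≤ M →
      ε * (M : ℝ≥0∞) ^ us.length ≤ ((F.kosL (us.map (· ^ (c1 * M)))).on N).hl Λ 0 := by
    intro M hM
    refine (hlen ▸ hlow M hM).trans (hl_kosL_zero_le Λ F (Ideal.span_le.2 fun a ha => ?_))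
    obtain ⟨b, hb, rfl⟩ := List.mem_map.1 ha
    exact hu' M hM b hb
  have hfin0 : ∀ M : ℕ, 1 ≤ M → ((F.kosL (us.map (· ^ (c1 * M)))).on N).hl Λ 0 ≠ ⊤ :=
    fun M hM => ne_top_of_le_ne_top (hX _ (Nat.mul_pos hc1 hM)) (DG.hl_le_h Λ _ 0)
  have hε' : 0 < ε.toReal := by
    refine ENNReal.toReal_pos hε (ne_top_of_le_ne_top (hfin0 1 le_rfl) ?_)
    simpa using hlo 1 le_rfl
  obtain ⟨D, hD⟩ : ∃ D, ∀ a, F.deg a ≤ D :=
    ⟨Finset.univ.sup F.deg, fun a => Finset.le_sup (Finset.mem_univ a)⟩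
  obtain ⟨K, hK⟩ : ∃ K : ℝ, K = ((D + us.length : ℕ) : ℝ) * (2 ^ us.length * B.toReal) *
    c1 ^ us.length := ⟨_, rfl⟩
  have hK0 : 0 ≤ K := by rw [hK]; positivity
  obtain ⟨M, hM⟩ := exists_nat_gt (K / ε.toReal + 1)
  have hK1 : 0 ≤ K / ε.toReal := by positivity
  have hM1 : (1 : ℝ) ≤ M := by linarith
  have hM1' : 1 ≤ M := by exact_mod_cast hM1
  have hc1' : (1 : ℝ) ≤ c1 := by exact_mod_cast hc1
  have h2 := DG.le_chi Λ (hX _ (Nat.mul_pos hc1 hM1')) (L := D + us.length)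
    (fun i hi => hl_on_eq_zero Λ _ fun a => (Amp_deg F hD _ a).trans_lt (by simpa using hi)) _
    (hhi _ (Nat.mul_pos hc1 hM1'))
  have h3 := ENNReal.toReal_mono (hfin0 M hM1') (hlo M hM1')
  rw [ENNReal.toReal_mul, ENNReal.toReal_pow, ENNReal.toReal_natCast] at h3
  rw [chi_kosL_pow Λ F us h1] at h2
  have h4 : ((D + us.length : ℕ) : ℝ) * (2 ^ us.length * B.toReal * (c1 * M : ℕ) ^ us.length /
      (c1 * M : ℕ)) < ε.toReal * M ^ us.length := by
    have e : ((D + us.length : ℕ) : ℝ) * (2 ^ us.length * B.toReal * (c1 * M : ℕ) ^ us.length /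
        (c1 * M : ℕ)) = K / (c1 * M) * M ^ us.length := by
      rw [hK, Nat.cast_mul c1 M, mul_pow]
      ring
    rw [e]
    refine mul_lt_mul_of_pos_right ?_ (by positivity)
    have h5 : K < ε.toReal * M := by
      rw [mul_comm, ← div_lt_iff₀ hε']
      linarith
    rw [div_lt_iff₀ (by positivity)]
    nlinarith [mul_le_mul_of_nonneg_left hc1' (by positivity : 0 ≤ ε.toReal * M)]
  exact pos_of_mul_pos_left (lt_of_lt_of_le (by linarith) (h2.trans_eq (mul_comm _ _)))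
    (by positivity)

end Cx

end Vale.Agent.P177
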