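import Vale.Agent.P202.MxPS

/-! Flatness of complete modules. -/

namespace Vale.Agent.P177

open Matrix

universe u

section Aux

variable {A B : Type u} [CommRing A] [CommRing B]

theorem flat_lim (q : Ideal B) [IsPrecomplete q B] (b : ℕ → B)
    (hb : ∀ N, b (N + 1) - b N ∈ q ^ N) : ∃ c, ∀ N, c - b N ∈ q ^ N := by
  obtain ⟨y, hy⟩ := IsPrecomplete.prec' (I := q) b
    ((AdicCompletion.isAdicCauchy_iff _ _ b).2 fun N =>
      (SModEq.sub_mem.2 (by simpa using hb N)).symm)
  exact ⟨y, fun N => by simpa using SModEq.sub_mem.1 (hy N).symm⟩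

theorem flat_sep (q : Ideal B) [IsHausdorff q B] (b : B) (hb : ∀ N, b ∈ q ^ N) : b = 0 :=
  IsHausdorff.haus' (I := q) b fun N => by simpa [SModEq.zero] using hb N

/-- extension of a submodule of a free module. -/
def flatExt {L : Type} (f : A →+* B) (K : Submodule A (L → A)) : Submodule B (L → B) :=
  Submodule.span B ((fun v => f ∘ v) '' K)

/-- vectors with entries in an ideal. -/
def flatVec (L : Type) (J : Ideal A) : Submodule A (L → A) := Submodule.pi Set.univ fun _ => J

theorem flat_mem_vec {L : Type} {J : Ideal A} {v : L → A} : v ∈ flatVec L J ↔ ∀ i, v i ∈ J :=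
  ⟨fun h i => h i trivial, fun h i _ => h i⟩

theorem flat_mem_ext {L : Type} (f : A →+* B) {K : Submodule A (L → A)} {v : L → A} (hv : v ∈ K) :
    f ∘ v ∈ flatExt f K := Submodule.subset_span ⟨v, hv, rfl⟩

theorem flat_map_mulVec {P L : Type} [Fintype L] (f : A →+* B) (α : Matrix P L A) (v : L → A) :
    α.map f *ᵥ (f ∘ v) = f ∘ (α *ᵥ v) := funext fun p => (f.map_mulVec α v p).symm

variable {P L : Type} [Fintype P] [Fintype L]

theorem flat_ker {f : A →+* B} (hf : f.Flat) (α : Matrix P L A) (x : L → B)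
    (hx : α.map f *ᵥ x = 0) : x ∈ flatExt f (LinearMap.ker α.mulVecLin) := by
  classical
  let := f.toAlgebra
  have : Module.Flat A B := hf
  have h0 : Fintype.linearCombination A x ∘ₗ α.vecMulLinear = 0 := by
    refine LinearMap.pi_ext' fun p => LinearMap.ext_ring ?_
    have h1 := congrFun hx p
    simp only [mulVec, dotProduct, map_apply, Pi.zero_apply] at h1
    simp only [LinearMap.comp_apply, LinearMap.coe_single, vecMulLinear_apply, single_vecMul,
      one_smul, Fintype.linearCombination_apply, LinearMap.zero_apply]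
    exact h1
  obtain ⟨k, a, y, h1, h2⟩ := Module.Flat.exists_factorization_of_comp_eq_zero_of_free h0
  have h3 : x = ∑ j : Fin k, y (Finsupp.single j 1) • (f ∘ fun l => a (Pi.single l 1) j) := by
    funext l
    have h4 := LinearMap.congr_fun h1 (Pi.single l 1)
    rw [Fintype.linearCombination_apply_single, one_smul, LinearMap.comp_apply,
      ← Finsupp.univ_sum_single (a (Pi.single l 1)), map_sum] at h4
    rw [h4, Finset.sum_apply]
    refine Finset.sum_congr rfl fun j _ => ?_
    rw [← Finsupp.smul_single_one, map_smul, Algebra.smul_def, mul_comm]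
    rfl
  rw [h3]
  refine Submodule.sum_mem _ fun j _ => Submodule.smul_mem _ _ (flat_mem_ext f ?_)
  rw [LinearMap.mem_ker]
  funext p
  have h4 := LinearMap.congr_fun h2 (Pi.single p 1)
  rw [LinearMap.comp_apply, vecMulLinear_apply, single_vecMul, one_smul,
    ← Finset.univ_sum_single (α.row p), map_sum] at h4
  have h5 := DFunLike.congr_fun h4 j
  rw [Finsupp.finsetSum_apply] at h5
  refine Eq.trans (Finset.sum_congr rfl fun l _ => ?_) h5
  have e : (Pi.single l (α.row p l) : L → A) = α.row p l • (Pi.single l 1 : L → A) := by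
    rw [← Pi.single_smul, smul_eq_mul, mul_one]
  rw [e, map_smul]
  rfl

theorem flat_of_ext {f : A →+* B} (h : ∀ (l : ℕ) (α : Matrix Unit (Fin l) A) (x : Fin l → B),
    α.map f *ᵥ x = 0 → x ∈ flatExt f (LinearMap.ker α.mulVecLin)) : f.Flat := by
  let := f.toAlgebra
  refine Module.Flat.of_forall_isTrivialRelation (R := A) (M := B) fun {l a x} hx => ?_
  obtain ⟨k, c, g, hg⟩ := Submodule.mem_span_set'.1
    (h l (Matrix.of fun _ => a) x (funext fun _ => hx))
  choose v hv hv' using fun j => (g j).2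
  refine ⟨k, fun i j => v j i, c, fun i => ?_, fun j => congrFun (hv j) ()⟩
  rw [← hg, Finset.sum_apply]
  refine Finset.sum_congr rfl fun j _ => ?_
  rw [← hv' j, Algebra.smul_def, mul_comm]
  rfl

theorem flat_mod {f : A →+* B} {J : Ideal A}
    (hf : (Ideal.quotientMap (J.map f) f Ideal.le_comap_map).Flat) (α : Matrix P L A) (x : L → B)
    (hx : α.map f *ᵥ x ∈ flatVec P (J.map f)) :
    x ∈ flatExt f ((flatVec P J).comap α.mulVecLin) ⊔ flatVec L (J.map f) := by
  set g := Ideal.quotientMap (J.map f) f Ideal.le_comap_map with hg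
  have h1 := flat_ker hf (α.map (Ideal.Quotient.mk J)) (Ideal.Quotient.mk (J.map f) ∘ x) (by
    have h2 : (α.map (Ideal.Quotient.mk J)).map g = (α.map f).map (Ideal.Quotient.mk (J.map f)) :=
      rfl
    rw [h2, flat_map_mulVec]
    exact funext fun p => Ideal.Quotient.eq_zero_iff_mem.2 (flat_mem_vec.1 hx p))
  have h2 : ∀ z ∈ flatExt g (LinearMap.ker (α.map (Ideal.Quotient.mk J)).mulVecLin),
      ∃ y ∈ flatExt f ((flatVec P J).comap α.mulVecLin), Ideal.Quotient.mk (J.map f) ∘ y = z := by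
    intro z hz
    induction hz using Submodule.span_induction with
    | mem z hz =>
      obtain ⟨v', hv', rfl⟩ := hz
      choose v hv using fun l => Ideal.Quotient.mk_surjective (v' l)
      obtain rfl : Ideal.Quotient.mk J ∘ v = v' := funext hv
      refine ⟨f ∘ v, flat_mem_ext f (flat_mem_vec.2 fun p => ?_), rfl⟩
      have h3 : α.map (Ideal.Quotient.mk J) *ᵥ (Ideal.Quotient.mk J ∘ v) = 0 := hv'
      rw [flat_map_mulVec] at h3
      exact Ideal.Quotient.eq_zero_iff_mem.1 (congrFun h3 p)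
    | zero => exact ⟨0, zero_mem _, funext fun _ => map_zero _⟩
    | add z z' _ _ hz hz' =>
      obtain ⟨y, hy, rfl⟩ := hz
      obtain ⟨y', hy', rfl⟩ := hz'
      exact ⟨y + y', add_mem hy hy', funext fun _ => map_add _ _ _⟩
    | smul c z _ hz =>
      obtain ⟨y, hy, rfl⟩ := hz
      obtain ⟨c, rfl⟩ := Ideal.Quotient.mk_surjective c
      exact ⟨c • y, Submodule.smul_mem _ _ hy, funext fun _ => map_mul _ _ _⟩
  obtain ⟨y, hy, hxy⟩ := h2 _ h1
  rw [← add_sub_cancel y x]
  exact Submodule.add_mem_sup hy (flat_mem_vec.2 fun l =>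
    Ideal.Quotient.eq.1 (congrFun hxy l).symm)

theorem flat_vec_eq (J : Ideal A) : flatVec L J = J • ⊤ :=
  Submodule.ext fun v => flat_mem_vec.trans (P202.mem_smul_top_pi_iff J v).symm

theorem flat_ar [IsNoetherianRing A] (I : Ideal A) (α : Matrix P L A) : ∃ c : ℕ, ∀ n : ℕ,
    (flatVec P (I ^ (n + c))).comap α.mulVecLin ≤
      LinearMap.ker α.mulVecLin ⊔ flatVec L (I ^ n) := by
  obtain ⟨c, hc⟩ := Ideal.exists_pow_inf_eq_pow_smul I (LinearMap.range α.mulVecLin)
  refine ⟨c, fun n v hv => ?_⟩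
  rw [Submodule.mem_comap, flat_vec_eq] at hv
  have h1 : α.mulVecLin v ∈ I ^ (n + c) • ⊤ ⊓ LinearMap.range α.mulVecLin := ⟨hv, v, rfl⟩
  rw [hc _ (Nat.le_add_left c n), Nat.add_sub_cancel] at h1
  have h2 := Submodule.smul_mono le_rfl inf_le_right h1
  rw [LinearMap.range_eq_map, ← Submodule.map_smul''] at h2
  obtain ⟨w, hw, hw'⟩ := h2
  rw [← sub_add_cancel v w, flat_vec_eq]
  exact Submodule.add_mem_sup (by rw [LinearMap.mem_ker, map_sub, hw', sub_self]) hw

theorem flat_approx [IsNoetherianRing A] {f : A →+* B} {I : Ideal A}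
    (h : ∀ n : ℕ, (Ideal.quotientMap ((I ^ n).map f) f Ideal.le_comap_map).Flat)
    (α : Matrix P L A) : ∃ c : ℕ, ∀ (n : ℕ) (x : L → B),
      α.map f *ᵥ x ∈ flatVec P (I.map f ^ (n + c)) →
      x ∈ flatExt f (LinearMap.ker α.mulVecLin) ⊔ flatVec L (I.map f ^ n) := by
  obtain ⟨c, hc⟩ := flat_ar I α
  refine ⟨c, fun n x hx => ?_⟩
  rw [← Ideal.map_pow] at hx
  refine SetLike.le_def.1 (sup_le (Submodule.span_le.2 ?_) (le_sup_of_le_right ?_))
    (flat_mod (h (n + c)) α x hx)
  · rintro _ ⟨v, hv, rfl⟩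
    obtain ⟨a, ha, b, hb, rfl⟩ := Submodule.mem_sup.1 (hc n hv)
    have h1 : f ∘ (a + b) = f ∘ a + f ∘ b := funext fun _ => map_add _ _ _
    show f ∘ (a + b) ∈ _
    rw [h1]
    refine Submodule.add_mem_sup (flat_mem_ext f ha) (flat_mem_vec.2 fun l => ?_)
    rw [← Ideal.map_pow]
    exact Ideal.mem_map_of_mem f (flat_mem_vec.1 hb l)
  · intro y hy
    refine flat_mem_vec.2 fun l => Ideal.pow_le_pow_right (Nat.le_add_right n c) ?_
    rw [← Ideal.map_pow]
    exact flat_mem_vec.1 hy l

omit [Fintype P] in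
theorem flat_ext_ker (f : A →+* B) (α : Matrix P L A) :
    flatExt f (LinearMap.ker α.mulVecLin) ≤ LinearMap.ker (α.map f).mulVecLin := by
  refine Submodule.span_le.2 ?_
  rintro _ ⟨v, hv, rfl⟩
  have h1 : α *ᵥ v = 0 := hv
  show α.map f *ᵥ (f ∘ v) = 0
  rw [flat_map_mulVec, h1]
  exact funext fun _ => map_zero f

omit [Fintype P] in
theorem flat_ext_range (f : A →+* B) (α : Matrix P L A) :
    flatExt f (LinearMap.range α.mulVecLin) = LinearMap.range (α.map f).mulVecLin := by
  classical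
  refine le_antisymm (Submodule.span_le.2 ?_) ?_
  · rintro _ ⟨_, ⟨v, rfl⟩, rfl⟩
    exact ⟨f ∘ v, flat_map_mulVec f α v⟩
  · rw [Matrix.range_mulVecLin (α.map f), Submodule.span_le]
    rintro _ ⟨l, rfl⟩
    exact flat_mem_ext f (v := α.col l) ⟨Pi.single l 1, mulVec_single_one α l⟩

omit [Fintype P] in
theorem flat_vec_mulVec {J : Ideal B} (β : Matrix P L B) {y : L → B} (hy : y ∈ flatVec L J) :
    β *ᵥ y ∈ flatVec P J :=
  flat_mem_vec.2 fun _ => Ideal.sum_mem _ fun l _ => J.mul_mem_left _ (flat_mem_vec.1 hy l)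

theorem flat_closed_range [IsNoetherianRing A] {f : A →+* B} {I : Ideal A}
    [IsAdicComplete (I.map f) B]
    (h : ∀ n : ℕ, (Ideal.quotientMap ((I ^ n).map f) f Ideal.le_comap_map).Flat)
    (α : Matrix P L A) (x : P → B)
    (hx : ∀ n, x ∈ LinearMap.range (α.map f).mulVecLin ⊔ flatVec P (I.map f ^ n)) :
    x ∈ LinearMap.range (α.map f).mulVecLin := by
  obtain ⟨c, hc⟩ := flat_approx h α
  have h1 : ∀ n, ∃ y, x - α.map f *ᵥ y ∈ flatVec P (I.map f ^ (n + c)) := fun n => by
    obtain ⟨_, ⟨y, rfl⟩, b, hb, rfl⟩ := Submodule.mem_sup.1 (hx (n + c))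
    exact ⟨y, by rwa [mulVecLin_apply, add_sub_cancel_left]⟩
  choose y hy using h1
  have h2 : ∀ n, ∃ z ∈ flatVec L (I.map f ^ n),
      α.map f *ᵥ z = α.map f *ᵥ y (n + 1) - α.map f *ᵥ y n := fun n => by
    have h3 : α.map f *ᵥ (y (n + 1) - y n) ∈ flatVec P (I.map f ^ (n + c)) := by
      rw [mulVec_sub, ← sub_sub_sub_cancel_left _ _ x]
      exact sub_mem (hy n) (flat_mem_vec.2 fun p =>
        Ideal.pow_le_pow_right (by omega) (flat_mem_vec.1 (hy (n + 1)) p))
    obtain ⟨a, ha, z, hz, e⟩ := Submodule.mem_sup.1 (hc n _ h3)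
    have h4 : α.map f *ᵥ a = 0 := flat_ext_ker f α ha
    exact ⟨z, hz, by rw [← mulVec_sub, ← e, mulVec_add, h4, zero_add]⟩
  choose z hz hz' using h2
  let w : ℕ → L → B := fun n => y 0 + ∑ i ∈ Finset.range n, z i
  have hw : ∀ n, w (n + 1) = w n + z n := fun n => by
    simp only [w, Finset.sum_range_succ, add_assoc]
  have h3 : ∀ n, α.map f *ᵥ w n = α.map f *ᵥ y n := fun n => by
    induction n with
    | zero => simp [w]
    | succ n ih => rw [hw, mulVec_add, ih, hz', add_sub_cancel]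
  choose t ht using fun l => flat_lim (I.map f) (fun n => w n l) fun n => by
    rw [hw, Pi.add_apply, add_sub_cancel_left]
    exact flat_mem_vec.1 (hz n) l
  refine ⟨t, (sub_eq_zero.1 (funext fun p => flat_sep (I.map f) _ fun n => ?_)).symm⟩
  have h4 : x - (α.map f).mulVecLin t = (x - α.map f *ᵥ y n) - α.map f *ᵥ (t - w n) := by
    rw [mulVec_sub, h3, mulVecLin_apply, sub_sub_sub_cancel_right]
  rw [h4]
  exact sub_mem (Ideal.pow_le_pow_right (Nat.le_add_right n c) (flat_mem_vec.1 (hy n) p))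
    (flat_mem_vec.1 (flat_vec_mulVec _ (flat_mem_vec.2 fun l => ht l n)) p)

theorem flat_closed [IsNoetherianRing A] {f : A →+* B} {I : Ideal A}
    [IsAdicComplete (I.map f) B]
    (h : ∀ n : ℕ, (Ideal.quotientMap ((I ^ n).map f) f Ideal.le_comap_map).Flat)
    (K : Submodule A (P → A)) (x : P → B)
    (hx : ∀ n, x ∈ flatExt f K ⊔ flatVec P (I.map f ^ n)) : x ∈ flatExt f K := by
  obtain ⟨s, v, hv⟩ := Submodule.fg_iff_exists_fin_generating_family.1
    (IsNoetherian.noetherian K)
  have h1 : LinearMap.range (Matrix.of v)ᵀ.mulVecLin = K := by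
    rw [Matrix.range_mulVecLin]
    exact hv
  rw [← h1, flat_ext_range] at hx ⊢
  exact flat_closed_range h _ x hx

end Aux

theorem flat_of_complete {A B : Type u} [CommRing A] [IsNoetherianRing A] [CommRing B]
    (f : A →+* B) (I : Ideal A) [IsAdicComplete (I.map f) B]
    (h : ∀ n : ℕ, (Ideal.quotientMap ((I ^ n).map f) f Ideal.le_comap_map).Flat) : f.Flat := by
  refine flat_of_ext fun l α x hx => flat_closed h _ x fun n => ?_
  obtain ⟨c, hc⟩ := flat_approx h α
  exact hc n x (hx ▸ zero_mem _)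

theorem flat_quot_of_flat {A A' B B' : Type u} [CommRing A] [CommRing A'] [CommRing B]
    [CommRing B'] (f : A →+* B) (hf : f.Flat) (ρ : A →+* A') (hρ : Function.Surjective ρ)
    (π : B →+* B') (hπ : Function.Surjective π) (f' : A' →+* B') (hc : π.comp f = f'.comp ρ)
    (hk : RingHom.ker π = (RingHom.ker ρ).map f) : f'.Flat := by
  let := f.toAlgebra
  have : Module.Flat A B := hf
  have h2 : Module.Flat (A ⧸ RingHom.ker ρ) (B ⧸ (RingHom.ker ρ).map (algebraMap A B)) :=
    .of_linearEquiv (Algebra.TensorProduct.quotIdealMapEquivQuotTensor B _).toLinearEquiv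
  let e := RingHom.quotientKerEquivOfSurjective hρ
  let e' : (B ⧸ (RingHom.ker ρ).map (algebraMap A B)) ≃+* B' :=
    (Ideal.quotEquivOfEq hk.symm).trans (RingHom.quotientKerEquivOfSurjective hπ)
  have h3 := ((RingHom.Flat.of_bijective (f := e.symm.toRingHom) e.symm.bijective).comp
    (RingHom.flat_algebraMap_iff.mpr h2)).comp
    (RingHom.Flat.of_bijective (f := e'.toRingHom) e'.bijective)
  have h4 : f' = e'.toRingHom.comp ((algebraMap (A ⧸ RingHom.ker ρ)
      (B ⧸ (RingHom.ker ρ).map (algebraMap A B))).comp e.symm.toRingHom) := by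
    refine RingHom.ext fun a => ?_
    obtain ⟨a, rfl⟩ := hρ a
    have h5 : e.symm (ρ a) = Ideal.Quotient.mk _ a := e.symm_apply_eq.mpr rfl
    show _ = e' (algebraMap (A ⧸ RingHom.ker ρ) _ (e.symm (ρ a)))
    rw [h5]
    exact (RingHom.congr_fun hc a).symm
  rw [h4]
  exact h3

/-- extended ideals are closed. -/
theorem mem_map_of_forall {A B : Type u} [CommRing A] [IsNoetherianRing A] [CommRing B]
    (f : A →+* B) (hf : f.Flat) (I : Ideal A) [IsAdicComplete (I.map f) B] (J : Ideal A) (b : B)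
    (h : ∀ n : ℕ, b ∈ J.map f ⊔ I.map f ^ n) : b ∈ J.map f := by
  have h1 : ∀ n : ℕ, (Ideal.quotientMap ((I ^ n).map f) f Ideal.le_comap_map).Flat := fun n =>
    flat_quot_of_flat f hf _ Ideal.Quotient.mk_surjective _ Ideal.Quotient.mk_surjective _ rfl
      (by rw [Ideal.mk_ker, Ideal.mk_ker])
  have h2 : flatExt f (flatVec Unit J) = flatVec Unit (J.map f) := by
    refine le_antisymm (Submodule.span_le.2 ?_) fun x hx => ?_
    · rintro _ ⟨v, hv, rfl⟩
      exact flat_mem_vec.2 fun l => Ideal.mem_map_of_mem f (flat_mem_vec.1 hv l)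
    · have h3 : ∀ c ∈ J.map f, (fun _ => c) ∈ flatExt f (flatVec Unit J) := by
        intro c hc
        induction hc using Submodule.span_induction with
        | mem c hc =>
          obtain ⟨a, ha, rfl⟩ := hc
          exact flat_mem_ext f (v := fun _ => a) (flat_mem_vec.2 fun _ => ha)
        | zero => exact zero_mem _
        | add c c' _ _ hc hc' => exact add_mem hc hc'
        | smul a c _ hc => exact Submodule.smul_mem _ a hc
      exact h3 _ (flat_mem_vec.1 hx ())
  have h3 := flat_closed h1 (flatVec Unit J) (fun _ => b) fun n => by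
    obtain ⟨c, hc, e, he, rfl⟩ := Submodule.mem_sup.1 (h n)
    rw [h2]
    exact Submodule.add_mem_sup (flat_mem_vec.2 fun _ => hc) (flat_mem_vec.2 fun _ => he)
  rw [h2] at h3
  exact flat_mem_vec.1 h3 ()

theorem flat_mv_map {V C : Type u} [CommRing V] [CommRing C] (ι : V →+* C)
    (h : ι.Flat) (d : ℕ) : (MvPolynomial.map (σ := Fin d) ι).Flat := by
  let := ι.toAlgebra
  let := MvPolynomial.algebraMvPolynomial (R := V) (S := C) (σ := Fin d)
  exact RingHom.Flat.isStableUnderBaseChange V C (MvPolynomial (Fin d) V)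
    (MvPolynomial (Fin d) C) h

theorem flat_ps_ker (V : Type u) [CommRing V] (d n : ℕ) :
    RingHom.ker ((Ideal.Quotient.mk (Ideal.span (Set.range
      (MvPowerSeries.X : Fin d → P202.PS V d)) ^ n)).comp
        MvPolynomial.coeToMvPowerSeries.ringHom) = MvPolynomial.idealOfVars (Fin d) V ^ n := by
  ext g
  rw [RingHom.mem_ker, RingHom.comp_apply, Ideal.Quotient.eq_zero_iff_mem, P202.mxps_mem_pow_iff,
    MvPolynomial.mem_pow_idealOfVars_iff']
  rfl

theorem flat_ps_surj (V : Type u) [CommRing V] (d n : ℕ) :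
    Function.Surjective ((Ideal.Quotient.mk (Ideal.span (Set.range
      (MvPowerSeries.X : Fin d → P202.PS V d)) ^ n)).comp
        MvPolynomial.coeToMvPowerSeries.ringHom) := by
  intro y
  obtain ⟨y, rfl⟩ := Ideal.Quotient.mk_surjective y
  obtain ⟨g, hg⟩ := P202.ps_exists_poly y n
  exact ⟨g, (Ideal.Quotient.eq.2 hg).symm⟩

theorem flat_ps_map {V C : Type u} [CommRing V] [IsNoetherianRing V] [CommRing C] (ι : V →+* C)
    (h : ι.Flat) (d : ℕ) : (MvPowerSeries.map (σ := Fin d) ι).Flat := by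
  have h1 : (Ideal.span (Set.range (MvPowerSeries.X : Fin d → P202.PS V d))).map
      (MvPowerSeries.map (σ := Fin d) ι) = Ideal.span (Set.range MvPowerSeries.X) := by
    rw [Ideal.map_span, ← Set.range_comp]
    congr 2
    exact funext fun i => MvPowerSeries.map_X ι i
  have h2 : (MvPolynomial.idealOfVars (Fin d) V).map (MvPolynomial.map ι) =
      MvPolynomial.idealOfVars (Fin d) C := by
    rw [Ideal.map_span, ← Set.range_comp]
    congr 2
    exact funext fun i => MvPolynomial.map_X ι i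
  have : IsAdicComplete ((Ideal.span (Set.range (MvPowerSeries.X : Fin d → P202.PS V d))).map
      (MvPowerSeries.map (σ := Fin d) ι)) (P202.PS C d) := by
    rw [h1]
    infer_instance
  refine flat_of_complete _ (Ideal.span (Set.range MvPowerSeries.X)) fun n => ?_
  have h3 : (Ideal.span (Set.range (MvPowerSeries.X : Fin d → P202.PS V d)) ^ n).map
      (MvPowerSeries.map (σ := Fin d) ι) = Ideal.span (Set.range MvPowerSeries.X) ^ n := by
    rw [Ideal.map_pow, h1]
  refine flat_quot_of_flat _ (flat_mv_map ι h d) _ (flat_ps_surj V d n)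
    ((Ideal.Quotient.mk _).comp MvPolynomial.coeToMvPowerSeries.ringHom) ?_ _ ?_ ?_
  · rw [h3]
    exact flat_ps_surj C d n
  · refine MvPolynomial.ringHom_ext (fun v => ?_) fun i => ?_
    · simp
    · simp
  · rw [h3, flat_ps_ker, flat_ps_ker, Ideal.map_pow, h2]

end Vale.Agent.P177
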