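import Mathlib

/-! Parameters and regular local rings. -/

namespace Vale.Agent.P177

open IsLocalRing RingTheory.Sequence

universe u

/-- a system of elements of `m` generating an `m`-primary ideal modulo `I`. -/
structure Sop {T : Type u} [CommRing T] [IsLocalRing T] (I : Ideal T) (w : List T) : Prop where
  mem : ∀ a ∈ w, a ∈ maximalIdeal T
  rad : maximalIdeal T ≤ (I ⊔ Ideal.ofList w).radical

/-- the maximal ideal is generated by a regular sequence. -/
structure RegL (R : Type u) [CommRing R] [IsLocalRing R] (x : List R) : Prop where
  noeth : IsNoetherianRing R
  span : Ideal.ofList x = maximalIdeal R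
  reg : IsWeaklyRegular R x

end Vale.Agent.P177
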