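import Vale.Agent.P177.Cx2
import Vale.Agent.P177.Len2

/-! Flat base change of complexes. -/

namespace Vale.Agent.P177

open scoped ENNReal TensorProduct
open IsLocalRing

universe u

variable {R A : Type u} [CommRing R] [CommRing A] [Algebra A R] {L : Type u} [AddCommGroup L]
  [Module R L] [Module A L] [IsScalarTower A R L]

section
variable {M M' M'' : Type u} [AddCommGroup M] [Module A M] [AddCommGroup M'] [Module A M']
  [AddCommGroup M''] [Module A M'']

omit [Module R L] [IsScalarTower A R L] in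
theorem ResAux_prod (f : M →ₗ[A] M') (g : M →ₗ[A] M'') (t : L ⊗[A] M) (h1 : f.lTensor L t = 0)
    (h2 : g.lTensor L t = 0) : (f.prod g).lTensor L t = 0 := by
  have e : f.prod g = LinearMap.inl A M' M'' ∘ₗ f + LinearMap.inr A M' M'' ∘ₗ g := by
    ext x <;> simp
  rw [e, LinearMap.lTensor_add, LinearMap.add_apply, LinearMap.lTensor_comp_apply,
    LinearMap.lTensor_comp_apply, h1, h2, map_zero, map_zero, add_zero]

theorem ResAux_ind {Y : Type u} [AddCommGroup Y] [Module R Y] (e : L ⊗[A] M ≃ₗ[R] Y)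
    (f : M →ₗ[A] M) (g : Y →ₗ[R] Y) (h : ∀ l x, e (l ⊗ₜ f x) = g (e (l ⊗ₜ x)))
    (t : L ⊗[A] M) : e (f.lTensor L t) = g (e t) := by
  induction t with
  | zero => simp only [map_zero]
  | tmul l x => exact h l x
  | add s s' h1 h2 => simp only [map_add, h1, h2]

end

/-- `X'` is the base change of `X`. -/
structure ResAux_BC (L : Type u) [AddCommGroup L] [Module R L] [Module A L] [IsScalarTower A R L]
    (X : DG A) (X' : DG R) where
  e : L ⊗[A] X.M ≃ₗ[R] X'.M
  d : ∀ t, e (X.d.lTensor L t) = X'.d (e t)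
  pr : ∀ i t, e ((X.pr i).lTensor L t) = X'.pr i (e t)

namespace ResAux_BC

variable {X : DG A} {X' : DG R} (E : ResAux_BC L X X') [Module.Flat A L]

theorem mem_Z {i : ℕ} (t : L ⊗[A] X.M) :
    E.e t ∈ X'.Z i ↔ t ∈ LinearMap.range ((X.Z i).subtype.lTensor L) := by
  have h : Function.Exact (X.Z i).subtype (X.d.prod (X.pr i - LinearMap.id)) := fun x => by
    show (X.d x, X.pr i x - x) = 0 ↔ _
    rw [Prod.mk_eq_zero, sub_eq_zero]
    exact ⟨fun h => ⟨⟨x, DG.mem_Z.2 h⟩, rfl⟩, fun ⟨y, hy⟩ => hy ▸ DG.mem_Z.1 y.2⟩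
  rw [DG.mem_Z, ← E.d, ← E.pr, E.e.map_eq_zero_iff, E.e.injective.eq_iff]
  constructor
  · rintro ⟨h1, h2⟩
    refine (Module.Flat.lTensor_exact L h t).1 (ResAux_prod _ _ t h1 ?_)
    rw [LinearMap.lTensor_sub, LinearMap.sub_apply, h2, LinearMap.lTensor_id, LinearMap.id_apply,
      sub_self]
  · rintro ⟨s, rfl⟩
    rw [← LinearMap.lTensor_comp_apply, ← LinearMap.lTensor_comp_apply]
    rw [show X.d ∘ₗ (X.Z i).subtype = 0 from LinearMap.ext fun z => (DG.mem_Z.1 z.2).1,
      show X.pr i ∘ₗ (X.Z i).subtype = (X.Z i).subtype from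
        LinearMap.ext fun z => (DG.mem_Z.1 z.2).2, LinearMap.lTensor_zero]
    exact ⟨rfl, rfl⟩

omit [Module.Flat A L] in
theorem mem_range (t : L ⊗[A] X.M) :
    E.e t ∈ LinearMap.range X'.d ↔ t ∈ LinearMap.range (X.d.lTensor L) := by
  constructor
  · rintro ⟨y, hy⟩
    obtain ⟨s, rfl⟩ := E.e.surjective y
    exact ⟨s, E.e.injective ((E.d s).trans hy)⟩
  · rintro ⟨s, rfl⟩
    exact ⟨_, (E.d s).symm⟩

include E in
theorem killsH {c : A} {i : ℕ} (h : X.KillsH c i) : X'.KillsH (algebraMap A R c) i := by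
  intro x hx
  obtain ⟨t, rfl⟩ := E.e.surjective x
  obtain ⟨s, rfl⟩ := (E.mem_Z t).1 hx
  rw [← map_smul, E.mem_range, algebraMap_smul]
  clear hx
  induction s with
  | zero => simp
  | tmul l z =>
    obtain ⟨y, hy⟩ := h z z.2
    refine ⟨l ⊗ₜ y, ?_⟩
    rw [LinearMap.lTensor_tmul, LinearMap.lTensor_tmul, hy, TensorProduct.tmul_smul]
    rfl
  | add s s' h1 h2 =>
    rw [map_add, smul_add]
    exact add_mem h1 h2

include E in
theorem hl [IsLocalRing A] (Λ : Len R) {i : ℕ} (h : X.hl (Len.len A) i ≠ ⊤) :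
    X'.hl Λ i = X.hl (Len.len A) i *
      Λ.val (L ⧸ (maximalIdeal A).map (algebraMap A R) • (⊤ : Submodule R L)) := by
  rw [DG.hl_eq] at h ⊢
  rw [DG.hl_eq]
  let H := (X.Z i).map (LinearMap.range X.d).mkQ
  let p : X.Z i →ₗ[A] H := (LinearMap.range X.d).mkQ.submoduleMap (X.Z i)
  have hp : Function.Surjective p := LinearMap.submoduleMap_surjective _ _
  let ψ : L ⊗[A] X.Z i →ₗ[R] L ⊗[A] H := TensorProduct.AlgebraTensorModule.lTensor R L p
  have hψ : Function.Surjective ψ := LinearMap.lTensor_surjective L hp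
  let θ : L ⊗[A] X.Z i →ₗ[R] X'.M :=
    E.e.toLinearMap ∘ₗ TensorProduct.AlgebraTensorModule.lTensor R L (X.Z i).subtype
  have h1 : Λ.rel ⊤ (LinearMap.ker ψ) = Λ.rel (X'.Z i) (LinearMap.range X'.d) := by
    refine DGAux_eq Λ θ (fun t _ => (E.mem_Z _).2 ⟨t, rfl⟩) (fun y hy => ?_) fun t _ => ?_
    · obtain ⟨t, rfl⟩ := E.e.surjective y
      obtain ⟨s, rfl⟩ := (E.mem_Z t).1 hy
      exact ⟨s, trivial, (congrArg (· ∈ LinearMap.range X'.d) (sub_self _)).mpr (zero_mem _)⟩
    · refine (E.mem_range _).trans ?_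
      have h2 := lTensor_exact L (LinearMap.exact_map_mkQ_range X.d) (Submodule.mkQ_surjective _)
        ((X.Z i).subtype.lTensor L t)
      have h3 := Module.Flat.lTensor_preserves_injective_linearMap (M := L) H.subtype
        H.injective_subtype
      refine h2.symm.trans ?_
      rw [← LinearMap.lTensor_comp_apply,
        show (LinearMap.range X.d).mkQ ∘ₗ (X.Z i).subtype = H.subtype ∘ₗ p from rfl,
        LinearMap.lTensor_comp_apply, LinearMap.map_eq_zero_iff _ h3]
      rfl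
  rw [← h1, Len.rel_top, Λ.congr (ψ.quotKerEquivOfSurjective hψ)]
  exact Len.val_baseChange Λ L H fun h0 => h (by
    show ((Module.length A H : ℕ∞) : ℝ≥0∞) = ⊤
    rw [h0, ENat.toENNReal_top])

end ResAux_BC

/-- base change of a free complex with coefficients. -/
noncomputable def ResAux_on (F : Cx A) {N : Type u} [AddCommGroup N] [Module A N] {N' : Type u}
    [AddCommGroup N'] [Module R N'] (κ : L ⊗[A] N ≃ₗ[R] N') :
    ResAux_BC L (F.on N) ((F.map (algebraMap A R)).on N') where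
  e := (TensorProduct.piRight A R L fun _ : F.ι => N).trans (LinearEquiv.piCongrRight fun _ => κ)
  d := ResAux_ind _ _ _ fun l (x : F.ι → N) => funext fun (a : F.ι) => by
    show κ (l ⊗ₜ ∑ b, F.d a b • x b) = ∑ b, algebraMap A R (F.d a b) • κ (l ⊗ₜ x b)
    simp only [TensorProduct.tmul_sum, map_sum, TensorProduct.tmul_smul, ← map_smul,
      algebraMap_smul]
  pr i := ResAux_ind _ _ _ fun l (x : F.ι → N) => funext fun (a : F.ι) => by
    show κ (l ⊗ₜ if F.deg a = i then x a else 0) = if F.deg a = i then κ (l ⊗ₜ x a) else 0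
    split_ifs
    · rfl
    · rw [TensorProduct.tmul_zero, map_zero]

end Vale.Agent.P177
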