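import Vale.Agent.P177.Kos

/-! The kernel of the augmentation of a Koszul complex. -/

namespace Vale.Agent.P177

universe u

namespace DG

variable {R : Type u} [CommRing R] {X Y X' X'' : DG R}

/-- functoriality of iterated cones. -/
def ResAux2_map (φ : X.M →ₗ[R] Y.M) : ∀ w : List R, (X.coneL w).M →ₗ[R] (Y.coneL w).M
  | [] => φ
  | _ :: as => (ResAux2_map φ as).prodMap (ResAux2_map φ as)

/-- the bottom component. -/
def ResAux2_p (X : DG R) : ∀ w : List R, (X.coneL w).M →ₗ[R] X.M
  | [] => LinearMap.id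
  | _ :: as => ResAux2_p X as ∘ₗ LinearMap.fst R _ _

/-- inclusion of the bottom component. -/
def ResAux2_s (X : DG R) : ∀ w : List R, X.M →ₗ[R] (X.coneL w).M
  | [] => LinearMap.id
  | _ :: as => LinearMap.inl R _ _ ∘ₗ ResAux2_s X as

theorem ResAux2_map_d {φ : X.M →ₗ[R] Y.M} (h : ∀ x, φ (X.d x) = Y.d (φ x)) (w : List R) :
    ∀ x, ResAux2_map φ w ((X.coneL w).d x) = (Y.coneL w).d (ResAux2_map φ w x) := by
  induction w with
  | nil => exact h
  | cons a as ih =>
    rintro ⟨x, y⟩
    refine Prod.ext ?_ ?_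
    · show ResAux2_map φ as ((X.coneL as).d x + a • y) =
        (Y.coneL as).d (ResAux2_map φ as x) + a • ResAux2_map φ as y
      rw [map_add, map_smul, ih]
    · show ResAux2_map φ as (-(X.coneL as).d y) = -(Y.coneL as).d (ResAux2_map φ as y)
      rw [map_neg, ih]

theorem ResAux2_zero (h : ∀ x : X.M, x = 0) (w : List R) : ∀ x : (X.coneL w).M, x = 0 := by
  induction w with
  | nil => exact h
  | cons a as ih => exact fun x => Prod.ext (ih x.1) (ih x.2)

theorem ResAux2_inj {φ : X.M →ₗ[R] Y.M} (h : Function.Injective φ) (w : List R) :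
    Function.Injective (ResAux2_map φ w) := by
  induction w with
  | nil => exact h
  | cons a as ih => exact ih.prodMap ih

theorem ResAux2_surj {φ : X.M →ₗ[R] Y.M} (h : Function.Surjective φ) (w : List R) :
    Function.Surjective (ResAux2_map φ w) := by
  induction w with
  | nil => exact h
  | cons a as ih => exact ih.prodMap ih

theorem ResAux2_exact {f : X'.M →ₗ[R] X.M} {g : X.M →ₗ[R] X''.M} (h : Function.Exact f g)
    (w : List R) : Function.Exact (ResAux2_map f w) (ResAux2_map g w) := by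
  induction w with
  | nil => exact h
  | cons a as ih =>
    rintro ⟨x, y⟩
    refine Prod.mk_eq_zero.trans ((and_congr (ih x) (ih y)).trans ⟨?_, ?_⟩)
    · rintro ⟨⟨u, rfl⟩, v, rfl⟩
      exact ⟨(u, v), rfl⟩
    · rintro ⟨⟨u, v⟩, h⟩
      exact ⟨⟨u, congrArg Prod.fst h⟩, v, congrArg Prod.snd h⟩

theorem ResAux2_p_map (φ : X.M →ₗ[R] Y.M) (w : List R) :
    ∀ x, ResAux2_p Y w (ResAux2_map φ w x) = φ (ResAux2_p X w x) := by
  induction w with
  | nil => exact fun _ => rfl
  | cons a as ih => exact fun x => ih x.1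

theorem ResAux2_p_s (w : List R) (u : X.M) : ResAux2_p X w (ResAux2_s X w u) = u := by
  induction w with
  | nil => rfl
  | cons a as ih => exact ih

theorem ResAux2_p_pr (w : List R) (i : ℕ) :
    ∀ x, ResAux2_p X w ((X.coneL w).pr i x) = X.pr i (ResAux2_p X w x) := by
  induction w with
  | nil => exact fun _ => rfl
  | cons a as ih => exact fun x => ih x.1

theorem ResAux2_p_d (w : List R) : ∀ x, ResAux2_p X w ((X.coneL w).d x) -
    X.d (ResAux2_p X w x) ∈ Ideal.ofList w • (⊤ : Submodule R X.M) := by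
  induction w with
  | nil => exact fun x => (congrArg (· ∈ _) (sub_self _)).mpr (zero_mem _)
  | cons a as ih =>
    rintro ⟨x, y⟩
    show ResAux2_p X as ((X.coneL as).d x + a • y) - X.d (ResAux2_p X as x) ∈ _
    rw [map_add, map_smul, add_sub_right_comm, Ideal.ofList_cons, Submodule.sup_smul]
    exact add_mem (Submodule.mem_sup_right (ih x)) (Submodule.mem_sup_left
      (Submodule.smul_mem_smul (Ideal.mem_span_singleton_self a) trivial))

theorem ResAux2_d_s (w : List R) (u : X.M) :
    (X.coneL w).d (ResAux2_s X w u) = ResAux2_s X w (X.d u) := by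
  induction w with
  | nil => rfl
  | cons a as ih =>
    refine Prod.ext ?_ ?_
    · show (X.coneL as).d (ResAux2_s X as u) + a • 0 = ResAux2_s X as (X.d u)
      rw [ih, smul_zero, add_zero]
    · show -(X.coneL as).d 0 = 0
      rw [map_zero, neg_zero]

theorem ResAux2_pr_zero (w : List R) :
    ∀ x, (X.coneL w).pr 0 x = ResAux2_s X w (X.pr 0 (ResAux2_p X w x)) := by
  induction w with
  | nil => exact fun _ => rfl
  | cons a as ih => exact fun x => Prod.ext (ih x.1) rfl

theorem ResAux2_s_mem (hd : ∀ x, X.d x = 0) (w : List R) {u : X.M}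
    (hu : u ∈ Ideal.ofList w • (⊤ : Submodule R X.M)) :
    ResAux2_s X w u ∈ LinearMap.range (X.coneL w).d := by
  induction w generalizing u with
  | nil =>
    rw [Ideal.ofList_nil, Submodule.bot_smul, Submodule.mem_bot] at hu
    rw [hu, map_zero]
    exact zero_mem _
  | cons a as ih =>
    rw [Ideal.ofList_cons, Submodule.sup_smul] at hu
    obtain ⟨u1, h1, u2, h2, rfl⟩ := Submodule.mem_sup.1 hu
    rw [Submodule.ideal_span_singleton_smul] at h1
    obtain ⟨v, -, rfl⟩ := (Submodule.mem_smul_pointwise_iff_exists _ _ _).1 h1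
    obtain ⟨t, ht⟩ := ih h2
    refine ⟨(t, ResAux2_s X as v), Prod.ext ?_ ?_⟩
    · show (X.coneL as).d t + a • ResAux2_s X as v = ResAux2_s X as (a • v + u2)
      rw [ht, map_add, map_smul, add_comm]
    · show -(X.coneL as).d (ResAux2_s X as v) = 0
      rw [ResAux2_d_s, hd, map_zero, neg_zero]

/-- `c` kills the homology of the kernel of the augmentation. -/
def ResAux2_Q (X : DG R) (w : List R) (c : R) : Prop :=
  ∀ x, (X.coneL w).d x = 0 → ResAux2_p X w x ∈ Ideal.ofList w • (⊤ : Submodule R X.M) →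
    ∃ y, ResAux2_p X w y ∈ Ideal.ofList w • (⊤ : Submodule R X.M) ∧ (X.coneL w).d y = c • x

theorem ResAux2_Q_base {w : List R} {c : R} (hd : ∀ x, X.d x = 0) (hp : ∀ x, X.pr 0 x = x)
    (h : ∀ i, 0 < i → (X.coneL w).KillsH c i) : ResAux2_Q X w c := by
  intro x h1 h2
  obtain ⟨L, hL⟩ := (X.coneL w).bd
  have h3 : c • x ∈ LinearMap.range (X.coneL w).d := by
    rw [← hL x, Finset.smul_sum]
    refine Submodule.sum_mem _ fun i _ => ?_
    rcases Nat.eq_zero_or_pos i with rfl | hi
    · rw [ResAux2_pr_zero, hp]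
      exact Submodule.smul_mem _ _ (ResAux2_s_mem hd w h2)
    · exact h i hi _ (pr_mem_Z h1 i)
  obtain ⟨y, hy⟩ := h3
  refine ⟨y - (X.coneL w).pr 0 y, ?_, ?_⟩
  · rw [map_sub, ResAux2_p_pr, hp, sub_self]
    exact zero_mem _
  · rw [map_sub, DG.d_zero, sub_zero, hy]

theorem ResAux2_Q_ext {w : List R} {c' c'' : R} (f : X'.M →ₗ[R] X.M) (g : X.M →ₗ[R] X''.M)
    (r : X.M →ₗ[R] X'.M) (hr : ∀ x, r (f x) = x) (hfg : Function.Exact f g)
    (hg : Function.Surjective g) (hfd : ∀ x, f (X'.d x) = X.d (f x))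
    (hgd : ∀ x, g (X.d x) = X''.d (g x)) (h' : ResAux2_Q X' w c') (h'' : ResAux2_Q X'' w c'') :
    ResAux2_Q X w (c' * c'') := by
  intro x h1 h2
  have hE := ResAux2_exact hfg w
  obtain ⟨y'', h3, h4⟩ := h'' (ResAux2_map g w x) (by rw [← ResAux2_map_d hgd, h1, map_zero])
    (by rw [ResAux2_p_map]; exact Submodule.smul_top_le_comap_smul_top _ g h2)
  obtain ⟨y0, rfl⟩ := ResAux2_surj hg w y''
  rw [ResAux2_p_map, ← LinearMap.range_eq_top.2 hg, ← Submodule.map_top,
    ← Submodule.map_smul''] at h3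
  obtain ⟨v, h5, h6⟩ := h3
  obtain ⟨u, hu⟩ := (hfg (ResAux2_p X w y0 - v)).1 (by rw [map_sub, h6, sub_self])
  have h7 : ResAux2_p X w (y0 - ResAux2_map f w (ResAux2_s X' w u)) ∈
      Ideal.ofList w • (⊤ : Submodule R X.M) := by
    rw [map_sub, ResAux2_p_map, ResAux2_p_s, hu, sub_sub_cancel]
    exact h5
  have h8 : ResAux2_map g w (y0 - ResAux2_map f w (ResAux2_s X' w u)) = ResAux2_map g w y0 := by
    rw [map_sub, hE.apply_apply_eq_zero, sub_zero]
  generalize y0 - ResAux2_map f w (ResAux2_s X' w u) = y at h7 h8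
  obtain ⟨x', hx'⟩ := (hE (c'' • x - (X.coneL w).d y)).1 (by
    rw [map_sub, map_smul, ResAux2_map_d hgd, h8, h4, sub_self])
  obtain ⟨y', h9, h10⟩ := h' x' (ResAux2_inj (Function.LeftInverse.injective hr) w (by
    rw [ResAux2_map_d hfd, hx', map_sub, map_smul, h1, DG.dd, smul_zero, sub_zero, map_zero])) (by
    rw [← hr (ResAux2_p X' w x'), ← ResAux2_p_map, hx']
    refine Submodule.smul_top_le_comap_smul_top _ r ?_
    rw [map_sub, map_smul, ← sub_add_cancel (ResAux2_p X w ((X.coneL w).d y))
      (X.d (ResAux2_p X w y))]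
    exact sub_mem (Submodule.smul_mem _ _ h2) (add_mem (ResAux2_p_d w y)
      (Submodule.smul_top_le_comap_smul_top _ X.d h7)))
  refine ⟨ResAux2_map f w y' + c' • y, ?_, ?_⟩
  · rw [map_add, map_smul, ResAux2_p_map]
    exact add_mem (Submodule.smul_top_le_comap_smul_top _ f h9) (Submodule.smul_mem _ _ h7)
  · rw [map_add, map_smul, ← ResAux2_map_d hfd, h10, map_smul, hx', smul_sub, sub_add_cancel,
      mul_smul]

end DG

namespace Cx

variable {R : Type u} [CommRing R] {N : Type u} [AddCommGroup N] [Module R N]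

theorem ResAux2_pt_d (x : ((pt R).on N).M) : ((pt R).on N).d x = 0 := cx_mact_zero x

theorem ResAux2_Q_on (F : Cx R) {w : List R} {c : R} (h : DG.ResAux2_Q ((pt R).on N) w c) :
    DG.ResAux2_Q (F.on N) w (c ^ Fintype.card F.ι) := by
  induction hn : Fintype.card F.ι generalizing F with
  | zero =>
    have := Fintype.card_eq_zero_iff.1 hn
    intro x _ _
    have h4 : x = 0 := DG.ResAux2_zero (fun _ => funext fun a => isEmptyElim a) w x
    exact ⟨0, by rw [map_zero]; exact zero_mem _, by rw [h4, map_zero, smul_zero]⟩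
  | succ n ih =>
    have := (Fintype.card_pos_iff (α := F.ι)).1 (by omega)
    obtain ⟨k, hk⟩ := Finite.exists_max F.deg
    have h0 : ∀ b, F.d k b = 0 := fun b => by
      by_contra h
      have := F.hdeg _ _ h
      have := hk b
      omega
    let C' : Cx R :=
      { ι := {b // b ≠ k}
        deg := fun b => F.deg b
        d := F.d.submatrix (↑) (↑)
        dd := by
          ext b c
          have := congrFun (congrFun F.dd b) c
          rwa [Matrix.mul_apply, Fintype.sum_eq_add_sum_subtype_ne _ k, h0, mul_zero,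
            zero_add] at this
        hdeg := fun b c => F.hdeg b c }
    let f : ({b // b ≠ k} → N) →ₗ[R] (F.ι → N) :=
      { toFun := fun x a => if h : a ≠ k then x ⟨a, h⟩ else 0
        map_add' := fun x y => funext fun a => by
          rw [Pi.add_apply]
          split_ifs <;> simp
        map_smul' := fun r x => funext fun a => by
          rw [RingHom.id_apply, Pi.smul_apply]
          split_ifs <;> simp }
    have f1 : ∀ x, f x k = 0 := fun x => dif_neg fun h => h rfl
    have f2 : ∀ x (a : {b // b ≠ k}), f x a = x a := fun x a => dif_pos a.2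
    rw [pow_succ]
    refine DG.ResAux2_Q_ext (X' := C'.on N) (X'' := (pt R).on N) f
      (LinearMap.funLeft R N fun _ : Unit => k) (LinearMap.funLeft R N Subtype.val)
      (fun x => funext (f2 x)) (fun y => ⟨fun hy => ⟨fun a => y a, funext fun a => ?_⟩, ?_⟩)
      (fun z => ⟨fun _ => z (), rfl⟩) (fun (x : {b // b ≠ k} → N) => funext fun a => ?_)
      (fun (x : F.ι → N) => ?_) (ih C' ?_) h
    · rcases eq_or_ne a k with rfl | ha
      · exact (f1 _).trans (congrFun hy ()).symm
      · exact f2 _ ⟨a, ha⟩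
    · rintro ⟨x, rfl⟩
      exact funext fun _ => f1 x
    · refine Eq.trans ?_ (mact_apply F.d (f x) a).symm
      rw [Fintype.sum_eq_add_sum_subtype_ne _ k, f1, smul_zero, zero_add]
      simp only [f2]
      rcases eq_or_ne a k with rfl | ha
      · simp only [h0, zero_smul, Finset.sum_const_zero]
        exact f1 _
      · exact f2 _ ⟨a, ha⟩
    · rw [ResAux2_pt_d]
      funext _
      show ∑ b, F.d k b • x b = 0
      simp only [h0, zero_smul, Finset.sum_const_zero]
    · show Fintype.card {b // ¬ b = k} = n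
      rw [Fintype.card_subtype_compl, hn, Fintype.card_unique, Nat.add_sub_cancel]

theorem ResAux2_mem (ι : Type) [Fintype ι] [DecidableEq ι] (I : Ideal R) (x : ι → N) :
    x ∈ I • (⊤ : Submodule R (ι → N)) ↔ ∀ a, x a ∈ I • (⊤ : Submodule R N) := by
  refine ⟨fun h a => Submodule.smul_top_le_comap_smul_top I (LinearMap.proj a) h, fun h => ?_⟩
  rw [← Finset.univ_sum_single x]
  exact Submodule.sum_mem _ fun a _ =>
    Submodule.smul_top_le_comap_smul_top I (LinearMap.single R (fun _ => N) a) (h a)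

theorem ResAux2_kosInv (F : Cx R) (a : R) : DG.QE ((F.on N).cone a) ((F.kos a).on N) := by
  let e := LinearEquiv.sumArrowLequivProdArrow F.ι F.ι R N
  refine ⟨⟨e.symm.toLinearMap, fun x => ?_, fun i x => ?_⟩,
    DG.Hom.qIso_of_bijective _ e.symm.bijective⟩
  · obtain ⟨x, rfl⟩ := e.surjective x
    refine e.symm_apply_eq.2 (Eq.trans ?_ (congrArg (fun z => e (((F.kos a).on N).d z))
      (e.symm_apply_apply x).symm))
    refine Prod.ext (funext fun b => ?_) (funext fun b => ?_)
    · show ∑ c, F.d b c • x (.inl c) + a • x (.inr b) =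
        ∑ c : F.ι ⊕ F.ι, Matrix.fromBlocks F.d (a • 1) 0 (-F.d) (.inl b) c • x c
      simp [Fintype.sum_sum_type, Matrix.one_apply]
    · show -∑ c, F.d b c • x (.inr c) =
        ∑ c : F.ι ⊕ F.ι, Matrix.fromBlocks F.d (a • 1) 0 (-F.d) (.inr b) c • x c
      simp [Fintype.sum_sum_type]
  · obtain ⟨x, rfl⟩ := e.surjective x
    refine e.symm_apply_eq.2 (Eq.trans ?_ (congrArg (fun z => e (((F.kos a).on N).pr i z))
      (e.symm_apply_apply x).symm))
    refine Prod.ext rfl (funext fun b => ?_)
    rcases i with _ | i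
    · show 0 = (if F.deg b + 1 = 0 then x (.inr b) else 0)
      simp
    · show (if F.deg b = i then x (.inr b) else 0) = if F.deg b + 1 = i + 1 then x (.inr b) else 0
      simp

end Cx

end Vale.Agent.P177
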