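import Vale.Agent.P177.Amp
import Vale.Agent.P177.Len2
import Vale.Agent.P177.RegDef
import Vale.Agent.P177.ResAux
import Vale.Agent.P177.ResAux2

/-! Resolutions and base change. -/

namespace Vale.Agent.P177

open scoped ENNReal
open IsLocalRing RingTheory.Sequence

universe u

variable {R : Type u} [CommRing R]

namespace Cx

theorem IsRes.le_Null {F : Cx R} {Y : Type u} [AddCommGroup Y] [Module R Y] (h : F.IsRes Y) :
    Module.annihilator R Y ≤ F.Null := by
  obtain ⟨ε, -, h2, h3, h4⟩ := h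
  replace h4 : ∀ x : F.ι → R, mact F.d R x = 0 → ε x = 0 → ∃ y, mact F.d R y = x := h4
  intro a ha
  have hd : ∀ b, mact F.d R (Pi.single b (1 : R)) = ∑ c, F.d c b • Pi.single c (1 : R) := fun b => by
    funext i
    simp [mact_apply, Pi.single_apply, Finset.sum_apply]
  have key : ∀ n : ℕ, ∃ H : F.ι → F.ι → R, (∀ b, ε (H b) = 0) ∧ ∀ b, F.deg b < n →
      mact F.d R (H b) + ∑ c, F.d c b • H c = a • Pi.single b (1 : R) := by
    intro n
    induction n with
    | zero => exact ⟨0, fun _ => map_zero ε, fun _ h => absurd h (Nat.not_lt_zero _)⟩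
    | succ n ih =>
      obtain ⟨H, e1, e2⟩ := ih
      have e3 : ∀ b, F.deg b = n → ∃ y, ε y = 0 ∧
          mact F.d R y = a • Pi.single b (1 : R) - ∑ c, F.d c b • H c := fun b hb => by
        obtain ⟨y, hy⟩ := h4 (a • Pi.single b (1 : R) - ∑ c, F.d c b • H c) (by
          have e4 : ∀ c, F.d c b • mact F.d R (H c) =
              a • F.d c b • Pi.single c (1 : R) - ∑ c', (F.d c' c * F.d c b) • H c' := fun c => by
            by_cases h0 : F.d c b = 0
            · simp [h0]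
            · rw [eq_sub_of_add_eq (e2 c (by have := F.hdeg c b h0; omega)), smul_sub, smul_comm,
                Finset.smul_sum]
              simp only [smul_smul, mul_comm]
          rw [map_sub, map_smul, hd, _root_.map_sum]
          simp only [map_smul, e4]
          rw [Finset.sum_sub_distrib, Finset.sum_comm, ← Finset.smul_sum, sub_sub_cancel]
          refine Finset.sum_eq_zero fun c' _ => ?_
          rw [← Finset.sum_smul, ← Matrix.mul_apply, F.dd, Matrix.zero_apply, zero_smul]) (by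
          rw [map_sub, map_smul, _root_.map_sum, Module.mem_annihilator.1 ha, zero_sub, neg_eq_zero]
          exact Finset.sum_eq_zero fun c _ => by rw [map_smul, e1, smul_zero])
        refine ⟨y - cut (R := R) (fun a => F.deg a = 0) R y,
          (map_sub ε _ _).trans (sub_eq_zero.2 (h2 y).symm), ?_⟩
        rw [map_sub, hy, show mact F.d R (cut (R := R) (fun a => F.deg a = 0) R y) = 0 from
          (F.on R).d_zero y, sub_zero]
      choose y e4 e5 using e3
      have e6 : ∀ b, F.deg b < n + 1 → ∑ c, F.d c b • (if h : F.deg c = n then y c h else H c) =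
          ∑ c, F.d c b • H c := fun b hb => Finset.sum_congr rfl fun c _ => by
        by_cases h0 : F.d c b = 0
        · rw [h0, zero_smul, zero_smul]
        · rw [dif_neg (by have := F.hdeg c b h0; omega)]
      refine ⟨fun b => if h : F.deg b = n then y b h else H b, fun b => ?_, fun b hb => ?_⟩
      · dsimp only
        split_ifs
        exacts [e4 _ _, e1 _]
      · rw [e6 b hb]
        dsimp only
        split_ifs with h
        · rw [e5, sub_add_cancel]
        · exact e2 b (by omega)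
  obtain ⟨H, -, e⟩ := key (Finset.univ.sup F.deg + 1)
  refine ⟨Matrix.of fun i b => H b i, Matrix.ext fun i b => ?_⟩
  have e1 := congrFun (e b (Nat.lt_succ_of_le (Finset.le_sup (Finset.mem_univ b)))) i
  simp only [Pi.add_apply, mact_apply, Finset.sum_apply, Pi.smul_apply, smul_eq_mul,
    Pi.single_apply] at e1
  simp only [Matrix.add_apply, Matrix.mul_apply, Matrix.of_apply, Matrix.smul_apply,
    Matrix.one_apply, smul_eq_mul, ← e1]
  simp only [mul_comm]

theorem IsRes.le_Null_quot {F : Cx R} {I : Ideal R} (h : F.IsRes (R ⧸ I)) : I ≤ F.Null :=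
  Ideal.annihilator_quotient.ge.trans h.le_Null

theorem Res_of_qe {F : Cx R} {Y : Type u} [AddCommGroup Y] [Module R Y]
    (h : DG.QE (F.on R) ((pt R).on Y)) : F.IsRes Y := by
  obtain ⟨φ, h⟩ := h
  refine ⟨LinearMap.proj (R := R) (φ := fun _ : Unit => Y) () ∘ₗ φ.f, fun y => ?_,
    fun x => congrFun (φ.pr 0 x) (), fun x => congrFun ((φ.d x).trans (ResAux2_pt_d _)) (),
    fun x h1 h2 => h.inj x h1 ⟨0, (map_zero _).trans (funext fun _ => h2.symm)⟩⟩
  obtain ⟨x, -, z, hz⟩ := h.surj (fun _ => y) (ResAux2_pt_d _)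
  rw [ResAux2_pt_d] at hz
  exact ⟨x, congrFun (sub_eq_zero.1 hz.symm) ()⟩

theorem IsRes.Res_qe {F : Cx R} {Y : Type u} [AddCommGroup Y] [Module R Y] (h : F.IsRes Y) :
    DG.QE (F.on R) ((pt R).on Y) := by
  obtain ⟨ε, h1, h2, h3, h4⟩ := h
  refine ⟨⟨LinearMap.pi fun _ : Unit => ε, fun x => (funext fun _ => h3 x).trans
    (ResAux2_pt_d _).symm, fun i x => funext fun _ => ?_⟩, fun x e1 e2 => h4 x e1 ?_,
    fun y _ => ?_⟩
  · show ε ((F.on R).pr i x) = if 0 = i then ε x else 0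
    split_ifs with hi
    · exact hi ▸ h2 x
    · rw [← h2, DG.pr_pr, if_neg hi]
      exact map_zero ε
  · obtain ⟨z, hz⟩ := e2
    rw [ResAux2_pt_d] at hz
    exact (congrFun hz ()).symm
  · obtain ⟨x, hx⟩ := h1 (y ())
    exact ⟨(F.on R).pr 0 x, DG.d_zero _ _, 0, (map_zero _).trans
      (sub_eq_zero.2 (funext fun _ => (h2 x).trans hx)).symm⟩

theorem isRes_pt : (pt R).IsRes R := Res_of_qe (DG.QE.refl _)

theorem isRes_kosL {w : List R} (h : IsWeaklyRegular R w) :
    ((pt R).kosL w).IsRes (R ⧸ Ideal.ofList w) :=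
  (Res_of_qe (exists_qIso_kosL (pt R) h)).congr
    (Submodule.quotEquivOfEq _ _ (by rw [smul_eq_mul, Ideal.mul_top]))

theorem IsRes.exists_qIso {F : Cx R} {Y : Type u} [AddCommGroup Y] [Module R Y] (h : F.IsRes Y)
    (w : List R) : ∃ φ : DG.Hom ((F.kosL w).on R) (((pt R).kosL w).on Y), φ.QIso := by
  induction w with
  | nil => exact h.Res_qe
  | cons a as ih =>
    exact ((kosQE (F.kosL as) a).trans (DG.QE.cone ih a)).trans (ResAux2_kosInv _ a)

theorem IsRes.map_flat {F : Cx R} {I : Ideal R} (h : F.IsRes (R ⧸ I)) (R' : Type u) [CommRing R']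
    [Algebra R R'] [Module.Flat R R'] :
    (F.map (algebraMap R R')).IsRes (R' ⧸ I.map (algebraMap R R')) := by
  obtain ⟨ε, h1, h2, h3, h4⟩ := h
  let E := ResAux_on (L := R') F (TensorProduct.AlgebraTensorModule.rid R R' R')
  let q := (Algebra.TensorProduct.quotIdealMapEquivTensorQuot R' I).toLinearEquiv
  let ε₀ : (F.on R).M →ₗ[R] R ⧸ I := ε
  refine ⟨q.symm.toLinearMap ∘ₗ TensorProduct.AlgebraTensorModule.lTensor R' R' ε₀ ∘ₗ
    E.e.symm.toLinearMap, q.symm.surjective.comp ((LinearMap.lTensor_surjective R' h1).comp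
      E.e.symm.surjective), fun x => ?_, fun x => ?_, fun x e1 e2 => ?_⟩
  · obtain ⟨t, rfl⟩ := E.e.surjective x
    refine congrArg q.symm ?_
    show ε₀.lTensor R' (E.e.symm (DG.pr _ 0 (E.e t))) = ε₀.lTensor R' (E.e.symm (E.e t))
    rw [← E.pr, E.e.symm_apply_apply, E.e.symm_apply_apply, ← LinearMap.lTensor_comp_apply,
      show ε₀ ∘ₗ (F.on R).pr 0 = ε₀ from LinearMap.ext h2]
  · obtain ⟨t, rfl⟩ := E.e.surjective x
    refine (congrArg q.symm ?_).trans (map_zero _)
    show ε₀.lTensor R' (E.e.symm (DG.d _ (E.e t))) = 0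
    rw [← E.d, E.e.symm_apply_apply, ← LinearMap.lTensor_comp_apply,
      show ε₀ ∘ₗ (F.on R).d = 0 from LinearMap.ext h3, LinearMap.lTensor_zero, LinearMap.zero_apply]
  · obtain ⟨t, rfl⟩ := E.e.surjective x
    have e3 : ε₀.lTensor R' (E.e.symm (E.e t)) = 0 := q.symm.map_eq_zero_iff.1 e2
    rw [E.e.symm_apply_apply] at e3
    rw [← E.d, E.e.map_eq_zero_iff] at e1
    have e4 : Function.Exact (F.on R).d ((F.on R).d.prod ε₀) := fun x =>
      ⟨fun h => h4 x (congrArg Prod.fst h) (congrArg Prod.snd h),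
        fun ⟨y, hy⟩ => hy ▸ Prod.ext ((F.on R).dd y) (h3 y)⟩
    exact (E.mem_range t).2 ((Module.Flat.lTensor_exact R' e4 t).1 (ResAux_prod _ _ t e1 e3))

/-- almost regular sequences. -/
theorem killsH_kosL_of_quot (F : Cx R) {N : Type u} [AddCommGroup N] [Module R N] (w : List R)
    {c c' : R} (hc : ∀ i, 0 < i → (((pt R).kosL w).on N).KillsH c i) (i : ℕ)
    (hc' : (F.on (N ⧸ Ideal.ofList w • (⊤ : Submodule R N))).KillsH c' i) :
    ((F.kosL w).on N).KillsH (c ^ Fintype.card F.ι * c') i := by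
  have hQ := ResAux2_Q_on F (DG.ResAux2_Q_base (w := w) (ResAux2_pt_d (N := N)) (fun _ => rfl)
    fun i hi => (((pt R).kosLQE w).killsH c i).1 (hc i hi))
  refine ((F.kosLQE w).killsH _ i).2 fun x hx => ?_
  obtain ⟨h1, h2⟩ := DG.mem_Z.1 hx
  let π := F.onMap (Ideal.ofList w • (⊤ : Submodule R N)).mkQ
  have hπ : ∀ u, π.f u = 0 ↔ u ∈ Ideal.ofList w • (⊤ : Submodule R (F.on N).M) := fun u =>
    (funext_iff.trans (forall_congr' fun _ => Submodule.Quotient.mk_eq_zero _)).trans
      (ResAux2_mem F.ι _ u).symm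
  have h3 : ∀ y, π.f (DG.ResAux2_p _ w (DG.d _ y)) = DG.d _ (π.f (DG.ResAux2_p _ w y)) :=
    fun y => by rw [← π.d, ← sub_eq_zero, ← map_sub, hπ]; exact DG.ResAux2_p_d w y
  obtain ⟨v, hv⟩ := hc' (π.f (DG.ResAux2_p _ w x)) (DG.mem_Z.2
    ⟨by rw [← h3, h1, map_zero, map_zero], by rw [← π.pr, ← DG.ResAux2_p_pr, h2]⟩)
  obtain ⟨v, rfl⟩ := kos_onMap_surj F _ (Submodule.mkQ_surjective _) v
  obtain ⟨y, -, hy⟩ := hQ (c' • x - DG.d _ (DG.ResAux2_s _ w v))
    (by rw [map_sub, map_smul, h1, DG.dd, smul_zero, sub_zero])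
    (by rw [← hπ, map_sub, map_sub, h3, DG.ResAux2_p_s, map_smul, map_smul, ← hv, sub_self])
  refine ⟨y + c ^ Fintype.card F.ι • DG.ResAux2_s _ w v, ?_⟩
  rw [map_add, map_smul, hy, smul_sub, sub_add_cancel, mul_smul]

theorem hl_kosL_pt_zero (Λ : Len R) {N : Type u} [AddCommGroup N] [Module R N] (w : List R) :
    (((pt R).kosL w).on N).hl Λ 0 = Λ.val (N ⧸ Ideal.ofList w • (⊤ : Submodule R N)) := by
  rw [hl_kosL_zero, hl_pt_zero]

theorem hl_sum (Λ : Len R) {N : Type u} [AddCommGroup N] [Module R N] (F G : Cx R) (i : ℕ) :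
    ((F.sum G).on N).hl Λ i = (F.on N).hl Λ i + (G.on N).hl Λ i := by
  let l : ((F.sum G).on N).M →ₗ[R] (F.on N).M := LinearMap.funLeft R N Sum.inl
  let r : ((F.sum G).on N).M →ₗ[R] (G.on N).M := LinearMap.funLeft R N Sum.inr
  have hl : ∀ x, l (((F.sum G).on N).d x) = (F.on N).d (l x) := fun x =>
    congrArg l (cx_mact_sum F.d G.d x)
  have hr : ∀ x, r (((F.sum G).on N).d x) = (G.on N).d (r x) := fun x =>
    congrArg r (cx_mact_sum F.d G.d x)
  have hext : ∀ {x y}, l x = l y → r x = r y → x = y := fun h1 h2 => funext fun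
    | .inl a => congrFun h1 a
    | .inr a => congrFun h2 a
  have hZ : ∀ x, x ∈ ((F.sum G).on N).Z i ↔
      l x ∈ (F.on N).Z i ∧ r x ∈ (G.on N).Z i := fun x => by
    rw [DG.mem_Z, DG.mem_Z, DG.mem_Z, and_and_and_comm, ← hl, ← hr]
    exact and_congr ⟨fun h => ⟨congrArg l h, congrArg r h⟩, fun h => hext h.1 h.2⟩
      ⟨fun h => ⟨congrArg l h, congrArg r h⟩, fun h => hext h.1 h.2⟩
  have hB : ∀ x, x ∈ LinearMap.range ((F.sum G).on N).d ↔
      l x ∈ LinearMap.range (F.on N).d ∧ r x ∈ LinearMap.range (G.on N).d := fun x => by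
    constructor
    · rintro ⟨y, rfl⟩
      exact ⟨⟨_, (hl y).symm⟩, ⟨_, (hr y).symm⟩⟩
    · rintro ⟨⟨y, hy⟩, z, hz⟩
      exact ⟨Sum.elim y z, hext ((hl _).trans hy) ((hr _).trans hz)⟩
  rw [DG.hl_eq, DG.hl_eq, DG.hl_eq, DGAux_split Λ
    (B := (LinearMap.range (G.on N).d).comap r) fun x hx => ((hB x).1 hx.2).2, add_comm]
  congr 1
  · refine DGAux_eq Λ l (fun x hx => ((hZ x).1 hx.1).1) (fun y hy => ⟨Sum.elim y 0,
      ⟨(hZ _).2 ⟨hy, zero_mem _⟩, zero_mem (LinearMap.range (G.on N).d)⟩, ?_⟩)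
      fun x hx => ⟨fun h => (hB x).2 ⟨h, hx.2⟩, fun h => ((hB x).1 h).1⟩
    exact (congrArg (· ∈ _) (sub_self y)).mpr (zero_mem _)
  · refine DGAux_eq Λ r (fun x hx => ((hZ x).1 hx).2) (fun y hy => ⟨Sum.elim 0 y,
      (hZ _).2 ⟨zero_mem _, hy⟩, ?_⟩) fun x _ => Iff.rfl
    exact (congrArg (· ∈ _) (sub_self y)).mpr (zero_mem _)

theorem h_sum (Λ : Len R) {N : Type u} [AddCommGroup N] [Module R N] (F G : Cx R) :
    ((F.sum G).on N).h Λ = (F.on N).h Λ + (G.on N).h Λ := by
  obtain ⟨L, h1, h2, h3⟩ := DG.exists_bound3 (F.on N) ((F.sum G).on N) (G.on N)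
  rw [DG.h_eq_sum Λ h1, DG.h_eq_sum Λ h2, DG.h_eq_sum Λ h3, ← Finset.sum_add_distrib]
  exact Finset.sum_congr rfl fun i _ => hl_sum Λ F G i

section FBC
variable {A : Type u} [CommRing A] [Algebra A R] (L : Type u) [AddCommGroup L] [Module R L]
  [Module A L] [IsScalarTower A R L] [Module.Flat A L] (F : Cx A)

theorem killsH_map_flat {c : A} {i : ℕ} (h : (F.on A).KillsH c i) :
    ((F.map (algebraMap A R)).on L).KillsH (algebraMap A R c) i :=
  (ResAux_on (L := L) F (TensorProduct.AlgebraTensorModule.rid A R L)).killsH h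

theorem hl_map_flat [IsLocalRing A] (Λ : Len R) {i : ℕ} (h : (F.on A).hl (Len.len A) i ≠ ⊤) :
    ((F.map (algebraMap A R)).on L).hl Λ i = (F.on A).hl (Len.len A) i *
      Λ.val (L ⧸ (maximalIdeal A).map (algebraMap A R) • (⊤ : Submodule R L)) :=
  (ResAux_on (L := L) F (TensorProduct.AlgebraTensorModule.rid A R L)).hl Λ h

end FBC

theorem Res_len_one (R : Type u) [CommRing R] [IsLocalRing R] :
    (Len.len R).val (R ⧸ maximalIdeal R) = 1 := by
  have : IsSimpleModule R (R ⧸ maximalIdeal R) :=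
    isSimpleModule_iff_isCoatom.2 (Ideal.isMaximal_def.1 (maximalIdeal.isMaximal R))
  show ((Module.length R (R ⧸ maximalIdeal R) : ℕ∞) : ℝ≥0∞) = 1
  rw [Module.length_eq_one, ENat.toENNReal_one]

/-- flat base change with cyclic coefficients. -/
theorem hl_map_flat_quot [IsLocalRing R] (R' : Type u) [CommRing R'] [IsLocalRing R'] [Algebra R R']
    [Module.Flat R R'] (hm : (maximalIdeal R).map (algebraMap R R') = maximalIdeal R') (F : Cx R)
    (I : Ideal R) {i : ℕ} (h : (F.on (R ⧸ I)).hl (Len.len R) i ≠ ⊤) :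
    ((F.map (algebraMap R R')).on (R' ⧸ I.map (algebraMap R R'))).hl (Len.len R') i =
      (F.on (R ⧸ I)).hl (Len.len R) i := by
  rw [(ResAux_on (L := R') F
    (Algebra.TensorProduct.quotIdealMapEquivTensorQuot R' I).toLinearEquiv.symm).hl _ h, hm,
    (Len.len R').congr (Submodule.quotEquivOfEq _ (maximalIdeal R')
      (by rw [smul_eq_mul, Ideal.mul_top])), Res_len_one, mul_one]

end Cx

/-- all complexes supported on `a` have homology of finite size. -/
def Thick (Λ : Len R) (N : Type u) [AddCommGroup N] [Module R N] (a : Ideal R) : Prop :=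
  ∀ F : Cx R, a ≤ (F.Null ⊔ Module.annihilator R N).radical → (F.on N).h Λ ≠ ⊤

theorem Res_rad {a J K : Ideal R} (h : a ≤ (J ⊔ K).radical) :
    (a ⊔ K).radical ≤ (J ⊔ K).radical :=
  Ideal.radical_le_radical_iff.2 (sup_le h (le_sup_right.trans Ideal.le_radical))

theorem thick_of_kosL (Λ : Len R) {N : Type u} [AddCommGroup N] [Module R N] (a : Ideal R)
    (w : List R) (hw : ∀ z ∈ w, z ∈ (a ⊔ Module.annihilator R N).radical)
    (h : (((Cx.pt R).kosL w).on N).h Λ ≠ ⊤) : Thick Λ N a := fun F hF =>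
  F.h_ne_top_of_thick Λ w (fun z hz => Res_rad hF (hw z hz)) h

theorem thick_of_finite [IsLocalRing R] [IsNoetherianRing R] (N : Type u) [AddCommGroup N]
    [Module R N] [Module.Finite R N] (a : Ideal R)
    (h : maximalIdeal R ≤ (a ⊔ Module.annihilator R N).radical) : Thick (Len.len R) N a := by
  intro F hF
  obtain ⟨k, hk⟩ := Ideal.exists_pow_le_of_le_radical_of_fg (h.trans (Res_rad hF))
    (IsNoetherian.noetherian (maximalIdeal R))
  let A : Submodule R (F.ι → N) := LinearMap.ker (mact F.d N)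
  have h1 : (Len.len R).rel A (maximalIdeal R • A) ≠ ⊤ := by
    have : Module.Finite R (A.map (maximalIdeal R • A).mkQ) :=
      Module.Finite.iff_fg.2 (IsNoetherian.noetherian _)
    obtain ⟨r, v, hv⟩ := Module.Finite.exists_fin (R := R) (M := A.map (maximalIdeal R • A).mkQ)
    refine ne_top_of_le_ne_top ?_ ((Len.len R).le_of_span v hv (maximalIdeal R) fun a ha i => ?_)
    · rw [Cx.Res_len_one, mul_one]
      exact ENNReal.natCast_ne_top r
    · obtain ⟨_, x, hx, rfl⟩ := v i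
      exact Subtype.ext ((Submodule.Quotient.mk_eq_zero _).2 (Submodule.smul_mem_smul ha hx))
  refine ne_top_of_le_ne_top ((Len.len R).rel_ideal_pow_ne_top _ (IsNoetherian.noetherian _) k A h1)
    ((Len.len R).rel_mono le_rfl (Submodule.smul_le.2 fun a ha x hx => ?_))
  obtain ⟨b, hb, c, hc, rfl⟩ := Submodule.mem_sup.1 (hk ha)
  have h2 : c • x = 0 := funext fun j => Module.mem_annihilator.1 hc (x j)
  rw [add_smul, h2, add_zero]
  exact Cx.cx_range_of_mem_Null hb x hx

theorem Thick.mono {Λ : Len R} {N : Type u} [AddCommGroup N] [Module R N] {a b : Ideal R}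
    (h : Thick Λ N a) (hab : a ≤ (b ⊔ Module.annihilator R N).radical) : Thick Λ N b := fun F hF => h F (hab.trans (Res_rad hF))

end Vale.Agent.P177
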