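import Vale.Agent.P177.Diag
import Vale.Agent.P177.Flat
import Vale.Agent.P177.Res

/-! Vanishing and positivity over a complete algebra. -/

namespace Vale.Agent.P177

open scoped ENNReal
open IsLocalRing RingTheory.Sequence Vale.Agent.P202

universe u

/-- almost regular system of parameters modulo `Q`. -/
structure YData {S : Type u} [CommRing S] [IsLocalRing S] (Q : Ideal S) (y : List S) : Prop where
  mem : ∀ a ∈ y, a ∈ maximalIdeal S
  rad : maximalIdeal S ≤ (Q ⊔ Ideal.ofList y).radical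
  low : ∀ M : ℕ, ((M ^ y.length : ℕ) : ℕ∞) ≤
    Module.length S (S ⧸ (Q ⊔ Ideal.ofList (y.map (· ^ M))))
  kill : ∃ (c : S) (y' : List S), y'.length < y.length ∧ (∀ a ∈ y', a ∈ maximalIdeal S) ∧
    maximalIdeal S ≤ (Q ⊔ Ideal.span {c} ⊔ Ideal.ofList y').radical ∧
    ∀ M i : ℕ, 1 ≤ M → 0 < i → (((Cx.pt S).kosL (y.map (· ^ M))).on (S ⧸ Q)).KillsH c i

/-- almost regular system of parameters of an algebra over `V`. -/
structure ZData {V Bt : Type u} [CommRing V] [IsLocalRing V] [CommRing Bt] (ι : V →+* Bt)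
    (n : Ideal Bt) (Λ : Len Bt) (z : List Bt) : Prop where
  mem : ∀ a ∈ z, a ∈ n.radical
  rad : n ≤ (Ideal.ofList z ⊔ (maximalIdeal V).map ι).radical
  flat : ∀ M : ℕ, 1 ≤ M → ((Ideal.Quotient.mk (Ideal.ofList (z.map (· ^ M)))).comp ι).Flat
  low : ∃ ε : ℝ≥0∞, ε ≠ 0 ∧ ∀ M : ℕ, 1 ≤ M → ε * (M : ℝ≥0∞) ^ z.length ≤
    Λ.val (Bt ⧸ (Ideal.ofList (z.map (· ^ M)) ⊔ (maximalIdeal V).map ι))
  kill : ∃ (c : Bt) (z' : List Bt), z'.length < z.length ∧ (∀ a ∈ z', a ∈ n.radical) ∧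
    n ≤ (Ideal.span {c} ⊔ Ideal.ofList z' ⊔ (maximalIdeal V).map ι).radical ∧
    ∀ M i : ℕ, 1 ≤ M → 0 < i → (((Cx.pt Bt).kosL (z.map (· ^ M))).on Bt).KillsH c i

theorem AmpR_rad {R S : Type u} [CommRing R] [CommRing S] (f : R →+* S) (J : Ideal S)
    {I K : Ideal R} (h1 : K ≤ I.radical) (h2 : I ≤ J.radical.comap f) :
    K.radical ≤ J.radical.comap f := by
  rw [Ideal.comap_radical] at h2 ⊢
  have h3 := Ideal.radical_mono h1
  have h4 := Ideal.radical_mono h2
  rw [Ideal.radical_idem] at h3 h4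
  exact h3.trans h4

theorem AmpR_list {R S : Type u} [CommRing R] [CommRing S] (f : R →+* S) {J : Ideal S}
    {l : List R} (h : Ideal.ofList (l.map f) ≤ J) : Ideal.ofList l ≤ J.radical.comap f := by
  rw [← Ideal.map_ofList, Ideal.map_le_iff_le_comap] at h
  exact h.trans (Ideal.comap_mono Ideal.le_radical)

theorem AmpR_null {R S : Type u} [CommRing R] [CommRing S] (f : R →+* S) {J : Ideal S} (F : Cx R)
    {Q : Ideal R} (hF : Q ≤ F.Null.radical) (h : (F.map f).Null ≤ J) :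
    Q ≤ J.radical.comap f :=
  Ideal.le_radical.trans (AmpR_rad f J hF ((Ideal.map_le_iff_le_comap.1
    ((F.map_Null_le f).trans h)).trans (Ideal.comap_mono Ideal.le_radical)))

theorem AmpR_lift {S B : Type u} [CommRing S] [CommRing B] (ev : S →+* B)
    (hs : Function.Surjective ev) {J : Ideal S} (hk : RingHom.ker ev ≤ J) {z : S}
    (hz : ev z ∈ (J.map ev).radical) : z ∈ J.radical := by
  obtain ⟨k, h⟩ := hz
  refine ⟨k, ?_⟩
  rw [← map_pow, ← Ideal.mem_comap, Ideal.comap_map_of_surjective ev hs] at h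
  exact sup_le le_rfl hk h

theorem AmpR_card {R : Type u} [CommRing R] (F : Cx R) (as : List R) :
    Fintype.card (F.kosL as).ι = 2 ^ as.length * Fintype.card F.ι := by
  induction as with
  | nil => exact (one_mul _).symm
  | cons a as ih =>
    refine (Fintype.card_sum (α := (F.kosL as).ι) (β := (F.kosL as).ι)).trans ?_
    rw [ih, List.length_cons]
    ring

theorem AmpR_qq {R : Type u} [CommRing R] (Λ : Len R) (I J : Ideal R) :
    Λ.val ((R ⧸ I) ⧸ J • (⊤ : Submodule R (R ⧸ I))) = Λ.val (R ⧸ (I ⊔ J)) := by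
  have h : J • (⊤ : Submodule R (R ⧸ I)) = Submodule.map (Submodule.mkQ I) J := by
    rw [← Submodule.range_mkQ I, ← Submodule.map_top, ← Submodule.map_smul'', smul_eq_mul,
      Ideal.mul_top]
  rw [h]
  exact Λ.congr (Submodule.quotientQuotientEquivQuotientSup I J)

theorem AmpR_smul_top {R : Type u} [CommRing R] (I : Ideal R) :
    I • (⊤ : Submodule R R) = I := by rw [smul_eq_mul, Ideal.mul_top]

theorem AmpR_kills {A S : Type u} [CommRing A] [CommRing S] (μ : A →+* S) (I : Ideal S)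
    (hf : ((Ideal.Quotient.mk I).comp μ).Flat) (F : Cx A) {c : A} {i : ℕ}
    (h : (F.on A).KillsH c i) :
    ((F.map μ).on (S ⧸ I • (⊤ : Submodule S S))).KillsH (μ c) i := by
  rw [AmpR_smul_top]
  let := μ.toAlgebra
  have : Module.Flat A (S ⧸ I) := RingHom.flat_algebraMap_iff.1 hf
  exact Cx.killsH_map_flat (S ⧸ I) F h

theorem AmpR_hl {A S : Type u} [CommRing A] [IsLocalRing A] [CommRing S] (μ : A →+* S)
    (I : Ideal S) (hf : ((Ideal.Quotient.mk I).comp μ).Flat) (F : Cx A) (Λ : Len S) {i : ℕ}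
    (h : (F.on A).hl (Len.len A) i ≠ ⊤) :
    ((F.map μ).on (S ⧸ I • (⊤ : Submodule S S))).hl Λ i =
      (F.on A).hl (Len.len A) i * Λ.val (S ⧸ (I ⊔ (maximalIdeal A).map μ)) := by
  rw [AmpR_smul_top, ← AmpR_qq]
  let := μ.toAlgebra
  have : Module.Flat A (S ⧸ I) := RingHom.flat_algebraMap_iff.1 hf
  exact Cx.hl_map_flat (S ⧸ I) F Λ h

theorem AmpR_flat {V Bt : Type u} [CommRing V] [IsNoetherianRing V] [CommRing Bt] (d : ℕ)
    (ι : V →+* Bt) (w : List Bt) (h : ((Ideal.Quotient.mk (Ideal.ofList w)).comp ι).Flat) :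
    ((Ideal.Quotient.mk (Ideal.ofList (w.map (MvPowerSeries.C : Bt →+* PS Bt d)))).comp
      (MvPowerSeries.map (σ := Fin d) ι)).Flat := by
  have h1 := flat_ps_map _ h d
  rw [MvPowerSeries.map_comp] at h1
  have hs := ps_map_surjective (Ideal.Quotient.mk (Ideal.ofList w)) Ideal.Quotient.mk_surjective d
  let e := (Ideal.quotEquivOfEq (ker_ps_map_ofList (d := d) w).symm).trans
    (RingHom.quotientKerEquivOfSurjective hs)
  rw [← RingHom.Flat.comp_iff_of_bijective_left (g := e.toRingHom) e.bijective]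
  exact h1

theorem AmpR_cc {Bt : Type u} [CommRing Bt] {d : ℕ} (Λ : Len Bt) (J : Ideal (PS Bt d))
    (J0 : Ideal Bt) (h : J ≤ J0.comap MvPowerSeries.constantCoeff) :
    Λ.val (Bt ⧸ J0) ≤ (Λ.res (MvPowerSeries.C : Bt →+* PS Bt d)).val (PS Bt d ⧸ J) := by
  have h1 := (Λ.res (MvPowerSeries.C : Bt →+* PS Bt d)).res_quot
    (MvPowerSeries.constantCoeff : PS Bt d →+* Bt) (fun b => ⟨MvPowerSeries.C b, rfl⟩) J0
  rw [Len.res_res, MvPowerSeries.constantCoeff_comp_C, Len.res_id] at h1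
  rw [h1]
  exact Len.le_of_surjective _ (Submodule.factor h) (Submodule.factor_surjective h)

theorem AmpR_max {V : Type u} [CommRing V] [IsLocalRing V] {d : ℕ} (j : Fin d) :
    (MvPowerSeries.X j : PS V d) ∈ maximalIdeal (PS V d) := by
  rw [mxps_mem_max, MvPowerSeries.constantCoeff_X]
  exact zero_mem _

theorem AmpR_graph_length {Bt : Type u} [CommRing Bt] {d : ℕ} (x : Fin d → Bt) :
    (graph x).length = d := by simp [graph]

/-- the support of a complex on the product. -/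
theorem AmpR_supp {V Bt : Type u} [CommRing V] [IsLocalRing V] [CommRing Bt] {d : ℕ}
    (ι : V →+* Bt) {n : Ideal Bt} (J : Ideal (PS Bt d)) {I : Ideal (PS V d)} {K : Ideal Bt}
    (hI : maximalIdeal (PS V d) ≤ I.radical)
    (hI' : I ≤ J.radical.comap (MvPowerSeries.map (σ := Fin d) ι))
    (hK : n ≤ (K ⊔ (maximalIdeal V).map ι).radical)
    (hK' : K ≤ J.radical.comap (MvPowerSeries.C : Bt →+* PS Bt d)) {x : Fin d → Bt}
    (hx : ∀ j, x j ∈ n.radical) {t : List Bt} (ht : ∀ b ∈ t, b ∈ n.radical) :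
    ∀ a ∈ graph x ++ t.map (MvPowerSeries.C : Bt →+* PS Bt d), a ∈ J.radical := by
  have h1 := Ideal.le_radical.trans (AmpR_rad _ J hI hI')
  have h2 : n.radical ≤ J.radical.comap (MvPowerSeries.C : Bt →+* PS Bt d) := by
    refine AmpR_rad _ J hK (sup_le hK' (Ideal.map_le_iff_le_comap.2 fun v hv => ?_))
    have h3 : (MvPowerSeries.C v : PS V d) ∈ maximalIdeal (PS V d) := (mxps_mem_max _).2 hv
    have h4 := h1 h3
    rw [Ideal.mem_comap, MvPowerSeries.map_C] at h4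
    exact h4
  intro a ha
  rcases List.mem_append.1 ha with ha | ha
  · obtain ⟨j, rfl⟩ := List.mem_ofFn.1 ha
    have h4 := h1 (AmpR_max j)
    rw [Ideal.mem_comap, MvPowerSeries.map_X] at h4
    exact sub_mem h4 (h2 (hx j))
  · obtain ⟨b, hb, rfl⟩ := List.mem_map.1 ha
    exact h2 (ht b hb)

theorem AmpR_fin {S B : Type u} [CommRing S] [CommRing B] (ev : S →+* B) (s : B →+* S)
    (hC : ∀ b, ev (s b) = b) {N N0 : Type u} [AddCommGroup N] [Module S N] [AddCommGroup N0]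
    [Module B N0] (Λ : Len B) (Λ' : Len S) (us : List S)
    (hT : ∀ (G : Cx S) (i : ℕ), ((G.kosL us).on N).hl Λ' i = ((G.map ev).on N0).hl Λ i)
    {t : List B} (hfin : (((Cx.pt B).kosL t).on N0).h Λ ≠ ⊤) (H : Cx S)
    (h : ∀ a ∈ us ++ t.map s, a ∈ (H.Null ⊔ Module.annihilator S N).radical) :
    (H.on N).h Λ' ≠ ⊤ := by
  refine Cx.h_ne_top_of_thick Λ' H _ h ?_
  rw [Cx.kosL_append, DG.h_congr Λ' (hT _), Cx.map_kosL, Cx.map_pt, List.map_map]
  have : t.map (ev ∘ s) = t := by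
    conv_rhs => rw [← List.map_id t]
    exact List.map_congr_left fun b _ => hC b
  rw [this]
  exact hfin

variable {V Bt : Type u} [CommRing V] [IsLocalRing V] [CommRing Bt] {d : ℕ} (n : Ideal Bt)
  [IsAdicComplete n Bt] (ψ : PS V d →+* Bt) (hψ : (maximalIdeal (PS V d)).map ψ ≤ n.radical)
  (Λ : Len Bt) (Q : Ideal (PS V d)) (F : Cx (PS V d))
include hψ

omit [IsAdicComplete n Bt] in
theorem AmpR_x (j : Fin d) : ψ (MvPowerSeries.X j) ∈ n.radical :=
  hψ (Ideal.mem_map_of_mem ψ (AmpR_max j))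

theorem AmpR_setup : ∃ ev : PS Bt d →+* Bt, (∀ b, ev (MvPowerSeries.C b) = b) ∧
    ev.comp (MvPowerSeries.map (ψ.comp MvPowerSeries.C)) = ψ ∧
    RingHom.ker ev = Ideal.ofList (graph fun j => ψ (MvPowerSeries.X j)) ∧
    ∀ (a : Ideal Bt) (G : Cx (PS Bt d)) (i : ℕ),
      ((G.kosL (graph fun j => ψ (MvPowerSeries.X j))).on
        (PS Bt d ⧸ a.map (MvPowerSeries.C : Bt →+* PS Bt d))).hl (Λ.res MvPowerSeries.C) i =
        ((G.map ev).on (Bt ⧸ a)).hl Λ i := by
  obtain ⟨ev, h1, h2, h3, h4⟩ := exists_ev n _ (AmpR_x n ψ hψ)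
  refine ⟨ev, h1, ps_ext_of_complete n _ _ (fun v => ?_) (fun j => ?_) (fun j => ?_), h3,
    fun a G i => hl_graph ev h1 h3 a (h4 a) Λ G i⟩
  · rw [RingHom.comp_apply, MvPowerSeries.map_C, h1, RingHom.comp_apply]
  · rw [RingHom.comp_apply, MvPowerSeries.map_X, h2]
  · rw [RingHom.comp_apply, MvPowerSeries.map_X, h2]
    exact AmpR_x n ψ hψ j

omit [IsAdicComplete n Bt] in
theorem AmpR_mem {ev : PS Bt d →+* Bt} (h1 : ∀ b, ev (MvPowerSeries.C b) = b)
    (h2 : ev.comp (MvPowerSeries.map (ψ.comp MvPowerSeries.C)) = ψ) (J : Ideal (PS Bt d))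
    (hk : RingHom.ker ev ≤ J) {a : Ideal Bt} (hF : Q ≤ F.Null.radical)
    (hn : n ≤ (Q.map ψ ⊔ a).radical)
    (hJ : (F.map (MvPowerSeries.map (ψ.comp MvPowerSeries.C))).Null ≤ J)
    (ha : a.map MvPowerSeries.C ≤ J) {y : List (PS V d)}
    (hy : ∀ b ∈ y, b ∈ maximalIdeal (PS V d)) {w : List Bt} (hw : ∀ b ∈ w, b ∈ n.radical) :
    ∀ z ∈ w.map (MvPowerSeries.C : Bt →+* PS Bt d) ++
      y.map (MvPowerSeries.map (ψ.comp MvPowerSeries.C)), z ∈ J.radical := by
  have h3 : ∀ f, ev (MvPowerSeries.map (ψ.comp MvPowerSeries.C) f) = ψ f :=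
    fun f => RingHom.congr_fun h2 f
  have h4 : n.radical ≤ (J.map ev).radical := by
    have h5 : Q.map ψ ⊔ a ≤ (J.map ev).radical := by
      refine sup_le (Ideal.map_le_iff_le_comap.2 fun q hq => ?_) fun b hb => ?_
      · obtain ⟨k, hk⟩ := AmpR_null _ F hF hJ hq
        refine ⟨k, ?_⟩
        rw [← h3, ← map_pow]
        exact Ideal.mem_map_of_mem ev hk
      · rw [← h1 b]
        exact Ideal.le_radical (Ideal.mem_map_of_mem ev (ha (Ideal.mem_map_of_mem _ hb)))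
    exact AmpR_rad (RingHom.id Bt) _ hn h5
  intro z hz
  refine AmpR_lift ev (fun b => ⟨_, h1 b⟩) hk (h4 ?_)
  rcases List.mem_append.1 hz with hz | hz
  · obtain ⟨b, hb, rfl⟩ := List.mem_map.1 hz
    rw [h1]
    exact hw b hb
  · obtain ⟨b, hb, rfl⟩ := List.mem_map.1 hz
    rw [h3]
    exact hψ (Ideal.mem_map_of_mem ψ (hy b hb))

theorem chi_eq_zero_of_short (a : Ideal Bt) (hF : Q ≤ F.Null.radical)
    (hn : n ≤ (Q.map ψ ⊔ a).radical) (y : List (PS V d)) (hy : ∀ b ∈ y, b ∈ maximalIdeal (PS V d))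
    (hy' : maximalIdeal (PS V d) ≤ (Q ⊔ Ideal.ofList y).radical) (w : List Bt)
    (hw : ∀ b ∈ w, b ∈ n.radical)
    (hw' : n ≤ (a ⊔ Ideal.ofList w ⊔ (maximalIdeal V).map (ψ.comp MvPowerSeries.C)).radical)
    (hlt : y.length + w.length < d) (t : List Bt) (ht : ∀ b ∈ t, b ∈ n.radical)
    (hfin : (((Cx.pt Bt).kosL t).on (Bt ⧸ a)).h Λ ≠ ⊤) :
    ((F.map ψ).on (Bt ⧸ a)).chi Λ = 0 := by
  obtain ⟨ev, h1, h2, h3, h4⟩ := AmpR_setup n ψ hψ Λ
  have hA : Module.annihilator (PS Bt d) (PS Bt d ⧸ a.map (MvPowerSeries.C : Bt →+* PS Bt d)) =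
    a.map MvPowerSeries.C := Ideal.annihilator_quotient
  have hN := (F.map (MvPowerSeries.map (σ := Fin d) (ψ.comp MvPowerSeries.C))).le_Null_kosL
    (w.map MvPowerSeries.C ++ y.map (MvPowerSeries.map (ψ.comp MvPowerSeries.C)))
  rw [Ideal.ofList_append, sup_le_iff, sup_le_iff] at hN
  have h5 := (Cx.chi_kosL_eq_zero (Λ.res MvPowerSeries.C)
    (N := PS Bt d ⧸ a.map (MvPowerSeries.C : Bt →+* PS Bt d))
    (F.map (MvPowerSeries.map (ψ.comp MvPowerSeries.C))) (graph fun j => ψ (MvPowerSeries.X j))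
    (w.map MvPowerSeries.C ++ y.map (MvPowerSeries.map (ψ.comp MvPowerSeries.C)))
    (AmpR_mem n ψ hψ Q F h1 h2 _ (h3.le.trans (le_sup_left.trans le_sup_left)) hF hn
      (le_sup_right.trans le_sup_left) (hA.ge.trans le_sup_right) hy hw)
    (AmpR_fin ev MvPowerSeries.C h1 Λ _ _ (h4 a) hfin _
      (AmpR_supp (ψ.comp MvPowerSeries.C) _ hy'
        (sup_le (AmpR_null _ F hF (hN.1.trans le_sup_left)) (AmpR_list _ (hN.2.2.trans le_sup_left)))
        hw' (sup_le (Ideal.map_le_iff_le_comap.1 (hA.ge.trans (le_sup_right.trans Ideal.le_radical)))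
          (AmpR_list _ (hN.2.1.trans le_sup_left))) (AmpR_x n ψ hψ) ht))
    (by rw [AmpR_graph_length, List.length_append, List.length_map, List.length_map]; omega)).2
  rw [DG.chi_congr _ (h4 a _), Cx.map_map, h2] at h5
  exact h5

theorem chi_pos_of_data [IsNoetherianRing V] (hF : F.IsRes (PS V d ⧸ Q))
    (hn : n ≤ (Q.map ψ).radical) (y : List (PS V d)) (hy : YData Q y) (z : List Bt)
    (hz : ZData (ψ.comp MvPowerSeries.C) n Λ z) (hlen : y.length + z.length = d) (t : List Bt)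
    (ht : ∀ b ∈ t, b ∈ n.radical) (hfin : (((Cx.pt Bt).kosL t).on Bt).h Λ ≠ ⊤) :
    0 < ((F.map ψ).on Bt).chi Λ := by
  obtain ⟨ev, h1, h2, h3, h4⟩ := AmpR_setup n ψ hψ Λ
  have hT : ∀ (G : Cx (PS Bt d)) (i : ℕ),
      ((G.kosL (graph fun j => ψ (MvPowerSeries.X j))).on (PS Bt d)).hl (Λ.res MvPowerSeries.C) i =
        ((G.map ev).on Bt).hl Λ i := by
    intro G i
    have h5 := h4 ⊥ G i
    rw [Cx.hl_on_congr _ _ (Submodule.quotEquivOfEqBot _ Ideal.map_bot),
      Cx.hl_on_congr _ _ (Submodule.quotEquivOfEqBot _ rfl)] at h5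
    exact h5
  obtain ⟨ι, hι⟩ : ∃ ι, ι = ψ.comp MvPowerSeries.C := ⟨_, rfl⟩
  have hQ : Q ≤ F.Null.radical := hF.le_Null_quot.trans Ideal.le_radical
  have hm : ∀ J : Ideal (PS Bt d), Ideal.ofList (graph fun j => ψ (MvPowerSeries.X j)) ≤ J →
      (F.map (MvPowerSeries.map ι)).Null ≤ J → ∀ {y : List (PS V d)}
      (_ : ∀ b ∈ y, b ∈ maximalIdeal (PS V d)) {w : List Bt} (_ : ∀ b ∈ w, b ∈ n.radical),
      ∀ z ∈ w.map (MvPowerSeries.C : Bt →+* PS Bt d) ++ y.map (MvPowerSeries.map ι),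
        z ∈ J.radical := by
    intro J hJ hJ' y hy w hw
    subst hι
    exact AmpR_mem n ψ hψ Q F h1 h2 J (h3.le.trans hJ) (a := ⊥) hQ (by rwa [sup_bot_eq]) hJ'
      (Ideal.map_bot.le.trans bot_le) hy hw
  rw [← hι] at h2 hz
  have hx := AmpR_x n ψ hψ
  have hf : ∀ H : Cx (PS Bt d), ∀ {I : Ideal (PS V d)} {K : Ideal Bt},
      maximalIdeal (PS V d) ≤ I.radical →
      I ≤ (H.Null ⊔ Module.annihilator (PS Bt d) (PS Bt d)).radical.comap (MvPowerSeries.map ι) →
      n ≤ (K ⊔ (maximalIdeal V).map ι).radical →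
      K ≤ (H.Null ⊔ Module.annihilator (PS Bt d) (PS Bt d)).radical.comap MvPowerSeries.C →
      (H.on (PS Bt d)).h (Λ.res MvPowerSeries.C) ≠ ⊤ := fun H _ _ hI hI' hK hK' =>
    AmpR_fin ev MvPowerSeries.C h1 Λ _ _ hT hfin H (AmpR_supp ι _ hI hI' hK hK' hx ht)
  have hN : ∀ (G : Cx (PS Bt d)) (u v : List (PS Bt d)), G.Null ≤ (G.kosL (u ++ v)).Null ⊔
      Module.annihilator (PS Bt d) (PS Bt d) ∧ Ideal.ofList u ≤ (G.kosL (u ++ v)).Null ⊔
      Module.annihilator (PS Bt d) (PS Bt d) ∧ Ideal.ofList v ≤ (G.kosL (u ++ v)).Null ⊔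
      Module.annihilator (PS Bt d) (PS Bt d) := by
    intro G u v
    have h5 := G.le_Null_kosL (u ++ v)
    rw [Ideal.ofList_append, sup_le_iff, sup_le_iff] at h5
    exact ⟨h5.1.trans le_sup_left, h5.2.1.trans le_sup_left, h5.2.2.trans le_sup_left⟩
  have hpow : ∀ M : ℕ, (F.map (MvPowerSeries.map ι)).kosL
      ((z.map (MvPowerSeries.C : Bt →+* PS Bt d) ++ y.map (MvPowerSeries.map ι)).map (· ^ M)) =
      ((F.kosL (y.map (· ^ M))).map (MvPowerSeries.map ι)).kosL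
        ((z.map (· ^ M)).map (MvPowerSeries.C : Bt →+* PS Bt d)) := by
    intro M
    rw [List.map_append, Cx.kosL_append, Cx.map_kosL]
    simp only [List.map_map, Function.comp_def, map_pow]
  obtain ⟨c0, y', hy1, hy2, hy3, hy4⟩ := hy.kill
  obtain ⟨c1, z', hz1, hz2, hz3, hz4⟩ := hz.kill
  obtain ⟨ε, hε, hlow⟩ := hz.low
  have h5 := (Cx.chi_kosL_pos (Λ.res MvPowerSeries.C) (N := PS Bt d)
    (F.map (MvPowerSeries.map ι)) (graph fun j => ψ (MvPowerSeries.X j))
    (z.map MvPowerSeries.C ++ y.map (MvPowerSeries.map ι))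
    (by rw [AmpR_graph_length, List.length_append, List.length_map, List.length_map]; omega)
    (hm _ (le_sup_left.trans le_sup_left) (le_sup_right.trans le_sup_left) hy.mem hz.mem)
    (fun a ha => AmpR_supp ι _ hy.rad
      (sup_le (AmpR_null _ F hQ (le_sup_right.trans le_sup_left)) (AmpR_list _ ?_)) hz.rad
      (AmpR_list _ ?_) hx ht a (List.mem_append_left _ ha))
    (hf _ hy.rad (sup_le (AmpR_null _ F hQ (hN _ _ _).1) (AmpR_list _ (hN _ _ _).2.2)) hz.rad
      (AmpR_list _ (hN _ _ _).2.1))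
    (MvPowerSeries.map ι c0 ::
      List.replicate (2 ^ y.length * Fintype.card F.ι) (MvPowerSeries.C c1))
    (fun M i hM hi => ?_) (fun c hc => ?_) ε hε fun M hM => ?_).2
  · rw [DG.chi_congr _ (hT _), Cx.map_map, h2] at h5
    exact h5
  · rw [Ideal.ofList_append]
    exact le_sup_right.trans (le_sup_left.trans le_sup_left)
  · rw [Ideal.ofList_append]
    exact le_sup_left.trans (le_sup_left.trans le_sup_left)
  · rw [hpow, List.prod_cons, List.prod_replicate, mul_comm]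
    obtain ⟨φ, hφ⟩ := hF.exists_qIso (y.map (· ^ M))
    have h6 := Cx.killsH_kosL_of_quot ((F.kosL (y.map (· ^ M))).map (MvPowerSeries.map ι))
      (N := PS Bt d) ((z.map (· ^ M)).map (MvPowerSeries.C : Bt →+* PS Bt d))
      (c := MvPowerSeries.C c1) (fun j hj => by
        have h7 := killsH_ps (d := d) _ (hz4 M j hM hj)
        rwa [Cx.map_kosL, Cx.map_pt] at h7) i
      (AmpR_kills _ _ (AmpR_flat d ι _ (hz.flat M hM)) _ ((hφ.killsH c0 i).2 (hy4 M i hM hi)))
    have h8 : Fintype.card ((F.kosL (y.map (· ^ M))).map (MvPowerSeries.map (σ := Fin d) ι)).ι =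
        2 ^ y.length * Fintype.card F.ι := by
      rw [← List.length_map (as := y) (· ^ M)]
      exact AmpR_card F _
    rwa [h8] at h6
  · have hk := (F.map (MvPowerSeries.map (σ := Fin d) ι)).Null_le_kos c
    have hk' := (F.map (MvPowerSeries.map (σ := Fin d) ι)).mem_Null_kos c
    rcases List.mem_cons.1 hc with rfl | hc
    · refine ⟨z.map MvPowerSeries.C ++ y'.map (MvPowerSeries.map ι), ?_,
        hm _ (le_sup_left.trans le_sup_left) (hk.trans (le_sup_right.trans le_sup_left)) hy2 hz.mem,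
        hf _ hy3 (sup_le (sup_le (AmpR_null _ F hQ (hk.trans (hN _ _ _).1)) ?_)
          (AmpR_list _ (hN _ _ _).2.2)) hz.rad (AmpR_list _ (hN _ _ _).2.1)⟩
      · rw [AmpR_graph_length, List.length_append, List.length_map, List.length_map]
        omega
      · exact (Ideal.span_singleton_le_iff_mem _).2 (Ideal.le_radical ((hN _ _ _).1 hk'))
    · obtain rfl := List.eq_of_mem_replicate hc
      refine ⟨z'.map MvPowerSeries.C ++ y.map (MvPowerSeries.map ι), ?_,
        hm _ (le_sup_left.trans le_sup_left) (hk.trans (le_sup_right.trans le_sup_left)) hy.mem hz2,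
        hf _ hy.rad (sup_le (AmpR_null _ F hQ (hk.trans (hN _ _ _).1))
          (AmpR_list _ (hN _ _ _).2.2)) hz3 (sup_le ?_ (AmpR_list _ (hN _ _ _).2.1))⟩
      · rw [AmpR_graph_length, List.length_append, List.length_map, List.length_map]
        omega
      · exact (Ideal.span_singleton_le_iff_mem _).2 (Ideal.le_radical ((hN _ _ _).1 hk'))
  · obtain ⟨φ, hφ⟩ := hF.exists_qIso (y.map (· ^ M))
    have h6 : ((F.kosL (y.map (· ^ M))).on (PS V d)).hl (Len.len (PS V d)) 0 ≠ ⊤ := by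
      refine ne_top_of_le_ne_top (thick_of_finite (PS V d) (maximalIdeal (PS V d))
        (le_sup_left.trans Ideal.le_radical) _ ?_) (DG.hl_le_h _ _ 0)
      have h7 := (F.le_Null_kosL (y.map (· ^ M))).trans
        (le_sup_left (b := Module.annihilator (PS V d) (PS V d)))
      refine Ideal.le_radical.trans (AmpR_rad (RingHom.id _) _ hy.rad (sup_le
        (hF.le_Null_quot.trans (le_sup_left.trans (h7.trans Ideal.le_radical)))
        (Ideal.span_le.2 fun b hb => ⟨M, h7 (Ideal.mem_sup_right (Ideal.subset_span ?_))⟩)))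
      exact List.mem_map.2 ⟨b, hb, rfl⟩
    rw [hpow, Cx.hl_kosL_zero, AmpR_hl _ _ (AmpR_flat d ι _ (hz.flat M hM)) _ _ h6, hφ.hl_eq,
      Cx.hl_kosL_pt_zero, AmpR_qq, List.length_append, List.length_map, List.length_map, pow_add,
      ← mul_assoc, mul_comm]
    refine mul_le_mul' ?_ ((hlow M hM).trans (AmpR_cc Λ _ _ (sup_le ?_ ?_)))
    · have h7 := ENat.toENNReal_mono (hy.low M)
      rw [ENat.toENNReal_coe, Nat.cast_pow] at h7
      exact h7
    · rw [← Ideal.map_ofList, Ideal.map_le_iff_le_comap]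
      exact fun b hb => Ideal.mem_sup_left hb
    · refine Ideal.map_le_iff_le_comap.2 fun b hb => Ideal.mem_sup_right ?_
      rw [MvPowerSeries.constantCoeff_map]
      exact Ideal.mem_map_of_mem _ ((mxps_mem_max b).1 hb)

end Vale.Agent.P177
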