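import Vale.Agent.P177.Kos
import Vale.Agent.P177.Flat
import Vale.Agent.P202.MxPS

/-! Reduction to the diagonal. -/

namespace Vale.Agent.P177

open RingTheory.Sequence Vale.Agent.P202

universe u

variable {Bt : Type u} [CommRing Bt] {d : ℕ}

/-- the equations of the graph. -/
noncomputable def graph (x : Fin d → Bt) : List (PS Bt d) :=
  List.ofFn fun j => MvPowerSeries.X j - MvPowerSeries.C (x j)

theorem diag_mem_span_X (s : Set (Fin d)) (f : PS Bt d) :
    f ∈ Ideal.span ((MvPowerSeries.X : Fin d → PS Bt d) '' s) ↔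
      ∀ α : Fin d →₀ ℕ, (∀ i ∈ s, α i = 0) → MvPowerSeries.coeff α f = 0 := by
  have : Ideal.span ((MvPowerSeries.X : Fin d → PS Bt d) '' s) =
      monI MvPowerSeries.X ((fun i => Finsupp.single i 1) '' s) := by
    simp only [monI, Set.image_image, mon_single, pow_one]
  rw [this, mxps_mem_monI_iff (s.toFinite.image _)]
  simp [Finsupp.single_le_iff]

open Classical in
/-- division by a variable after dropping the earlier variables. -/
noncomputable def diagD (Bt : Type u) [CommRing Bt] (j : Fin d) : PS Bt d →ₗ[Bt] PS Bt d where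
  toFun g := fun α => if ∀ i, i < j → α i = 0 then
    MvPowerSeries.coeff (Finsupp.single j 1 + α) g else 0
  map_add' g g' := funext fun α => by
    by_cases h : ∀ i, i < j → α i = 0
    · exact (if_pos h).trans ((map_add _ _ _).trans
        (congrArg₂ (· + ·) (if_pos h).symm (if_pos h).symm))
    · exact (if_neg h).trans ((add_zero _).symm.trans
        (congrArg₂ (· + ·) (if_neg h).symm (if_neg h).symm))
  map_smul' c g := funext fun α => by
    by_cases h : ∀ i, i < j → α i = 0
    · exact (if_pos h).trans ((map_smul _ _ _).trans (congrArg (c * ·) (if_pos h).symm))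
    · exact (if_neg h).trans ((mul_zero c).symm.trans (congrArg (c * ·) (if_neg h).symm))

theorem diag_coeff_D (j : Fin d) (g : PS Bt d) (α : Fin d →₀ ℕ) (h : ∀ i, i < j → α i = 0) :
    MvPowerSeries.coeff α (diagD Bt j g) = MvPowerSeries.coeff (Finsupp.single j 1 + α) g :=
  if_pos h

theorem diag_coeff_D' (j : Fin d) (g : PS Bt d) (α : Fin d →₀ ℕ) (h : ¬ ∀ i, i < j → α i = 0) :
    MvPowerSeries.coeff α (diagD Bt j g) = 0 :=
  if_neg h

theorem diag_X_reg (a : Ideal Bt) (j : Fin d) (f : PS Bt d)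
    (h : MvPowerSeries.X j * f ∈ a.map (MvPowerSeries.C : Bt →+* PS Bt d) ⊔
      Ideal.span (MvPowerSeries.X '' {i | i < j})) :
    f ∈ a.map (MvPowerSeries.C : Bt →+* PS Bt d) ⊔
      Ideal.span (MvPowerSeries.X '' {i | i < j}) := by
  obtain ⟨g, hg, z, hz, e⟩ := Submodule.mem_sup.1 h
  have h0 : ∀ g : PS Bt d, g ∈ a.map (MvPowerSeries.C : Bt →+* PS Bt d) ↔
      g ∈ (a • ⊤ : Submodule Bt (PS Bt d)) := fun g => by
    rw [Ideal.smul_top_eq_map, Submodule.restrictScalars_mem, MvPowerSeries.c_eq_algebraMap]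
  have h1 : diagD Bt j g ∈ a.map (MvPowerSeries.C : Bt →+* PS Bt d) := by
    rw [h0] at hg ⊢
    have h2 := Submodule.mem_map_of_mem (f := diagD Bt j) hg
    rw [Submodule.map_smul''] at h2
    exact Submodule.smul_mono le_rfl le_top h2
  have h2 : diagD Bt j z = 0 := MvPowerSeries.ext fun α => by
    by_cases hα : ∀ i, i < j → α i = 0
    · rw [diag_coeff_D j z α hα]
      refine (diag_mem_span_X _ z).1 hz _ fun i (hi : i < j) => ?_
      rw [Finsupp.add_apply, hα i hi, Finsupp.single_eq_of_ne hi.ne]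
    · exact diag_coeff_D' j z α hα
  have h3 : diagD Bt j (MvPowerSeries.X j * f) = diagD Bt j g := by
    rw [← e, map_add, h2, add_zero]
  rw [← add_sub_cancel (diagD Bt j g) f]
  refine Submodule.add_mem_sup h1 ((diag_mem_span_X _ _).2 fun α hα => ?_)
  rw [map_sub, ← h3, diag_coeff_D j _ α hα, MvPowerSeries.X_def,
    MvPowerSeries.coeff_add_monomial_mul, one_mul, sub_self]

theorem diag_mem_smul {R : Type u} [CommRing R] (A J : Ideal R) (r : R) :
    Ideal.Quotient.mk A r ∈ (J • ⊤ : Submodule R (R ⧸ A)) ↔ r ∈ A ⊔ J := by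
  rw [Ideal.smul_top_eq_map, Submodule.restrictScalars_mem, sup_comm]
  exact Ideal.mem_quotient_iff_mem_sup

theorem diag_reg {R : Type u} [CommRing R] (A : Ideal R) (y : Fin d → R)
    (h : ∀ j f, y j * f ∈ A ⊔ Ideal.span (y '' {i | i < j}) →
      f ∈ A ⊔ Ideal.span (y '' {i | i < j})) : IsWeaklyRegular (R ⧸ A) (List.ofFn y) := by
  refine ⟨fun i hi => ?_⟩
  have hi' : i < d := by simpa using hi
  have h1 : Ideal.ofList ((List.ofFn y).take i) = Ideal.span (y '' {k | k < ⟨i, hi'⟩}) := by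
    refine congrArg Ideal.span (Set.ext fun r => ?_)
    simp only [Set.mem_ofPred_eq, List.mem_take_iff_getElem, List.getElem_ofFn, List.length_ofFn,
      Set.mem_image]
    constructor
    · rintro ⟨k, hk, rfl⟩
      exact ⟨⟨k, (lt_min_iff.1 hk).2⟩, (lt_min_iff.1 hk).1, rfl⟩
    · rintro ⟨k, hk, rfl⟩
      exact ⟨k, lt_min hk k.2, rfl⟩
  rw [isSMulRegular_quotient_iff_mem_of_smul_mem, h1, List.getElem_ofFn]
  intro z hz
  obtain ⟨z, rfl⟩ := Ideal.Quotient.mk_surjective z
  exact (diag_mem_smul _ _ _).2 (h _ z ((diag_mem_smul _ _ _).1 hz))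

/-- a filtration of the ring of power series. -/
def diagK (n : Ideal Bt) (d k : ℕ) : Ideal (PS Bt d) where
  carrier := {f | ∀ α : Fin d →₀ ℕ, α.degree < k → MvPowerSeries.coeff α f ∈ n ^ k}
  add_mem' hf hg α hα := by
    rw [map_add]
    exact add_mem (hf α hα) (hg α hα)
  zero_mem' α _ := by
    rw [map_zero]
    exact zero_mem _
  smul_mem' c f hf α hα := by
    rw [smul_eq_mul, MvPowerSeries.coeff_mul]
    refine Ideal.sum_mem _ fun p hp => Ideal.mul_mem_left _ _ (hf _ (lt_of_le_of_lt ?_ hα))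
    rw [← Finset.HasAntidiagonal.mem_antidiagonal.mp hp]
    exact Finsupp.degree_mono le_add_self

theorem diagK_anti (n : Ideal Bt) {k l : ℕ} (h : k ≤ l) : diagK n d l ≤ diagK n d k :=
  fun _ hf α hα => Ideal.pow_le_pow_right h (hf α (hα.trans_le h))

theorem diag_pow_le {n : Ideal Bt} {x : Fin d → Bt} (hx : ∀ j, x j ∈ n.radical) :
    ∃ L : ℕ, Ideal.span (Set.range x) ^ L ≤ n :=
  Ideal.exists_pow_le_of_le_radical_of_fg (Ideal.span_le.2 (Set.range_subset_iff.2 hx))
    (Submodule.fg_span (Set.finite_range x))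

theorem diag_shift (n : Ideal Bt) [IsAdicComplete n Bt] (x : Fin d → Bt)
    (hx : ∀ j, x j ∈ n.radical) :
    ∃ sh : PS Bt d →+* PS Bt d, (∀ b, sh (MvPowerSeries.C b) = MvPowerSeries.C b) ∧
      ∀ j, sh (MvPowerSeries.X j) = MvPowerSeries.X j + MvPowerSeries.C (x j) := by
  obtain ⟨L, hL⟩ := diag_pow_le hx
  have hdiv : ∀ k, (L + 1) * k / (L + 1) = k := fun k => Nat.mul_div_cancel_left k L.succ_pos
  have hanti : Antitone fun N => diagK n d (N / (L + 1)) := fun _ _ h =>
    diagK_anti n (Nat.div_le_div_right h)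
  refine exists_psMap_filt (fun N => diagK n d (N / (L + 1))) hanti (fun b hb => ?_)
    (fun b hb => ?_) MvPowerSeries.C _ fun N => ?_
  · refine MvPowerSeries.ext fun α => flat_sep n _ fun k => ?_
    have h1 := hb ((L + 1) * (k + α.degree + 1))
    rw [hdiv] at h1
    exact Ideal.pow_le_pow_right (by omega) (h1 α (by omega))
  · have h1 : ∀ N M, N ≤ M → b M - b N ∈ diagK n d (N / (L + 1)) := fun N M h => by
      induction M, h using Nat.le_induction with
      | base => rw [sub_self]; exact zero_mem _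
      | succ M h ih =>
        rw [← sub_add_sub_cancel _ (b M)]
        exact add_mem (hanti h (hb M)) ih
    choose c hc using fun α : Fin d →₀ ℕ => flat_lim n
      (fun k => MvPowerSeries.coeff α (b ((L + 1) * (k + α.degree + 1)))) fun k => by
        have h2 := h1 ((L + 1) * (k + α.degree + 1)) ((L + 1) * (k + 1 + α.degree + 1))
          (Nat.mul_le_mul_left _ (by omega))
        rw [hdiv] at h2
        rw [← map_sub]
        exact Ideal.pow_le_pow_right (by omega) (h2 α (by omega))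
    obtain ⟨g, hg⟩ := mxps_exists c
    refine ⟨g, fun N α hα => ?_⟩
    have h2 : N ≤ (L + 1) * (N / (L + 1) + α.degree + 1) :=
      (Nat.lt_mul_div_succ N (Nat.add_one_pos L)).le.trans (Nat.mul_le_mul_left _ (by omega))
    rw [← sub_add_sub_cancel _ (b ((L + 1) * (N / (L + 1) + α.degree + 1))), map_add]
    refine add_mem ?_ (h1 _ _ h2 α hα)
    rw [map_sub, hg]
    exact hc α _
  · have h1 : Ideal.span (Set.range fun j => MvPowerSeries.X j + MvPowerSeries.C (x j)) ≤
        (Ideal.span (Set.range x)).map (MvPowerSeries.C : Bt →+* PS Bt d) ⊔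
          Ideal.span (Set.range MvPowerSeries.X) := by
      refine Ideal.span_le.2 (Set.range_subset_iff.2 fun j => ?_)
      rw [add_comm]
      exact Submodule.add_mem_sup (Ideal.mem_map_of_mem _ (Ideal.subset_span ⟨j, rfl⟩))
        (Ideal.subset_span ⟨j, rfl⟩)
    have h2 : L * (N / (L + 1)) + N / (L + 1) ≤ N := by
      have := Nat.mul_div_le N (L + 1)
      rwa [add_mul, one_mul] at this
    refine (Ideal.pow_right_mono h1 N).trans ((Ideal.pow_le_pow_right h2).trans
      (Ideal.sup_pow_add_le_pow_sup_pow.trans (sup_le ?_ fun f hf α hα => ?_)))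
    · rw [← Ideal.map_pow, Ideal.map_le_iff_le_comap, pow_mul]
      intro b hb α _
      rw [MvPowerSeries.coeff_C]
      split_ifs
      · exact Ideal.pow_right_mono hL _ hb
      · exact zero_mem _
    · rw [(mxps_mem_pow_iff f _).1 hf α hα]
      exact zero_mem _

theorem diag_eq_id (ψ : PS Bt d →+* PS Bt d) (hC : ∀ b, ψ (MvPowerSeries.C b) = MvPowerSeries.C b)
    (hX : ∀ j, ψ (MvPowerSeries.X j) = MvPowerSeries.X j) : ψ = RingHom.id _ := by
  refine psMap_unique_filt (Ideal.span (Set.range (MvPowerSeries.X : Fin d → PS Bt d)))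
    (fun b hb => MvPowerSeries.ext fun α => ?_) ψ (RingHom.id _) hC hX fun j => ?_
  · rw [(mxps_mem_pow_iff b _).1 (hb (α.degree + 1)) α (Nat.lt_succ_self _), map_zero]
  · rw [hX]
    exact Ideal.subset_span ⟨j, rfl⟩

theorem diag_map_sup (ψ : PS Bt d →+* PS Bt d)
    (hC : ∀ b, ψ (MvPowerSeries.C b) = MvPowerSeries.C b) (y z : Fin d → PS Bt d)
    (h : ∀ j, ψ (y j) = z j) (a : Ideal Bt) (s : Set (Fin d)) {f : PS Bt d}
    (hf : f ∈ a.map (MvPowerSeries.C : Bt →+* PS Bt d) ⊔ Ideal.span (y '' s)) :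
    ψ f ∈ a.map (MvPowerSeries.C : Bt →+* PS Bt d) ⊔ Ideal.span (z '' s) := by
  have h1 := Ideal.mem_map_of_mem ψ hf
  rwa [Ideal.map_sup, Ideal.map_map, show ψ.comp MvPowerSeries.C = MvPowerSeries.C from
    RingHom.ext hC, Ideal.map_span, Set.image_image, show (fun j => ψ (y j)) = z from
    funext h] at h1

theorem exists_ev (n : Ideal Bt) [IsAdicComplete n Bt] (x : Fin d → Bt)
    (hx : ∀ j, x j ∈ n.radical) :
    ∃ ev : PS Bt d →+* Bt, (∀ b, ev (MvPowerSeries.C b) = b) ∧ (∀ j, ev (MvPowerSeries.X j) = x j) ∧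
      RingHom.ker ev = Ideal.ofList (graph x) ∧ ∀ a : Ideal Bt,
        IsWeaklyRegular (PS Bt d ⧸ a.map (MvPowerSeries.C : Bt →+* PS Bt d)) (graph x) := by
  obtain ⟨s, hsC, hsX⟩ := diag_shift n x hx
  obtain ⟨t, htC, htX⟩ := diag_shift n (fun j => -x j) fun j => neg_mem (hx j)
  have ht : ∀ j, t (MvPowerSeries.X j) = MvPowerSeries.X j - MvPowerSeries.C (x j) := fun j => by
    rw [htX, map_neg, sub_eq_add_neg]
  have hs : ∀ j, s (MvPowerSeries.X j - MvPowerSeries.C (x j)) = MvPowerSeries.X j := fun j => by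
    rw [map_sub, hsX, hsC, add_sub_cancel_right]
  have hts : ∀ f, t (s f) = f := RingHom.congr_fun (diag_eq_id (t.comp s)
    (fun b => by rw [RingHom.comp_apply, hsC, htC])
    fun j => by rw [RingHom.comp_apply, hsX, map_add, ht, htC, sub_add_cancel])
  have hg : Ideal.ofList (graph x) = Ideal.span
      ((fun j => MvPowerSeries.X j - MvPowerSeries.C (x j)) '' Set.univ) :=
    congrArg Ideal.span (Set.ext fun r => by simp [graph, List.mem_ofFn])
  refine ⟨MvPowerSeries.constantCoeff.comp s, fun b => ?_, fun j => ?_, ?_, fun a => ?_⟩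
  · rw [RingHom.comp_apply, hsC, MvPowerSeries.constantCoeff_C]
  · rw [RingHom.comp_apply, hsX, map_add, MvPowerSeries.constantCoeff_X,
      MvPowerSeries.constantCoeff_C, zero_add]
  · rw [hg]
    refine le_antisymm (fun f hf => ?_) (Ideal.span_le.2 ?_)
    · have h1 := mxps_sub_C_mem (s f)
      rw [show MvPowerSeries.constantCoeff (s f) = 0 from hf, map_zero, sub_zero,
        ← Set.image_univ] at h1
      have h2 := diag_map_sup t htC _ _ ht ⊥ Set.univ (Ideal.mem_sup_right h1)
      rwa [hts, Ideal.map_bot, bot_sup_eq] at h2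
    · rintro _ ⟨j, -, rfl⟩
      show MvPowerSeries.constantCoeff (s _) = 0
      rw [hs, MvPowerSeries.constantCoeff_X]
  · refine diag_reg _ _ fun j f hf => ?_
    have h1 := diag_map_sup s hsC _ _ hs a _ hf
    rw [map_mul, hs] at h1
    have h2 := diag_map_sup t htC _ _ ht a _ (diag_X_reg a j _ h1)
    rwa [hts] at h2

theorem ps_ext_of_complete {V : Type u} [CommRing V] (n : Ideal Bt) [IsHausdorff n Bt]
    (ψ₁ ψ₂ : PS V d →+* Bt) (hC : ∀ v, ψ₁ (MvPowerSeries.C v) = ψ₂ (MvPowerSeries.C v))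
    (hX : ∀ j, ψ₁ (MvPowerSeries.X j) = ψ₂ (MvPowerSeries.X j))
    (hx : ∀ j, ψ₁ (MvPowerSeries.X j) ∈ n.radical) : ψ₁ = ψ₂ := by
  obtain ⟨L, hL⟩ := diag_pow_le hx
  refine psMap_unique_filt (Ideal.span (Set.range fun j => ψ₁ (MvPowerSeries.X j)))
    (fun b hb => flat_sep n b fun k => ?_) ψ₁ ψ₂ hC hX fun j => Ideal.subset_span ⟨j, rfl⟩
  have h1 := hb (L * k)
  rw [pow_mul] at h1
  exact Ideal.pow_right_mono hL k h1

theorem diag_equiv {M N L : Type u} [AddCommGroup M] [AddCommGroup N] [AddCommGroup L]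
    (p : M →+ N) (hp : Function.Surjective p) (q : M →+ L) (hq : Function.Surjective q)
    (h : p.ker = q.ker) : ∃ e : N ≃+ L, ∀ m, e (p m) = q m := by
  refine ⟨(QuotientAddGroup.quotientKerEquivOfSurjective p hp).symm.trans
    ((QuotientAddGroup.quotientAddEquivOfEq h).trans
      (QuotientAddGroup.quotientKerEquivOfSurjective q hq)), fun m => ?_⟩
  have h1 : (QuotientAddGroup.quotientKerEquivOfSurjective p hp).symm (p m) =
      QuotientAddGroup.mk m := (AddEquiv.symm_apply_eq _).2 rfl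
  rw [AddEquiv.trans_apply, h1]
  rfl

theorem hl_graph {x : Fin d → Bt} (ev : PS Bt d →+* Bt) (hC : ∀ b, ev (MvPowerSeries.C b) = b)
    (hk : RingHom.ker ev = Ideal.ofList (graph x)) (a : Ideal Bt)
    (ha : IsWeaklyRegular (PS Bt d ⧸ a.map (MvPowerSeries.C : Bt →+* PS Bt d)) (graph x))
    (Λ : Len Bt) (G : Cx (PS Bt d)) (i : ℕ) :
    ((G.kosL (graph x)).on (PS Bt d ⧸ a.map (MvPowerSeries.C : Bt →+* PS Bt d))).hl
      (Λ.res MvPowerSeries.C) i = ((G.map ev).on (Bt ⧸ a)).hl Λ i := by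
  have hev : Function.Surjective ev := fun b => ⟨_, hC b⟩
  have hc : ev.comp MvPowerSeries.C = RingHom.id Bt := RingHom.ext hC
  have h1 : (Λ.res (MvPowerSeries.C : Bt →+* PS Bt d)).res ev = Λ := Len.ext' fun Y _ _ => by
    rw [Len.res_res, hc, Len.res_id]
  let p := (Submodule.mkQ (Ideal.ofList (graph x) • (⊤ : Submodule (PS Bt d)
    (PS Bt d ⧸ a.map (MvPowerSeries.C : Bt →+* PS Bt d))))) ∘ₗ
      Submodule.mkQ (a.map (MvPowerSeries.C : Bt →+* PS Bt d))
  obtain ⟨e, he⟩ := diag_equiv p.toAddMonoidHom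
    ((Submodule.mkQ_surjective _).comp (Submodule.mkQ_surjective _))
    ((Ideal.Quotient.mk a).comp ev).toAddMonoidHom
    (Ideal.Quotient.mk_surjective.comp hev) (AddSubgroup.ext fun f => by
      refine ((Submodule.Quotient.mk_eq_zero _).trans (diag_mem_smul _ _ f)).trans
        (Iff.trans ?_ (Ideal.Quotient.eq_zero_iff_mem (I := a) (a := ev f)).symm)
      rw [← hk, RingHom.ker_eq_comap_bot, ← Ideal.comap_map_of_surjective ev hev, Ideal.map_map,
        hc, Ideal.map_id, Ideal.mem_comap])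
  rw [Cx.hl_kosL_of_reg _ G ha, ← Cx.hl_map _ ev G e (fun r z => ?_) i, h1]
  obtain ⟨z, rfl⟩ : ∃ f, p f = z :=
    (Submodule.mkQ_surjective _).comp (Submodule.mkQ_surjective _) z
  rw [← map_smul]
  refine (he (r • z)).trans (Eq.trans ?_ (congrArg (ev r • ·) (he z).symm))
  show Ideal.Quotient.mk a (ev (r * z)) = Ideal.Quotient.mk a (ev r * ev z)
  rw [map_mul ev]

theorem killsH_ps (G : Cx Bt) {c : Bt} {i : ℕ} (h : (G.on Bt).KillsH c i) :
    ((G.map (MvPowerSeries.C : Bt →+* PS Bt d)).on (PS Bt d)).KillsH (MvPowerSeries.C c) i := by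
  intro z hz
  obtain ⟨h1, h2⟩ := DG.kos_mem_Z.1 hz
  have h3 : ∀ (w : G.ι → PS Bt d) (α : Fin d →₀ ℕ) (b : G.ι), MvPowerSeries.coeff α
      (((G.map (MvPowerSeries.C : Bt →+* PS Bt d)).on (PS Bt d)).d w b) =
        (G.on Bt).d (fun b => MvPowerSeries.coeff α (w b)) b := fun w α b => by
    show MvPowerSeries.coeff α (∑ b', MvPowerSeries.C (G.d b b') * w b') =
      ∑ b', G.d b b' * MvPowerSeries.coeff α (w b')
    simp only [map_sum, MvPowerSeries.coeff_C_mul]
  choose y hy using fun α : Fin d →₀ ℕ => h (fun b => MvPowerSeries.coeff α (z b))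
    (DG.kos_mem_Z.2 ⟨funext fun b => (h3 z α b).symm.trans
      ((congrArg _ (congrFun h1 b)).trans (map_zero _)), funext fun b => by
      have h4 : (if G.deg b = i then z b else 0) = z b := congrFun h2 b
      show (if G.deg b = i then MvPowerSeries.coeff α (z b) else 0) = _
      split_ifs at h4 ⊢
      · rfl
      · rw [← h4, map_zero]⟩)
  choose w hw using fun b : G.ι => mxps_exists fun α => y α b
  refine ⟨w, funext fun b => MvPowerSeries.ext fun α => ?_⟩
  have h4 : (fun b => MvPowerSeries.coeff α (w b)) = y α := funext fun b => hw b α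
  exact (h3 w α b).trans ((congrFun ((congrArg _ h4).trans (hy α)) b).trans
    (MvPowerSeries.coeff_C_mul _ _ _).symm)

theorem ker_ps_map_ofList (w : List Bt) :
    RingHom.ker (MvPowerSeries.map (σ := Fin d) (Ideal.Quotient.mk (Ideal.ofList w))) =
      Ideal.ofList (w.map (MvPowerSeries.C : Bt →+* PS Bt d)) := by
  refine le_antisymm (fun f hf => ?_) (Ideal.span_le.2 fun r hr => ?_)
  · have h1 : Ideal.ofList w = Ideal.span (Set.range w.get) :=
      congrArg Ideal.span (Set.ext fun r => List.mem_iff_get)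
    have h2 : ∀ α, MvPowerSeries.coeff α f ∈ Ideal.span (Set.range w.get) := fun α => by
      rw [← h1, ← Ideal.Quotient.eq_zero_iff_mem, ← MvPowerSeries.coeff_map,
        show MvPowerSeries.map _ f = 0 from hf, map_zero]
    choose c hc using fun α => Ideal.mem_span_range_iff_exists_fun.1 (h2 α)
    choose g hg using fun k => mxps_exists fun α => c α k
    have h3 : f = ∑ k, MvPowerSeries.C (w.get k) * g k := MvPowerSeries.ext fun α => by
      simp only [map_sum, MvPowerSeries.coeff_C_mul, hg]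
      simp only [← hc α, mul_comm]
    rw [h3]
    exact Ideal.sum_mem _ fun k _ => Ideal.mul_mem_right _ _
      (Ideal.subset_span (List.mem_map_of_mem (List.get_mem w k)))
  · obtain ⟨b, hb, rfl⟩ := List.mem_map.1 hr
    show MvPowerSeries.map _ (MvPowerSeries.C b) = 0
    have h1 : b ∈ Ideal.ofList w := Ideal.subset_span hb
    rw [MvPowerSeries.map_C, Ideal.Quotient.eq_zero_iff_mem.2 h1, map_zero]

end Vale.Agent.P177
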