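import Vale.Agent.P202.MxFlat2

/-! Regular sequences modulo an ideal. -/

namespace Vale.Agent.P177

open RingTheory.Sequence Vale.Agent.P202

section Ring

variable {D : Type*} [CommRing D]

/-- `a` is a nonzero divisor modulo `J`. -/
def FlatRegNz (J : Ideal D) (a : D) : Prop := ∀ y, a * y ∈ J → y ∈ J

/-- weakly regular sequences modulo `J`. -/
def FlatRegRg : Ideal D → List D → Prop
  | _, [] => True
  | J, a :: w => FlatRegNz J a ∧ FlatRegRg (J ⊔ Ideal.span {a}) w

theorem FlatReg_take (w : List D) : ∀ J : Ideal D, FlatRegRg J w ↔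
    ∀ (i : ℕ) (h : i < w.length), FlatRegNz (J ⊔ Ideal.ofList (w.take i)) w[i] := by
  induction w with
  | nil => exact fun J => ⟨fun _ i h => absurd h (Nat.not_lt_zero i), fun _ => trivial⟩
  | cons a w ih =>
    intro J
    rw [FlatRegRg, ih]
    constructor
    · rintro ⟨h1, h2⟩ i hi
      cases i with
      | zero => simpa using h1
      | succ i =>
        have := h2 i (Nat.lt_of_succ_lt_succ hi)
        rwa [sup_assoc, ← Ideal.ofList_cons] at this
    · intro h
      refine ⟨by simpa using h 0 (Nat.succ_pos _), fun i hi => ?_⟩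
      rw [sup_assoc, ← Ideal.ofList_cons]
      exact h (i + 1) (Nat.succ_lt_succ hi)

theorem FlatReg_iff (w : List D) : IsWeaklyRegular D w ↔ FlatRegRg ⊥ w := by
  rw [FlatReg_take, isWeaklyRegular_iff]
  refine forall_congr' fun i => forall_congr' fun h => ?_
  rw [isSMulRegular_quotient_iff_mem_of_smul_mem, smul_eq_mul, Ideal.mul_top, bot_sup_eq]
  rfl

theorem FlatRegNz.pow {J : Ideal D} {a : D} (h : FlatRegNz J a) (n : ℕ) : FlatRegNz J (a ^ n) :=
  mxf2_reg h n

theorem FlatRegNz.of_pow {J : Ideal D} {a : D} {n : ℕ} (hn : 1 ≤ n) (h : FlatRegNz J (a ^ n)) :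
    FlatRegNz J a := by
  intro y hy
  obtain ⟨m, rfl⟩ := Nat.exists_eq_add_of_le' hn
  refine h y ?_
  rw [pow_succ, mul_assoc]
  exact J.mul_mem_left _ hy

theorem FlatRegNz.swap {J : Ideal D} {a b : D} (ha : FlatRegNz J a)
    (hb : FlatRegNz (J ⊔ Ideal.span {a}) b) : FlatRegNz (J ⊔ Ideal.span {b}) a := by
  intro x hx
  obtain ⟨c, hc⟩ := mxf2_mem.1 hx
  obtain ⟨e, he⟩ := mxf2_mem.1 (hb c (mxf2_mem.2 ⟨x, by
    rw [← neg_sub]; exact neg_mem hc⟩))
  refine mxf2_mem.2 ⟨e, ha _ ?_⟩
  have : a * (x - b * e) = (a * x - b * c) + b * (c - a * e) := by ring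
  rw [this]
  exact add_mem hc (J.mul_mem_left _ he)

theorem FlatRegNz.sup_pow {J : Ideal D} {a b : D} (ha : FlatRegNz J a)
    (hb : FlatRegNz (J ⊔ Ideal.span {a}) b) (n : ℕ) : FlatRegNz (J ⊔ Ideal.span {a ^ n}) b := by
  induction n with
  | zero => intro y _; simp
  | succ n ih =>
    intro y hy
    obtain ⟨c, hc⟩ := mxf2_mem.1 hy
    obtain ⟨e, he⟩ := mxf2_mem.1 (ih y (mxf2_mem.2 ⟨a * c, by rwa [← mul_assoc, ← pow_succ]⟩))
    have h1 : b * e - a * c ∈ J := by
      refine ha.pow n _ ?_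
      have : a ^ n * (b * e - a * c) = (b * y - a ^ (n + 1) * c) - b * (y - a ^ n * e) := by ring
      rw [this]
      exact sub_mem hc (J.mul_mem_left _ he)
    obtain ⟨g, hg⟩ := mxf2_mem.1 (hb e (mxf2_mem.2 ⟨c, h1⟩))
    refine mxf2_mem.2 ⟨g, ?_⟩
    have : y - a ^ (n + 1) * g = (y - a ^ n * e) + a ^ n * (e - a * g) := by ring
    rw [this]
    exact add_mem he (J.mul_mem_left _ hg)

theorem FlatReg_head {a : D} (u : List D) : ∀ J : Ideal D, FlatRegNz J a →
    FlatRegRg (J ⊔ Ideal.span {a}) u → FlatRegNz (J ⊔ Ideal.ofList u) a := by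
  induction u with
  | nil => intro J h _; simpa using h
  | cons b u ih =>
    intro J h1 h2
    rw [Ideal.ofList_cons, ← sup_assoc]
    refine ih _ (h1.swap h2.1) ?_
    rw [sup_right_comm]
    exact h2.2

theorem FlatReg_head_pow {a : D} (n : ℕ) (u : List D) : ∀ J : Ideal D, FlatRegNz J a →
    FlatRegRg (J ⊔ Ideal.span {a}) u → FlatRegRg (J ⊔ Ideal.span {a ^ n}) u := by
  induction u with
  | nil => exact fun _ _ _ => trivial
  | cons b u ih =>
    intro J h1 h2
    refine ⟨h1.sup_pow h2.1 n, ?_⟩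
    rw [sup_right_comm]
    refine ih _ (h1.swap h2.1) ?_
    rw [sup_right_comm]
    exact h2.2

theorem FlatReg_top (u : List D) : FlatRegRg ⊤ u := by
  induction u with
  | nil => trivial
  | cons b u ih => exact ⟨fun _ _ => trivial, by rwa [top_sup_eq]⟩

theorem FlatReg_pow (n : ℕ) (u : List D) : ∀ J : Ideal D, FlatRegRg J u →
    FlatRegRg J (u.map (· ^ n)) := by
  induction u with
  | nil => exact fun _ _ => trivial
  | cons b u ih => exact fun J h => ⟨h.1.pow n, FlatReg_head_pow n _ J h.1 (ih _ h.2)⟩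

/-- the first element is regular modulo the powers of the other ones. -/
theorem FlatReg_head_map {J : Ideal D} {a : D} {u : List D} (h : FlatRegRg J (a :: u)) (n : ℕ) :
    FlatRegNz (J ⊔ Ideal.ofList (u.map (· ^ n))) a :=
  FlatReg_head _ J h.1 (FlatReg_pow n u _ h.2)

theorem FlatReg_ofList_pow_le (u : List D) {I : Ideal D} (h : Ideal.ofList u ≤ I) (n : ℕ) :
    Ideal.ofList (u.map (· ^ n)) ≤ I ^ n := by
  refine Ideal.span_le.2 fun x hx => ?_
  obtain ⟨a, ha, rfl⟩ := List.mem_map.1 hx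
  exact Ideal.pow_mem_pow (h (Ideal.subset_span (s := {r | r ∈ u}) ha)) n

theorem FlatReg_comap {S : Type*} [CommRing S] (φ : D →+* S) (hφ : Function.Surjective φ)
    (u : List D) : ∀ J : Ideal S, FlatRegRg J (u.map φ) → FlatRegRg (J.comap φ) u := by
  induction u with
  | nil => exact fun _ _ => trivial
  | cons b u ih =>
    intro J h
    refine ⟨fun y hy => h.1 (φ y) (by rwa [Ideal.mem_comap, map_mul] at hy), ?_⟩
    have e : J.comap φ ⊔ Ideal.span {b} = (J ⊔ Ideal.span {φ b}).comap φ := by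
      ext x
      rw [Ideal.mem_comap, mxf2_mem, mxf2_mem, hφ.exists]
      simp only [Ideal.mem_comap, map_sub, map_mul]
    rw [e]
    exact ih _ h.2

end Ring

theorem FlatReg_qflat {A D : Type*} [CommRing A] [CommRing D] (f : A →+* D) (n : ℕ) (w : List A) :
    ∀ I : Ideal A, FlatRegRg (I.map f) (w.map f) → QFlat f (I ⊔ Ideal.ofList w) →
      QFlat f (I ⊔ Ideal.ofList (w.map (· ^ n))) := by
  induction w with
  | nil => exact fun _ _ h => h
  | cons a w ih =>
    intro I h1 h2
    rw [Ideal.ofList_cons, ← sup_assoc] at h2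
    have h3 := ih _ (by rw [mxf2_map]; exact h1.2) h2
    rw [sup_right_comm] at h3
    have h4 : FlatRegNz ((I ⊔ Ideal.ofList (w.map (· ^ n))).map f) (f a) := by
      have := FlatReg_head_map h1 n
      rw [Ideal.map_sup, Ideal.map_ofList, List.map_map]
      rw [List.map_map] at this
      have e : (⇑f ∘ fun x => x ^ n) = (fun x => x ^ n) ∘ ⇑f := funext fun x => map_pow f x n
      rwa [e]
    rw [List.map_cons, Ideal.ofList_cons, ← sup_assoc, sup_right_comm]
    have h5 : ∀ ν : ℕ, QFlat f (I ⊔ Ideal.ofList (w.map (· ^ n)) ⊔ Ideal.span {a ^ ν}) := by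
      intro ν
      induction ν with
      | zero => exact h3.mono (by simp)
      | succ ν ih' => exact mxf2_step _ a h4 h3 ν ih'
    exact h5 n

end Vale.Agent.P177
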