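import Vale.Agent.P177.Dim
import Vale.Agent.P202.MxPS
import Vale.Agent.P202.MxColon

/-! Regular local rings. -/

namespace Vale.Agent.P177

open IsLocalRing RingTheory.Sequence Vale.Agent.P202

universe u

variable {R : Type u} [CommRing R] [IsLocalRing R] {x : List R}

theorem reg_ofFn_iff {S : Type*} [CommRing S] {N : Type*} [AddCommGroup N] [Module S N] {D : ℕ}
    (y : Fin D → S) : IsWeaklyRegular N (List.ofFn y) ↔ ∀ (j : Fin D) (h : N),
      y j • h ∈ Ideal.span (y '' {i | i < j}) • (⊤ : Submodule S N) →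
        h ∈ Ideal.span (y '' {i | i < j}) • (⊤ : Submodule S N) := by
  have e : ∀ j : Fin D, Ideal.ofList ((List.ofFn y).take j) = Ideal.span (y '' {i | i < j}) := by
    intro j
    unfold Ideal.ofList
    congr 1
    ext a
    simp only [Set.mem_ofPred_eq, List.mem_take_iff_getElem, List.getElem_ofFn, List.length_ofFn,
      Set.mem_image]
    constructor
    · rintro ⟨i, hi, rfl⟩
      exact ⟨⟨i, by omega⟩, Fin.lt_def.2 (by simp only; omega), rfl⟩
    · rintro ⟨i, hi, rfl⟩
      exact ⟨i, by have := Fin.lt_def.1 hi; omega, rfl⟩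
  rw [isWeaklyRegular_iff]
  constructor
  · intro h j
    have := h j (by simp)
    rw [e, isSMulRegular_quotient_iff_mem_of_smul_mem] at this
    simpa using this
  · intro h i hi
    have hi' : i < D := by simpa using hi
    rw [e ⟨i, hi'⟩, isSMulRegular_quotient_iff_mem_of_smul_mem]
    simpa using h ⟨i, hi'⟩

theorem reg_cons_iff {S : Type*} [CommRing S] (a : S) (w : List S) :
    IsWeaklyRegular S (a :: w) ↔ IsSMulRegular S a ∧
      IsWeaklyRegular (S ⧸ Ideal.span {a}) (w.map (Ideal.Quotient.mk (Ideal.span {a}))) := by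
  rw [isWeaklyRegular_cons_iff, ← Ideal.Quotient.algebraMap_eq, isWeaklyRegular_map_algebraMap_iff]
  refine and_congr_right fun _ => LinearEquiv.isWeaklyRegular_congr
    (Submodule.quotEquivOfEq _ (Ideal.span {a}) ?_) w
  simp [← Submodule.ideal_span_singleton_smul]

theorem reg_dim_succ [IsNoetherianRing R] (I : Ideal R) {a : R} (ha : a ∈ maximalIdeal R) :
    dimNat (R ⧸ I) ≤ dimNat (R ⧸ (I ⊔ Ideal.span {a})) + 1 := by
  by_cases hI : I = ⊤
  · subst hI; rw [dim_top]; exact Nat.zero_le _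
  obtain ⟨w, hw, hs⟩ := exists_sop (I ⊔ Ideal.span {a}) (ne_top_of_le_ne_top
    (maximalIdeal.isMaximal R).ne_top (sup_le (le_maximalIdeal hI)
      ((Ideal.span_singleton_le_iff_mem _).2 ha)))
  rw [← hw]
  exact Sop.dimNat_le (w := a :: w) ⟨fun b hb => (List.mem_cons.1 hb).elim (· ▸ ha) (hs.mem b),
    by rw [Ideal.ofList_cons, ← sup_assoc]; exact hs.rad⟩

theorem reg_main (x : List R) [IsNoetherianRing R] (hx : Ideal.ofList x = maximalIdeal R)
    (hd : x.length ≤ dimNat R) : IsDomain R ∧ IsWeaklyRegular R x := by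
  induction hn : x.length generalizing R with
  | zero =>
    obtain rfl := List.length_eq_zero_iff.1 hn
    exact ⟨(isField_iff_maximalIdeal_eq.2 (by simpa using hx.symm)).isDomain, .nil R R⟩
  | succ n ih =>
    obtain ⟨a, w, rfl⟩ := List.exists_cons_of_length_eq_add_one hn
    simp only [List.length_cons, Nat.add_right_cancel_iff] at hn hd
    rw [Ideal.ofList_cons] at hx
    have ha : a ∈ maximalIdeal R := hx.le (Ideal.mem_sup_left (Ideal.mem_span_singleton_self a))
    have hw : ∀ b ∈ w, b ∈ maximalIdeal R := fun b hb =>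
      hx.le (Ideal.mem_sup_right (Ideal.subset_span hb))
    have hne : Ideal.span {a} ≠ ⊤ := ne_top_of_le_ne_top (maximalIdeal.isMaximal R).ne_top
      ((Ideal.span_singleton_le_iff_mem _).2 ha)
    have := dim_local hne
    have h1 := reg_dim_succ ⊥ ha
    rw [dimNat_quot_bot, bot_sup_eq] at h1
    obtain ⟨hdom, hreg⟩ := ih (w.map (Ideal.Quotient.mk (Ideal.span {a}))) (by
      rw [← map_maximalIdeal_of_surjective _ Ideal.Quotient.mk_surjective, ← hx, Ideal.map_sup,
        Ideal.map_quotient_self, bot_sup_eq, Ideal.map_ofList]) (by simp; omega) (by simpa)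
    have hpr : (Ideal.span {a}).IsPrime := (Ideal.Quotient.isDomain_iff_prime _).1 hdom
    have key : ∀ I : Ideal R, a ∈ I → dimNat (R ⧸ I) ≤ w.length := fun I hI =>
      Sop.dimNat_le ⟨hw, hx.ge.trans ((sup_le_sup_right
        ((Ideal.span_singleton_le_iff_mem _).2 hI) _).trans Ideal.le_radical)⟩
    obtain ⟨P, hP, -, hPd⟩ := exists_prime_dimNat (⊥ : Ideal R) bot_ne_top
    rw [dimNat_quot_bot] at hPd
    have haP : a ∉ P := fun h => by have := key P h; omega
    have hle : P ≤ Ideal.span {a} := by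
      by_contra hc
      have h2 := dimNat_quot_lt (P := Ideal.span {a}) (J := P ⊔ Ideal.span {a})
        (lt_of_le_of_ne le_sup_right fun e => hc (e ▸ le_sup_left))
        (ne_top_of_le_ne_top (maximalIdeal.isMaximal R).ne_top
          (sup_le (le_maximalIdeal hP.ne_top) (le_maximalIdeal hne)))
      have h3 := reg_dim_succ P ha
      have h4 := key _ (Ideal.mem_span_singleton_self a)
      omega
    have hbot : P = ⊥ := by
      refine Submodule.eq_bot_of_le_smul_of_le_jacobson_bot (maximalIdeal R) P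
        (IsNoetherian.noetherian _) (fun y hy => ?_) (maximalIdeal_le_jacobson _)
      obtain ⟨c, rfl⟩ := Ideal.mem_span_singleton.1 (hle hy)
      exact Submodule.smul_mem_smul ha ((hP.mem_or_mem hy).resolve_left haP)
    subst hbot
    have hD : IsDomain R := IsDomain.of_bot_isPrime R
    exact ⟨hD, (reg_cons_iff a w).2 ⟨IsSMulRegular.of_ne_zero (by simpa using haP), hreg⟩⟩

theorem exists_regL (R : Type u) [CommRing R] [IsRegularLocalRing R] :
    ∃ x : List R, RegL R x := by
  obtain ⟨s, hs, hspan⟩ := Submodule.FG.exists_span_finset_card_eq_spanFinrank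
    (IsNoetherian.noetherian (maximalIdeal R))
  have e : Ideal.ofList s.toList = maximalIdeal R := by
    rw [← hspan]; unfold Ideal.ofList Ideal.span; congr 1; ext a; simp
  have h := IsRegularLocalRing.spanFinrank_maximalIdeal (R := R)
  rw [← hs, dim_kd] at h
  exact ⟨s.toList, inferInstance, e, (reg_main s.toList e (by
    rw [Finset.length_toList]; exact_mod_cast h.le)).2⟩

theorem RegL.dimNat_eq (h : RegL R x) : dimNat R = x.length := by
  have := h.noeth
  have h1 := ringKrullDim_add_length_eq_ringKrullDim_of_isRegular x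
    ((isRegular_iff_isWeaklyRegular_of_subset_maximalIdeal fun a ha =>
      h.span.le (Ideal.subset_span ha)).2 h.reg)
  rw [h.span, dim_kd_quot (maximalIdeal.isMaximal R).ne_top, dimNat_quot_eq_zero_iff.2 rfl,
    dim_kd] at h1
  simpa using h1.symm

theorem RegL.isDomain (h : RegL R x) : IsDomain R :=
  have := h.noeth
  (reg_main x h.span h.dimNat_eq.ge).1

/-- systems of parameters are regular sequences. -/
theorem RegL.isWeaklyRegular (h : RegL R x) {w : List R} (hw : Sop ⊥ w)
    (hl : w.length = x.length) : IsWeaklyRegular R w := by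
  classical
  have := h.noeth
  obtain ⟨D, x, rfl⟩ : ∃ (D : ℕ) (y : Fin D → R), x = List.ofFn y :=
    ⟨_, x.get, (List.ofFn_get x).symm⟩
  obtain ⟨D', w, rfl⟩ : ∃ (D : ℕ) (y : Fin D → R), w = List.ofFn y :=
    ⟨_, w.get, (List.ofFn_get w).symm⟩
  obtain rfl : D' = D := by simpa using hl
  have hx := regPow_of_one x ((reg_ofFn_iff x).1 h.reg)
  have hwm : ∀ i, w i ∈ maximalIdeal R := fun i => hw.mem _ (by simp)
  refine (reg_ofFn_iff w).2 fun j g hg => ?_
  rw [smul_top_ideal] at hg ⊢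
  have key : ∀ N : ℕ, g ∈ Ideal.span (w '' {i | i < j}) ⊔ maximalIdeal R ^ N := by
    intro N
    let w' : Fin D' → R := fun i => if i ≤ j then w i else w i ^ (N + 1)
    have h1 := hx.colon_sop w' (fun i => ?_) j g ?_
    · rw [smul_top_ideal] at h1
      refine (Ideal.span_le.2 ?_ : _ ≤ Ideal.span (w '' {i | i < j}) ⊔ maximalIdeal R ^ N) h1
      rintro _ ⟨i, hi, rfl⟩
      by_cases hij : i ≤ j
      · exact Ideal.mem_sup_left (Ideal.subset_span ⟨i, lt_of_le_of_ne hij hi, by simp [w', hij]⟩)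
      · simp only [w', hij, if_false]
        exact Ideal.mem_sup_right (Ideal.pow_le_pow_right (Nat.le_succ N)
          (Ideal.pow_mem_pow (hwm i) _))
    · have h2 := hw.rad (h.span.le (Ideal.subset_span (show x i ∈ List.ofFn x by simp)))
      rw [bot_sup_eq] at h2
      refine (Ideal.radical_le_radical_iff.2 (Ideal.span_le.2 fun a ha => ?_)) h2
      obtain ⟨k, rfl⟩ := List.mem_ofFn.1 ha
      by_cases hk : k ≤ j
      · exact Ideal.le_radical (Ideal.subset_span ⟨k, by simp [w', hk]⟩)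
      · exact ⟨N + 1, Ideal.subset_span ⟨k, by simp [w', hk]⟩⟩
    · rw [smul_top_ideal]
      simp only [w', le_refl, if_true]
      refine Ideal.span_mono ?_ hg
      rintro _ ⟨i, hi, rfl⟩
      exact ⟨i, ne_of_lt hi, by simp [le_of_lt (show i < j from hi)]⟩
  have h3 := (maximalIdeal R).iInf_pow_smul_eq_bot_of_isLocalRing
    (M := R ⧸ Ideal.span (w '' {i | i < j})) (maximalIdeal.isMaximal R).ne_top
  rw [← Ideal.Quotient.eq_zero_iff_mem, ← Submodule.mem_bot R, ← h3, Submodule.mem_iInf]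
  intro N
  obtain ⟨a, ha, b, hb, rfl⟩ := Submodule.mem_sup.1 (key N)
  rw [map_add, Ideal.Quotient.eq_zero_iff_mem.2 ha, zero_add, ← mul_one b, ← smul_eq_mul]
  exact Submodule.smul_mem_smul hb (Submodule.mem_top (x := Ideal.Quotient.mk _ 1))

theorem reg_lt [IsNoetherianRing R] {I : Ideal R} (hI : I ≠ ⊤) {a : R} (ha : a ∈ maximalIdeal R)
    (h : ∀ P ∈ I.minimalPrimes, a ∉ P) : dimNat (R ⧸ (I ⊔ Ideal.span {a})) < dimNat (R ⧸ I) := by
  obtain ⟨P, hP, h1, h2⟩ := exists_prime_dimNat (I ⊔ Ideal.span {a}) (ne_top_of_le_ne_top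
    (maximalIdeal.isMaximal R).ne_top (sup_le (le_maximalIdeal hI)
      ((Ideal.span_singleton_le_iff_mem _).2 ha)))
  obtain ⟨P₀, h3, h4⟩ := Ideal.exists_minimalPrimes_le (le_sup_left.trans h1)
  have := h3.1.1
  have h5 := dimNat_quot_lt (lt_of_le_of_ne h4 fun e => h P₀ h3
    (e ▸ h1 (Ideal.mem_sup_right (Ideal.mem_span_singleton_self a)))) hP.ne_top
  have h6 := dimNat_quot_mono h3.1.2
  omega

theorem reg_avoid [IsNoetherianRing R] (t : ℕ) : ∀ I J : Ideal R, J ≤ I → I ≠ ⊤ →
    dimNat (R ⧸ I) = t → ∃ w : List R, w.length = t ∧ Sop I w ∧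
      dimNat (R ⧸ (J ⊔ Ideal.ofList w)) + t ≤ dimNat (R ⧸ J) := by
  induction t with
  | zero =>
    intro I J _ hI ht
    obtain ⟨w, hw, hs⟩ := exists_sop I hI
    exact ⟨w, hw.trans ht, hs, dimNat_quot_mono le_sup_left⟩
  | succ t ih =>
    intro I J hJI hI ht
    have hm : ∀ K : Ideal R, K ≤ I → maximalIdeal R ∉ K.minimalPrimes := fun K hK hm => by
      have h1 : dimNat (R ⧸ K) ≤ 0 := Sop.dimNat_le (w := []) ⟨by simp, by
        rw [Ideal.ofList_nil, sup_bot_eq, Ideal.radical_eq_sInf]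
        exact le_sInf fun q hq => hm.2 ⟨hq.2, hq.1⟩ (le_maximalIdeal hq.2.ne_top)⟩
      have := dimNat_quot_mono hK
      omega
    have hfin : (I.minimalPrimes ∪ J.minimalPrimes).Finite :=
      (Ideal.finite_minimalPrimes_of_isNoetherianRing R I).union
        (Ideal.finite_minimalPrimes_of_isNoetherianRing R J)
    obtain ⟨a, ha, hav⟩ : ∃ a ∈ maximalIdeal R, ∀ P ∈ I.minimalPrimes ∪ J.minimalPrimes, a ∉ P := by
      by_contra hc
      push Not at hc
      obtain ⟨P, hP, hle⟩ := (Ideal.subset_union_prime_finite hfin (f := id) ⊤ ⊤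
        (fun P hP _ _ => hP.elim (·.1.1) (·.1.1)) (I := maximalIdeal R)).1
        fun a ha => by simpa using hc a ha
      have hp : P.IsPrime := hP.elim (·.1.1) (·.1.1)
      obtain rfl : P = maximalIdeal R := le_antisymm (le_maximalIdeal hp.ne_top) hle
      exact hP.elim (hm I le_rfl) (hm J hJI)
    have h1 := reg_lt hI ha fun P hP => hav P (Or.inl hP)
    have h2 := reg_lt (ne_top_of_le_ne_top hI hJI) ha fun P hP => hav P (Or.inr hP)
    have h3 := reg_dim_succ I ha
    obtain ⟨w, hw, hs, hd⟩ := ih (I ⊔ Ideal.span {a}) (J ⊔ Ideal.span {a})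
      (sup_le_sup_right hJI _) (ne_top_of_le_ne_top (maximalIdeal.isMaximal R).ne_top
        (sup_le (le_maximalIdeal hI) ((Ideal.span_singleton_le_iff_mem _).2 ha))) (by omega)
    refine ⟨a :: w, by simp [hw], ⟨fun b hb => (List.mem_cons.1 hb).elim (· ▸ ha) (hs.mem b),
      by rw [Ideal.ofList_cons, ← sup_assoc]; exact hs.rad⟩, ?_⟩
    rw [Ideal.ofList_cons, ← sup_assoc]
    omega

theorem reg_local {S : Type*} [CommRing S] [IsNoetherianRing S] {I Q : Ideal S} [hQ : Q.IsPrime]
    (h : ∀ P : Ideal S, P.IsPrime → I ≤ P → P ≤ Q → P = Q) :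
    ∃ s ∉ Q, ∃ N : ℕ, Ideal.span {s} * Q ^ N ≤ I := by
  let f := algebraMap S (Localization.AtPrime Q)
  have h1 : Q ≤ ((I.map f).comap f).radical := by
    rw [← Ideal.comap_radical, Ideal.radical_eq_sInf, Ideal.comap_sInf]
    refine le_iInf₂ fun P ⟨h1, hP⟩ => (h _ (Ideal.comap_isPrime f P)
      (Ideal.map_le_iff_le_comap.1 h1) ?_).ge
    exact (Ideal.comap_mono (le_maximalIdeal hP.ne_top)).trans
      Localization.AtPrime.under_maximalIdeal.le
  obtain ⟨N, hN⟩ := Ideal.exists_pow_le_of_le_radical_of_fg h1 (IsNoetherian.noetherian _)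
  have key : ∀ A : Ideal S, A.FG → A ≤ (I.map f).comap f → ∃ s ∉ Q, Ideal.span {s} * A ≤ I := by
    intro A hA
    induction A, hA using Submodule.fg_induction with
    | singleton a =>
      intro ha
      obtain ⟨s, hs, hsa⟩ := (IsLocalization.algebraMap_mem_map_algebraMap_iff Q.primeCompl
        (Localization.AtPrime Q) I a).1 (ha (Submodule.mem_span_singleton_self a))
      exact ⟨s, hs, by
        rw [Ideal.submodule_span_eq, Ideal.span_singleton_mul_span_singleton,
          Ideal.span_singleton_le_iff_mem]; exact hsa⟩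
    | sup A B _ _ ihA ihB =>
      intro hAB
      obtain ⟨s, hs, h1⟩ := ihA (le_sup_left.trans hAB)
      obtain ⟨t, ht, h2⟩ := ihB (le_sup_right.trans hAB)
      refine ⟨s * t, fun hst => (hQ.mem_or_mem hst).elim hs ht, ?_⟩
      rw [Ideal.mul_sup, ← Ideal.span_singleton_mul_span_singleton]
      exact sup_le ((Ideal.mul_mono_left Ideal.mul_le_left).trans h1)
        ((Ideal.mul_mono_left Ideal.mul_le_right).trans h2)
  obtain ⟨s, hs, h2⟩ := key _ (IsNoetherian.noetherian _) hN
  exact ⟨s, hs, N, h2⟩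

/-- a regular sequence cutting out a prime generically. -/
theorem RegL.exists_seq (h : RegL R x) (Q : Ideal R) [Q.IsPrime] :
    ∃ y : List R, y.length + dimNat (R ⧸ Q) = x.length ∧ (∀ a ∈ y, a ∈ Q) ∧
      IsWeaklyRegular R y ∧ ∃ s ∉ Q, ∃ N : ℕ, Ideal.span {s} * Q ^ N ≤ Ideal.ofList y := by
  have := h.noeth
  have hQ : Q ≠ ⊤ := Ideal.IsPrime.ne_top ‹_›
  obtain ⟨w, hwl, hw, hwd⟩ := reg_avoid _ Q ⊥ bot_le hQ rfl
  rw [dimNat_quot_bot, h.dimNat_eq, bot_sup_eq] at hwd
  have hwm : Ideal.ofList w ≤ maximalIdeal R := Ideal.span_le.2 hw.mem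
  obtain ⟨z, hzl, hz⟩ := exists_sop (Ideal.ofList w)
    (ne_top_of_le_ne_top (maximalIdeal.isMaximal R).ne_top hwm)
  have hy : ∀ a ∈ maximalIdeal R, ∃ b ∈ Q, ∃ N : ℕ, a ^ N - b ∈ Ideal.ofList w := by
    intro a ha
    obtain ⟨N, hN⟩ := hw.rad ha
    obtain ⟨b, hb, c, hc, e⟩ := Submodule.mem_sup.1 hN
    exact ⟨b, hb, N, by rw [← e]; simpa using hc⟩
  choose! f hf N hN using hy
  have hyQ : ∀ a ∈ z.map f, a ∈ Q := fun a ha => by
    obtain ⟨b, hb, rfl⟩ := List.mem_map.1 ha
    exact hf b (hz.mem b hb)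
  have hrad : maximalIdeal R ≤ (Ideal.ofList (z.map f) ⊔ Ideal.ofList w).radical := by
    refine hz.rad.trans (Ideal.radical_le_radical_iff.2 (sup_le
      (le_sup_right.trans Ideal.le_radical) (Ideal.span_le.2 fun a ha => ⟨N a, ?_⟩)))
    rw [← add_sub_cancel (f a) (a ^ N a)]
    exact Submodule.add_mem_sup (Ideal.subset_span (List.mem_map_of_mem ha)) (hN a (hz.mem a ha))
  have hsop : Sop ⊥ (z.map f ++ w) := ⟨fun a ha => (List.mem_append.1 ha).elim
    (fun h => le_maximalIdeal hQ (hyQ a h)) (hw.mem a), by simpa using hrad⟩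
  have hle := hsop.dimNat_le
  rw [dimNat_quot_bot, h.dimNat_eq] at hle
  simp only [List.length_append, List.length_map] at hle
  refine ⟨z.map f, by simp; omega, hyQ, ((isWeaklyRegular_append_iff R _ _).1
    (h.isWeaklyRegular hsop (by simp; omega))).1, reg_local (fun P hP h1 h2 => ?_)⟩
  by_contra hne
  have h3 := dimNat_quot_lt (lt_of_le_of_ne h2 hne) hQ
  have h4 : dimNat (R ⧸ P) ≤ w.length :=
    Sop.dimNat_le ⟨hw.mem, hrad.trans (Ideal.radical_mono (sup_le_sup_right h1 _))⟩
  omega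

theorem RegL.of_flat (h : RegL R x) (R' : Type u) [CommRing R'] [IsLocalRing R']
    [IsNoetherianRing R'] [Algebra R R'] [Module.Flat R R']
    (hm : (maximalIdeal R).map (algebraMap R R') = maximalIdeal R') :
    RegL R' (x.map (algebraMap R R')) :=
  ⟨inferInstance, by rw [← Ideal.map_ofList, h.span, hm], h.reg.of_flat⟩

theorem reg_ofList_ofFn {S : Type*} [CommRing S] {D : ℕ} (y : Fin D → S) :
    Ideal.ofList (List.ofFn y) = Ideal.span (Set.range y) := by
  unfold Ideal.ofList; congr 1; ext a; simp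

theorem regL_ps_field (k : Type u) [Field k] (n : ℕ) :
    RegL (PS k n) (List.ofFn MvPowerSeries.X) := by
  refine ⟨inferInstance, ?_, (reg_ofFn_iff _).2 fun j f hf => ?_⟩
  · rw [← varIdeal_eq_maximalIdeal, reg_ofList_ofFn]; rfl
  · rw [smul_top_ideal] at hf ⊢
    simpa using X_pow_mul_mem 1 j f (by simpa using hf)

theorem regL_ps_pRing {p : ℕ} {V : Type u} [CommRing V] [IsLocalRing V] (h : IsPRing p V) (n : ℕ) :
    RegL (PS V n) ((p : PS V n) :: List.ofFn MvPowerSeries.X) := by
  have := h.isNoetherianRing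
  have e : (p : PS V n) :: List.ofFn MvPowerSeries.X = List.ofFn (pX p V n) := by simp [pX]
  rw [e]
  refine ⟨inferInstance, by rw [reg_ofList_ofFn, h.span_pX], (reg_ofFn_iff _).2 fun j f hf => ?_⟩
  rw [smul_top_ideal] at hf ⊢
  exact h.pX_reg n j f hf

/-- weakly regular sequences have weakly regular powers. -/
theorem isWeaklyRegular_pow {S : Type u} [CommRing S] {N : Type u} [AddCommGroup N] [Module S N]
    {w : List S} (h : IsWeaklyRegular N w) {M : ℕ} (hM : 1 ≤ M) :
    IsWeaklyRegular N (w.map (· ^ M)) := by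
  obtain ⟨D, w, rfl⟩ : ∃ (D : ℕ) (y : Fin D → S), w = List.ofFn y :=
    ⟨_, w.get, (List.ofFn_get w).symm⟩
  rw [List.map_ofFn]
  exact (reg_ofFn_iff _).2 (regPow_of_one w ((reg_ofFn_iff w).1 h) M)

theorem RegL.length_pow (h : RegL R x) (M : ℕ) (a : R) (w : List R) (hx : x = a :: w) :
    Module.length R (R ⧸ (Ideal.ofList (w.map (· ^ M)) ⊔ Ideal.span {a})) =
      ((M ^ w.length : ℕ) : ℕ∞) := by
  subst hx
  have := h.noeth
  have hs := h.span
  rw [Ideal.ofList_cons] at hs
  have ha : a ∈ maximalIdeal R := hs.le (Ideal.mem_sup_left (Ideal.mem_span_singleton_self a))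
  have hne : Ideal.span {a} ≠ ⊤ := ne_top_of_le_ne_top (maximalIdeal.isMaximal R).ne_top
    ((Ideal.span_singleton_le_iff_mem _).2 ha)
  have hsop : Sop (Ideal.span {a}) w :=
    ⟨fun b hb => hs.le (Ideal.mem_sup_right (Ideal.subset_span hb)), hs.ge.trans Ideal.le_radical⟩
  have h1 := reg_dim_succ ⊥ ha
  rw [dimNat_quot_bot, bot_sup_eq, h.dimNat_eq, List.length_cons] at h1
  rw [sup_comm]
  refine le_antisymm ?_ (hsop.pow_le_length hne (le_antisymm (by omega) hsop.dimNat_le) M)
  have := dim_local hne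
  have h2 := length_quot_powIdeal_le (M := R ⧸ Ideal.span {a})
    (fun i => Ideal.Quotient.mk (Ideal.span {a}) (w.get i)) M
  have e : Ideal.span (Set.range fun i => Ideal.Quotient.mk (Ideal.span {a}) (w.get i)) =
      maximalIdeal (R ⧸ Ideal.span {a}) := by
    rw [← map_maximalIdeal_of_surjective _ Ideal.Quotient.mk_surjective, ← hs, Ideal.map_sup,
      Ideal.map_quotient_self, bot_sup_eq, ← dim_ofList, Ideal.map_span, ← Set.range_comp]
    rfl
  rw [smul_top_ideal, smul_top_ideal, e, length_residue, mul_one, dim_powIdeal] at h2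
  rwa [dim_length_sup]

end Vale.Agent.P177
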