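import Vale.Agent.P177.Flat
import Vale.Agent.P177.Reg
import Vale.Agent.P177.Len2
import Vale.Agent.P177.FlatRegAux

/-! Flatness over regular rings. -/

namespace Vale.Agent.P177

open scoped ENNReal
open IsLocalRing RingTheory.Sequence Vale.Agent.P202

universe u

theorem FlatReg_qflat_max {A D : Type u} [CommRing A] [IsLocalRing A] [CommRing D] (f : A →+* D)
    (h : (maximalIdeal A).map f ≠ ⊤) : QFlat f (maximalIdeal A) := by
  have := Ideal.Quotient.nontrivial_iff.2 h
  let _ := Ideal.Quotient.field (maximalIdeal A)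
  let alg := (Ideal.quotientMap ((maximalIdeal A).map f) f Ideal.le_comap_map).toAlgebra
  exact (inferInstance : Module.FaithfullyFlat (A ⧸ maximalIdeal A) (D ⧸ (maximalIdeal A).map f))

/-- the local criterion over a regular ring. -/
theorem RegL.flat_quot {A D : Type u} [CommRing A] [IsLocalRing A] {z : List A} (hA : RegL A z)
    [CommRing D] (f : A →+* D) (hz : IsWeaklyRegular D (z.map f)) (n : ℕ) :
    (Ideal.quotientMap ((maximalIdeal A ^ n).map f) f Ideal.le_comap_map).Flat := by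
  by_cases h : (maximalIdeal A).map f = ⊤
  · have : Subsingleton (D ⧸ (maximalIdeal A ^ n).map f) := by
      rw [Ideal.Quotient.subsingleton_iff, Ideal.map_pow, h, Ideal.top_pow]
    let alg := (Ideal.quotientMap ((maximalIdeal A ^ n).map f) f Ideal.le_comap_map).toAlgebra
    exact (inferInstance : Module.Flat (A ⧸ maximalIdeal A ^ n) (D ⧸ (maximalIdeal A ^ n).map f))
  · have h1 := FlatReg_qflat f n z ⊥ (by rw [Ideal.map_bot]; exact (FlatReg_iff _).1 hz)
      (by rw [bot_sup_eq, hA.span]; exact FlatReg_qflat_max f h)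
    exact (h1.mono (sup_le bot_le (FlatReg_ofList_pow_le z hA.span.le n))).flat

theorem RegL.flat_of_complete {A D B : Type u} [CommRing A] [IsLocalRing A] {z : List A}
    (hA : RegL A z) [CommRing D] [CommRing B] (f : A →+* D) (hz : IsWeaklyRegular D (z.map f))
    (g : D →+* B) (hsurj : ∀ (n : ℕ) (b : B), ∃ a, b - g a ∈ (maximalIdeal A ^ n).map (g.comp f))
    (hinj : ∀ (n : ℕ) (a : D), g a ∈ (maximalIdeal A ^ n).map (g.comp f) →
      a ∈ (maximalIdeal A ^ n).map f)
    [IsAdicComplete ((maximalIdeal A).map (g.comp f)) B] : (g.comp f).Flat := by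
  have := hA.noeth
  refine P177.flat_of_complete (g.comp f) (maximalIdeal A) fun n => ?_
  have hle : (maximalIdeal A ^ n).map f ≤ ((maximalIdeal A ^ n).map (g.comp f)).comap g := by
    rw [← Ideal.map_map]
    exact Ideal.le_comap_map
  have hb : Function.Bijective (Ideal.quotientMap _ g hle) := by
    refine ⟨Ideal.quotientMap_injective' (hinj n), fun b => ?_⟩
    obtain ⟨b, rfl⟩ := Ideal.Quotient.mk_surjective b
    obtain ⟨a, ha⟩ := hsurj n b
    exact ⟨Ideal.Quotient.mk _ a, (Ideal.Quotient.eq.2 ha).symm⟩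
  have e : Ideal.quotientMap ((maximalIdeal A ^ n).map (g.comp f)) (g.comp f) Ideal.le_comap_map =
      (Ideal.quotientMap _ g hle).comp
        (Ideal.quotientMap ((maximalIdeal A ^ n).map f) f Ideal.le_comap_map) :=
    Ideal.Quotient.ringHom_ext (RingHom.ext fun _ => rfl)
  rw [e]
  exact (hA.flat_quot f hz n).comp (RingHom.Flat.of_bijective hb)

theorem flat_ps_quot_pow {p : ℕ} {V : Type u} [CommRing V] [IsLocalRing V] (h : IsPRing p V)
    (n M : ℕ) : ((Ideal.Quotient.mk (Ideal.ofList ((List.ofFn (MvPowerSeries.X : Fin n → PS V n)).map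
      (· ^ M)))).comp MvPowerSeries.C).Flat := by
  have := h.isDomain
  have hreg := FlatReg_head_map ((FlatReg_iff _).1 (regL_ps_pRing h n).reg) M
  rw [bot_sup_eq] at hreg
  generalize Ideal.ofList ((List.ofFn (MvPowerSeries.X : Fin n → PS V n)).map (· ^ M)) = J
    at hreg ⊢
  have : ValuationRing V := by
    refine ValuationRing.iff_dvd_total.2 ⟨fun x y => ?_⟩
    by_cases hx : x = 0
    · exact Or.inr (hx ▸ dvd_zero y)
    by_cases hy : y = 0
    · exact Or.inl (hy ▸ dvd_zero x)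
    obtain ⟨a, u, hu, rfl⟩ := h.cohen_factor x hx
    obtain ⟨b, v, hv, rfl⟩ := h.cohen_factor y hy
    rw [hu.mul_right_dvd, hv.mul_right_dvd, hu.dvd_mul_right, hv.dvd_mul_right]
    exact (le_total a b).imp (pow_dvd_pow _) (pow_dvd_pow _)
  let alg := ((Ideal.Quotient.mk J).comp (MvPowerSeries.C : V →+* PS V n)).toAlgebra
  refine (@Module.Flat.flat_iff_torsion_eq_bot_of_isBezout V (PS V n ⧸ J) _ _
    alg.toModule _ _).2 ?_
  rw [eq_bot_iff]
  rintro m ⟨⟨r, hr⟩, hm⟩
  obtain ⟨m, rfl⟩ := Ideal.Quotient.mk_surjective m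
  obtain ⟨a, u, hu, rfl⟩ := h.cohen_factor r (nonZeroDivisors.ne_zero hr)
  have h1 : MvPowerSeries.C ((p : V) ^ a * u) * m ∈ J := Ideal.Quotient.eq_zero_iff_mem.1 hm
  rw [map_mul, map_pow, map_natCast, mul_assoc] at h1
  exact Ideal.Quotient.eq_zero_iff_mem.2
    ((J.unit_mul_mem_iff_mem (hu.map MvPowerSeries.C)).1 (hreg.pow a _ h1))

theorem FlatReg_mul_le {B : Type u} [CommRing B] (Λ : Len B) {J : Ideal B} {η : B}
    (h : FlatRegNz J η) (q : ℕ) :
    q * Λ.val (B ⧸ (J ⊔ Ideal.span {η})) ≤ Λ.val (B ⧸ (J ⊔ Ideal.span {η ^ q})) := by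
  induction q with
  | zero => simp
  | succ q ih =>
    have h1 : J ⊔ Ideal.span {η} ≤
        Submodule.comap (LinearMap.lsmul B B (η ^ q)) (J ⊔ Ideal.span {η ^ (q + 1)}) := by
      intro x hx
      obtain ⟨c, hc⟩ := mxf2_mem.1 hx
      refine mxf2_mem.2 ⟨c, ?_⟩
      have : η ^ q * x - η ^ (q + 1) * c = η ^ q * (x - η * c) := by ring
      exact this ▸ J.mul_mem_left _ hc
    have h2 : J ⊔ Ideal.span {η ^ (q + 1)} ≤ J ⊔ Ideal.span {η ^ q} :=
      sup_le_sup_left (Ideal.span_singleton_le_span_singleton.2 (pow_dvd_pow _ (Nat.le_succ _))) _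
    rw [Λ.add _ _ _ (Submodule.mapQ _ _ _ h1) (Submodule.factor h2) ?_ ?_
      (Submodule.factor_surjective h2), Nat.cast_succ, add_mul, one_mul, add_comm]
    · exact add_le_add le_rfl ih
    · rw [injective_iff_map_eq_zero]
      intro x hx
      obtain ⟨x, rfl⟩ := Submodule.Quotient.mk_surjective _ x
      obtain ⟨c, hc⟩ := mxf2_mem.1 ((Submodule.Quotient.mk_eq_zero _).1 hx)
      refine (Submodule.Quotient.mk_eq_zero _).2 (mxf2_mem.2 ⟨c, h.pow q _ ?_⟩)
      have : η ^ q * (x - η * c) = η ^ q * x - η ^ (q + 1) * c := by ring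
      exact this ▸ hc
    · intro y
      obtain ⟨y, rfl⟩ := Submodule.Quotient.mk_surjective _ y
      constructor
      · intro hy
        obtain ⟨c, hc⟩ := mxf2_mem.1 ((Submodule.Quotient.mk_eq_zero _).1 hy)
        refine ⟨Submodule.Quotient.mk c, ((Submodule.Quotient.eq _).2 ?_).symm⟩
        exact Ideal.mem_sup_left hc
      · rintro ⟨c, hc⟩
        obtain ⟨c, rfl⟩ := Submodule.Quotient.mk_surjective _ c
        rw [← hc]
        exact (Submodule.Quotient.mk_eq_zero _).2
          (Ideal.mem_sup_right (Ideal.mul_mem_right _ _ (Ideal.mem_span_singleton_self _)))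

/-- roots of a nonzero element have small colength. -/
theorem RegL.small_root {A B : Type u} [CommRing A] [IsLocalRing A] {z : List A} (hA : RegL A z)
    [CommRing B] [Algebra A B] [Module.Flat A B] (Λ : Len B)
    (hΛ : Λ.val (B ⧸ (maximalIdeal A).map (algebraMap A B)) ≠ ⊤) {G : A} (hG : G ≠ 0) (j : ℕ)
    (ε : ℝ≥0∞) (hε : 0 < ε) : ∃ q₀ : ℕ, ∀ q, q₀ ≤ q → ∀ η : B, η ^ q = algebraMap A B G →
      Λ.val (B ⧸ (Ideal.span {η} ⊔ (maximalIdeal A).map (algebraMap A B) ^ j)) ≤ ε := by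
  have := hA.noeth
  have := hA.isDomain
  have triv : ∀ J : Ideal B, J = ⊤ → Λ.val (B ⧸ J) ≤ ε := fun J hJ =>
    (Λ.zero _ (Ideal.Quotient.subsingleton_iff.2 hJ)).le.trans zero_le
  by_cases hu : IsUnit G
  · refine ⟨1, fun q hq η hη => triv _ (Ideal.eq_top_of_isUnit_mem _
      (Ideal.mem_sup_left (Ideal.mem_span_singleton_self η)) ?_)⟩
    exact (isUnit_pow_iff (by omega)).1 (hη ▸ hu.map (algebraMap A B))
  have hGm : G ∈ maximalIdeal A := hu
  have hd : 0 < dimNat (A ⧸ (⊥ : Ideal A)) := by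
    refine Nat.pos_of_ne_zero fun h0 => hG ?_
    rwa [← dimNat_quot_eq_zero_iff.1 h0] at hGm
  obtain ⟨w, hl, hw⟩ := exists_sop_sup hd (c := G) hG
  have hs : Sop ⊥ (G :: w) := ⟨fun a ha => (List.mem_cons.1 ha).elim (fun e => e ▸ hGm) (hw.mem a),
    by rw [Ideal.ofList_cons, ← sup_assoc]; exact hw.rad⟩
  have hlen : (G :: w).length = z.length := by
    have h1 := hs.dimNat_le
    rw [dimNat_quot_bot, hA.dimNat_eq] at h1 hl
    rw [List.length_cons] at h1 ⊢
    omega
  have hB := FlatReg_head_map ((FlatReg_iff _).1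
    (IsWeaklyRegular.of_flat (S := B) (hA.isWeaklyRegular hs hlen))) (j + 1)
  rw [bot_sup_eq] at hB
  set I : Ideal A := Ideal.ofList (w.map (· ^ (j + 1))) with hI
  have e : Ideal.ofList ((w.map (algebraMap A B)).map (· ^ (j + 1))) = I.map (algebraMap A B) := by
    rw [hI, Ideal.map_ofList, List.map_map, List.map_map]
    exact congrArg (fun F => Ideal.ofList (w.map F))
      (funext fun x => (map_pow (algebraMap A B) x (j + 1)).symm)
  rw [e] at hB
  have hfin : Λ.val (B ⧸ (I ⊔ Ideal.span {G}).map (algebraMap A B)) ≠ ⊤ := by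
    have h1 : Module.length A (A ⧸ (I ⊔ Ideal.span {G})) ≠ ⊤ := by
      refine length_quot_ne_top (hw.rad.trans (Ideal.radical_le_radical_iff.2
        (sup_le (sup_le bot_le (le_sup_right.trans Ideal.le_radical)) ?_)))
      refine Ideal.span_le.2 fun a ha => ⟨j + 1, Ideal.mem_sup_left (Ideal.subset_span ?_)⟩
      exact List.mem_map_of_mem (f := (· ^ (j + 1))) ha
    rw [Λ.val_quot_map _ h1]
    exact ENNReal.mul_ne_top (by simpa using h1) hΛ
  obtain ⟨q₀, hq₀⟩ := ENNReal.exists_nat_mul_gt hε.ne' hfin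
  refine ⟨q₀ + 1, fun q hq η hη => ?_⟩
  have h1 := FlatReg_mul_le Λ (FlatRegNz.of_pow (n := q) (by omega) (hη ▸ hB)) q
  rw [hη, ← mxf2_map] at h1
  have h2 : I.map (algebraMap A B) ⊔ Ideal.span {η} ≤
      Ideal.span {η} ⊔ (maximalIdeal A).map (algebraMap A B) ^ j := by
    refine sup_le (le_sup_of_le_right ?_) le_sup_left
    rw [← Ideal.map_pow]
    exact Ideal.map_mono ((FlatReg_ofList_pow_le w (Ideal.span_le.2 hw.mem) (j + 1)).trans
      (Ideal.pow_le_pow_right (Nat.le_succ j)))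
  refine (Λ.le_of_surjective _ (Submodule.factor_surjective h2)).trans ?_
  by_contra hc
  refine absurd (h1.trans_lt hq₀) (not_lt.2 (mul_le_mul' ?_ (not_le.1 hc).le))
  exact Nat.cast_le.2 (by omega)

end Vale.Agent.P177
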