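import Vale.Agent.P177.ModelDef
import Vale.Agent.P177.Diag
import Vale.Agent.P177.FlatReg

/-! Lifting the structure map. -/

namespace Vale.Agent.P177

open IsLocalRing Vale.Agent.P202

universe u

theorem bigLift_map_le {A T : Type*} [CommRing A] [IsLocalRing A] [CommRing T] [IsLocalRing T]
    (f : A →+* T) (hf : f.Finite) : (maximalIdeal A).map f ≤ maximalIdeal T := by
  have := Ideal.isMaximal_comap_of_isIntegral_of_isMaximal' f hf.to_isIntegral (maximalIdeal T)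
  rw [Ideal.map_le_iff_le_comap, eq_maximalIdeal this]

theorem bigLift_le_rad {A T : Type*} [CommRing A] [IsLocalRing A] [CommRing T] [IsLocalRing T]
    (f : A →+* T) (hf : f.Finite) : maximalIdeal T ≤ ((maximalIdeal A).map f).radical := by
  rw [Ideal.radical_eq_sInf]
  refine le_sInf fun J hJ => ?_
  obtain ⟨h1, h2⟩ := hJ
  have h3 : J.comap f = maximalIdeal A :=
    ((maximalIdeal.isMaximal A).eq_of_le (Ideal.comap_isPrime f J).ne_top
      (Ideal.map_le_iff_le_comap.1 h1)).symm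
  have h4 : (J.comap f).IsMaximal := h3 ▸ maximalIdeal.isMaximal A
  algebraize [f]
  have : J.IsMaximal := Ideal.isMaximal_of_isIntegral_of_isMaximal_comap J h4
  rw [eq_maximalIdeal this]

theorem bigLift_X_mem {V : Type*} [CommRing V] [IsLocalRing V] {d : ℕ} (j : Fin d) :
    (MvPowerSeries.X j : PS V d) ∈ maximalIdeal (PS V d) := by
  rw [mxps_mem_max, MvPowerSeries.constantCoeff_X]
  exact zero_mem _

theorem bigLift_p_mem {p : ℕ} {V : Type*} [CommRing V] [IsLocalRing V] (h : IsPRing p V) (d : ℕ) :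
    (p : PS V d) ∈ maximalIdeal (PS V d) := by
  rw [mxps_mem_max, map_natCast, h.max]
  exact Ideal.mem_span_singleton_self _

theorem bigLift_max {p : ℕ} {V : Type*} [CommRing V] [IsLocalRing V] (h : IsPRing p V) (d : ℕ) :
    maximalIdeal (PS V d) =
      Ideal.span {(p : PS V d)} ⊔ Ideal.span (Set.range MvPowerSeries.X) := by
  rw [← h.span_pX, mxps_span_pX]

variable {p : ℕ} [Fact p.Prime] {V R A T : Type u} [CommRing V] [IsLocalRing V] [CommRing R]
  [IsLocalRing R] [CommRing A] [IsLocalRing A] [CommRing T] [IsLocalRing T] [Algebra A T] {d n : ℕ}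
  {φ : PS V d →+* R} {ψ : R →+* T} {ρ : PS V (n + 1) →+* A} {z : List A} (hφ : IsHyp p φ)
  (hm : IsModel φ ψ ρ z) {D : EtData A T} (𝔅 : Big p ρ D)

/-- the extension of the maximal ideal. -/
noncomputable abbrev Big.nn : Ideal 𝔅.Bt :=
  (maximalIdeal (PS V (n + 1))).map (algebraMap (PS V (n + 1)) 𝔅.Bt)

omit [IsLocalRing A] [IsLocalRing T] [Fact p.Prime] in
theorem Big.bigLift_comm :
    𝔅.π.comp (algebraMap (PS V (n + 1)) 𝔅.Bt) = (algebraMap A 𝔅.B).comp ρ :=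
  RingHom.ext 𝔅.comm

omit [IsLocalRing T] [Fact p.Prime] in
theorem Big.bigLift_ker_le : RingHom.ker 𝔅.π ≤ 𝔅.nn := by
  rw [𝔅.ker]
  exact Ideal.map_mono (le_maximalIdeal (RingHom.ker_ne_top ρ))

include hm in
omit [Fact p.Prime] in
theorem Big.bigLift_map_nn : 𝔅.nn.map 𝔅.π = (maximalIdeal A).map (algebraMap A 𝔅.B) := by
  rw [Ideal.map_map, 𝔅.bigLift_comm, ← Ideal.map_map, map_maximalIdeal_of_surjective ρ hm.surj]

include hm in
omit [Fact p.Prime] in
theorem Big.bigLift_comap_nn : ((maximalIdeal A).map (algebraMap A 𝔅.B)).comap 𝔅.π = 𝔅.nn := by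
  rw [← 𝔅.bigLift_map_nn hm, Ideal.comap_map_of_surjective _ 𝔅.surj]
  exact sup_eq_left.2 𝔅.bigLift_ker_le

include hm in
omit [Fact p.Prime] in
theorem Big.bigLift_one : 𝔅.Λ.val (𝔅.B ⧸ (maximalIdeal A).map (algebraMap A 𝔅.B)) = 1 := by
  rw [← map_maximalIdeal_of_surjective ρ hm.surj]
  exact 𝔅.one

include hm in
omit [Fact p.Prime] in
theorem Big.bigLift_rad (i : Fin D.P.natDegree) : (maximalIdeal T).map (𝔅.σ i : T →+* 𝔅.B) ≤
    ((maximalIdeal A).map (algebraMap A 𝔅.B)).radical := by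
  have := hm.fin
  refine (Ideal.map_mono (bigLift_le_rad (algebraMap A T)
    (RingHom.finite_algebraMap.2 this))).trans ((Ideal.map_radical_le _).trans (le_of_eq ?_))
  rw [Ideal.map_map, AlgHom.comp_algebraMap]

include hφ hm

theorem Big.topData (hG : D.G ≠ 0) : TopData p z (ρ (MvPowerSeries.X 0)) D 𝔅.Λ 𝔅.σ where
  reg := hm.reg
  dom := hm.dom
  fin := hm.fin
  inj := hm.inj
  res t := by
    obtain ⟨v, hv⟩ := hm.res t
    exact ⟨_, hm.comm v ▸ hv⟩
  G_ne := hG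
  ϖ_ne := hm.ne
  ϖ_mem := by
    rw [← map_maximalIdeal_of_surjective ρ hm.surj]
    exact Ideal.mem_map_of_mem _ (bigLift_X_mem 0)
  flat := RingHom.flat_algebraMap_iff.1 (flat_quot_of_flat _
    (RingHom.flat_algebraMap_iff.2 𝔅.flat) ρ hm.surj 𝔅.π 𝔅.surj _ 𝔅.bigLift_comm 𝔅.ker)
  one := 𝔅.bigLift_one hm
  split := 𝔅.split
  root a e := by
    have h : D.P.natDegree ≠ 0 := fun h => by
      have := D.root
      rw [D.monic.natDegree_eq_zero.1 h, map_one] at this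
      exact one_ne_zero this
    obtain ⟨η, hη⟩ := 𝔅.root ⟨0, Nat.pos_of_ne_zero h⟩ (algebraMap A T a) e
    exact ⟨η, hη.trans (AlgHom.commutes _ a)⟩

theorem Big.bigLift_haus : IsHausdorff ((maximalIdeal A).map (algebraMap A 𝔅.B)) 𝔅.B := by
  have := hφ.pr.isNoetherianRing
  have := 𝔅.complete
  refine ⟨fun b hb => ?_⟩
  obtain ⟨b, rfl⟩ := 𝔅.surj b
  rw [← RingHom.mem_ker, 𝔅.ker]
  refine mem_map_of_forall _ (RingHom.flat_algebraMap_iff.2 𝔅.flat) (maximalIdeal _) _ b fun N => ?_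
  have h := hb N
  rw [SModEq.zero, smul_eq_mul, Ideal.mul_top, ← 𝔅.bigLift_map_nn hm, ← Ideal.map_pow,
    ← Ideal.mem_comap, Ideal.comap_map_of_surjective _ 𝔅.surj] at h
  rw [← 𝔅.ker, sup_comm]
  exact h

/-- the lift of the structure map. -/
theorem Big.exists_lift (i : Fin D.P.natDegree) : ∃ (ω : PS V d →+* 𝔅.Bt) (f : PS V d),
    RingHom.ker φ = Ideal.span {f} ∧ (∀ y, f * y = 0 → y = 0) ∧
    RingHom.ker 𝔅.π = Ideal.span {ω f} ∧ (∀ y, ω f * y = 0 → y = 0) ∧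
    (((𝔅.σ i : T →+* 𝔅.B).comp ψ).comp φ = 𝔅.π.comp ω) ∧
    ω.comp MvPowerSeries.C = (algebraMap (PS V (n + 1)) 𝔅.Bt).comp MvPowerSeries.C ∧
    (maximalIdeal (PS V d)).map ω ≤
      ((maximalIdeal (PS V (n + 1))).map (algebraMap (PS V (n + 1)) 𝔅.Bt)).radical := by
  have := 𝔅.complete
  have := 𝔅.bigLift_haus hφ hm
  have hp : p.Prime := Fact.out
  choose η hη using fun j : Fin d => 𝔅.root i (ψ (φ (MvPowerSeries.X j))) 1
  choose a ha using fun j => 𝔅.surj (η j)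
  have hσ : ∀ j, 𝔅.σ i (ψ (φ (MvPowerSeries.X j))) ∈
      ((maximalIdeal A).map (algebraMap A 𝔅.B)).radical := fun j => by
    refine 𝔅.bigLift_rad hm i (Ideal.mem_map_of_mem _ (bigLift_map_le ψ hm.finR
      (Ideal.mem_map_of_mem _ ?_)))
    rw [← map_maximalIdeal_of_surjective φ hφ.surj]
    exact Ideal.mem_map_of_mem _ (bigLift_X_mem j)
  have hπ : ∀ j, 𝔅.π (a j ^ p) = 𝔅.σ i (ψ (φ (MvPowerSeries.X j))) := fun j => by
    rw [map_pow, ha, ← hη, pow_one]
  have hx : ∀ j, a j ^ p ∈ 𝔅.nn.radical := fun j => by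
    rw [← 𝔅.bigLift_comap_nn hm, ← Ideal.comap_radical, Ideal.mem_comap, hπ]
    exact hσ j
  obtain ⟨ev, hC, hX, -⟩ := exists_ev 𝔅.nn (fun j => a j ^ p) hx
  let ω : PS V d →+* 𝔅.Bt := ev.comp (MvPowerSeries.map
    ((algebraMap (PS V (n + 1)) 𝔅.Bt).comp MvPowerSeries.C))
  have ωC : ∀ v, ω (MvPowerSeries.C v) = algebraMap (PS V (n + 1)) 𝔅.Bt (MvPowerSeries.C v) :=
    fun v => by simp only [ω, RingHom.comp_apply, MvPowerSeries.map_C, hC]
  have ωX : ∀ j, ω (MvPowerSeries.X j) = a j ^ p :=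
    fun j => by simp only [ω, RingHom.comp_apply, MvPowerSeries.map_X, hX]
  have hc : ((𝔅.σ i : T →+* 𝔅.B).comp ψ).comp φ = 𝔅.π.comp ω := by
    refine ps_ext_of_complete ((maximalIdeal A).map (algebraMap A 𝔅.B)) _ _ (fun v => ?_)
      (fun j => ?_) hσ
    · simp only [RingHom.comp_apply, ωC, 𝔅.comm, ← hm.comm]
      exact AlgHom.commutes _ _
    · simp only [RingHom.comp_apply, ωX, hπ]
      rfl
  obtain ⟨g, hg, hk⟩ := hφ.ker
  obtain ⟨ξ, hξ⟩ := hm.ker
  have hkπ : RingHom.ker 𝔅.π = Ideal.span {algebraMap (PS V (n + 1)) 𝔅.Bt ξ} := by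
    rw [𝔅.ker, hξ, Ideal.map_span, Set.image_singleton]
  have hunit : ∀ w, ω (p - g) = algebraMap (PS V (n + 1)) 𝔅.Bt ξ * w → IsUnit w := by
    intro w hw
    by_contra hu
    obtain ⟨M, hM, hwM⟩ := exists_max_ideal_of_mem_nonunits hu
    have h1 : 𝔅.nn ≤ M := (IsAdicComplete.le_jacobson_bot 𝔅.nn).trans
      (sInf_le ⟨bot_le, hM⟩)
    have h2 : ∀ j, a j ∈ M := fun j => hM.isPrime.mem_of_pow_mem _
      ((hM.isPrime.radical_le_iff.2 h1) (hx j))
    have h3 : ω g ∈ M ^ 2 := by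
      refine (Ideal.map_le_iff_le_comap.1 ?_ : _ ≤ (M ^ 2).comap ω) hg
      rw [Ideal.map_span, Ideal.span_le]
      rintro _ ⟨_, ⟨j, rfl⟩, rfl⟩
      rw [ωX]
      exact Ideal.pow_le_pow_right hp.two_le (Ideal.pow_mem_pow (h2 j) p)
    have h4 : ω (p - g) ∈ M ^ 2 := by
      rw [hw, sq]
      exact Ideal.mul_mem_mul (h1 (𝔅.bigLift_ker_le (hkπ ▸ Ideal.mem_span_singleton_self _))) hwM
    refine 𝔅.nsq M hM ?_
    have := add_mem h4 h3
    rwa [← map_add, sub_add_cancel, map_natCast] at this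
  have hf : ω (p - g) ∈ RingHom.ker 𝔅.π := by
    rw [RingHom.mem_ker, ← RingHom.comp_apply, ← hc, RingHom.comp_apply,
      (RingHom.mem_ker (f := φ)).1 (hk ▸ Ideal.mem_span_singleton_self _), map_zero]
  obtain ⟨w, hw⟩ := Ideal.mem_span_singleton.1 (hkπ ▸ hf)
  have hξ0 : ξ ≠ 0 := by
    rintro rfl
    have h0 := hunit 0 (by rw [hw, map_zero, zero_mul, zero_mul])
    have := subsingleton_of_zero_eq_one (isUnit_zero_iff.1 h0)
    have : Subsingleton 𝔅.B := 𝔅.surj.subsingleton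
    have h1 := 𝔅.bigLift_one hm
    rw [𝔅.Λ.zero _ inferInstance] at h1
    exact zero_ne_one h1
  have := (regL_ps_pRing hφ.pr d).isDomain
  have := (regL_ps_pRing hφ.pr (n + 1)).isDomain
  refine ⟨ω, p - g, hk, fun y hy => (mul_eq_zero.1 hy).resolve_left fun h => ?_, ?_,
    fun y hy => ?_, hc, RingHom.ext ωC, ?_⟩
  · have h1 : MvPowerSeries.constantCoeff g = 0 := by
      refine (Ideal.span_le.2 ?_ : _ ≤ RingHom.ker (MvPowerSeries.constantCoeff (σ := Fin d)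
        (R := V))) hg
      rintro _ ⟨j, rfl⟩
      exact MvPowerSeries.constantCoeff_X j
    have h2 := congrArg MvPowerSeries.constantCoeff h
    rw [map_sub, h1, sub_zero, map_natCast, map_zero] at h2
    exact one_ne_zero (hφ.pr.reg 1 (by rw [h2, zero_mul]))
  · rw [hkπ, hw, Ideal.span_singleton_mul_right_unit (hunit w hw)]
  · have := 𝔅.flat
    have h1 : IsSMulRegular 𝔅.Bt ξ := Module.Flat.isSMulRegular_of_nonZeroDivisors
      (mem_nonZeroDivisors_of_ne_zero hξ0)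
    rw [hw, mul_assoc, ← Algebra.smul_def] at hy
    exact (hunit w hw).mul_right_eq_zero.1 (h1 (hy.trans (smul_zero ξ).symm))
  · rw [bigLift_max hφ.pr, Ideal.map_sup, Ideal.map_span, Ideal.map_span, sup_le_iff,
      Ideal.span_le, Ideal.span_le]
    refine ⟨?_, ?_⟩
    · rintro _ ⟨_, rfl, rfl⟩
      refine Ideal.le_radical ?_
      rw [map_natCast, ← map_natCast (algebraMap (PS V (n + 1)) 𝔅.Bt)]
      exact Ideal.mem_map_of_mem _ (bigLift_p_mem hφ.pr _)
    · rintro _ ⟨_, ⟨j, rfl⟩, rfl⟩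
      rw [ωX]
      exact hx j

end Vale.Agent.P177
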