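import Vale.Agent.P177.Len

/-! Constructions of length functions. -/

namespace Vale.Agent.P177

open scoped ENNReal

universe u

/-- every element is killed by a power of the ideal. -/
def Tors {R : Type u} [CommRing R] (I : Ideal R) (X : Type u) [AddCommGroup X] [Module R X] :
    Prop :=
  ∀ x : X, ∃ n : ℕ, ∀ a ∈ I ^ n, a • x = 0

section tors

variable {R : Type u} [CommRing R] {I : Ideal R} {X' X X'' : Type u} [AddCommGroup X'] [Module R X']
  [AddCommGroup X] [Module R X] [AddCommGroup X''] [Module R X'']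

theorem Tors.LenCons_inj (h : Tors I X) (f : X' →ₗ[R] X) (hf : Function.Injective f) :
    Tors I X' := fun x => (h (f x)).imp fun _ hn a ha => hf (by rw [map_smul, hn a ha, map_zero])

theorem Tors.LenCons_surj (h : Tors I X) (g : X →ₗ[R] X'') (hg : Function.Surjective g) :
    Tors I X'' := fun y => by
  obtain ⟨x, rfl⟩ := hg y
  exact (h x).imp fun _ hn a ha => by rw [← map_smul, hn a ha, map_zero]

theorem Tors.LenCons_ext (h' : Tors I X') (hI : I.FG) (h'' : Tors I X'') (f : X' →ₗ[R] X)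
    (g : X →ₗ[R] X'') (hfg : Function.Exact f g) : Tors I X := by
  intro x
  obtain ⟨n, hn⟩ := h'' (g x)
  obtain ⟨s, hs⟩ := hI.pow (n := n)
  have h1 : ∀ a : s, ∃ m : ℕ, ∀ b ∈ I ^ m, b • (a : R) • x = 0 := fun a => by
    obtain ⟨y, hy⟩ := (hfg (a.1 • x)).1 (by
      rw [map_smul]
      exact hn _ (hs ▸ Ideal.subset_span a.2))
    exact (h' y).imp fun m hm b hb => by rw [← hy, ← map_smul, hm b hb, map_zero]
  choose m hm using h1
  have : I ^ Finset.univ.sup m * I ^ n ≤ Ideal.torsionOf R X x := by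
    rw [← hs, Ideal.mul_le]
    intro b hb a ha
    induction ha using Submodule.span_induction with
    | mem a ha =>
      rw [Ideal.mem_torsionOf_iff, mul_smul]
      exact hm ⟨a, ha⟩ b (Ideal.pow_le_pow_right (Finset.le_sup (Finset.mem_univ _)) hb)
    | zero => simp
    | add a a' _ _ h1 h2 => rw [mul_add]; exact add_mem h1 h2
    | smul c a _ h1 => rw [smul_eq_mul, mul_left_comm]; exact Ideal.mul_mem_left _ _ h1
  rw [← pow_add] at this
  exact ⟨_, fun a ha => (Ideal.mem_torsionOf_iff _ _).1 (this ha)⟩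

theorem Len.LenCons_le_iSup (Λ : Len R) (X : Type u) [AddCommGroup X] [Module R X] :
    Λ.val X ≤ ⨆ N : {N : Submodule R X // N.FG}, Λ.val N.1 :=
  Λ.cont X _ fun N hN => le_iSup (fun N : {N : Submodule R X // N.FG} => Λ.val N.1) ⟨N, hN⟩

end tors

/-- a function that is additive and continuous on torsion modules extends by infinity. -/
theorem Len.exists_of_tors {R : Type u} [CommRing R] (I : Ideal R) (hI : I.FG)
    (v : ∀ (X : Type u) [AddCommGroup X] [Module R X], ℝ≥0∞)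
    (add : ∀ (X' X X'' : Type u) [AddCommGroup X'] [Module R X'] [AddCommGroup X] [Module R X]
      [AddCommGroup X''] [Module R X''] (f : X' →ₗ[R] X) (g : X →ₗ[R] X''), Function.Injective f →
      Function.Exact f g → Function.Surjective g → Tors I X → v X = v X' + v X'')
    (zero : ∀ (X : Type u) [AddCommGroup X] [Module R X], Subsingleton X → v X = 0)
    (cont : ∀ (X : Type u) [AddCommGroup X] [Module R X] (c : ℝ≥0∞), Tors I X →
      (∀ N : Submodule R X, N.FG → v N ≤ c) → v X ≤ c) :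
    ∃ Λ : Len R, ∀ (X : Type u) [AddCommGroup X] [Module R X], Tors I X → Λ.val X = v X := by
  classical
  refine ⟨⟨fun X _ _ => if Tors I X then v X else ⊤, ?_, ?_, ?_⟩, fun X _ _ h => if_pos h⟩
  · intro X' X X'' _ _ _ _ _ _ f g hf hfg hg
    by_cases h : Tors I X
    · rw [if_pos h, if_pos (h.LenCons_inj f hf), if_pos (h.LenCons_surj g hg)]
      exact add X' X X'' f g hf hfg hg h
    · rw [if_neg h]
      by_cases h' : Tors I X'
      · rw [if_neg fun h'' => h (h'.LenCons_ext hI h'' f g hfg), add_top]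
      · rw [if_neg h', top_add]
  · intro X _ _ h
    rw [if_pos (show Tors I X from fun x => ⟨0, fun a _ => Subsingleton.elim _ _⟩)]
    exact zero X h
  · intro X _ _ c h
    by_cases hX : Tors I X
    · rw [if_pos hX]
      refine cont X c hX fun N hN => ?_
      have := h N hN
      rwa [if_pos (hX.LenCons_inj N.subtype N.injective_subtype)] at this
    · rw [if_neg hX]
      obtain ⟨x, hx⟩ := not_forall.1 hX
      have := h _ (Submodule.fg_span_singleton x)
      rwa [if_neg fun h' => hx ((h' ⟨x, Submodule.mem_span_singleton_self x⟩).imp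
        fun n hn a ha => congrArg Subtype.val (hn a ha))] at this

section lift

variable {R S : Type u} [CommRing R] [CommRing S] (Λ : Len S) (φ : R →+* S)
  {X X' : Type u} [AddCommGroup X] [Module R X] [AddCommGroup X'] [Module R X']

/-- a quotient of `C` killing `B` is an `S`-module of length at least `s`. -/
def LcSt (C B : Submodule R X) (s : ℝ≥0∞) : Prop :=
  ∃ (Y : Type u) (_ : AddCommGroup Y) (_ : Module S Y) (θ : C →ₛₗ[φ] Y), Function.Surjective θ ∧
    (∀ x : C, x.1 ∈ B → θ x = 0) ∧ s ≤ Λ.val Y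

/-- total lengths of descending chains. -/
inductive LcCh : Submodule R X → ℝ≥0∞ → Prop
  | nil (A : Submodule R X) : LcCh A 0
  | cons {A B : Submodule R X} {s t : ℝ≥0∞} : LcSt Λ φ A B s → B ≤ A → LcCh B t → LcCh A (s + t)

/-- the identity is semilinear. -/
def lcId (Y : Type u) [AddCommGroup Y] [Module S Y] : Res φ Y →ₛₗ[φ] Y where
  toFun x := x
  map_add' _ _ := rfl
  map_smul' _ _ := rfl

variable {Λ φ}

theorem LcSt.pull {C B : Submodule R X} {C' B' : Submodule R X'} {s : ℝ≥0∞} (h : LcSt Λ φ C B s)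
    (k : C' →ₗ[R] C) (hk : Function.Surjective k) (hB : ∀ x : C', x.1 ∈ B' → (k x).1 ∈ B) :
    LcSt Λ φ C' B' s := by
  obtain ⟨Y, _, _, θ, h1, h2, h3⟩ := h
  exact ⟨Y, _, _, θ.comp k, h1.comp hk, fun x hx => h2 _ (hB x hx), h3⟩

theorem LcCh.mono {A A' : Submodule R X} {t : ℝ≥0∞} (h : LcCh Λ φ A t) (hA : A ≤ A') :
    LcCh Λ φ A' t := by
  have := LcCh.cons (s := 0) ⟨PUnit, inferInstance, inferInstance, 0, fun _ => ⟨0, rfl⟩,
    fun _ _ => rfl, zero_le⟩ hA h
  rwa [zero_add] at this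

theorem LcCh.zero [Subsingleton X] {A : Submodule R X} {t : ℝ≥0∞} (h : LcCh Λ φ A t) : t = 0 := by
  induction h with
  | nil => rfl
  | cons h _ _ ih =>
    obtain ⟨Y, _, _, θ, h1, -, h3⟩ := h
    rw [Λ.zero Y h1.subsingleton] at h3
    rw [ih, le_antisymm h3 zero_le, add_zero]

theorem LcCh.map {A : Submodule R X} {t : ℝ≥0∞} (h : LcCh Λ φ A t) (f : X →ₗ[R] X')
    (hf : Function.Injective f) : LcCh Λ φ (A.map f) t := by
  induction h with
  | nil => exact LcCh.nil _
  | @cons A B s t h hBA _ ih =>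
    refine LcCh.cons (h.pull (A.equivMapOfInjective f hf).symm.toLinearMap
      (LinearEquiv.surjective _) fun x hx => ?_) (Submodule.map_mono hBA) ih
    obtain ⟨x, rfl⟩ := (A.equivMapOfInjective f hf).surjective x
    obtain ⟨y, hy, e⟩ := hx
    obtain rfl : y = x := hf e
    simpa using hy

theorem LcCh.comap {A : Submodule R X} {t t0 : ℝ≥0∞} (h : LcCh Λ φ A t) (g : X' →ₗ[R] X)
    (hA : A ≤ LinearMap.range g) (h0 : LcCh Λ φ (LinearMap.ker g) t0) :
    LcCh Λ φ (A.comap g) (t + t0) := by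
  induction h with
  | nil =>
    rw [zero_add]
    exact h0.mono (Submodule.comap_mono bot_le)
  | @cons A B s t h hBA _ ih =>
    rw [add_assoc]
    refine LcCh.cons (h.pull (g.submoduleComap A) (fun y => ?_) fun x hx => hx)
      (Submodule.comap_mono hBA) (ih (hBA.trans hA))
    obtain ⟨x, hx⟩ := hA y.2
    exact ⟨⟨x, show g x ∈ A from hx ▸ y.2⟩, Subtype.ext hx⟩

variable [RingHomSurjective φ]

theorem LcSt.split {C B : Submodule R X} {s : ℝ≥0∞} (h : LcSt Λ φ C B s) (hB : B ≤ C)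
    (g : X →ₗ[R] X') : ∃ s' s'', LcSt Λ φ (C ⊓ LinearMap.ker g) (B ⊓ LinearMap.ker g) s' ∧
      LcSt Λ φ (C.map g) (B.map g) s'' ∧ s ≤ s' + s'' := by
  obtain ⟨Y, _, _, θ, h1, h2, h3⟩ := h
  let θ' := θ.comp (Submodule.inclusion (inf_le_left : C ⊓ LinearMap.ker g ≤ C))
  let e := (g.submoduleMap C).quotKerEquivOfSurjective (g.submoduleMap_surjective C)
  let θ'' := (LinearMap.ker (g.submoduleMap C)).liftQ ((LinearMap.range θ').mkQ.comp θ)
    fun x hx => (Submodule.Quotient.mk_eq_zero _).2 ⟨⟨x.1, x.2, congrArg Subtype.val hx⟩, rfl⟩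
  have k : ∀ x : C, θ''.comp e.symm.toLinearMap (g.submoduleMap C x) =
      Submodule.Quotient.mk (θ x) := fun x =>
    congrArg θ'' (e.symm_apply_apply (Submodule.Quotient.mk x))
  refine ⟨Λ.val (LinearMap.range θ'), Λ.val (Y ⧸ LinearMap.range θ'),
    ⟨_, _, _, θ'.rangeRestrict, θ'.surjective_rangeRestrict,
      fun x hx => Subtype.ext (h2 _ hx.1), le_rfl⟩,
    ⟨_, _, _, θ''.comp e.symm.toLinearMap, fun y => ?_, fun x hx => ?_, le_rfl⟩,
    h3.trans (Λ.le_add _ _ (LinearMap.exact_subtype_mkQ _))⟩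
  · obtain ⟨y, rfl⟩ := Submodule.Quotient.mk_surjective _ y
    obtain ⟨x, rfl⟩ := h1 y
    exact ⟨_, k x⟩
  · obtain ⟨y, hy, e⟩ := hx
    obtain rfl : g.submoduleMap C ⟨y, hB hy⟩ = x := Subtype.ext e
    rw [k, h2 _ hy, Submodule.Quotient.mk_zero]

theorem LcCh.split {A : Submodule R X} {t : ℝ≥0∞} (h : LcCh Λ φ A t) (g : X →ₗ[R] X') :
    ∃ t' t'', LcCh Λ φ (A ⊓ LinearMap.ker g) t' ∧ LcCh Λ φ (A.map g) t'' ∧ t ≤ t' + t'' := by
  induction h with
  | nil => exact ⟨0, 0, LcCh.nil _, LcCh.nil _, zero_le⟩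
  | cons h hBA _ ih =>
    obtain ⟨s', s'', h1, h2, h3⟩ := h.split hBA g
    obtain ⟨t', t'', k1, k2, k3⟩ := ih
    exact ⟨_, _, LcCh.cons h1 (inf_le_inf_right _ hBA) k1,
      LcCh.cons h2 (Submodule.map_mono hBA) k2,
      (add_le_add h3 k3).trans (add_add_add_comm _ _ _ _).le⟩

theorem LcCh.cont {A : Submodule R X} {t : ℝ≥0∞} (h : LcCh Λ φ A t) :
    t ≤ ⨆ p : {p : Submodule R X × ℝ≥0∞ // p.1 ≤ A ∧ p.1.FG ∧ LcCh Λ φ p.1 p.2}, p.1.2 := by
  induction h with
  | nil => exact zero_le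
  | @cons A B s t h hBA _ ih =>
    obtain ⟨Y, _, _, θ, h1, h2, h3⟩ := h
    have : Nonempty {N : Submodule S Y // N.FG} := ⟨⟨⊥, Submodule.fg_bot⟩⟩
    have : Nonempty {p : Submodule R X × ℝ≥0∞ // p.1 ≤ B ∧ p.1.FG ∧ LcCh Λ φ p.1 p.2} :=
      ⟨⟨(⊥, 0), bot_le, Submodule.fg_bot, LcCh.nil _⟩⟩
    refine (add_le_add (h3.trans (Λ.LenCons_le_iSup Y)) ih).trans
      (ENNReal.iSup_add_iSup_le ?_)
    rintro ⟨M, hM⟩ ⟨⟨N, t'⟩, k1, k2, k3⟩
    obtain ⟨T, hT, rfl⟩ := Submodule.fg_def.1 hM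
    obtain ⟨σ, hσ⟩ := h1.hasRightInverse
    have hle : Submodule.span R ((fun y => (σ y).1) '' T) ⊔ N ≤ A :=
      sup_le (Submodule.span_le.2 (by rintro _ ⟨y, -, rfl⟩; exact (σ y).2)) (k1.trans hBA)
    let θ' := θ.comp (Submodule.inclusion hle)
    refine le_iSup_of_le ⟨(_, _), hle, (Submodule.fg_span (hT.image _)).sup k2, LcCh.cons
      ⟨_, _, _, θ'.rangeRestrict, θ'.surjective_rangeRestrict,
        fun x hx => Subtype.ext (h2 _ (k1 hx)), Λ.le_of_injective _
          (Submodule.inclusion_injective (Submodule.span_le.2 fun y hy => ?_))⟩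
      le_sup_right k3⟩ le_rfl
    exact ⟨⟨_, Submodule.mem_sup_left (Submodule.subset_span ⟨y, hy, rfl⟩)⟩, hσ y⟩

theorem LcCh.le_val {A : Submodule R X} {t : ℝ≥0∞} (h : LcCh Λ φ A t) {Z : Type u}
    [AddCommGroup Z] [Module S Z] (ψ : X →ₛₗ[φ] Z) (hψ : Function.Injective ψ) :
    t ≤ Λ.val (A.map ψ) := by
  induction h with
  | nil => exact zero_le
  | @cons A B s t h hBA _ ih =>
    obtain ⟨Y, _, _, θ, h1, h2, h3⟩ := h
    obtain ⟨σ, hσ⟩ := (ψ.submoduleMap_surjective A).hasRightInverse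
    have hσ' : ∀ x, σ (ψ.submoduleMap A x) = x := fun x =>
      Subtype.ext (hψ (congrArg Subtype.val (hσ (ψ.submoduleMap A x))))
    let κ : A.map ψ →ₗ[S] Y :=
      { toFun := fun x => θ (σ x)
        map_add' := fun x y => by
          rw [← hσ x, ← hσ y, ← map_add, hσ', hσ', hσ', map_add]
        map_smul' := fun c x => by
          obtain ⟨r, rfl⟩ := RingHomSurjective.is_surjective (σ := φ) c
          rw [← hσ x, ← map_smulₛₗ, hσ', hσ', map_smulₛₗ, RingHom.id_apply] }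
    rw [Λ.eq_ker_add_range κ, add_comm]
    refine add_le_add (ih.trans (Λ.le_of_injective ((Submodule.inclusion
      (Submodule.map_mono hBA)).codRestrict _ ?_) fun x y e => Submodule.inclusion_injective _
        (congrArg Subtype.val e))) (h3.trans (Λ.le_of_surjective (Submodule.subtype _) fun y => ?_))
    · rintro ⟨_, x, hx, rfl⟩
      exact (congrArg θ (hσ' ⟨x, hBA hx⟩)).trans (h2 _ hx)
    · obtain ⟨x, rfl⟩ := h1 y
      exact ⟨⟨_, _, congrArg θ (hσ' x)⟩, rfl⟩

end lift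

/-- devissage along a principal ideal. -/
theorem Len.exists_lift {R S : Type u} [CommRing R] [CommRing S] (φ : R →+* S)
    (hφ : Function.Surjective φ) (π : R) (hπ : RingHom.ker φ = Ideal.span {π}) (Λ : Len S) :
    ∃ Λ' : Len R, Λ'.res φ = Λ := by
  have : RingHomSurjective φ := ⟨hφ⟩
  refine ⟨⟨fun X _ _ => sSup {t | LcCh Λ φ (⊤ : Submodule R X) t}, ?_, ?_, ?_⟩,
    Len.ext' fun Y _ _ => le_antisymm (sSup_le fun t ht => ?_) (le_sSup ?_)⟩
  · intro X' X X'' _ _ _ _ _ _ f g hf hfg hg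
    have hk := LinearMap.exact_iff.1 hfg
    refine le_antisymm (sSup_le fun t ht => ?_) ?_
    · obtain ⟨t', t'', h1, h2, h3⟩ := LcCh.split ht g
      have h4 := h1.comap f (inf_le_right.trans hk.le) (LcCh.nil _)
      rw [add_zero] at h4
      exact h3.trans (add_le_add (le_sSup (h4.mono le_top)) (le_sSup (h2.mono le_top)))
    · rw [sSup_eq_iSup', sSup_eq_iSup']
      have : Nonempty {t | LcCh Λ φ (⊤ : Submodule R X') t} := ⟨⟨0, LcCh.nil _⟩⟩
      have : Nonempty {t | LcCh Λ φ (⊤ : Submodule R X'') t} := ⟨⟨0, LcCh.nil _⟩⟩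
      refine ENNReal.iSup_add_iSup_le fun t' t'' => le_sSup ?_
      have h1 := (LcCh.map t'.2 f hf).mono ((Submodule.map_top f).trans hk.symm).le
      rw [add_comm]
      exact (LcCh.comap t''.2 g (LinearMap.range_eq_top.2 hg).ge h1).mono le_top
  · exact fun X _ _ h => le_antisymm (sSup_le fun t ht => (LcCh.zero ht).le) zero_le
  · intro X _ _ c h
    refine sSup_le fun t ht => (LcCh.cont ht).trans (iSup_le fun p => le_trans (le_sSup ?_)
      (h p.1.1 p.2.2.1))
    have h1 := p.2.2.2.comap p.1.1.subtype (Submodule.range_subtype _).ge (LcCh.nil _)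
    rwa [add_zero, Submodule.comap_subtype_self] at h1
  · exact (LcCh.le_val ht (lcId φ Y) Function.injective_id).trans
      (Λ.le_of_injective _ (Submodule.injective_subtype _))
  · have := LcCh.cons (Λ := Λ) (φ := φ) ⟨Y, inferInstance, inferInstance,
      (lcId φ Y).comp (Submodule.subtype ⊤), fun y => ⟨⟨y, trivial⟩, rfl⟩, fun x hx => hx, le_rfl⟩
      bot_le (LcCh.nil _)
    rwa [add_zero] at this

section directed

variable {E : Type u} [CommRing E] {X' X X'' : Type u} [AddCommGroup X'] [Module E X']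
  [AddCommGroup X] [Module E X] [AddCommGroup X''] [Module E X'']

theorem lcDir_anti {A B : Subring E} (h : A ≤ B) (Λ : Len A) (Λ' : Len B)
    (P : ∀ (X Y : Type u) [AddCommGroup X] [Module A X] [AddCommGroup Y] [Module B Y], Prop)
    (H : ∀ (X Y : Type u) [AddCommGroup X] [Module A X] [AddCommGroup Y] [Module B Y]
      (θ : X →ₛₗ[Subring.inclusion h] Y), Submodule.span B (Set.range θ) = ⊤ → P X Y →
        Λ'.val Y ≤ Λ.val X) (T T' : Set X)
    (hP : P ((Submodule.span A T).map (Submodule.span A T').mkQ)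
      ((Submodule.span B T).map (Submodule.span B T').mkQ)) :
    Λ'.rel (Submodule.span B T) (Submodule.span B T') ≤
      Λ.rel (Submodule.span A T) (Submodule.span A T') := by
  let ι : X →ₛₗ[Subring.inclusion h] X := ⟨AddHom.id X, fun _ _ => rfl⟩
  have hι : ∀ T : Set X, Submodule.span A T ≤ (Submodule.span B T).comap ι := fun T =>
    Submodule.span_le.2 fun x hx => Submodule.subset_span (R := B) hx
  refine H _ _ (((Submodule.span A T').mapQ _ ι (hι T')).restrict ?_) ?_ hP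
  · rintro _ ⟨x, hx, rfl⟩
    exact ⟨x, hι T hx, rfl⟩
  · refine Submodule.map_injective_of_injective (Submodule.injective_subtype _) ?_
    rw [Submodule.map_subtype_top, Submodule.map_span]
    refine le_antisymm (Submodule.span_le.2 ?_) ?_
    · rintro _ ⟨y, -, rfl⟩
      exact y.2
    · refine (Submodule.map_span _ _).le.trans (Submodule.span_mono ?_)
      rintro _ ⟨x, hx, rfl⟩
      exact ⟨_, ⟨⟨_, x, Submodule.subset_span hx, rfl⟩, rfl⟩, rfl⟩

theorem lcDir_image {A : Subring E} (Λ : Len A) (f : X' →ₗ[E] X) (hf : Function.Injective f)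
    (T : Set X') : Λ.val (Submodule.span A (f '' T)) = Λ.val (Submodule.span A T) := by
  rw [Λ.congr (Submodule.equivMapOfInjective (f.restrictScalars A) hf _), Submodule.map_span]
  rfl

theorem lcDir_one (A : Subring E) (Λ : Len A) (J : Ideal E) :
    Λ.val (Submodule.span A ({1} : Set (E ⧸ J))) = Λ.val (A ⧸ J.comap A.subtype) := by
  have e : LinearMap.ker (LinearMap.toSpanSingleton A (E ⧸ J) 1) = J.comap A.subtype := by
    ext a
    change (a : E) • (1 : E ⧸ J) = 0 ↔ (a : E) ∈ J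
    rw [Algebra.smul_def, mul_one, Ideal.Quotient.algebraMap_eq, Ideal.Quotient.eq_zero_iff_mem]
  rw [← LinearMap.range_toSpanSingleton, ← Λ.congr (LinearMap.quotKerEquivRange _)]
  exact Λ.congr (Submodule.quotEquivOfEq _ _ e)

variable {κ : Type*} (S : κ → Subring E) (Λ : ∀ a, Len (S a))

/-- the normalised length. -/
noncomputable def lcDir (X : Type u) [AddCommGroup X] [Module E X] : ℝ≥0∞ :=
  ⨆ T : {T : Set X // T.Finite}, ⨅ a, (Λ a).val (Submodule.span (S a) T.1)

theorem lcDir_le {T : Set X} (h : T.Finite) :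
    ⨅ a, (Λ a).val (Submodule.span (S a) T) ≤ lcDir S Λ X :=
  le_iSup (fun T : {T : Set X // T.Finite} => ⨅ a, (Λ a).val (Submodule.span (S a) T.1)) ⟨T, h⟩

theorem lcDir_cont {T : Set X} (h : T.Finite) :
    ⨅ a, (Λ a).val (Submodule.span (S a) T) ≤ lcDir S Λ (Submodule.span E T) := by
  refine le_trans (le_of_eq (iInf_congr fun a => ?_)) (lcDir_le S Λ
    (h.preimage (Submodule.span E T).injective_subtype.injOn))
  rw [← lcDir_image (Λ a) _ (Submodule.span E T).injective_subtype,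
    Set.image_preimage_eq_of_subset fun x hx => ⟨⟨x, Submodule.subset_span hx⟩, rfl⟩]

theorem lcDir_add_le (f : X' →ₗ[E] X) (g : X →ₗ[E] X'') (hf : Function.Injective f)
    (hfg : Function.Exact f g) (hg : Function.Surjective g) :
    lcDir S Λ X' + lcDir S Λ X'' ≤ lcDir S Λ X := by
  have : Nonempty {T : Set X' // T.Finite} := ⟨⟨∅, Set.finite_empty⟩⟩
  have : Nonempty {T : Set X'' // T.Finite} := ⟨⟨∅, Set.finite_empty⟩⟩
  refine ENNReal.iSup_add_iSup_le fun T' T'' => ?_
  obtain ⟨s, hs⟩ := hg.hasRightInverse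
  refine le_trans (le_iInf fun a => ?_)
    (lcDir_le S Λ (T := f '' T'.1 ∪ s '' T''.1) ((T'.2.image _).union (T''.2.image _)))
  refine (add_le_add (iInf_le _ a) (iInf_le _ a)).trans ?_
  rw [← lcDir_image (Λ a) f hf, add_comm, ← (Λ a).rel_bot, ← (Λ a).rel_bot, ← (Λ a).rel_bot,
    (Λ a).rel_add (Submodule.span_mono Set.subset_union_left) bot_le]
  refine add_le_add (le_trans ?_ ((Λ a).rel_map_le (g.restrictScalars (S a)) _ _)) le_rfl
  refine (Λ a).rel_mono (Submodule.span_le.2 fun x hx => ⟨s x, Submodule.subset_span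
    (Or.inr ⟨x, hx, rfl⟩), hs x⟩) (Submodule.map_le_iff_le_comap.2 (Submodule.span_le.2 ?_))
  rintro _ ⟨x, -, rfl⟩
  exact hfg.apply_apply_eq_zero x

theorem lcDir_le_add [Preorder κ] [IsDirected κ (· ≤ ·)] (f : X' →ₗ[E] X) (g : X →ₗ[E] X'')
    (hf : Function.Injective f) (hfg : Function.Exact f g)
    (h1 : ∀ a b, a ≤ b → ∀ T T' : Set X,
      (Λ b).rel (Submodule.span (S b) T) (Submodule.span (S b) T') ≤
        (Λ a).rel (Submodule.span (S a) T) (Submodule.span (S a) T'))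
    (h2 : ∀ a b, a ≤ b → ∀ T : Set X',
      (Λ b).val (Submodule.span (S b) T) ≤ (Λ a).val (Submodule.span (S a) T))
    (h3 : ∀ a, ∀ T : Set X, T.Finite → (Λ a).val (Submodule.span (S a) T) ≠ ⊤) :
    lcDir S Λ X ≤ lcDir S Λ X' + lcDir S Λ X'' := by
  refine iSup_le fun T => le_trans ?_ (add_le_add le_rfl (lcDir_le S Λ (T.2.image g)))
  rw [ENNReal.add_iInf]
  refine le_iInf fun a0 => ENNReal.le_of_forall_pos_le_add fun ε hε _ => ?_
  obtain ⟨A', k1, k2, k3⟩ := (Λ a0).exists_fg_rel_le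
    (Submodule.span (S a0) T.1 ⊓ LinearMap.ker (g.restrictScalars (S a0))) ⊥
    (ne_top_of_le_ne_top (h3 a0 _ T.2) (((Λ a0).rel_mono inf_le_left le_rfl).trans
      ((Λ a0).rel_bot _).le)) ε (ENNReal.coe_pos.2 hε)
  obtain ⟨U, hU, rfl⟩ := Submodule.fg_def.1 k2
  have eU : f '' (f ⁻¹' U) = U := Set.image_preimage_eq_of_subset fun x hx =>
    (hfg x).1 (k1 (Submodule.subset_span hx)).2
  rw [add_assoc]
  refine le_trans ?_ (add_le_add (lcDir_le S Λ (hU.preimage hf.injOn)) le_rfl)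
  rw [ENNReal.iInf_add]
  refine le_iInf fun a => ?_
  obtain ⟨b, hb, hb0⟩ := exists_ge_ge a a0
  refine (iInf_le _ b).trans ?_
  rw [← (Λ b).rel_bot, add_comm]
  refine ((Λ b).rel_le_add _ (Submodule.span (S b) U) _).trans (add_le_add ((h1 a0 b hb0 _ _).trans
    (((Λ a0).rel_le_add _ (Submodule.span (S a0) T.1 ⊓ LinearMap.ker (g.restrictScalars (S a0)))
      _).trans (add_le_add (le_of_eq ?_) (by rwa [sup_bot_eq] at k3)))) ?_)
  · rw [(Λ a0).rel_inf, ← Submodule.comap_bot, ← (Λ a0).rel_map_comap, (Λ a0).rel_bot,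
      Submodule.map_span]
    rfl
  · rw [(Λ b).rel_bot]
    exact le_trans (le_of_eq ((congrArg (fun U : Set X => (Λ b).val (Submodule.span (S b) U))
      eU.symm).trans (lcDir_image _ f hf _))) (h2 a b hb _)

end directed

/-- normalised length on a directed union. -/
theorem Len.exists_directed {E : Type u} [CommRing E] {κ : Type*} [Preorder κ] [Nonempty κ]
    [IsDirected κ (· ≤ ·)] (S : κ → Subring E) (hS : Monotone S) (hU : ∀ x : E, ∃ a, x ∈ S a)
    (Λ : ∀ a, Len (S a)) (zs : List E) (hz : ∀ a, ∀ z ∈ zs, z ∈ S a)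
    (hfin : ∀ (a : κ) (J : Ideal (S a)), (∀ z : S a, (z : E) ∈ zs → z ∈ J.radical) →
      (Λ a).val (S a ⧸ J) ≠ ⊤)
    (hmono : ∀ (a b : κ) (hab : a ≤ b) (X Y : Type u) [AddCommGroup X] [Module (S a) X]
      [AddCommGroup Y] [Module (S b) Y] (θ : X →ₛₗ[Subring.inclusion (hS hab)] Y),
      Submodule.span (S b) (Set.range θ) = ⊤ →
      (∀ x : X, ∀ z : S a, (z : E) ∈ zs → ∃ n : ℕ, z ^ n • x = 0) → (Λ b).val Y ≤ (Λ a).val X) :
    ∃ Λ' : Len E, ∀ J : Ideal E, (∀ z ∈ zs, z ∈ J.radical) →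
      Λ'.val (E ⧸ J) = ⨅ a, (Λ a).val (S a ⧸ J.comap (S a).subtype) := by
  have hI : (Ideal.ofList zs).FG := Submodule.fg_span (List.finite_toSet zs)
  have tor : ∀ (X : Type u) [AddCommGroup X] [Module E X], Tors (Ideal.ofList zs) X →
      ∀ (x : X) (z : E), z ∈ zs → ∃ n : ℕ, z ^ n • x = 0 := fun X _ _ h x z hz =>
    (h x).imp fun n hn => hn _ (Ideal.pow_mem_pow (Ideal.subset_span (s := {r | r ∈ zs}) hz) n)
  have anti : ∀ (X : Type u) [AddCommGroup X] [Module E X], Tors (Ideal.ofList zs) X →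
      ∀ a b, a ≤ b → ∀ T T' : Set X,
        (Λ b).rel (Submodule.span (S b) T) (Submodule.span (S b) T') ≤
          (Λ a).rel (Submodule.span (S a) T) (Submodule.span (S a) T') := by
    intro X _ _ h a b hab T T'
    refine lcDir_anti (hS hab) (Λ a) (Λ b) (fun X Y _ _ _ _ => (∀ x : X, ∀ z : S a, (z : E) ∈ zs →
      ∃ n : ℕ, z ^ n • x = 0)) (hmono a b hab) T T' ?_
    rintro ⟨_, x, -, rfl⟩ z hz
    obtain ⟨n, hn⟩ := tor X h x z hz
    refine ⟨n, Subtype.ext ?_⟩
    change z ^ n • Submodule.mkQ _ x = 0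
    rw [← map_smul, show z ^ n • x = 0 from hn, map_zero]
  have anti' : ∀ (X : Type u) [AddCommGroup X] [Module E X], Tors (Ideal.ofList zs) X →
      ∀ a b, a ≤ b → ∀ T : Set X,
        (Λ b).val (Submodule.span (S b) T) ≤ (Λ a).val (Submodule.span (S a) T) := by
    intro X _ _ h a b hab T
    simpa only [Submodule.span_empty, Len.rel_bot] using anti X h a b hab T ∅
  have fin : ∀ (X : Type u) [AddCommGroup X] [Module E X], Tors (Ideal.ofList zs) X →
      ∀ a, ∀ T : Set X, T.Finite → (Λ a).val (Submodule.span (S a) T) ≠ ⊤ := by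
    intro X _ _ h a T hT
    have := Module.Finite.span_of_finite (S a) hT
    obtain ⟨r, w, hw⟩ := Module.Finite.exists_fin (R := S a) (M := Submodule.span (S a) T)
    refine ne_top_of_le_ne_top (ENNReal.mul_ne_top (ENNReal.natCast_ne_top r) (hfin a
      (⨅ i, Ideal.torsionOf (S a) _ (w i)) fun z hz => ?_)) ((Λ a).le_of_span w hw _ fun c hc i =>
        (Ideal.mem_torsionOf_iff _ _).1 ((Submodule.mem_iInf _).1 hc i))
    choose n hn using fun i => tor X h (w i) z hz
    refine ⟨Finset.univ.sup n, (Submodule.mem_iInf _).2 fun i =>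
      (Ideal.mem_torsionOf_iff _ _).2 (Subtype.ext ?_)⟩
    obtain ⟨m, hm⟩ := Nat.exists_eq_add_of_le' (Finset.le_sup (f := n) (Finset.mem_univ i))
    change (z : E) ^ Finset.univ.sup n • (w i : X) = 0
    rw [hm, pow_add, mul_smul, hn, smul_zero]
  obtain ⟨Λ', h'⟩ := Len.exists_of_tors (Ideal.ofList zs) hI (lcDir S Λ)
    (fun X' X X'' _ _ _ _ _ _ f g hf hfg hg hX => le_antisymm
      (lcDir_le_add S Λ f g hf hfg (anti X hX) (anti' X' (hX.LenCons_inj f hf)) (fin X hX))
      (lcDir_add_le S Λ f g hf hfg hg))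
    (fun X _ _ h => le_antisymm (iSup_le fun T => (iInf_le _ (Classical.arbitrary κ)).trans
      ((Λ _).zero _ inferInstance).le) zero_le)
    (fun X _ _ c _ h => iSup_le fun T => le_trans (lcDir_cont S Λ T.2) (h _ (Submodule.fg_span T.2)))
  · refine ⟨Λ', fun J hJ => ?_⟩
    have hT : Tors (Ideal.ofList zs) (E ⧸ J) := by
      obtain ⟨k, hk⟩ := Ideal.exists_pow_le_of_le_radical_of_fg (I := Ideal.ofList zs) (J := J)
        (Ideal.span_le.2 hJ) hI
      intro x
      obtain ⟨x, rfl⟩ := Ideal.Quotient.mk_surjective x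
      exact ⟨k, fun c hc => Ideal.Quotient.eq_zero_iff_mem.2 (J.mul_mem_right x (hk hc))⟩
    rw [h' _ hT, ← iInf_congr fun a => lcDir_one (S a) (Λ a) J]
    refine le_antisymm (iSup_le ?_) (lcDir_le S Λ (Set.finite_singleton _))
    rintro ⟨T, hT'⟩
    choose s hs using Ideal.Quotient.mk_surjective (I := J)
    choose i hi using hU
    obtain ⟨a0, ha0⟩ := (hT'.image fun x => i (s x)).exists_le
    refine le_iInf fun a => ?_
    obtain ⟨b, h1, h2⟩ := exists_ge_ge a a0
    refine (iInf_le _ b).trans (le_trans ?_ (anti' _ hT a b h1 _))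
    refine (Λ b).le_of_injective _ (Submodule.inclusion_injective (Submodule.span_le.2 fun x hx =>
      Submodule.mem_span_singleton.2 ⟨⟨s x, hS ((ha0 _ ⟨x, hx, rfl⟩).trans h2) (hi _)⟩, ?_⟩))
    change s x • (1 : E ⧸ J) = x
    rw [Algebra.smul_def, mul_one, Ideal.Quotient.algebraMap_eq, hs]

/-- scaling. -/
theorem Len.exists_smul {R : Type u} [CommRing R] (Λ : Len R) (c : ℝ≥0∞) (hc : c ≠ ⊤) :
    ∃ Λ' : Len R, ∀ (X : Type u) [AddCommGroup X] [Module R X], Λ'.val X = c * Λ.val X := by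
  refine ⟨⟨fun X _ _ => c * Λ.val X, fun X' X X'' _ _ _ _ _ _ f g hf hfg hg => by
    rw [Λ.add X' X X'' f g hf hfg hg, mul_add], fun X _ _ h => by rw [Λ.zero X h, mul_zero],
    fun X _ _ d h => ?_⟩, fun X _ _ => rfl⟩
  refine (mul_le_mul_right (Λ.LenCons_le_iSup X) c).trans ?_
  rw [ENNReal.mul_iSup]
  exact iSup_le fun N => h N.1 N.2

end Vale.Agent.P177
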