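import Vale.Agent.P177.Cx2

/-! Lifting complexes along a hypersurface. -/

namespace Vale.Agent.P177

universe u

theorem Lift_null {S : Type u} [CommRing S] {ι : Type} [Fintype ι] [DecidableEq ι] {b : S}
    {d : Matrix ι ι S} (dd : d * d = 0) (H E : Matrix ι ι S) (h : d * H + H * d = b • 1 + E)
    (hE : E * E = 0) : ∃ H' : Matrix ι ι S, d * H' + H' * d = (b * b) • 1 := by
  have h1 : E = d * H + H * d - b • 1 := by rw [h, add_sub_cancel_left]
  have h2 : E * d = d * E := by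
    rw [h1, Matrix.sub_mul, Matrix.mul_sub, Matrix.add_mul, Matrix.mul_add, Matrix.mul_assoc H,
      ← Matrix.mul_assoc d d, dd, Matrix.mul_assoc]
    simp
  refine ⟨H * (b • 1 - E), ?_⟩
  have h3 : (b • 1 - E) * d = d * (b • 1 - E) := by
    rw [Matrix.sub_mul, Matrix.mul_sub, h2]
    simp
  rw [Matrix.mul_assoc, h3, ← Matrix.mul_assoc, ← Matrix.mul_assoc, ← Matrix.add_mul, h,
    Matrix.add_mul, Matrix.mul_sub, Matrix.mul_sub, hE]
  simp [smul_smul]

theorem Lift_ex {T ι N : Type*} [SMul T N] {g : T} {x : ι → N} :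
    (∃ u : ι → N, g • u = x) ↔ ∀ a, ∃ u, g • u = x a :=
  ⟨fun ⟨u, h⟩ a => ⟨u a, congrFun h a⟩, fun h => ⟨fun a => (h a).choose,
    funext fun a => (h a).choose_spec⟩⟩

section
variable {S : Type u} [CommRing S] {ι : Type} [Fintype ι] [DecidableEq ι] (deg : ι → ℕ)
  (D s : Matrix ι ι S) (g : S) (h1 : D * D = g • s) (h2 : D * s = s * D)
  (h3 : ∀ a b, D a b ≠ 0 → deg b = deg a + 1) (h4 : ∀ a b, s a b ≠ 0 → deg b = deg a + 2)

/-- the lifted complex. -/
def Lift_G : Cx S where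
  ι := ι ⊕ ι
  deg := Sum.elim deg fun b => deg b + 1
  d := Matrix.fromBlocks D (g • 1) (-s) (-D)
  dd := by simp [Matrix.fromBlocks_multiply, h1, h2]
  hdeg := by
    rintro (x | x) (y | y) h
    · exact h3 x y h
    · rcases eq_or_ne x y with rfl | hxy
      · rfl
      · exact absurd (by simp [hxy]) h
    · exact h4 x y fun h' => h (by simp [h'])
    · exact congrArg (· + 1) (h3 x y fun h' => h (by simp [h']))

theorem Lift_mem {b : S} {H K : Matrix ι ι S} (hK : D * H + H * D - b • 1 = g • K) :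
    b * b ∈ (Lift_G deg D s g h1 h2 h3 h4).Null := by
  refine Lift_null (d := Matrix.fromBlocks D (g • 1) (-s) (-D)) (Lift_G deg D s g h1 h2 h3 h4).dd
    (Matrix.fromBlocks H 0 (-K) (-H))
    (Matrix.fromBlocks 0 0 (D * K - K * D + H * s - s * H) 0) ?_
    (by simp [Matrix.fromBlocks_multiply])
  rw [cx_smul_one]
  simp only [Matrix.fromBlocks_multiply, Matrix.fromBlocks_add, Matrix.fromBlocks_inj,
    Matrix.zero_mul, Matrix.mul_zero, add_zero, zero_add, Matrix.mul_smul, Matrix.smul_mul,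
    Matrix.mul_neg, Matrix.neg_mul, Matrix.one_mul, Matrix.mul_one, smul_neg, neg_neg, ← hK]
  refine ⟨?_, ?_, ?_, ?_⟩ <;> abel

theorem Lift_qe {T : Type u} [CommRing T] (ψ : S →+* T) (N : Type u) [AddCommGroup N] [Module T N]
    (Y : DG T) (p : (ι → N) →ₗ[T] Y.M) (hp : Function.Surjective p)
    (hker : ∀ x, p x = 0 ↔ ∃ u, ψ g • u = x) (hreg : ∀ n : N, ψ g • n = 0 → n = 0)
    (hd : ∀ x, p (mact (D.map ψ) N x) = Y.d (p x))
    (hpr : ∀ i x, p (cut (R := T) (fun a => deg a = i) N x) = Y.pr i (p x)) :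
    ∃ q : DG.Hom (((Lift_G deg D s g h1 h2 h3 h4).map ψ).on N) Y, q.QIso := by
  have el : ∀ (x : ι ⊕ ι → N), (((Lift_G deg D s g h1 h2 h3 h4).map ψ).on N).d x ∘ Sum.inl =
      mact (D.map ψ) N (x ∘ Sum.inl) + ψ g • (x ∘ Sum.inr) := fun x => funext fun a => by
    show ∑ c : ι ⊕ ι, ψ (Matrix.fromBlocks D (g • 1) (-s) (-D) (.inl a) c) • x c = _
    simp [Fintype.sum_sum_type, Matrix.one_apply, apply_ite ψ, mact_apply]
  have er : ∀ (x : ι → N), (((Lift_G deg D s g h1 h2 h3 h4).map ψ).on N).d (Sum.elim 0 x) ∘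
      Sum.inr = -mact (D.map ψ) N x := fun x => funext fun a => by
    show ∑ c : ι ⊕ ι, ψ (Matrix.fromBlocks D (g • 1) (-s) (-D) (.inr a) c) •
      (Sum.elim 0 x : ι ⊕ ι → N) c = _
    simp [Fintype.sum_sum_type, mact_apply]
  refine ⟨⟨p ∘ₗ LinearMap.funLeft T N Sum.inl, fun x => ?_, fun i x => hpr i (x ∘ Sum.inl)⟩,
    DG.Hom.qIso_of_surjective _ (fun y => ?_) fun x e1 e2 => ?_⟩
  · refine (congrArg p (el x)).trans ?_
    rw [map_add, hd, (hker _).2 ⟨_, rfl⟩, add_zero]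
    rfl
  · obtain ⟨x, rfl⟩ := hp y
    exact ⟨Sum.elim x 0, rfl⟩
  · obtain ⟨u, hu⟩ := (hker _).1 e1
    replace hu : ψ g • u = x ∘ Sum.inl := hu
    have e3 : ψ g • (mact (D.map ψ) N u + x ∘ Sum.inr) = 0 := by
      rw [smul_add, ← map_smul, hu]
      exact (el x).symm.trans (congrArg (· ∘ Sum.inl) e2)
    have e4 : mact (D.map ψ) N u + x ∘ Sum.inr = 0 := funext fun a => hreg _ (congrFun e3 a)
    refine ⟨Sum.elim 0 u, map_zero p, funext ?_⟩
    rintro (a | a)
    · refine (congrFun (el _) a).trans (Eq.trans ?_ (congrFun hu a))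
      rw [Sum.elim_comp_inl, Sum.elim_comp_inr, map_zero, zero_add]
    · exact (congrFun (er u) a).trans (congrFun (neg_eq_of_add_eq_zero_right e4) a)

end

theorem Cx.exists_lift {S R : Type u} [CommRing S] [CommRing R] (φ : S →+* R)
    (hφ : Function.Surjective φ) {f : S} (hk : RingHom.ker φ = Ideal.span {f})
    (hf : ∀ x, f * x = 0 → x = 0) (F : Cx R) :
    ∃ G : Cx S, F.Null.radical.comap φ ≤ G.Null.radical ∧
      (∀ J : Ideal R, F.IsRes (R ⧸ J) → G.IsRes (S ⧸ J.comap φ)) ∧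
      ∀ (Bt B : Type u) [CommRing Bt] [CommRing B] (π : Bt →+* B) (ψ : S →+* Bt) (σ : R →+* B),
        Function.Surjective π → σ.comp φ = π.comp ψ → RingHom.ker π = Ideal.span {ψ f} →
        ∀ a : Ideal Bt, (∀ y, ψ f * y ∈ a → y ∈ a) → ∀ (Λ : Len Bt) (i : ℕ),
          ((G.map ψ).on (Bt ⧸ a)).hl Λ i = ((F.map σ).on (B ⧸ a.map π)).hl (Λ.res π) i := by
  obtain ⟨l, l1, l0⟩ : ∃ l : R → S, (∀ r, φ (l r) = r) ∧ l 0 = 0 := by
    classical
    choose l hl using hφ
    refine ⟨fun r => if r = 0 then 0 else l r, fun r => ?_, if_pos rfl⟩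
    dsimp only
    split_ifs with h
    · rw [h, map_zero]
    · exact hl r
  have hl : ∀ A : Matrix F.ι F.ι R, (A.map l).map φ = A := fun A => Matrix.ext fun _ _ => l1 _
  have hdiv : ∀ A : Matrix F.ι F.ι S, A.map φ = 0 → ∃ K : Matrix F.ι F.ι S, A = f • K := by
    intro A hA
    have h1 : ∀ i j, ∃ k, k * f = A i j := fun i j =>
      Ideal.mem_span_singleton'.1 (hk ▸ congrFun (congrFun hA i) j)
    choose K hK using h1
    exact ⟨Matrix.of K, Matrix.ext fun i j => (hK i j).symm.trans (mul_comm _ _)⟩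
  obtain ⟨s, h1⟩ := hdiv (F.d.map l * F.d.map l) (by rw [Matrix.map_mul, hl, F.dd])
  have h2 : F.d.map l * s = s * F.d.map l := by
    have h : f • (F.d.map l * s - s * F.d.map l) = 0 := by
      rw [smul_sub, ← Matrix.mul_smul, ← Matrix.smul_mul, ← h1, Matrix.mul_assoc, sub_self]
    exact sub_eq_zero.1 (Matrix.ext fun i j => hf _ (congrFun (congrFun h i) j))
  have h3 : ∀ a b, F.d.map l a b ≠ 0 → F.deg b = F.deg a + 1 := fun a b h =>
    F.hdeg a b fun h0 => h ((congrArg l h0).trans l0)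
  have h4 : ∀ a b, s a b ≠ 0 → F.deg b = F.deg a + 2 := fun a b h => by
    have h5 : ∑ c, F.d.map l a c * F.d.map l c b ≠ 0 := fun h0 =>
      h (hf _ ((congrFun (congrFun h1 a) b).symm.trans h0))
    obtain ⟨c, -, hc⟩ := Finset.exists_ne_zero_of_sum_ne_zero h5
    rw [h3 c b (right_ne_zero_of_mul hc), h3 a c (left_ne_zero_of_mul hc)]
  refine ⟨Lift_G F.deg _ s f h1 h2 h3 h4, fun a ⟨n, H, hH⟩ => ⟨n + n, ?_⟩, fun J hJ => ?_,
    fun Bt B _ _ π ψ σ hπ hc hπk a ha Λ i => ?_⟩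
  · obtain ⟨K, hK⟩ := hdiv (F.d.map l * H.map l + H.map l * F.d.map l - a ^ n • 1) (by
      rw [Matrix.map_sub _ (map_sub φ), Matrix.map_add _ (map_add φ), Matrix.map_mul,
        Matrix.map_mul, hl, hl, hH, sub_eq_zero]
      ext i j
      simp [Matrix.one_apply, apply_ite φ])
    rw [pow_add]
    exact Lift_mem F.deg _ s f h1 h2 h3 h4 hK
  · have g1 : ∀ y : S, (∃ u, f • u = y) ↔ φ y = 0 := fun y => by
      refine Iff.trans ?_ (RingHom.mem_ker (f := φ))
      rw [hk, Ideal.mem_span_singleton']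
      exact exists_congr fun u => by rw [mul_comm]; rfl
    have g2 : ∀ (x : F.ι → S) (a : F.ι), φ (∑ b, l (F.d a b) * x b) = ∑ b, F.d a b * φ (x b) :=
      fun x a => by simp only [_root_.map_sum, map_mul, l1]
    obtain ⟨q, hq⟩ := Lift_qe F.deg _ s f h1 h2 h3 h4 (RingHom.id S) S (Cx.Cx2_res φ (F.on R))
      ⟨⟨fun x a => φ (x a), fun _ _ => funext fun _ => map_add φ _ _⟩,
        fun _ _ => funext fun _ => map_mul φ _ _⟩ hφ.comp_left
      (fun x => funext_iff.trans (Lift_ex.trans (forall_congr' fun a => g1 (x a))).symm) hf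
      (fun x => funext (g2 x))
      fun i x => funext fun a => apply_ite φ _ _ _ |>.trans (by rw [map_zero]; rfl)
    obtain ⟨ε, e1, e2, e3, e4⟩ := hJ
    let e : (S ⧸ J.comap φ) ≃+* R ⧸ J := RingEquiv.ofBijective (Ideal.quotientMap J φ le_rfl)
      ⟨Ideal.quotientMap_injective, Ideal.quotientMap_surjective (H := le_rfl) hφ⟩
    let ε' : (Cx.Cx2_res φ (F.on R)).M →ₗ[S] S ⧸ J.comap φ :=
      ⟨⟨fun x => e.symm (ε x), fun x y => (congrArg e.symm (ε.map_add x y)).trans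
        (map_add _ _ _)⟩, fun r x => (congrArg e.symm (ε.map_smul (φ r) x)).trans (by
          refine e.symm_apply_eq.2 ?_
          show Ideal.Quotient.mk J (φ r) * ε x = e (Ideal.Quotient.mk _ r * e.symm (ε x))
          rw [map_mul, e.apply_symm_apply]
          rfl)⟩
    have e5 : ∀ x, ε' (DG.pr _ 0 x) = ε' x := fun x => congrArg e.symm (e2 x)
    have e6 : ∀ x, ε' (DG.d _ x) = 0 := fun x => (congrArg e.symm (e3 x)).trans (map_zero _)
    refine ⟨ε' ∘ₗ q.f, fun z => ?_, fun x => (congrArg ε' (q.pr 0 x)).trans (e5 _),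
      fun x => (congrArg ε' (q.d x)).trans (e6 _), fun x hx h0 => hq.inj x hx (e4 _
        ((q.d x).symm.trans ((congrArg q.f hx).trans (map_zero _))) (e.symm.injective
          (h0.trans (map_zero _).symm)))⟩
    obtain ⟨y, rfl⟩ : ∃ y, ε' y = z := (e.symm.surjective.comp e1) z
    obtain ⟨x, -, w, hw⟩ := hq.surj _ (DG.d_zero _ y)
    exact ⟨x, (sub_eq_zero.1 ((map_sub ε' _ _).symm.trans ((congrArg ε' hw).symm.trans
      (e6 w)))).trans (e5 y)⟩
  · let p : (Bt ⧸ a) →+* B ⧸ a.map π := Ideal.quotientMap _ π Ideal.le_comap_map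
    have hp : ∀ r x, p (r • x) = π r • p x := fun r x => map_mul p (Ideal.Quotient.mk a r) x
    have g1 : ∀ z : Bt ⧸ a, (∃ u, ψ f • u = z) ↔ p z = 0 := fun z => by
      obtain ⟨y, rfl⟩ := Ideal.Quotient.mk_surjective z
      constructor
      · rintro ⟨u, hu⟩
        rw [← hu, hp, show π (ψ f) = 0 from (RingHom.mem_ker (f := π)).1
          (hπk ▸ Ideal.mem_span_singleton_self _), zero_smul]
      · intro h
        have h5 : y ∈ (a.map π).comap π := (Ideal.Quotient.eq_zero_iff_mem (a := π y)).1 h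
        rw [Ideal.comap_map_of_surjective π hπ, ← RingHom.ker_eq_comap_bot, hπk] at h5
        obtain ⟨y1, h6, y2, h7, rfl⟩ := Submodule.mem_sup.1 h5
        obtain ⟨u, rfl⟩ := Ideal.mem_span_singleton'.1 h7
        refine ⟨Ideal.Quotient.mk a u, ?_⟩
        rw [map_add, Ideal.Quotient.eq_zero_iff_mem.2 h6, zero_add, mul_comm]
        rfl
    have g2 : ∀ y : Bt ⧸ a, ψ f • y = 0 → y = 0 := fun y hy => by
      obtain ⟨y, rfl⟩ := Ideal.Quotient.mk_surjective y
      exact Ideal.Quotient.eq_zero_iff_mem.2 (ha y (Ideal.Quotient.eq_zero_iff_mem.1 hy))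
    have g3 : ∀ (x : F.ι → Bt ⧸ a) (b : F.ι),
        p (∑ c, ψ (l (F.d b c)) • x c) = ∑ c, σ (F.d b c) • p (x c) := fun x b => by
      refine (_root_.map_sum p _ _).trans (Finset.sum_congr rfl fun c _ => ?_)
      rw [hp, ← RingHom.comp_apply, ← hc, RingHom.comp_apply, l1]
    obtain ⟨q, hq⟩ := Lift_qe F.deg _ s f h1 h2 h3 h4 ψ (Bt ⧸ a)
      (Cx.Cx2_res π ((F.map σ).on (B ⧸ a.map π)))
      ⟨⟨fun x b => p (x b), fun _ _ => funext fun _ => map_add p _ _⟩,
        fun r x => funext fun b => hp r (x b)⟩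
      (Ideal.quotientMap_surjective (H := Ideal.le_comap_map) hπ).comp_left
      (fun x => funext_iff.trans (Lift_ex.trans (forall_congr' fun b => g1 (x b))).symm) g2
      (fun x => funext (g3 x))
      fun i x => funext fun b => apply_ite p _ _ _ |>.trans (by rw [map_zero]; rfl)
    exact (hq.hl_eq Λ i).trans (DG.hl_eq_of_semi Λ π
      (X := Cx.Cx2_res π ((F.map σ).on (B ⧸ a.map π))) (Y := (F.map σ).on (B ⧸ a.map π))
      (AddEquiv.refl _) (fun _ _ => rfl) (fun _ => rfl) (fun _ _ => rfl) i).symm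

end Vale.Agent.P177
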