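import Vale.Agent.P177.YSide
import Vale.Agent.P177.AmpR

/-! Almost regular parameters; the equal characteristic case. -/

namespace Vale.Agent.P177

open IsLocalRing RingTheory.Sequence Vale.Agent.P202

universe u

variable {T : Type u} [CommRing T] [IsLocalRing T] [IsNoetherianRing T] [IsDomain T]
  [IsAdicComplete (maximalIdeal T) T]

omit [IsAdicComplete (maximalIdeal T) T] in
theorem ys2_of_norm {A : Type u} [CommRing A] [IsLocalRing A] {x : List A} (hA : RegL A x)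
    (ψ : A →+* T) (hfin : ψ.Finite) (hinj : Function.Injective ψ) :
    ∃ z : List T, z.length = dimNat T ∧ Sop ⊥ z ∧ ∃ c : T, c ≠ 0 ∧
      ∀ M i : ℕ, 1 ≤ M → 0 < i → (((Cx.pt T).kosL (z.map (· ^ M))).on T).KillsH c i := by
  have := hA.noeth
  let := ψ.toAlgebra
  have : Module.Finite A T := hfin
  have h1 := dimNat_eq_of_finite ψ hfin
  rw [(RingHom.injective_iff_ker_eq_bot ψ).1 hinj, dimNat_quot_bot, hA.dimNat_eq] at h1
  have h3 : (maximalIdeal T).comap ψ = maximalIdeal A :=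
    eq_maximalIdeal (Ideal.isMaximal_comap_of_isIntegral_of_isMaximal (R := A) (maximalIdeal T))
  refine ⟨x.map ψ, by rw [List.length_map, h1], ⟨fun a ha => ?_, ?_⟩,
    hA.exists_kill ψ hfin hinj⟩
  · obtain ⟨b, hb, rfl⟩ := List.mem_map.1 ha
    have h4 : b ∈ (maximalIdeal T).comap ψ := by
      rw [h3, ← hA.span]
      exact Ideal.subset_span hb
    exact h4
  · rw [bot_sup_eq, ← Ideal.map_ofList, hA.span, Ideal.radical_eq_sInf, le_sInf_iff]
    rintro Q ⟨hQ, hQ'⟩
    have h5 : (Q.comap (algebraMap A T)).IsMaximal := by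
      have h6 : maximalIdeal A ≤ Q.comap (algebraMap A T) := Ideal.map_le_iff_le_comap.1 hQ
      rw [← (maximalIdeal.isMaximal A).eq_of_le (Ideal.comap_ne_top _ hQ'.ne_top) h6]
      infer_instance
    exact (eq_maximalIdeal (Ideal.isMaximal_of_isIntegral_of_isMaximal_comap Q h5)).ge

theorem ys2_field {k : Type u} [Field k] (c : k →+* T)
    (hres : ∀ t : T, ∃ a, t - c a ∈ maximalIdeal T) :
    ∃ z : List T, z.length = dimNat T ∧ Sop ⊥ z ∧ ∃ c : T, c ≠ 0 ∧
      ∀ M i : ℕ, 1 ≤ M → 0 < i → (((Cx.pt T).kosL (z.map (· ^ M))).on T).KillsH c i := by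
  obtain ⟨ψ, h1, h2, -⟩ := exists_norm_field c hres
  exact ys2_of_norm (regL_ps_field k _) ψ h1 h2

theorem ys2_coeff {V : Type u} [CommRing V] [IsLocalRing V] (h : IsCoeff V) (c : V →+* T)
    (hres : ∀ t : T, ∃ a, t - c a ∈ maximalIdeal T)
    (hloc : ∀ v ∈ maximalIdeal V, c v ∈ maximalIdeal T) :
    ∃ z : List T, z.length = dimNat T ∧ Sop ⊥ z ∧ ∃ c : T, c ≠ 0 ∧
      ∀ M i : ℕ, 1 ≤ M → 0 < i → (((Cx.pt T).kosL (z.map (· ^ M))).on T).KillsH c i := by
  rcases h with h | ⟨p, -, h⟩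
  · let := h.toField
    exact ys2_field c hres
  · by_cases hp0 : (p : T) = 0
    · have hk : ∀ v ∈ maximalIdeal V, c v = 0 := fun v hv => by
        rw [h.max] at hv
        obtain ⟨a, rfl⟩ := Ideal.mem_span_singleton'.1 hv
        rw [map_mul, map_natCast, hp0, mul_zero]
      refine ys2_field (k := ResidueField V) (Ideal.Quotient.lift (maximalIdeal V) c hk) fun t => ?_
      obtain ⟨a, ha⟩ := hres t
      exact ⟨residue V a, ha⟩
    · have hp : (p : T) ∈ maximalIdeal T := by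
        rw [← map_natCast c]
        exact hloc _ (h.max ▸ Ideal.mem_span_singleton_self _)
      obtain ⟨n, ψ, -, h1, h2, -⟩ := exists_norm_pRing h c hres hp hp0
      exact ys2_of_norm (regL_ps_pRing h n) ψ h1 h2

theorem ys2_res {V : Type u} [CommRing V] [IsLocalRing V] {d : ℕ} (Q : Ideal (PS V d))
    [IsLocalRing (PS V d ⧸ Q)] (t : PS V d ⧸ Q) : ∃ a : V,
      t - ((Ideal.Quotient.mk Q).comp MvPowerSeries.C) a ∈ maximalIdeal (PS V d ⧸ Q) := by
  obtain ⟨f, rfl⟩ := Ideal.Quotient.mk_surjective t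
  obtain ⟨v, hv⟩ := ps_residue d f
  refine ⟨v, ?_⟩
  rw [← map_maximalIdeal_of_surjective (Ideal.Quotient.mk Q) Ideal.Quotient.mk_surjective]
  exact Ideal.mem_map_of_mem _ hv

theorem exists_yData {V : Type u} [CommRing V] [IsLocalRing V] (h : IsCoeff V) {d : ℕ}
    (Q : Ideal (PS V d)) [Q.IsPrime] (hQ : 0 < dimNat (PS V d ⧸ Q)) :
    ∃ y : List (PS V d), y.length = dimNat (PS V d ⧸ Q) ∧ YData Q y := by
  obtain ⟨_, _⟩ := h.ps_complete d
  have hs : Function.Surjective (Ideal.Quotient.mk Q) := Ideal.Quotient.mk_surjective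
  have : IsLocalRing (PS V d ⧸ Q) := IsLocalRing.of_surjective' _ hs
  have : IsAdicComplete (maximalIdeal (PS V d ⧸ Q)) (PS V d ⧸ Q) :=
    isAdicComplete_of_finite_local (A := PS V d)
  have hm := map_maximalIdeal_of_surjective (Ideal.Quotient.mk Q) hs
  have hQm : Q ≤ maximalIdeal (PS V d) := le_maximalIdeal Ideal.IsPrime.ne_top'
  have hc : ∀ I : Ideal (PS V d), (I.map (Ideal.Quotient.mk Q)).comap (Ideal.Quotient.mk Q) =
      Q ⊔ I := fun I => by
    rw [Ideal.comap_map_of_surjective _ hs, ← RingHom.ker_eq_comap_bot, Ideal.mk_ker, sup_comm]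
  obtain ⟨z, h1, h2, c, hc0, h3⟩ := ys2_coeff h ((Ideal.Quotient.mk Q).comp MvPowerSeries.C)
    (ys2_res Q) fun v hv => by
      rw [← hm]
      exact Ideal.mem_map_of_mem _ ((mxps_mem_max _).2 (by simpa using hv))
  obtain ⟨y, rfl⟩ := List.map_surjective_iff.2 hs z
  obtain ⟨c, rfl⟩ := hs c
  rw [List.length_map] at h1
  have hy : Sop Q y := by
    refine ⟨fun a ha => ?_, fun a ha => ?_⟩
    · have k := h2.mem _ (List.mem_map_of_mem ha)
      rw [← hm, ← Ideal.mem_comap, hc, sup_eq_right.2 hQm] at k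
      exact k
    · obtain ⟨N, hN⟩ := h2.rad (hm ▸ Ideal.mem_map_of_mem (Ideal.Quotient.mk Q) ha)
      rw [bot_sup_eq, ← Ideal.map_ofList, ← map_pow, ← Ideal.mem_comap, hc] at hN
      exact ⟨N, hN⟩
  obtain ⟨w, hw, hw'⟩ := exists_sop_sup hQ (c := c) fun e => hc0 (Ideal.Quotient.eq_zero_iff_mem.2 e)
  refine ⟨y, h1, hy.mem, hy.rad, hy.pow_le_length Ideal.IsPrime.ne_top' h1,
    c, w, by omega, hw'.mem, hw'.rad, fun M i hM hi => ?_⟩
  refine (ys_killsH_map (Ideal.Quotient.mk Q) _ (N := PS V d ⧸ Q)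
    (fun r x => Algebra.smul_def r x) c i).1 ?_
  have k := h3 M i hM hi
  rw [Cx.map_kosL, Cx.map_pt, List.map_map]
  rw [List.map_map] at k
  have e : ((fun a : PS V d ⧸ Q => a ^ M) ∘ Ideal.Quotient.mk Q) =
      Ideal.Quotient.mk Q ∘ fun a : PS V d => a ^ M := funext fun a => (map_pow _ a M).symm
  rw [← e]
  exact k

theorem exists_zData {k : Type u} [Field k] (c : k →+* T)
    (hres : ∀ t : T, ∃ a, t - c a ∈ maximalIdeal T) (hT : 0 < dimNat T) :
    ∃ z : List T, z.length = dimNat T ∧ ZData c (maximalIdeal T) (Len.len T) z := by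
  obtain ⟨z, h1, h2, a, ha, h3⟩ := ys2_field c hres
  have hk : (maximalIdeal k).map c = ⊥ := by rw [maximalIdeal_eq_bot, Ideal.map_bot]
  rw [← dimNat_quot_bot] at hT
  obtain ⟨w, hw, hw'⟩ := exists_sop_sup hT (c := a) ha
  rw [dimNat_quot_bot] at hw
  refine ⟨z, h1, fun b hb => Ideal.le_radical (h2.mem b hb), ?_, fun M _ => ?_,
    ⟨1, one_ne_zero, fun M _ => ?_⟩, a, w, by omega, fun b hb => Ideal.le_radical (hw'.mem b hb),
    ?_, h3⟩
  · rw [hk, sup_comm]
    exact h2.rad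
  · let := ((Ideal.Quotient.mk (Ideal.ofList (z.map (· ^ M)))).comp c).toAlgebra
    exact inferInstanceAs (Module.Flat k (T ⧸ Ideal.ofList (z.map (· ^ M))))
  · have k1 := h2.pow_le_length bot_ne_top (h1.trans dimNat_quot_bot.symm) M
    rw [hk, sup_comm, one_mul]
    have k2 := ENat.toENNReal_le.2 k1
    rw [ENat.toENNReal_coe, Nat.cast_pow] at k2
    exact k2
  · have k1 := hw'.rad
    rwa [hk, sup_bot_eq, ← bot_sup_eq (Ideal.span {a})]

/-- positivity over power series rings over a field. -/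
theorem pos_ps_field (k : Type u) [Field k] (d : ℕ) (P Q : Ideal (PS k d)) [P.IsPrime] [Q.IsPrime]
    (hPQ : maximalIdeal (PS k d) ≤ (Q ⊔ P).radical)
    (hd : dimNat (PS k d ⧸ Q) + dimNat (PS k d ⧸ P) = d) (hQ : 0 < dimNat (PS k d ⧸ Q))
    (hP : 0 < dimNat (PS k d ⧸ P)) (F : Cx (PS k d)) (hF : F.IsRes (PS k d ⧸ Q)) :
    0 < (F.on (PS k d ⧸ P)).chi (Len.len (PS k d)) := by
  have hk : IsCoeff k := Or.inl (Field.toIsField k)
  obtain ⟨_, _⟩ := hk.ps_complete d
  have hs : Function.Surjective (Ideal.Quotient.mk P) := Ideal.Quotient.mk_surjective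
  have : IsLocalRing (PS k d ⧸ P) := IsLocalRing.of_surjective' _ hs
  have : IsAdicComplete (maximalIdeal (PS k d ⧸ P)) (PS k d ⧸ P) :=
    isAdicComplete_of_finite_local (A := PS k d)
  have : IsLocalHom (Ideal.Quotient.mk P) := IsLocalHom.of_surjective _ hs
  have hm := map_maximalIdeal_of_surjective (Ideal.Quotient.mk P) hs
  obtain ⟨y, hy1, hy⟩ := exists_yData hk Q hQ
  obtain ⟨z, hz1, hz⟩ := exists_zData ((Ideal.Quotient.mk P).comp MvPowerSeries.C) (ys2_res P) hP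
  have hn : maximalIdeal (PS k d ⧸ P) ≤ (Q.map (Ideal.Quotient.mk P)).radical := by
    rw [← hm]
    refine (Ideal.map_mono hPQ).trans ((Ideal.map_radical_le _).trans (le_of_eq ?_))
    rw [Ideal.map_sup, Ideal.map_quotient_self, sup_bot_eq]
  have hfin : (((Cx.pt (PS k d ⧸ P)).kosL z).on (PS k d ⧸ P)).h (Len.len _) ≠ ⊤ := by
    refine thick_of_finite (PS k d ⧸ P) (maximalIdeal _)
      (le_sup_left.trans Ideal.le_radical) _ (hz.rad.trans (Ideal.radical_mono ?_))
    rw [maximalIdeal_eq_bot (R := k), Ideal.map_bot, sup_bot_eq]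
    exact (le_sup_right.trans (Cx.le_Null_kosL _ z)).trans le_sup_left
  have h1 := chi_pos_of_data (maximalIdeal (PS k d ⧸ P)) (Ideal.Quotient.mk P)
    (hm.le.trans Ideal.le_radical) (Len.len _) Q F hF hn y hy z hz (by omega) z hz.mem hfin
  have e := Len.len_res (Ideal.Quotient.mk P) fun b => by
    obtain ⟨a, rfl⟩ := hs b
    exact ⟨a, by rw [sub_self]; exact zero_mem _⟩
  rw [← e] at h1
  exact h1.trans_eq (DG.chi_congr _ fun i => Cx.hl_map _ (Ideal.Quotient.mk P) F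
    (AddEquiv.refl (PS k d ⧸ P)) (fun r x => Algebra.smul_def r x) i)

end Vale.Agent.P177
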