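import Vale.Agent.P177.ModelDef
import Vale.Agent.P177.YSide2
import Vale.Agent.P177.BigLift
import Vale.Agent.P177.Lift
import Vale.Agent.P177.LenCons

/-! Vanishing and positivity over the large algebra. -/

namespace Vale.Agent.P177

open IsLocalRing Vale.Agent.P202 RingTheory.Sequence

universe u

theorem bigAmp_hl_bot {B : Type u} [CommRing B] (Λ : Len B) (F : Cx B) (I : Ideal B) (hI : I = ⊥)
    (i : ℕ) : (F.on (B ⧸ I)).hl Λ i = (F.on B).hl Λ i :=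
  Cx.hl_on_congr Λ F (Submodule.quotEquivOfEqBot I hI) i

theorem bigAmp_h_reg {B : Type u} [CommRing B] (Λ : Len B) {t : List B}
    (ht : IsWeaklyRegular B t) :
    (((Cx.pt B).kosL t).on B).h Λ = Λ.val (B ⧸ Ideal.ofList t) := by
  rw [DG.h_congr Λ (Cx.hl_kosL_of_reg Λ (Cx.pt B) ht), Cx.h_pt]
  exact Λ.congr (Submodule.quotEquivOfEq _ _ (by rw [smul_eq_mul, Ideal.mul_top]))

theorem bigAmp_kill {B : Type u} [CommRing B] {t : List B} (ht : IsWeaklyRegular B t) (i : ℕ)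
    (hi : 0 < i) : (((Cx.pt B).kosL t).on B).KillsH 1 i := by
  obtain ⟨f, hf⟩ := (Cx.pt B).exists_qIso_kosL ht
  refine (hf.killsH 1 i).2 fun x hx => ?_
  have h : x = 0 := by
    rw [← (DG.mem_Z.1 hx).2]
    funext a
    exact if_neg hi.ne
  rw [h, smul_zero]
  exact zero_mem _

theorem bigAmp_hl_cut {Bt B : Type u} [CommRing Bt] [CommRing B] (π : Bt →+* B)
    (hπ : Function.Surjective π) {ξ : Bt} (hk : RingHom.ker π = Ideal.span {ξ}) (a : Ideal Bt)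
    (ha : ∀ x, ξ * x ∈ a → x ∈ a) (Λ : Len Bt) (F : Cx Bt) (i : ℕ) :
    ((F.kosL [ξ]).on (Bt ⧸ a)).hl Λ i = ((F.map π).on (B ⧸ a.map π)).hl (Λ.res π) i := by
  have h1 : IsWeaklyRegular (Bt ⧸ a) [ξ] := by
    rw [isWeaklyRegular_singleton_iff]
    refine IsSMulRegular.of_right_eq_zero_of_smul fun x hx => ?_
    obtain ⟨x, rfl⟩ := Ideal.Quotient.mk_surjective x
    exact Ideal.Quotient.eq_zero_iff_mem.2 (ha x (Ideal.Quotient.eq_zero_iff_mem.1 hx))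
  rw [Cx.hl_kosL_of_reg Λ F h1]
  let g₁ : Bt →ₗ[Bt] (Bt ⧸ a) ⧸ Ideal.ofList [ξ] • (⊤ : Submodule Bt (Bt ⧸ a)) :=
    (Submodule.mkQ _).comp (Submodule.mkQ a)
  let g₂ : Bt →ₗ[Bt] Res π (B ⧸ a.map π) :=
    { toFun := fun x => Ideal.Quotient.mk (a.map π) (π x)
      map_add' := fun x y => by rw [map_add, map_add]; rfl
      map_smul' := fun x y => by rw [smul_eq_mul, map_mul, map_mul]; rfl }
  have s₁ : Function.Surjective g₁ :=
    (Submodule.mkQ_surjective _).comp (Submodule.mkQ_surjective _)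
  have s₂ : Function.Surjective g₂ := Ideal.Quotient.mk_surjective.comp hπ
  have k₁ : LinearMap.ker g₁ = a ⊔ Ideal.span {ξ} := by
    rw [LinearMap.ker_comp, Submodule.ker_mkQ, Ideal.ofList_singleton, ← Submodule.range_mkQ a,
      ← Submodule.map_top, ← Submodule.map_smul'', Submodule.comap_map_mkQ, smul_eq_mul,
      Ideal.mul_top]
  have k₂ : LinearMap.ker g₂ = a ⊔ Ideal.span {ξ} := by
    rw [← hk, RingHom.ker_eq_comap_bot, ← Ideal.comap_map_of_surjective π hπ]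
    ext x
    exact Ideal.Quotient.eq_zero_iff_mem
  let e := ((g₁.quotKerEquivOfSurjective s₁).symm.trans
    (Submodule.quotEquivOfEq _ _ (k₁.trans k₂.symm))).trans (g₂.quotKerEquivOfSurjective s₂)
  exact (Cx.hl_map Λ π F (L := B ⧸ a.map π) e.toAddEquiv e.map_smul i).symm

variable {p : ℕ} [Fact p.Prime] {V R A T : Type u} [CommRing V] [IsLocalRing V] [CommRing R]
  [IsLocalRing R] [CommRing A] [IsLocalRing A] [CommRing T] [IsLocalRing T] [Algebra A T] {d n : ℕ}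
  {φ : PS V d →+* R} {ψ : R →+* T} {ρ : PS V (n + 1) →+* A} {z : List A} (hφ : IsHyp p φ)
  (hm : IsModel φ ψ ρ z) {D : EtData A T} (𝔅 : Big p ρ D)
include hφ hm

theorem Big.bigAmp_nn (i : Fin D.P.natDegree) (Q : Ideal R)
    (hQ : maximalIdeal R ≤ (Q ⊔ RingHom.ker ψ).radical) {ω : PS V d →+* 𝔅.Bt} {f : PS V d}
    (h1 : RingHom.ker φ = Ideal.span {f}) (h3 : RingHom.ker 𝔅.π = Ideal.span {ω f})
    (h5 : ((𝔅.σ i : T →+* 𝔅.B).comp ψ).comp φ = 𝔅.π.comp ω) :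
    𝔅.nn ≤ ((Q.comap φ).map ω).radical := by
  have := hm.fin
  have e1 : (maximalIdeal R).map ψ ≤ (Q.map ψ).radical := by
    refine (Ideal.map_mono hQ).trans ((Ideal.map_radical_le _).trans (le_of_eq ?_))
    rw [Ideal.map_sup, (Ideal.map_eq_bot_iff_le_ker ψ).2 le_rfl, sup_bot_eq]
  have e2 : maximalIdeal T ≤ (Q.map ψ).radical :=
    (bigLift_le_rad ψ hm.finR).trans (Ideal.radical_le_radical_iff.2 e1)
  have e3 : (maximalIdeal A).map (algebraMap A 𝔅.B) ≤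
      (((Q.comap φ).map ω).map 𝔅.π).radical := by
    rw [Ideal.map_map, ← h5, ← Ideal.map_map, Ideal.map_comap_of_surjective φ hφ.surj,
      ← Ideal.map_map, ← (𝔅.σ i).comp_algebraMap, ← Ideal.map_map]
    exact (Ideal.map_mono ((bigLift_map_le _ (RingHom.finite_algebraMap.2 this)).trans e2)).trans
      (Ideal.map_radical_le _)
  rw [← 𝔅.bigLift_comap_nn hm]
  refine (Ideal.comap_mono e3).trans (le_of_eq ?_)
  rw [Ideal.comap_radical, Ideal.comap_map_of_surjective _ 𝔅.surj, ← RingHom.ker_eq_comap_bot, h3,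
    sup_eq_left.2]
  rw [Ideal.span_singleton_le_iff_mem]
  refine Ideal.mem_map_of_mem _ ?_
  rw [Ideal.mem_comap, (RingHom.mem_ker (f := φ)).1 (h1 ▸ Ideal.mem_span_singleton_self _)]
  exact zero_mem _

theorem Big.bigAmp_fin {Λ : Len 𝔅.Bt} (hΛ : Λ.res 𝔅.π = 𝔅.Λ) : Λ.val (𝔅.Bt ⧸ 𝔅.nn) = 1 := by
  rw [← 𝔅.bigLift_comap_nn hm, ← Λ.res_quot 𝔅.π 𝔅.surj, hΛ, 𝔅.bigLift_one hm]

omit hm in
theorem Big.bigAmp_reg : IsWeaklyRegular 𝔅.Bt (((p : PS V (n + 1)) ::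
    List.ofFn MvPowerSeries.X).map (algebraMap (PS V (n + 1)) 𝔅.Bt)) := by
  have := 𝔅.flat
  exact (regL_ps_pRing hφ.pr (n + 1)).reg.of_flat

omit hm in
theorem Big.bigAmp_ofList : Ideal.ofList (((p : PS V (n + 1)) ::
    List.ofFn MvPowerSeries.X).map (algebraMap (PS V (n + 1)) 𝔅.Bt)) = 𝔅.nn := by
  rw [← Ideal.map_ofList, (regL_ps_pRing hφ.pr (n + 1)).span]

omit hm in
theorem Big.bigAmp_le {ι : V →+* 𝔅.Bt} (J : Ideal 𝔅.Bt)
    (hJ : ∀ j, algebraMap (PS V (n + 1)) 𝔅.Bt (MvPowerSeries.X j) ∈ J.radical) :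
    𝔅.nn ≤ (J ⊔ (maximalIdeal V).map ι).radical := by
  rw [Big.nn, bigLift_max hφ.pr, Ideal.map_sup, Ideal.map_span, Ideal.map_span, sup_le_iff,
    Ideal.span_le, Ideal.span_le]
  refine ⟨?_, ?_⟩
  · rintro _ ⟨_, rfl, rfl⟩
    refine Ideal.le_radical (Ideal.mem_sup_right ?_)
    rw [map_natCast, ← map_natCast ι]
    exact Ideal.mem_map_of_mem _ (hφ.pr.max ▸ Ideal.mem_span_singleton_self _)
  · rintro _ ⟨_, ⟨j, rfl⟩, rfl⟩
    exact Ideal.radical_mono le_sup_left (hJ j)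

theorem Big.bigAmp_hfin {Λ : Len 𝔅.Bt} (hΛ : Λ.res 𝔅.π = 𝔅.Λ) :
    (((Cx.pt 𝔅.Bt).kosL (((p : PS V (n + 1)) :: List.ofFn MvPowerSeries.X).map
      (algebraMap (PS V (n + 1)) 𝔅.Bt))).on 𝔅.Bt).h Λ ≠ ⊤ := by
  rw [bigAmp_h_reg Λ (𝔅.bigAmp_reg hφ), Λ.congr (Submodule.quotEquivOfEq _ _ (𝔅.bigAmp_ofList hφ)),
    𝔅.bigAmp_fin hφ hm hΛ]
  exact ENNReal.one_ne_top

omit hm in
theorem Big.bigAmp_mem (b : 𝔅.Bt) (hb : b ∈ ((p : PS V (n + 1)) ::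
    List.ofFn MvPowerSeries.X).map (algebraMap (PS V (n + 1)) 𝔅.Bt)) : b ∈ 𝔅.nn.radical :=
  Ideal.le_radical (𝔅.bigAmp_ofList hφ ▸ Ideal.subset_span hb)

theorem Big.chi_eq_zero (i : Fin D.P.natDegree) (Q : Ideal R) (hQ' : Q ≠ ⊤)
    (hQ : maximalIdeal R ≤ (Q ⊔ RingHom.ker ψ).radical) (hd : dimNat (R ⧸ Q) + (n + 1) < d)
    (F : Cx R) (hF : Q ≤ F.Null.radical) :
    ((F.map ((𝔅.σ i : T →+* 𝔅.B).comp ψ)).on 𝔅.B).chi 𝔅.Λ = 0 := by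
  have := hφ.pr.isNoetherianRing
  have := hφ.reg.noeth
  have := 𝔅.complete
  obtain ⟨ω, f, h1, h2, h3, h4, h5, h6, h7⟩ := 𝔅.exists_lift hφ hm i
  obtain ⟨Λ, hΛ⟩ := Len.exists_lift 𝔅.π 𝔅.surj _ h3 𝔅.Λ
  obtain ⟨G, hG, -, hG'⟩ := Cx.exists_lift φ hφ.surj h1 h2 F
  obtain ⟨y, hy, hy'⟩ := exists_sop (Q.comap φ) (Ideal.comap_ne_top φ hQ')
  rw [dimNat_quot_comap φ hφ.surj] at hy
  have h := chi_eq_zero_of_short 𝔅.nn ω h7 Λ (Q.comap φ) G ⊥ ((Ideal.comap_mono hF).trans hG)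
    ((𝔅.bigAmp_nn hφ hm i Q hQ h1 h3 h5).trans (Ideal.radical_mono le_sup_left)) y hy'.mem hy'.rad
    ((List.ofFn MvPowerSeries.X).map (algebraMap (PS V (n + 1)) 𝔅.Bt))
    (fun b hb => 𝔅.bigAmp_mem hφ b (List.mem_cons_of_mem _ hb))
    (𝔅.bigAmp_le hφ _ fun j => Ideal.le_radical (Ideal.mem_sup_right (Ideal.subset_span
      (List.mem_map_of_mem (List.mem_ofFn.2 ⟨j, rfl⟩)))))
    (by rw [hy, List.length_map, List.length_ofFn]; exact hd) _ (𝔅.bigAmp_mem hφ)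
    (by rw [DG.h_congr Λ (bigAmp_hl_bot Λ _ ⊥ rfl)]; exact 𝔅.bigAmp_hfin hφ hm hΛ)
  rw [DG.chi_congr Λ (hG' _ _ 𝔅.π ω _ 𝔅.surj h5 h3 ⊥ (fun y hy => h4 y hy) Λ), hΛ,
    DG.chi_congr _ (bigAmp_hl_bot 𝔅.Λ _ _ Ideal.map_bot)] at h
  exact h

theorem Big.chi_quot_eq_zero (i : Fin D.P.natDegree) (Q : Ideal R) (hQ' : Q ≠ ⊤)
    (hQ : maximalIdeal R ≤ (Q ⊔ RingHom.ker ψ).radical) (hd : dimNat (R ⧸ Q) + (n + 1) ≤ d)
    (a : Ideal 𝔅.Bt) (ha : ∀ ξ, RingHom.ker 𝔅.π = Ideal.span {ξ} → ∀ x, ξ * x ∈ a → x ∈ a)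
    (ha' : algebraMap (PS V (n + 1)) 𝔅.Bt (MvPowerSeries.X 0) ∈ a.radical)
    (hfin : ((((Cx.pt R).kosL (List.ofFn fun j => φ (MvPowerSeries.X j))).map
      ((𝔅.σ i : T →+* 𝔅.B).comp ψ)).on (𝔅.B ⧸ a.map 𝔅.π)).h 𝔅.Λ ≠ ⊤)
    (F : Cx R) (hF : Q ≤ F.Null.radical) :
    ((F.map ((𝔅.σ i : T →+* 𝔅.B).comp ψ)).on (𝔅.B ⧸ a.map 𝔅.π)).chi 𝔅.Λ = 0 := by
  have := hφ.pr.isNoetherianRing
  have := hφ.reg.noeth
  have := 𝔅.complete
  obtain ⟨ω, f, h1, h2, h3, h4, h5, h6, h7⟩ := 𝔅.exists_lift hφ hm i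
  obtain ⟨Λ, hΛ⟩ := Len.exists_lift 𝔅.π 𝔅.surj _ h3 𝔅.Λ
  obtain ⟨G, hG, -, hG'⟩ := Cx.exists_lift φ hφ.surj h1 h2 F
  obtain ⟨y, hy, hy'⟩ := exists_sop (Q.comap φ) (Ideal.comap_ne_top φ hQ')
  rw [dimNat_quot_comap φ hφ.surj] at hy
  have hX : ∀ j, algebraMap (PS V (n + 1)) 𝔅.Bt (MvPowerSeries.X j) ∈ 𝔅.nn.radical := fun j =>
    Ideal.le_radical (Ideal.mem_map_of_mem _ (bigLift_X_mem j))
  have h := chi_eq_zero_of_short 𝔅.nn ω h7 Λ (Q.comap φ) G a ((Ideal.comap_mono hF).trans hG)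
    ((𝔅.bigAmp_nn hφ hm i Q hQ h1 h3 h5).trans (Ideal.radical_mono le_sup_left)) y hy'.mem hy'.rad
    (List.ofFn fun j : Fin n => algebraMap (PS V (n + 1)) 𝔅.Bt (MvPowerSeries.X j.succ))
    (fun b hb => by
      obtain ⟨j, rfl⟩ := List.mem_ofFn.1 hb
      exact hX _)
    (𝔅.bigAmp_le hφ _ fun j => Fin.cases (Ideal.radical_mono le_sup_left ha')
      (fun j => Ideal.le_radical (Ideal.mem_sup_right (Ideal.subset_span
        (List.mem_ofFn.2 ⟨j, rfl⟩)))) j)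
    (by rw [hy, List.length_ofFn]; omega) (ω f :: List.ofFn fun j => ω (MvPowerSeries.X j))
    (fun b hb => by
      rcases List.mem_cons.1 hb with rfl | hb
      · exact Ideal.le_radical (𝔅.bigLift_ker_le (h3 ▸ Ideal.mem_span_singleton_self _))
      · obtain ⟨j, rfl⟩ := List.mem_ofFn.1 hb
        exact h7 (Ideal.mem_map_of_mem _ (bigLift_X_mem j)))
    (by
      refine ne_of_eq_of_ne ((DG.h_congr Λ (bigAmp_hl_cut 𝔅.π 𝔅.surj h3 a (ha _ h3) Λ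
        ((Cx.pt 𝔅.Bt).kosL (List.ofFn fun j => ω (MvPowerSeries.X j))))).trans ?_) hfin
      have e : (List.ofFn fun j => ω (MvPowerSeries.X j)).map 𝔅.π =
          (List.ofFn fun j => φ (MvPowerSeries.X j)).map ((𝔅.σ i : T →+* 𝔅.B).comp ψ) := by
        rw [List.map_ofFn, List.map_ofFn]
        exact congrArg _ (funext fun j => (DFunLike.congr_fun h5 _).symm)
      rw [hΛ, Cx.map_kosL, Cx.map_kosL, Cx.map_pt, Cx.map_pt, e])
  rwa [DG.chi_congr Λ (hG' _ _ 𝔅.π ω _ 𝔅.surj h5 h3 a (ha _ h3) Λ), hΛ] at h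

theorem Big.bigAmp_zData {Λ : Len 𝔅.Bt} (hΛ : Λ.res 𝔅.π = 𝔅.Λ) :
    ZData ((algebraMap (PS V (n + 1)) 𝔅.Bt).comp MvPowerSeries.C) 𝔅.nn Λ
      ((List.ofFn MvPowerSeries.X).map (algebraMap (PS V (n + 1)) 𝔅.Bt)) := by
  have := 𝔅.flat
  have hmap : ∀ M : ℕ, Ideal.ofList (((List.ofFn MvPowerSeries.X).map
      (algebraMap (PS V (n + 1)) 𝔅.Bt)).map (· ^ M)) =
      (Ideal.ofList ((List.ofFn MvPowerSeries.X).map (· ^ M))).map
        (algebraMap (PS V (n + 1)) 𝔅.Bt) := fun M => by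
    rw [Ideal.map_ofList, List.map_map, List.map_map]
    exact congrArg (fun g => Ideal.ofList (List.map g _)) (funext fun x => (map_pow _ x M).symm)
  refine ⟨fun b hb => 𝔅.bigAmp_mem hφ b (List.mem_cons_of_mem _ hb),
    𝔅.bigAmp_le hφ _ fun j => Ideal.le_radical (Ideal.subset_span
      (List.mem_map_of_mem (List.mem_ofFn.2 ⟨j, rfl⟩))), fun M _ => ?_,
    ⟨1, one_ne_zero, fun M _ => ?_⟩, 1, [], by simp, by simp, ?_, fun M i hM hi => ?_⟩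
  · rw [hmap]
    exact (flat_ps_quot_pow hφ.pr (n + 1) M).comp (flat_quot_of_flat _
      (RingHom.flat_algebraMap_iff.2 𝔅.flat) _ Ideal.Quotient.mk_surjective _
      Ideal.Quotient.mk_surjective (Ideal.quotientMap _ (algebraMap (PS V (n + 1)) 𝔅.Bt)
        Ideal.le_comap_map) (Ideal.quotientMap_comp_mk _).symm
      (by rw [Ideal.mk_ker, Ideal.mk_ker]))
  · have h := (regL_ps_pRing hφ.pr (n + 1)).length_pow M _ _ rfl
    have e : Ideal.ofList (((List.ofFn MvPowerSeries.X).map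
        (algebraMap (PS V (n + 1)) 𝔅.Bt)).map (· ^ M)) ⊔ (maximalIdeal V).map
        ((algebraMap (PS V (n + 1)) 𝔅.Bt).comp MvPowerSeries.C) =
        (Ideal.ofList ((List.ofFn MvPowerSeries.X).map (· ^ M)) ⊔
          Ideal.span {(p : PS V (n + 1))}).map (algebraMap (PS V (n + 1)) 𝔅.Bt) := by
      rw [hmap, Ideal.map_sup, hφ.pr.max, Ideal.map_span _ {_}, Ideal.map_span _ {_},
        Set.image_singleton, Set.image_singleton, map_natCast, map_natCast]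
    rw [Λ.congr (Submodule.quotEquivOfEq _ _ e), Λ.val_quot_map _ (h ▸ ENat.coe_ne_top _), h,
      𝔅.bigAmp_fin hφ hm hΛ, List.length_map]
    simp
  · rw [Ideal.span_singleton_one, top_sup_eq, top_sup_eq, Ideal.radical_top]
    exact le_top
  · have h := regL_ps_pRing hφ.pr (n + 1)
    have := h.noeth
    exact bigAmp_kill (isWeaklyRegular_pow ((isWeaklyRegular_append_iff _ _ _).1
      (isWeaklyRegular_of_perm_of_subset_maximalIdeal h.reg (List.perm_append_singleton _ _).symm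
        fun r hr => h.span ▸ Ideal.subset_span hr)).1.of_flat hM) i hi

theorem Big.chi_pos (i : Fin D.P.natDegree) (Q : Ideal R) [Q.IsPrime]
    (hQ : maximalIdeal R ≤ (Q ⊔ RingHom.ker ψ).radical) (hQ0 : 0 < dimNat (R ⧸ Q))
    (hd : dimNat (R ⧸ Q) + (n + 1) = d) (F : Cx R) (hF : F.IsRes (R ⧸ Q)) :
    0 < ((F.map ((𝔅.σ i : T →+* 𝔅.B).comp ψ)).on 𝔅.B).chi 𝔅.Λ := by
  have := hφ.pr.isNoetherianRing
  have := hφ.reg.noeth
  have := 𝔅.complete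
  obtain ⟨ω, f, h1, h2, h3, h4, h5, h6, h7⟩ := 𝔅.exists_lift hφ hm i
  obtain ⟨Λ, hΛ⟩ := Len.exists_lift 𝔅.π 𝔅.surj _ h3 𝔅.Λ
  obtain ⟨G, -, hG, hG'⟩ := Cx.exists_lift φ hφ.surj h1 h2 F
  have hdim := dimNat_quot_comap φ hφ.surj Q
  obtain ⟨y, hy, hy'⟩ := exists_yData (Or.inr ⟨p, Fact.out, hφ.pr⟩) (Q.comap φ) (hdim ▸ hQ0)
  have h := chi_pos_of_data 𝔅.nn ω h7 Λ (Q.comap φ) G (hG Q hF)
    (𝔅.bigAmp_nn hφ hm i Q hQ h1 h3 h5) y hy' _ (h6 ▸ 𝔅.bigAmp_zData hφ hm hΛ)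
    (by rw [hy, hdim, List.length_map, List.length_ofFn, hd]) _ (𝔅.bigAmp_mem hφ)
    (𝔅.bigAmp_hfin hφ hm hΛ)
  rwa [← DG.chi_congr Λ (bigAmp_hl_bot Λ _ ⊥ rfl),
    DG.chi_congr Λ (hG' _ _ 𝔅.π ω _ 𝔅.surj h5 h3 ⊥ (fun y hy => h4 y hy) Λ), hΛ,
    DG.chi_congr _ (bigAmp_hl_bot 𝔅.Λ _ _ Ideal.map_bot)] at h

end Vale.Agent.P177
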