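import Vale.Agent.P202.MxPS

/-! Setting the first variable equal to `p`. -/

namespace Vale.Agent.P177

open Vale.Agent.P202

universe u

/-- the map sending the first variable to `p`. -/
structure IsRho (p : ℕ) {V : Type u} [CommRing V] {n : ℕ} (ρ : PS V (n + 1) →+* PS V n) :
    Prop where
  map_C : ∀ v, ρ (MvPowerSeries.C v) = MvPowerSeries.C v
  map_zero : ρ (MvPowerSeries.X 0) = p
  surj : Function.Surjective ρ
  ker : RingHom.ker ρ = Ideal.span {(p : PS V (n + 1)) - MvPowerSeries.X 0}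

theorem Rho_sep {R : Type u} [CommRing R] [IsLocalRing R] [IsNoetherianRing R] (I : Ideal R)
    (b : R ⧸ I)
    (hb : ∀ N : ℕ, b ∈ ((IsLocalRing.maximalIdeal R).map (Ideal.Quotient.mk I)) ^ N) : b = 0 := by
  have h := Ideal.iInf_pow_smul_eq_bot_of_isLocalRing (M := R ⧸ I) (IsLocalRing.maximalIdeal R)
    (IsLocalRing.maximalIdeal.isMaximal R).ne_top
  refine (Submodule.mem_bot R).1 (h ▸ (Submodule.mem_iInf _).2 fun N => ?_)
  rw [Ideal.smul_top_eq_map, Submodule.restrictScalars_mem, Ideal.map_pow]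
  exact hb N

theorem exists_isRho {p : ℕ} {V : Type u} [CommRing V] [IsLocalRing V] (h : IsPRing p V) (n : ℕ) :
    ∃ ρ : PS V (n + 1) →+* PS V n, IsRho p ρ := by
  have := h.isNoetherianRing
  have := h.ps_complete n
  have hm : ∀ m i, pX p V m i ∈ IsLocalRing.maximalIdeal (PS V m) := fun m i =>
    h.span_pX m ▸ Ideal.subset_span ⟨i, rfl⟩
  obtain ⟨ρ, hC, hX, -, hs⟩ := h.exists_psMap (T := PS V n) (IsNoetherian.noetherian _)
    MvPowerSeries.C (ps_residue n) (hm n 0) (pX p V n) (hm n)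
  have h0 : ρ (MvPowerSeries.X 0) = p := hX 0
  refine ⟨ρ, hC, h0, hs ?_, le_antisymm (fun f hf => ?_) ?_⟩
  · rw [h.span_pX, sup_eq_right, Ideal.span_singleton_le_iff_mem]
    exact hm n 0
  · let σ : PS V n →+* PS V (n + 1) :=
      (MvPowerSeries.rename (Fin.succ : Fin n → Fin (n + 1)) : PS V n →ₐ[V] PS V (n + 1)).toRingHom
    let I : Ideal (PS V (n + 1)) := Ideal.span {(p : PS V (n + 1)) - MvPowerSeries.X 0}
    have key := psMap_unique_filt _ (Rho_sep I) (Ideal.Quotient.mk I)
      ((Ideal.Quotient.mk I).comp (σ.comp ρ)) (fun v => ?_) (fun i => ?_)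
      fun i => Ideal.mem_map_of_mem _ (hm (n + 1) i.succ)
    · rw [← Ideal.Quotient.eq_zero_iff_mem, key, RingHom.comp_apply, RingHom.comp_apply,
        RingHom.mem_ker.1 hf, map_zero, map_zero]
    · simp [hC, σ]
    · refine Fin.cases ?_ (fun i => ?_) i
      · rw [RingHom.comp_apply, RingHom.comp_apply, h0, map_natCast σ, eq_comm, Ideal.Quotient.eq]
        exact Ideal.mem_span_singleton_self _
      · simp [hX, σ, pX]
  · rw [Ideal.span_singleton_le_iff_mem, RingHom.mem_ker, map_sub, h0, map_natCast, sub_self]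

end Vale.Agent.P177
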