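import Vale.Agent.P177.BigMixAux
import Vale.Agent.P177.Rho

/-! The large algebra in mixed characteristic. -/

namespace Vale.Agent.P177

open IsLocalRing Polynomial Vale.Agent.P202
open scoped ENNReal

universe u

theorem bigMix_sigma {p : ℕ} [Fact p.Prime] {A : Type u} [CommRing A] [IsLocalRing A] {z : List A}
    (hA : RegL A z) {D E : Type u} [CommRing D] [IsDomain D] [CharP D p] [PerfectRing D p]
    [CommRing E] [CharP E p] [PerfectRing E p] (j : D →+* E) {t : D} (h : Satur D)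
    (hs : ∀ P : D[X], P.Monic → P.Splits) (ht0 : t ≠ 0) (ht : ∀ x, IsUnit (1 + t * x))
    (ψ : A →+* Om p t) [Algebra A (Om p (j t))]
    (halg : algebraMap A (Om p (j t)) = (Om.map p j t).comp ψ) [Module.Flat A (Om p (j t))]
    (Λ : Len (Om p (j t)))
    (hΛ : Λ.val (Om p (j t) ⧸ (maximalIdeal A).map (algebraMap A (Om p (j t)))) ≠ ⊤)
    (hunit : ∀ δ : D, Λ.val (Om p (j t) ⧸ (Ideal.span {Om.sh p (j t) (j δ)} ⊔
      (maximalIdeal A).map (algebraMap A (Om p (j t))))) = 0 → IsUnit (j δ))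
    {T : Type u} [CommRing T] [Algebra A T] (X : EtData A T) (hG : X.G ≠ 0) :
    ∃ σ : Fin X.P.natDegree → T →ₐ[A] Om p (j t),
      X.P.map (algebraMap A (Om p (j t))) = ∏ i, (Polynomial.X - C (σ i X.θ)) ∧
      ∀ i τ, ∃ y, σ i τ = Om.sh p (j t) y := by
  have := hA.isDomain
  have := Om.aux_nontrivial (p := p) (bigMix_not_unit ht)
  obtain ⟨θ, hθ⟩ := bigMix_split h hs ht X.P.natDegree (X.P.map ψ) (X.monic.map ψ)
    (X.monic.natDegree_map ψ)
  obtain ⟨γ, hγ⟩ := bigMix_sh h hs ht (ψ X.G)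
  have hroot : ∀ i, eval₂ ψ (θ i) X.P = 0 := fun i => by
    rw [← eval_map, hθ, eval_prod]
    exact Finset.prod_eq_zero (Finset.mem_univ i) (by simp)
  have hev : ∀ (i) (f : A[X]), aeval (Om.map p j t (θ i)) f = Om.map p j t (eval₂ ψ (θ i) f) :=
    fun i f => by rw [aeval_def, halg, hom_eval₂]
  have hGB : algebraMap A (Om p (j t)) X.G = Om.sh p (j t) (j γ) := by
    rw [halg, RingHom.comp_apply, hγ, Om.map_sh]
  have key : ∀ (i) (τ : T) (f : A[X]), aeval X.θ f = X.G • τ → ∃ y,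
      aeval (Om.map p j t (θ i)) f = algebraMap A (Om p (j t)) X.G * Om.sh p (j t) y := by
    intro i τ f hf
    obtain ⟨δ, y, h1, h2⟩ := bigMix_dvd h ht0 ht γ (eval₂ ψ (θ i) f) fun n => by
      rw [← hγ]
      exact bigMix_pow_dvd ψ X (hroot i) hf n
    obtain ⟨y', rfl⟩ := bigMix_sh h hs ht y
    have hu : IsUnit (j δ) := hunit δ (le_zero_iff.1 (le_of_forall_gt_imp_ge_of_dense
      fun ε hε => by
        obtain ⟨q₀, hq⟩ := hA.small_root Λ hΛ hG 1 ε hε
        have h3 := hq (p ^ q₀) (Nat.lt_pow_self (Fact.out : p.Prime).one_lt).le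
          (Om.sh p (j t) (j (rt p q₀ γ))) (by rw [← Om.sh_pow, ← map_pow, rt_pow, hGB])
        rw [pow_one] at h3
        refine le_trans (Λ.le_of_surjective (Submodule.factor (sup_le_sup_right ?_ _))
          (Submodule.factor_surjective _)) h3
        obtain ⟨c, hc⟩ := h1 q₀
        rw [hc, map_mul, Om.sh_mul]
        exact Ideal.span_singleton_le_span_singleton.2 (dvd_mul_right _ _)))
    obtain ⟨w, hw⟩ := hu.exists_right_inv
    refine ⟨j y' * w, ?_⟩
    have h4 := congrArg (Om.map p j t) h2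
    rw [map_mul, map_mul, Om.map_sh, Om.map_sh, Om.map_sh] at h4
    have h5 : Om.sh p (j t) (j δ) * Om.sh p (j t) w = 1 := by
      rw [← Om.sh_mul, hw, Om.sh, map_one, map_one]
    rw [hev, hGB, Om.sh_mul, ← mul_assoc, ← h4]
    linear_combination (-(Om.map p j t (eval₂ ψ (θ i) f))) * h5
  have hreg := bigMix_reg (B := Om p (j t)) hG
  choose σ hσ1 hσ2 using fun i => etData_exists_algHom X hreg (Om.map p j t (θ i))
    (by rw [hev, hroot, map_zero]) fun τ f hf => by
      obtain ⟨y, hy⟩ := key i τ f hf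
      exact ⟨_, hy⟩
  refine ⟨σ, ?_, fun i τ => ?_⟩
  · rw [halg, ← Polynomial.map_map, hθ, Polynomial.map_prod]
    simp only [Polynomial.map_sub, map_X, map_C, hσ1]
  · obtain ⟨f, hf⟩ := X.span τ
    obtain ⟨y, hy⟩ := key i τ f hf
    refine ⟨y, sub_eq_zero.1 (hreg _ ?_)⟩
    rw [mul_sub, hσ2 i τ f hf, hy, sub_self]

theorem Ult.exists_big_mixed {p : ℕ} [Fact p.Prime] {k : Type u} [Field k] [CharP k p]
    [PerfectRing k p] {n : ℕ} (U : Ult p (PS k (n + 1)))
    {ρ : PS (WittVector p k) (n + 1) →+* PS (WittVector p k) n} (hρ : IsRho p ρ) {T : Type u}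
    [CommRing T] [Algebra (PS (WittVector p k) n) T] (D : EtData (PS (WittVector p k) n) T)
    (hG : D.G ≠ 0) : Nonempty (Big p ρ D) := by
  have hV := isPRing_witt p k
  obtain ⟨s, hX, h0⟩ := exists_teich_lift p k (n + 1)
  obtain ⟨hflat, hcompl⟩ := U.witt s hX h0
  have hX0 : (MvPowerSeries.X 0 : PS k (n + 1)) ≠ 0 := fun h0 => by
    simpa using congrArg (MvPowerSeries.coeff (Finsupp.single 0 1)) h0
  have hXm : (MvPowerSeries.X 0 : PS k (n + 1)) ∈ maximalIdeal (PS k (n + 1)) :=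
    (mxps_mem_max _).2 (by simp)
  obtain ⟨t₀, ht₀⟩ : ∃ t₀ : U.D, t₀ = algebraMap (PS k (n + 1)) U.D (MvPowerSeries.X 0) :=
    ⟨_, rfl⟩
  have hjt : U.j t₀ = algebraMap (PS k (n + 1)) U.E (MvPowerSeries.X 0) := by rw [ht₀, U.j_alg]
  have ht0 : t₀ ≠ 0 := by
    rw [ht₀]
    exact fun h => hX0 (U.inj (h.trans (map_zero _).symm))
  have ht1 : ∀ x, IsUnit (1 + t₀ * x) := fun x => U.unit _ (Ideal.mul_mem_right _ _
    (ht₀ ▸ Ideal.mem_map_of_mem _ hXm))
  have htreg : ∀ x, U.j t₀ * x = 0 → x = 0 := by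
    have := U.flat
    have := (regL_ps_field k (n + 1)).isDomain
    rw [hjt]
    exact bigMix_reg hX0
  have htu : ¬ IsUnit (U.j t₀) := fun h => by
    have h1 : mE (PS k (n + 1)) U.E = ⊤ :=
      Ideal.eq_top_of_isUnit_mem _ (Ideal.mem_map_of_mem _ hXm) (hjt ▸ h)
    have h2 := U.oneE
    rw [U.ΛE.zero _ (Ideal.Quotient.subsingleton_iff.2 h1)] at h2
    exact zero_ne_one h2
  generalize hφ : (WittVector.map (algebraMap (PS k (n + 1)) U.E)).comp s = φ at hflat hcompl
  let φ₀ := (WittVector.map (p := p) (algebraMap (PS k (n + 1)) U.D)).comp s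
  have hφ₀ : ∀ f, WittVector.map U.j (φ₀ f) = φ f := fun f => by
    rw [← hφ]
    ext i
    simp only [φ₀, RingHom.comp_apply, WittVector.map_coeff, U.j_alg]
  have hφ₀X : φ₀ (MvPowerSeries.X 0) = WittVector.teichmuller p t₀ := by
    simp only [φ₀, RingHom.comp_apply, hX, WittVector.map_teichmuller, ht₀]
  have hφX : φ (MvPowerSeries.X 0) = WittVector.teichmuller p (U.j t₀) := by
    rw [← hφ₀, hφ₀X, WittVector.map_teichmuller]
  have hφc : ∀ f, WittVector.constantCoeff (φ f) =
      algebraMap (PS k (n + 1)) U.E (MvPowerSeries.map WittVector.constantCoeff f) := fun f => by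
    rw [← hφ, ← h0]
    exact WittVector.map_coeff _ _ _
  have hker0 : RingHom.ker ρ ≤ RingHom.ker ((Om.mk p t₀).comp φ₀) := by
    rw [hρ.ker, Ideal.span_singleton_le_iff_mem, RingHom.mem_ker, RingHom.comp_apply, map_sub,
      map_natCast, hφ₀X]
    exact Om.aux_mk_xi t₀
  obtain ⟨ψ, hψ⟩ : ∃ ψ : PS (WittVector p k) n →+* Om p t₀, ∀ f, ψ (ρ f) = Om.mk p t₀ (φ₀ f) :=
    ⟨RingHom.liftOfSurjective ρ hρ.surj ⟨_, hker0⟩, fun f =>
      RingHom.liftOfRightInverse_comp_apply _ _ _ _ f⟩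
  have hcomm : ∀ f, Om.mk p (U.j t₀) (φ f) = ((Om.map p U.j t₀).comp ψ) (ρ f) := fun f => by
    rw [RingHom.comp_apply, hψ, Om.map_mk, hφ₀]
  have hpm : (p : PS (WittVector p k) (n + 1)) ∈ maximalIdeal (PS (WittVector p k) (n + 1)) := by
    rw [mxps_mem_max, map_natCast, hV.max]
    exact Ideal.mem_span_singleton_self _
  have hkm : (RingHom.ker ρ).map φ = Ideal.span {xi p (U.j t₀)} := by
    rw [hρ.ker, Ideal.map_span, Set.image_singleton, map_sub, map_natCast, hφX, xi]
  have hN := (regL_ps_pRing hV (n + 1)).noeth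
  have hker : RingHom.ker (Om.mk p (U.j t₀)) = (RingHom.ker ρ).map φ := by
    refine le_antisymm (fun x hx => mem_map_of_forall φ hflat (maximalIdeal _) _ x fun ν => ?_) ?_
    · refine (Ideal.span_le.2 ?_ : JJ p (U.j t₀) ν ≤ _) (Om.aux_ker_le _ ν hx)
      rintro _ (rfl | rfl)
      · exact Ideal.mem_sup_left (hkm ▸ Ideal.mem_span_singleton_self _)
      · refine Ideal.mem_sup_right (Ideal.pow_mem_pow ?_ ν)
        simpa using Ideal.mem_map_of_mem φ hpm
    · rw [hkm, Ideal.span_singleton_le_iff_mem]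
      exact Om.aux_mk_xi _
  let _ : Algebra (PS (WittVector p k) (n + 1)) (WittVector p U.E) := φ.toAlgebra
  let _ : Algebra (PS (WittVector p k) n) (Om p (U.j t₀)) :=
    ((Om.map p U.j t₀).comp ψ).toAlgebra
  have hflatB : Module.Flat (PS (WittVector p k) n) (Om p (U.j t₀)) :=
    flat_quot_of_flat φ hflat ρ hρ.surj (Om.mk p (U.j t₀)) (Om.mk_surjective _)
      ((Om.map p U.j t₀).comp ψ) (RingHom.ext hcomm) hker
  obtain ⟨Λt, hΛt⟩ := Len.exists_lift (WittVector.constantCoeff : WittVector p U.E →+* U.E)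
    (WittVector.constantCoeff_surjective p) (p : WittVector p U.E)
    (WittVector.ker_constantCoeff) U.ΛE
  have hmρ : (maximalIdeal (PS (WittVector p k) (n + 1))).map ρ = maximalIdeal _ :=
    map_maximalIdeal_of_surjective ρ hρ.surj
  have hm1 : (maximalIdeal (PS (WittVector p k) n)).map
      (algebraMap (PS (WittVector p k) n) (Om p (U.j t₀))) =
      ((maximalIdeal (PS (WittVector p k) (n + 1))).map φ).map (Om.mk p (U.j t₀)) := by
    rw [← hmρ, Ideal.map_map, Ideal.map_map]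
    exact congrArg (Ideal.map · _) (RingHom.ext fun f => (hcomm f).symm)
  have hm2 : ((maximalIdeal (PS (WittVector p k) (n + 1))).map φ).map WittVector.constantCoeff =
      mE (PS k (n + 1)) U.E := by
    rw [mE, ← map_maximalIdeal_of_surjective (MvPowerSeries.map (σ := Fin (n + 1))
      (WittVector.constantCoeff : WittVector p k →+* k))
      (ps_map_surjective _ (witt_constantCoeff_surjective p k) _), Ideal.map_map, Ideal.map_map]
    exact congrArg (Ideal.map · _) (RingHom.ext hφc)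
  have hk1 : RingHom.ker (Om.mk p (U.j t₀)) ≤ (maximalIdeal _).map φ := by
    rw [hker]
    exact Ideal.map_mono (le_maximalIdeal (RingHom.ker_ne_top ρ))
  have hk2 : RingHom.ker (WittVector.constantCoeff : WittVector p U.E →+* U.E) ≤
      (maximalIdeal _).map φ := by
    rw [WittVector.ker_constantCoeff, Ideal.span_singleton_le_iff_mem]
    simpa using Ideal.mem_map_of_mem φ hpm
  have hone : (Λt.res (Om.mk p (U.j t₀))).val (Om p (U.j t₀) ⧸
      (maximalIdeal (PS (WittVector p k) n)).map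
        (algebraMap (PS (WittVector p k) n) (Om p (U.j t₀)))) = 1 := by
    rw [hm1, bigMix_len Λt _ (Om.mk_surjective _) _ (WittVector.constantCoeff_surjective p) _ hk1
      hk2, hΛt, hm2, U.oneE]
  obtain ⟨σ, hσ1, hσ2⟩ := bigMix_sigma (regL_ps_pRing hV n) U.j U.sat U.splits ht0 ht1 ψ rfl
    (Λt.res (Om.mk p (U.j t₀))) (by rw [hone]; exact ENNReal.one_ne_top) (fun δ hδ => by
      refine U.isUnit δ ?_
      have h1 := bigMix_len Λt _ (Om.mk_surjective (U.j t₀)) _
        (WittVector.constantCoeff_surjective p)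
        (Ideal.span {WittVector.teichmuller p (U.j δ)} ⊔ (maximalIdeal _).map φ)
        (hk1.trans le_sup_right) (hk2.trans le_sup_right)
      rw [Ideal.map_sup, Ideal.map_sup, ← hm1, hm2, Ideal.map_span, Ideal.map_span,
        Set.image_singleton, Set.image_singleton, hΛt] at h1
      exact h1.symm.trans hδ) D hG
  refine ⟨{ Bt := WittVector p U.E
            B := Om p (U.j t₀)
            π := Om.mk p (U.j t₀)
            surj := Om.mk_surjective _
            ker := hker
            comm := hcomm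
            flat := hflat
            complete := hcompl
            Λ := Λt.res (Om.mk p (U.j t₀))
            one := by rw [hmρ, hone]
            nsq := witt_p_notMem_sq
            σ := σ
            split := hσ1
            root := fun i τ e => ?_
            sys := fun i s _ _ P hP hr => ?_ }⟩
  · obtain ⟨y, hy⟩ := hσ2 i τ
    exact ⟨Om.sh p _ (rt p e y), by rw [← Om.sh_pow, rt_pow, hy]⟩
  · rw [hρ.map_zero, map_natCast] at hr ⊢
    obtain ⟨b, Nt, h1, h2, h3⟩ := bigMix_sys htreg htu (σ i : T →+* Om p (U.j t₀)) (hσ2 i) s P hP hr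
    exact ⟨b, Nt, h1, h2, fun β => hφX ▸ h3 β⟩

end Vale.Agent.P177
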