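import Vale.Agent.P177.NMixAux
import Vale.Agent.P202.MxOmega

/-! Saturated systems in the untilt. -/

namespace Vale.Agent.P177

open Vale.Agent.P202

universe u

section

variable {p : ℕ} [Fact p.Prime] {E : Type u} [CommRing E]

theorem nmix_map_teichI (t : E) {m : ℕ} (g : Fin m → E) :
    (teichI p g).map (Om.mk p t) = Ideal.span (Set.range fun i => Om.sh p t (g i)) := by
  rw [teichI, Ideal.map_span, ← Set.range_comp]
  rfl

theorem nmix_sh_mem (t : E) {J : Ideal E} {c : E} (hc : c ∈ J) :
    Om.sh p t c ∈ (wId p J).map (Om.mk p t) :=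
  Ideal.mem_map_of_mem _ (nmix_teich_mem hc)

theorem nmix_up {E' : Type u} [CommRing E'] (f : E →+* E') (t : E) (J : Ideal E) {x : Om p t}
    (hx : x ∈ (wId p J).map (Om.mk p t)) :
    Om.map p f t x ∈ (wId p (J.map f)).map (Om.mk p (f t)) := by
  obtain ⟨y, hy, rfl⟩ := (Ideal.mem_map_iff_of_surjective _ (Om.mk_surjective t)).1 hx
  rw [Om.map_mk]
  exact Ideal.mem_map_of_mem _ (nmix_map_le f J (Ideal.mem_map_of_mem _ hy))

variable [CharP E p] [PerfectRing E p]

theorem nmix_of_sh {t : E} {J : Ideal E} (h : RootClosed p J) (ht : t ∈ J.radical) {c : E}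
    (hc : Om.sh p t c ∈ (wId p J).map (Om.mk p t)) : c ∈ J :=
  h.mem_of_teich ht c fun ν => (Om.mk_mem_iff t _ ν _).1 (Ideal.mem_sup_left hc)

theorem nmix_down {E' : Type u} [CommRing E'] [CharP E' p] [PerfectRing E' p] (f : E →+* E')
    {t : E} (ht : ∀ x, t * x = 0 → x = 0) (hf : QFlat f (Ideal.span {t})) {J : Ideal E}
    (h : RootClosed p J) (htJ : t ∈ J.radical) {x : Om p t}
    (hx : Om.map p f t x ∈ (wId p (J.map f)).map (Om.mk p (f t))) :
    x ∈ (wId p J).map (Om.mk p t) := by
  obtain ⟨ν, hν⟩ := htJ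
  have h1 : (p : Om p t) ^ ν ∈ (wId p J).map (Om.mk p t) := by
    rw [← Om.sh_t, ← Om.sh_pow]
    exact nmix_sh_mem t hν
  rw [← (Om.qflat f ht hf ν).comap_map ((Ideal.span_singleton_le_iff_mem _).2 h1),
    Ideal.mem_comap]
  refine (show (wId p (J.map f)).map (Om.mk p (f t)) ≤ _ from ?_) hx
  refine (Ideal.map_mono (h.wId_map_le f ν)).trans ?_
  rw [Ideal.map_sup, Ideal.map_map, Ideal.map_map, Ideal.map_span, Set.image_singleton, map_pow,
    map_natCast]
  refine sup_le (le_of_eq rfl) ((Ideal.span_singleton_le_iff_mem _).2 ?_)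
  have h2 := Ideal.mem_map_of_mem (Om.map p f t) h1
  rwa [map_pow, map_natCast, Ideal.map_map] at h2

end

theorem sysB_om {p : ℕ} [Fact p.Prime] {E : Type u} [CommRing E] [CharP E p] [PerfectRing E p]
    {t : E} (ht : ∀ x, t * x = 0 → x = 0) (hu : ¬ IsUnit t) {s : Type} [Fintype s] [DecidableEq s]
    {m : ℕ} (g : s → Fin m → E) (htq : ∀ j, t ∈ (Ideal.span (Set.range (g j))).radical) :
    SysB p (fun j => Ideal.span (Set.range fun i => Om.sh p t (g j i))) (Om.sh p t t) m
      fun β => (wId p (nId p (fun j => Ideal.span (Set.range (g j))) β)).map (Om.mk p t) := by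
  have S := exists_sysB_nId (p := p) (fun j => Ideal.span (Set.range (g j))) m
    (fun j => ⟨g j, rfl⟩) ht htq
  have hR := rootClosed_nId (p := p) (fun j => Ideal.span (Set.range (g j)))
  have key : ∀ x : Om p t, ∃ (E' : Type u) (_ : CommRing E') (f : E →+* E') (τ : E')
      (n' : (s → ℕ) → Ideal E'),
      SysB p (fun j => (Ideal.span (Set.range (g j))).map f) (f t) m n' ∧
      ∀ (β : s → ℕ) (c : E) (k : ℕ), Om.sh p t c * x ^ k ∈
        (wId p (nId p (fun j => Ideal.span (Set.range (g j))) β)).map (Om.mk p t) ↔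
        f c * τ ^ k ∈ n' β := by
    intro x
    obtain ⟨E', _, _, _, f, τ, hf, hx⟩ := Om.aux_sh ht hu x
    have htq' : ∀ j, f t ∈ ((Ideal.span (Set.range (g j))).map f).radical := fun j =>
      Ideal.map_radical_le f (Ideal.mem_map_of_mem f (htq j))
    have S' := exists_sysB_nId (p := p) (fun j => (Ideal.span (Set.range (g j))).map f) m
      (fun j => ⟨f ∘ g j, by rw [Ideal.map_span, Set.range_comp]⟩) (hf.reg_of_perfect p ht) htq'
    refine ⟨E', inferInstance, f, τ, _, S', fun β c k => ?_⟩
    have e : Om.map p f t (Om.sh p t c * x ^ k) = Om.sh p (f t) (f c * τ ^ k) := by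
      rw [map_mul, map_pow, Om.map_sh, hx, Om.sh_mul, Om.sh_pow]
    constructor
    · intro h
      have h1 := nmix_up f t _ h
      rw [e, ← nId_map] at h1
      exact nmix_of_sh (rootClosed_nId _ β) (S'.nmix_rad htq' β) h1
    · intro h
      refine nmix_down f ht hf (hR β) (S.nmix_rad htq β) ?_
      rw [e, ← nId_map]
      exact nmix_sh_mem _ h
  have h1 : Om.sh p t 1 = 1 := by rw [Om.sh, map_one, map_one]
  refine ⟨fun β j hj => ?_, fun β j x hx => ?_, fun β γ => ?_, fun β => ?_, fun β x hx => ?_⟩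
  · have e := S.gen β j hj
    beta_reduce at e ⊢
    rw [e, wId_span_mul (g j) (hR β) (e ▸ hR _), Ideal.map_mul, nmix_map_teichI]
  · obtain ⟨E', _, f, τ, n', S', h⟩ := key x
    have h2 := (h β 1 1).2 (by
      rw [map_one, one_mul, pow_one]
      refine S'.sat β j τ fun c hc => ?_
      beta_reduce at hc
      rw [Ideal.map_span, ← Set.range_comp] at hc
      refine Submodule.span_induction (p := fun c _ => c * τ ∈ n' (β + Pi.single j 1)) ?_ ?_ ?_ ?_ hc
      · rintro _ ⟨i, rfl⟩
        have h3 := (h (β + Pi.single j 1) (g j i) 1).1 (by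
          rw [pow_one]
          exact hx _ (Ideal.subset_span ⟨i, rfl⟩))
        rwa [pow_one] at h3
      · rw [zero_mul]
        exact zero_mem _
      · intro a b _ _ ha hb
        rw [add_mul]
        exact add_mem ha hb
      · intro a b _ hb
        rw [smul_eq_mul, mul_assoc]
        exact Ideal.mul_mem_left _ _ hb)
    rwa [h1, one_mul, pow_one] at h2
  · rw [← Ideal.map_mul]
    exact Ideal.map_mono (wId_mul_le (S.mul β γ))
  · have e : (fun j => Ideal.span (Set.range fun i => Om.sh p t (g j i))) =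
        fun j => (teichI p (g j)).map (Om.mk p t) := funext fun j => (nmix_map_teichI t _).symm
    have e2 : Ideal.span {Om.sh p t t} =
        (Ideal.span {WittVector.teichmuller p t}).map (Om.mk p t) := by
      rw [Ideal.map_span, Set.image_singleton]
      rfl
    rw [e, ← mpow_map, e2, ← Ideal.map_mul]
    refine Ideal.map_mono ((Ideal.mul_mono ?_ (nmix_mpow_le (fun j => nmix_teichI_le (g j)) β)).trans
      (wId_mul_le (S.low β)))
    exact (Ideal.span_singleton_le_iff_mem _).2 (nmix_teich_mem (Ideal.mem_span_singleton_self t))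
  · obtain ⟨E', _, f, τ, n', S', h⟩ := key x
    have h2 := (h (p • β) 1 p).1 (by rwa [h1, one_mul])
    rw [map_one, one_mul] at h2
    have h3 := (h β 1 1).2 (by
      rw [map_one, one_mul, pow_one]
      exact S'.root β τ h2)
    rwa [h1, one_mul, pow_one] at h3

end Vale.Agent.P177
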