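import Vale.Agent.P177.BigP
import Vale.Agent.P177.NMix
import Vale.Agent.P177.LenCons

/-! Auxiliary results for the large algebra in mixed characteristic. -/

namespace Vale.Agent.P177

open IsLocalRing Polynomial Vale.Agent.P202
open scoped ENNReal

universe u

section Om

variable {p : ℕ} [Fact p.Prime] {D : Type u} [CommRing D] [IsDomain D] [CharP D p]
  [PerfectRing D p] {t : D}

omit [CharP D p] [PerfectRing D p] in
theorem bigMix_not_unit (ht : ∀ x, IsUnit (1 + t * x)) : ¬ IsUnit t := by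
  intro h
  obtain ⟨x, hx⟩ := h.exists_right_inv
  have := ht (-x)
  rw [mul_neg, hx, add_neg_cancel] at this
  exact not_isUnit_zero this

theorem bigMix_root (h : Satur D) (hs : ∀ P : D[X], P.Monic → P.Splits)
    (ht : ∀ x, IsUnit (1 + t * x)) (P : (Om p t)[X]) (hP : P.Monic) (hd : 0 < P.natDegree) :
    ∃ τ : D, P.IsRoot (Om.sh p t τ) := by
  obtain ⟨Q, rfl, h2, h3⟩ := lifts_and_natDegree_eq_and_monic
    ((mem_lifts _).2 (Polynomial.map_surjective _ (Om.mk_surjective t) P)) hP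
  obtain ⟨τ, h5⟩ := h.exists_teich_root hs t ht Q h3 (h2 ▸ hd)
  obtain ⟨a, ha⟩ := Ideal.mem_span_singleton'.1 h5
  have h6 := congrArg (Om.mk p t) ha
  rw [map_mul, Om.aux_mk_xi, mul_zero] at h6
  refine ⟨τ, ?_⟩
  rw [IsRoot, Om.sh, eval_map, eval₂_at_apply]
  exact h6.symm

theorem bigMix_sh (h : Satur D) (hs : ∀ P : D[X], P.Monic → P.Splits)
    (ht : ∀ x, IsUnit (1 + t * x)) (x : Om p t) : ∃ τ : D, x = Om.sh p t τ := by
  have := Om.aux_nontrivial (p := p) (bigMix_not_unit ht)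
  obtain ⟨τ, h5⟩ := bigMix_root h hs ht (X - C x) (monic_X_sub_C x)
    (by rw [natDegree_X_sub_C]; exact one_pos)
  rw [root_X_sub_C] at h5
  exact ⟨τ, h5⟩

theorem bigMix_split (h : Satur D) (hs : ∀ P : D[X], P.Monic → P.Splits)
    (ht : ∀ x, IsUnit (1 + t * x)) (n : ℕ) : ∀ P : (Om p t)[X], P.Monic → P.natDegree = n →
      ∃ θ : Fin n → Om p t, P = ∏ i, (X - C (θ i)) := by
  have := Om.aux_nontrivial (p := p) (bigMix_not_unit ht)
  induction n with
  | zero =>
    intro P hP hn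
    exact ⟨Fin.elim0, by simp [hP.natDegree_eq_zero.1 hn]⟩
  | succ n ih =>
    intro P hP hn
    obtain ⟨τ, h5⟩ := bigMix_root h hs ht P hP (by omega)
    have h6 := mul_divByMonic_eq_iff_isRoot.2 h5
    have h7 := (monic_X_sub_C _).of_mul_monic_left (h6.symm ▸ hP)
    have h8 := (monic_X_sub_C (Om.sh p t τ)).natDegree_mul h7
    rw [h6, natDegree_X_sub_C] at h8
    obtain ⟨θ, k2⟩ := ih _ h7 (by omega)
    refine ⟨Fin.cons (Om.sh p t τ) θ, ?_⟩
    rw [Fin.prod_univ_succ, Fin.cons_zero]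
    simp only [Fin.cons_succ]
    rw [← k2]
    exact h6.symm

theorem bigMix_dvd (h : Satur D) (ht0 : t ≠ 0) (ht : ∀ x, IsUnit (1 + t * x)) (γ : D)
    (x : Om p t) (hx : ∀ n : ℕ, Om.sh p t γ ^ n ∣ Om.sh p t γ * x ^ n) :
    ∃ (δ : D) (y : Om p t), (∀ m, δ ∣ rt p m γ) ∧ Om.sh p t δ * x = Om.sh p t γ * y := by
  obtain ⟨x', rfl⟩ := Om.mk_surjective t x
  obtain ⟨δ, h1, h2⟩ := h.exists_dvd t γ x' fun m ν => by
    have := Om.hb (fun y hy => (mul_eq_zero.1 hy).resolve_left ht0) (bigMix_not_unit ht) γ _ hx m ν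
    rw [Om.sh, Om.sh, ← map_mul] at this
    exact (Om.aux_mem_pair t ν _ _).1 this
  obtain ⟨a, b, hab⟩ := Ideal.mem_span_pair.1 h2
  refine ⟨δ, Om.mk p t a, h1, ?_⟩
  have := congrArg (Om.mk p t) hab
  rw [map_add, map_mul, map_mul, map_mul, Om.aux_mk_xi, mul_zero, add_zero] at this
  rw [Om.sh, Om.sh, ← this, mul_comm]

end Om

theorem bigMix_pow_dvd {A T O : Type u} [CommRing A] [CommRing T] [Algebra A T] [CommRing O]
    (ψ : A →+* O) (D : EtData A T) {θ : O} (hθ : eval₂ ψ θ D.P = 0) {τ : T} {f : A[X]}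
    (hf : aeval D.θ f = D.G • τ) (n : ℕ) : ψ D.G ^ n ∣ ψ D.G * eval₂ ψ θ f ^ n := by
  obtain ⟨g, hg⟩ := D.span (τ ^ n)
  obtain ⟨c, hc⟩ := D.indep (C D.G * f ^ n - C (D.G ^ n) * g) (by
    rw [map_sub, map_mul, map_mul, map_pow, hf, hg, aeval_C, aeval_C, Algebra.smul_def,
      Algebra.smul_def, map_pow, mul_pow]
    ring)
  have := congrArg (eval₂ ψ θ) hc
  rw [eval₂_sub, eval₂_mul, eval₂_mul, eval₂_mul, hθ, zero_mul, eval₂_C, eval₂_C, eval₂_pow,
    sub_eq_zero, map_pow] at this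
  exact ⟨_, this⟩

theorem bigMix_pad {T : Type u} [CommRing T] {s : Type} [Finite s] (P : s → Ideal T)
    (hP : ∀ j, (P j).FG) :
    ∃ (m : ℕ) (g : s → Fin m → T), ∀ j, Ideal.span (Set.range (g j)) = P j := by
  choose a g hg using fun j => Submodule.fg_iff_exists_fin_generating_family.1 (hP j)
  obtain ⟨m, hm⟩ := (Set.finite_range a).bddAbove
  refine ⟨m, fun j i => if h : (i : ℕ) < a j then g j ⟨i, h⟩ else 0, fun j => ?_⟩
  rw [← hg j]
  refine le_antisymm (Ideal.span_le.2 ?_) (Ideal.span_le.2 ?_)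
  · rintro _ ⟨i, rfl⟩
    dsimp only
    split_ifs with h
    · exact Ideal.subset_span ⟨_, rfl⟩
    · exact zero_mem _
  · rintro _ ⟨i, rfl⟩
    refine Ideal.subset_span ⟨⟨i, i.2.trans_le (hm ⟨j, rfl⟩)⟩, ?_⟩
    simp

theorem bigMix_rad {p : ℕ} [Fact p.Prime] {E : Type u} [CommRing E] [CharP E p] {s : Type}
    [Fintype s] (q : s → Ideal E) {t : E} (h : ∀ j, t ∈ (q j).radical) (β : s → ℕ) :
    t ∈ (nId p q β).radical := by
  have h1 : t ∈ (mpow q (β + 1)).radical := by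
    refine Finset.prod_induction _ (fun I : Ideal E => t ∈ I.radical) (fun a b ha hb => ?_)
      (Ideal.le_radical (by simp)) fun j _ => ?_
    · rw [Ideal.radical_mul]
      exact ⟨ha, hb⟩
    · rw [Ideal.radical_pow _ (by simp)]
      exact h j
  refine Ideal.radical_mono (fun c hc => ?_) h1
  exact ⟨0, by simpa using hc⟩

theorem bigMix_len {W B E : Type u} [CommRing W] [CommRing B] [CommRing E] (Λ : Len W)
    (π : W →+* B) (hπ : Function.Surjective π) (c : W →+* E) (hc : Function.Surjective c)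
    (I : Ideal W) (h1 : RingHom.ker π ≤ I) (h2 : RingHom.ker c ≤ I) :
    (Λ.res π).val (B ⧸ I.map π) = (Λ.res c).val (E ⧸ I.map c) := by
  rw [Λ.res_quot π hπ, Λ.res_quot c hc]
  have e1 : (I.map π).comap π = I := by
    rw [Ideal.comap_map_of_surjective _ hπ, ← RingHom.ker_eq_comap_bot, sup_eq_left.2 h1]
  have e2 : (I.map c).comap c = I := by
    rw [Ideal.comap_map_of_surjective _ hc, ← RingHom.ker_eq_comap_bot, sup_eq_left.2 h2]
  exact Λ.congr (Submodule.quotEquivOfEq _ _ (e1.trans e2.symm))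

theorem bigMix_reg {A B : Type u} [CommRing A] [IsDomain A] [CommRing B] [Algebra A B]
    [Module.Flat A B] {G : A} (hG : G ≠ 0) (y : B) (h : algebraMap A B G * y = 0) : y = 0 := by
  have h1 : IsSMulRegular B G :=
    Module.Flat.isSMulRegular_of_nonZeroDivisors (mem_nonZeroDivisors_of_ne_zero hG)
  exact h1 (by simpa [Algebra.smul_def] using h)

/-- the saturated systems. -/
theorem bigMix_sys {p : ℕ} [Fact p.Prime] {E : Type u} [CommRing E] [CharP E p] [PerfectRing E p]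
    {t : E} (ht : ∀ x, t * x = 0 → x = 0) (hu : ¬ IsUnit t) {T : Type u} [CommRing T]
    (σ : T →+* Om p t) (hσ : ∀ τ, ∃ z, σ τ = Om.sh p t z) (s : Type) [Fintype s] [DecidableEq s]
    (P : s → Ideal T) (hP : ∀ j, (P j).FG) (hr : ∀ j, (p : T) ∈ (P j).radical) :
    ∃ (b : ℕ) (Nt : (s → ℕ) → Ideal (WittVector p E)),
      SysB p (fun j => (P j).map σ) (p : Om p t) b (fun β => (Nt β).map (Om.mk p t)) ∧
      (∀ β, ∀ ξ, RingHom.ker (Om.mk p t) = Ideal.span {ξ} → ∀ x, ξ * x ∈ Nt β → x ∈ Nt β) ∧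
      ∀ β, WittVector.teichmuller p t ∈ (Nt β).radical := by
  obtain ⟨m, g, hg⟩ := bigMix_pad P hP
  choose N hN using hr
  choose z hz using hσ
  let Z : s → Fin (m + 1) → E := fun j => Fin.cons (t ^ N j) fun i => z (g j i)
  have hZ : ∀ j, t ∈ (Ideal.span (Set.range (Z j))).radical := fun j =>
    ⟨N j, Ideal.subset_span ⟨0, rfl⟩⟩
  have hq : (fun j => Ideal.span (Set.range fun i => Om.sh p t (Z j i))) =
      fun j => (P j).map σ := by
    funext j
    refine le_antisymm (Ideal.span_le.2 ?_) ?_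
    · rintro _ ⟨i, rfl⟩
      refine Fin.cases ?_ (fun i => ?_) i
      · have := Ideal.mem_map_of_mem σ (hN j)
        rw [map_pow, map_natCast] at this
        simp only [Z, Fin.cons_zero]
        rwa [Om.sh_pow, Om.sh_t]
      · simp only [Z, Fin.cons_succ]
        rw [← hz]
        exact Ideal.mem_map_of_mem σ (hg j ▸ Ideal.subset_span ⟨i, rfl⟩)
    · rw [← hg j, Ideal.map_span, Ideal.span_le]
      rintro _ ⟨_, ⟨i, rfl⟩, rfl⟩
      exact Ideal.subset_span ⟨i.succ, by simp only [Z, Fin.cons_succ, hz]⟩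
  have hS := sysB_om (p := p) ht hu Z hZ
  rw [hq, Om.sh_t] at hS
  have hrad := bigMix_rad (p := p) _ hZ
  refine ⟨m + 1, fun β => wId p (nId p (fun j => Ideal.span (Set.range (Z j))) β), hS,
    fun β ξ hξ x hx => ?_, fun β => ?_⟩
  · have h0 : xi p t ∈ RingHom.ker (Om.mk p t) := Om.aux_mk_xi t
    rw [hξ] at h0
    obtain ⟨c, hc⟩ := Ideal.mem_span_singleton'.1 h0
    refine (rootClosed_nId _ β).mem_wId_of_xi_mul (hrad β) x ?_
    rw [← hc, mul_assoc]
    exact Ideal.mul_mem_left _ _ hx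
  · obtain ⟨M, hM⟩ := hrad β
    refine ⟨M, (Submodule.mem_iInf _).2 fun ν => Ideal.mem_sup_left (Ideal.subset_span ?_)⟩
    exact ⟨_, hM, map_pow _ _ _⟩

end Vale.Agent.P177
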