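import Vale.Agent.P177.NId

/-! Elementary properties of the ideals of Witt vectors. -/

namespace Vale.Agent.P177

open Vale.Agent.P202

universe u

theorem nmix_mem_rad {E : Type u} [CommRing E] {s : Type} [Fintype s] {q : s → Ideal E} {t : E}
    (htq : ∀ j, t ∈ (q j).radical) (β : s → ℕ) : t ∈ (mpow q β).radical := by
  choose a ha using htq
  refine ⟨∑ j, a j * β j, ?_⟩
  rw [← Finset.prod_pow_eq_pow_sum]
  exact Ideal.prod_mem_prod fun j _ => by
    rw [pow_mul]
    exact Ideal.pow_mem_pow (ha j) _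

theorem SysB.nmix_rad {p : ℕ} {E : Type u} [CommRing E] {s : Type} [Fintype s] [DecidableEq s]
    {q : s → Ideal E} {t : E} {b : ℕ} {N : (s → ℕ) → Ideal E} (S : SysB p q t b N)
    (htq : ∀ j, t ∈ (q j).radical) (β : s → ℕ) : t ∈ (N β).radical := by
  obtain ⟨a, ha⟩ := nmix_mem_rad htq β
  refine ⟨a + 1, S.low β ?_⟩
  rw [pow_succ']
  exact Ideal.mul_mem_mul (Ideal.mem_span_singleton_self t) ha

variable {p : ℕ} [Fact p.Prime] {E : Type u} [CommRing E]

theorem nmix_teich_mem {J : Ideal E} {c : E} (hc : c ∈ J) :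
    WittVector.teichmuller p c ∈ wId p J :=
  (Submodule.mem_iInf _).2 fun _ => Ideal.mem_sup_left (Ideal.subset_span ⟨c, hc, rfl⟩)

theorem nmix_map_le {E' : Type u} [CommRing E'] (f : E →+* E') (J : Ideal E) :
    (wId p J).map (WittVector.map f) ≤ wId p (J.map f) := by
  refine le_iInf fun ν => (Ideal.map_mono (iInf_le _ ν)).trans ?_
  rw [Ideal.map_sup, Ideal.map_span, Ideal.map_span, Set.image_singleton, map_pow, map_natCast]
  refine sup_le_sup_right (Ideal.span_mono ?_) _
  rintro _ ⟨_, ⟨c, hc, rfl⟩, rfl⟩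
  exact ⟨f c, Ideal.mem_map_of_mem f hc, (WittVector.map_teichmuller p f c).symm⟩

theorem nmix_teichI_le {m : ℕ} (g : Fin m → E) :
    teichI p g ≤ wId p (Ideal.span (Set.range g)) := by
  refine Ideal.span_le.2 ?_
  rintro _ ⟨i, rfl⟩
  exact nmix_teich_mem (Ideal.subset_span ⟨i, rfl⟩)

theorem nmix_one_le : (1 : Ideal (WittVector p E)) ≤ wId p (1 : Ideal E) := by
  rw [Ideal.one_eq_top, Ideal.one_eq_top, top_le_iff, Ideal.eq_top_iff_one,
    ← map_one (WittVector.teichmuller p)]
  exact nmix_teich_mem Submodule.mem_top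

variable [CharP E p] [PerfectRing E p]

theorem nmix_pow_le {I : Ideal (WittVector p E)} {J : Ideal E} (h : I ≤ wId p J) (n : ℕ) :
    I ^ n ≤ wId p (J ^ n) := by
  induction n with
  | zero => rw [pow_zero, pow_zero]; exact nmix_one_le
  | succ n ih =>
    rw [pow_succ, pow_succ]
    exact (Ideal.mul_mono ih h).trans (wId_mul_le le_rfl)

theorem nmix_mpow_le {s : Type} [Fintype s] {I : s → Ideal (WittVector p E)} {J : s → Ideal E}
    (h : ∀ j, I j ≤ wId p (J j)) (β : s → ℕ) : mpow I β ≤ wId p (mpow J β) := by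
  classical
  unfold mpow
  induction (Finset.univ : Finset s) using Finset.induction_on with
  | empty => rw [Finset.prod_empty, Finset.prod_empty]; exact nmix_one_le
  | insert j S hj ih =>
    rw [Finset.prod_insert hj, Finset.prod_insert hj]
    exact (Ideal.mul_mono (nmix_pow_le (h j) _) ih).trans (wId_mul_le le_rfl)

end Vale.Agent.P177
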