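import Mathlib

/-! Additive length functions on all modules. -/

namespace Vale.Agent.P177

open scoped ENNReal

universe u

/-- an additive, continuous function on all modules. -/
structure Len (R : Type u) [CommRing R] where
  val : ∀ (X : Type u) [AddCommGroup X] [Module R X], ℝ≥0∞
  add : ∀ (X' X X'' : Type u) [AddCommGroup X'] [Module R X'] [AddCommGroup X] [Module R X]
    [AddCommGroup X''] [Module R X''] (f : X' →ₗ[R] X) (g : X →ₗ[R] X''), Function.Injective f →
    Function.Exact f g → Function.Surjective g → val X = val X' + val X''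
  zero : ∀ (X : Type u) [AddCommGroup X] [Module R X], Subsingleton X → val X = 0
  cont : ∀ (X : Type u) [AddCommGroup X] [Module R X] (c : ℝ≥0∞),
    (∀ N : Submodule R X, N.FG → val N ≤ c) → val X ≤ c

/-- type synonym for restriction of scalars. -/
def Res {R R' : Type u} [CommRing R] [CommRing R'] (_φ : R →+* R') (X : Type u) : Type u := X

section
variable {R R' : Type u} [CommRing R] [CommRing R'] (φ : R →+* R') (X : Type u) [AddCommGroup X]
  [Module R' X]

instance : AddCommGroup (Res φ X) := inferInstanceAs (AddCommGroup X)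
instance : Module R (Res φ X) := Module.compHom X φ
end

namespace Len

variable {R : Type u} [CommRing R] (Λ : Len R) {X X' X'' : Type u} [AddCommGroup X] [Module R X]
  [AddCommGroup X'] [Module R X'] [AddCommGroup X''] [Module R X'']

/-- the value on `(A + B) / B`. -/
noncomputable def rel (A B : Submodule R X) : ℝ≥0∞ := Λ.val (A.map B.mkQ)

theorem congr (e : X ≃ₗ[R] X') : Λ.val X = Λ.val X' := by
  have h := Λ.add X X' PUnit e.toLinearMap 0 e.injective
    (fun y => ⟨fun _ => e.surjective y, fun _ => rfl⟩) (fun y => ⟨0, rfl⟩)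
  rw [h, Λ.zero PUnit inferInstance, add_zero]

theorem len_congr_sub {A B : Submodule R X} (h : A = B) : Λ.val A = Λ.val B := by subst h; rfl

theorem le_of_injective (f : X' →ₗ[R] X) (hf : Function.Injective f) : Λ.val X' ≤ Λ.val X := by
  rw [Λ.add X' X _ f (LinearMap.range f).mkQ hf (LinearMap.exact_map_mkQ_range f)
    (Submodule.mkQ_surjective _)]
  exact le_self_add

theorem le_of_surjective (g : X →ₗ[R] X'') (hg : Function.Surjective g) :
    Λ.val X'' ≤ Λ.val X := by
  rw [Λ.add _ X X'' (LinearMap.ker g).subtype g (Submodule.injective_subtype _)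
    (LinearMap.exact_subtype_ker_map g) hg]
  exact le_add_self

theorem len_ker_range (f : X →ₗ[R] X') :
    Λ.val X = Λ.val (LinearMap.ker f) + Λ.val (LinearMap.range f) := by
  refine Λ.add _ X _ (LinearMap.ker f).subtype f.rangeRestrict (Submodule.injective_subtype _)
    (fun x => ?_) f.surjective_rangeRestrict
  rw [Subtype.ext_iff]
  exact ⟨fun h => ⟨⟨x, h⟩, rfl⟩, fun ⟨y, h⟩ => h ▸ y.2⟩

theorem len_range_le (f : X →ₗ[R] X') : Λ.val (LinearMap.range f) ≤ Λ.val X :=
  Λ.le_of_surjective _ f.surjective_rangeRestrict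

theorem len_sub_le (A : Submodule R X) : Λ.val A ≤ Λ.val X :=
  Λ.le_of_injective _ (Submodule.injective_subtype A)

theorem len_mono {A B : Submodule R X} (h : A ≤ B) : Λ.val A ≤ Λ.val B :=
  Λ.le_of_injective _ (Submodule.inclusion_injective h)

theorem le_add (f : X' →ₗ[R] X) (g : X →ₗ[R] X'') (h : Function.Exact f g) :
    Λ.val X ≤ Λ.val X' + Λ.val X'' := by
  rw [Λ.len_ker_range g, Λ.len_congr_sub h.linearMap_ker_eq]
  exact add_le_add (Λ.len_range_le f) (Λ.len_sub_le _)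

theorem eq_ker_add_range (f : X →ₗ[R] X') :
    Λ.val X = Λ.val (LinearMap.ker f) + Λ.val (LinearMap.range f) := Λ.len_ker_range f

theorem val_prod : Λ.val (X × X') = Λ.val X + Λ.val X' := by
  exact Λ.add _ _ _ (LinearMap.inl R X X') (LinearMap.snd R X X') LinearMap.inl_injective
    Function.Exact.inl_snd LinearMap.snd_surjective

theorem val_pi {ι : Type} [Fintype ι] (Y : ι → Type u) [∀ i, AddCommGroup (Y i)]
    [∀ i, Module R (Y i)] : Λ.val (∀ i, Y i) = ∑ i, Λ.val (Y i) := by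
  refine Fintype.induction_empty_option (P := fun ι _ => ∀ (Y : ι → Type u)
    [∀ i, AddCommGroup (Y i)] [∀ i, Module R (Y i)], Λ.val (∀ i, Y i) = ∑ i, Λ.val (Y i))
    ?_ ?_ ?_ ι Y
  · intro α β _ e ih Y _ _
    rw [← Λ.congr (LinearEquiv.piCongrLeft R Y e), ih]
    letI : Fintype α := Fintype.ofEquiv β e.symm
    exact Equiv.sum_comp e fun i => Λ.val (Y i)
  · intro Y _ _
    rw [Λ.zero _ inferInstance, Finset.univ_eq_empty, Finset.sum_empty]
  · intro α _ ih Y _ _
    rw [Λ.congr (LinearEquiv.piOptionEquivProd R), Λ.val_prod, ih, Fintype.sum_option]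

theorem ker_eq_coker (f : X →ₗ[R] X) (h : Λ.val X ≠ ⊤) :
    Λ.val (LinearMap.ker f) = Λ.val (X ⧸ LinearMap.range f) := by
  have h1 := Λ.len_ker_range f
  have h2 := Λ.add _ X _ (LinearMap.range f).subtype (LinearMap.range f).mkQ
    (Submodule.injective_subtype _) (LinearMap.exact_subtype_mkQ _) (Submodule.mkQ_surjective _)
  rw [h1, add_comm] at h2
  exact (ENNReal.add_right_inj (ne_top_of_le_ne_top h (Λ.len_sub_le _))).1 h2

theorem len_sup_le (A B : Submodule R X) : Λ.val (A ⊔ B : Submodule R X) ≤ Λ.val A + Λ.val B := by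
  rw [← Λ.val_prod]
  refine le_of_eq_of_le (Λ.len_congr_sub ?_) (Λ.len_range_le (A.subtype.coprod B.subtype))
  rw [LinearMap.range_coprod, Submodule.range_subtype, Submodule.range_subtype]

theorem eq_zero_of_cyclic (h : ∀ x : X, Λ.val (Submodule.span R {x}) = 0) : Λ.val X = 0 := by
  refine le_zero_iff.1 (Λ.cont X 0 fun N hN => ?_)
  induction N, hN using Submodule.fg_induction with
  | singleton x => exact (h x).le
  | sup N₁ N₂ _ _ h1 h2 => simpa using (Λ.len_sup_le N₁ N₂).trans (add_le_add h1 h2)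

/-- every element is killed by ideals of arbitrarily small colength. -/
theorem eq_zero_of_small (h : ∀ (x : X) (ε : ℝ≥0∞), 0 < ε →
    ∃ J : Ideal R, (∀ a ∈ J, a • x = 0) ∧ Λ.val (R ⧸ J) ≤ ε) : Λ.val X = 0 := by
  refine Λ.eq_zero_of_cyclic fun x => le_zero_iff.1 (le_of_forall_gt_imp_ge_of_dense fun ε hε => ?_)
  obtain ⟨J, h1, h2⟩ := h x ε hε
  have h3 : J ≤ LinearMap.ker (LinearMap.toSpanSingleton R X x) := h1
  refine le_trans (le_of_eq_of_le (Λ.len_congr_sub ?_) (Λ.len_range_le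
    (J.liftQ (LinearMap.toSpanSingleton R X x) h3))) h2
  rw [Submodule.range_liftQ, LinearMap.span_singleton_eq_range]

theorem le_of_span {r : ℕ} (v : Fin r → X) (hv : Submodule.span R (Set.range v) = ⊤) (J : Ideal R)
    (h : ∀ a ∈ J, ∀ i, a • v i = 0) : Λ.val X ≤ r * Λ.val (R ⧸ J) := by
  have h1 := Λ.val_pi fun _ : Fin r => R ⧸ J
  rw [Finset.sum_const, Finset.card_univ, Fintype.card_fin, nsmul_eq_mul] at h1
  rw [← h1]
  have h3 : ∀ i, J ≤ LinearMap.ker (LinearMap.toSpanSingleton R X (v i)) := fun i a ha => h a ha i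
  refine Λ.le_of_surjective (∑ i, (J.liftQ (LinearMap.toSpanSingleton R X (v i))
    (h3 i)).comp (LinearMap.proj i)) ?_
  rw [← LinearMap.range_eq_top, eq_top_iff, ← hv, Submodule.span_le]
  rintro _ ⟨i, rfl⟩
  refine ⟨Pi.single i (Submodule.Quotient.mk 1), ?_⟩
  rw [LinearMap.sum_apply, Finset.sum_eq_single i]
  · rw [LinearMap.comp_apply, LinearMap.proj_apply, Pi.single_eq_same, Submodule.liftQ_apply]
    exact one_smul R (v i)
  · intro j _ hj
    rw [LinearMap.comp_apply, LinearMap.proj_apply, Pi.single_eq_of_ne hj, map_zero]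
  · simp

/-- continuity along directed unions. -/
theorem le_of_directed {κ : Type*} [Nonempty κ] (N : κ → Submodule R X) (hN : Directed (· ≤ ·) N)
    (htop : ⨆ i, N i = ⊤) (c : ℝ≥0∞) (h : ∀ i, Λ.val (N i) ≤ c) : Λ.val X ≤ c := by
  classical
  refine Λ.cont X c fun N' hN' => ?_
  obtain ⟨s, rfl⟩ := hN'
  have h1 : ∀ x : X, ∃ i, x ∈ N i := fun x =>
    (Submodule.mem_iSup_of_directed N hN).1 (htop ▸ Submodule.mem_top)
  choose g hg using h1
  obtain ⟨z, hz⟩ := hN.finset_le (s.image g)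
  refine (Λ.len_mono (Submodule.span_le.2 fun x hx => ?_)).trans (h z)
  exact hz _ (Finset.mem_image_of_mem g hx) (hg x)

theorem len_map_eq (f : X →ₗ[R] X') (A : Submodule R X) :
    Λ.val (A.map f) = Λ.val (A ⧸ LinearMap.ker (f.domRestrict A)) := by
  rw [Λ.congr (f.domRestrict A).quotKerEquivRange]
  exact Λ.len_congr_sub (LinearMap.range_domRestrict A f).symm

theorem len_map_le (f : X →ₗ[R] X') (g : X →ₗ[R] X'') (A : Submodule R X)
    (h : ∀ x ∈ A, g x = 0 → f x = 0) : Λ.val (A.map f) ≤ Λ.val (A.map g) := by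
  rw [Λ.len_map_eq, Λ.len_map_eq]
  have hle : LinearMap.ker (g.domRestrict A) ≤ LinearMap.ker (f.domRestrict A) :=
    fun x hx => h x x.2 hx
  exact Λ.le_of_surjective _ (Submodule.factor_surjective hle)

theorem len_map_congr (f : X →ₗ[R] X') (g : X →ₗ[R] X'') (A : Submodule R X)
    (h : ∀ x ∈ A, f x = 0 ↔ g x = 0) : Λ.val (A.map f) = Λ.val (A.map g) :=
  le_antisymm (Λ.len_map_le f g A fun x hx => (h x hx).2) (Λ.len_map_le g f A fun x hx => (h x hx).1)

theorem len_split (f : X →ₗ[R] X') (A : Submodule R X) :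
    Λ.val A = Λ.val (A ⊓ LinearMap.ker f : Submodule R X) + Λ.val (A.map f) := by
  rw [Λ.len_ker_range (f.domRestrict A), Λ.len_congr_sub (LinearMap.range_domRestrict A f),
    ← Λ.congr (Submodule.comapSubtypeEquivOfLe (inf_le_left : A ⊓ LinearMap.ker f ≤ A))]
  congr 1
  exact Λ.len_congr_sub (Submodule.ext fun x => ⟨fun h => ⟨x.2, h⟩, fun h => h.2⟩)

theorem len_rel_sup (A B : Submodule R X) : Λ.rel (A ⊔ B) B = Λ.rel A B :=
  Λ.len_congr_sub (by rw [Submodule.map_sup, Submodule.mkQ_map_self, sup_bot_eq])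

theorem len_rel_add {A B C : Submodule R X} (hBA : B ≤ A) (hCB : C ≤ B) :
    Λ.rel A C = Λ.rel A B + Λ.rel B C := by
  unfold rel
  rw [Λ.len_split (Submodule.factor hCB) (A.map C.mkQ), add_comm]
  congr 1
  · exact Λ.len_congr_sub (by rw [← Submodule.map_comp, Submodule.factor_comp_mk])
  · refine Λ.len_congr_sub (le_antisymm ?_ (le_inf (Submodule.map_mono hBA) ?_))
    · rintro _ ⟨⟨x, -, rfl⟩, h⟩
      exact ⟨x, (Submodule.Quotient.mk_eq_zero B).1 h, rfl⟩
    · rintro _ ⟨x, hx, rfl⟩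
      exact (Submodule.Quotient.mk_eq_zero B).2 hx

theorem len_rel_le_of_fg (A B : Submodule R X) (c : ℝ≥0∞)
    (h : ∀ A' : Submodule R X, A' ≤ A → A'.FG → Λ.rel A' B ≤ c) : Λ.rel A B ≤ c := by
  have : Nonempty {A' : Submodule R X // A' ≤ A ∧ A'.FG} := ⟨⟨⊥, bot_le, Submodule.fg_bot⟩⟩
  refine Λ.le_of_directed (fun A' : {A' : Submodule R X // A' ≤ A ∧ A'.FG} =>
    (A'.1.map B.mkQ).comap (A.map B.mkQ).subtype) (fun i j => ?_) ?_ c fun i => ?_
  · exact ⟨⟨i.1 ⊔ j.1, sup_le i.2.1 j.2.1, i.2.2.sup j.2.2⟩,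
      Submodule.comap_mono (Submodule.map_mono le_sup_left),
      Submodule.comap_mono (Submodule.map_mono le_sup_right)⟩
  · rw [eq_top_iff]
    rintro ⟨_, x, hx, rfl⟩ -
    refine Submodule.mem_iSup_of_mem ⟨Submodule.span R {x},
      (Submodule.span_singleton_le_iff_mem _ _).2 hx, Submodule.fg_span_singleton x⟩ ?_
    exact ⟨x, Submodule.mem_span_singleton_self x, rfl⟩
  · rw [Λ.congr (Submodule.comapSubtypeEquivOfLe (Submodule.map_mono i.2.1))]
    exact h i.1 i.2.1 i.2.2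

theorem exists_fg_rel_le (A B : Submodule R X) (h : Λ.rel A B ≠ ⊤) (ε : ℝ≥0∞) (hε : 0 < ε) :
    ∃ A' : Submodule R X, A' ≤ A ∧ A'.FG ∧ Λ.rel A (A' ⊔ B) ≤ ε := by
  by_contra hn
  push Not at hn
  have h0 := hn ⊥ bot_le Submodule.fg_bot
  rw [bot_sup_eq] at h0
  refine absurd (Λ.len_rel_le_of_fg A B (Λ.rel A B - ε) fun A' h1 h2 => ?_)
    (not_le.2 (ENNReal.sub_lt_self h (hε.trans h0).ne' hε.ne'))
  refine ENNReal.le_sub_of_add_le_left (ne_top_of_lt h0) ?_
  have h3 : Λ.rel A B = Λ.rel A (A' ⊔ B) + Λ.rel A' B := by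
    rw [← Λ.len_rel_sup A B, Λ.len_rel_add (sup_le_sup_right h1 B) le_sup_right,
      Λ.len_rel_sup A' B, ← Λ.len_rel_sup A (A' ⊔ B), ← sup_assoc, sup_eq_left.2 h1]
  rw [h3]
  exact add_le_add (hn A' h1 h2).le le_rfl

theorem rel_top (B : Submodule R X) : Λ.rel ⊤ B = Λ.val (X ⧸ B) := by
  rw [← Λ.congr (Submodule.topEquiv (R := R) (M := X ⧸ B))]
  exact Λ.len_congr_sub (by rw [Submodule.map_top, Submodule.range_mkQ])

theorem rel_bot (A : Submodule R X) : Λ.rel A ⊥ = Λ.val A := by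
  rw [← Λ.len_congr_sub (Submodule.map_id A)]
  exact Λ.len_map_congr _ _ A fun x _ => by simp

theorem rel_eq_quot (A B : Submodule R X) : Λ.rel A B = Λ.val (A ⧸ B.submoduleOf A) := by
  unfold rel
  rw [Λ.len_map_eq]
  exact Λ.congr (Submodule.quotEquivOfEq _ _
    (Submodule.ext fun x => Submodule.Quotient.mk_eq_zero B))

theorem rel_of_le {A B : Submodule R X} (h : A ≤ B) : Λ.rel A B = 0 := by
  refine le_zero_iff.1 ((Λ.len_mono (Submodule.map_mono h)).trans ?_)
  rw [Λ.len_congr_sub (Submodule.mkQ_map_self B), Λ.zero _ inferInstance]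

theorem rel_sup (A B : Submodule R X) : Λ.rel (A ⊔ B) B = Λ.rel A B := Λ.len_rel_sup A B

theorem rel_inf (A B : Submodule R X) : Λ.rel A (A ⊓ B) = Λ.rel A B := by
  exact Λ.len_map_congr _ _ A fun x hx => by simp [hx]

theorem rel_mono {A A' B B' : Submodule R X} (hA : A ≤ A') (hB : B' ≤ B) :
    Λ.rel A B ≤ Λ.rel A' B' := by
  refine le_trans (Λ.len_map_le _ _ A fun x _ hx => ?_) (Λ.len_mono (Submodule.map_mono hA))
  exact (Submodule.Quotient.mk_eq_zero B).2 (hB ((Submodule.Quotient.mk_eq_zero B').1 hx))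

theorem rel_add {A B C : Submodule R X} (hBA : B ≤ A) (hCB : C ≤ B) :
    Λ.rel A C = Λ.rel A B + Λ.rel B C := Λ.len_rel_add hBA hCB

theorem rel_le_add (A B C : Submodule R X) : Λ.rel A C ≤ Λ.rel A B + Λ.rel B C := by
  calc Λ.rel A C ≤ Λ.rel (A ⊔ (B ⊔ C)) C := Λ.rel_mono le_sup_left le_rfl
    _ = Λ.rel A (B ⊔ C) + Λ.rel B C := by
      rw [Λ.rel_add le_sup_right (le_sup_right : C ≤ B ⊔ C), Λ.rel_sup, Λ.rel_sup]
    _ ≤ _ := add_le_add (Λ.rel_mono le_rfl le_sup_left) le_rfl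

theorem rel_map_comap (f : X →ₗ[R] X') (A : Submodule R X) (B : Submodule R X') :
    Λ.rel (A.map f) B = Λ.rel A (B.comap f) := by
  unfold rel
  rw [Λ.len_congr_sub (Submodule.map_comp f B.mkQ A).symm]
  exact Λ.len_map_congr _ _ A fun x _ => by simp

theorem rel_map_le (f : X →ₗ[R] X') (A B : Submodule R X) :
    Λ.rel (A.map f) (B.map f) ≤ Λ.rel A B := by
  rw [Λ.rel_map_comap]
  exact Λ.rel_mono le_rfl (Submodule.le_comap_map f B)

theorem rel_map_of_injective (f : X →ₗ[R] X') (hf : Function.Injective f) (A B : Submodule R X) :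
    Λ.rel (A.map f) (B.map f) = Λ.rel A B := by
  rw [Λ.rel_map_comap, Submodule.comap_map_eq_of_injective hf]

theorem rel_pi {ι : Type} [Fintype ι] (A B : ι → Submodule R X) :
    Λ.rel (Submodule.pi Set.univ A) (Submodule.pi Set.univ B) = ∑ i, Λ.rel (A i) (B i) := by
  unfold rel
  rw [← Λ.val_pi, Λ.len_map_congr _ (LinearMap.pi fun i => (B i).mkQ.comp (LinearMap.proj i)) _
    fun x _ => by simp [Submodule.mem_pi, funext_iff]]
  have h0 : ∀ (i : ι) (z : (Submodule.pi Set.univ A).map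
      (LinearMap.pi fun i => (B i).mkQ.comp (LinearMap.proj i))), z.1 i ∈ (A i).map (B i).mkQ := by
    rintro i ⟨_, x, hx, rfl⟩
    exact ⟨x i, hx i trivial, rfl⟩
  let F : (Submodule.pi Set.univ A).map (LinearMap.pi fun i => (B i).mkQ.comp (LinearMap.proj i))
      →ₗ[R] ∀ i, (A i).map (B i).mkQ :=
    ⟨⟨fun z i => ⟨z.1 i, h0 i z⟩, fun _ _ => rfl⟩, fun _ _ => rfl⟩
  refine Λ.congr (LinearEquiv.ofBijective F ⟨fun x y h => ?_, fun y => ?_⟩)
  · exact Subtype.ext (funext fun i => congrArg Subtype.val (congrFun h i))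
  · have h1 : ∀ i, ∃ x ∈ A i, (B i).mkQ x = y i := fun i => (y i).2
    choose x h2 h3 using h1
    exact ⟨⟨_, x, fun i _ => h2 i, rfl⟩, funext fun i => Subtype.ext (h3 i)⟩

theorem rel_eq_zero_of_small (A B : Submodule R X) (h : ∀ x ∈ A, ∀ ε : ℝ≥0∞, 0 < ε →
    ∃ J : Ideal R, (∀ a ∈ J, a • x ∈ B) ∧ Λ.val (R ⧸ J) ≤ ε) : Λ.rel A B = 0 := by
  refine Λ.eq_zero_of_small ?_
  rintro ⟨_, x, hx, rfl⟩ ε hε
  obtain ⟨J, h1, h2⟩ := h x hx ε hε
  exact ⟨J, fun a ha => Subtype.ext ((Submodule.Quotient.mk_eq_zero B).2 (h1 a ha)), h2⟩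

theorem quot_inf_add_sup (I J : Submodule R X) :
    Λ.val (X ⧸ (I ⊓ J)) + Λ.val (X ⧸ (I ⊔ J)) = Λ.val (X ⧸ I) + Λ.val (X ⧸ J) := by
  rw [← Λ.rel_top, ← Λ.rel_top, ← Λ.rel_top, ← Λ.rel_top, Λ.rel_add le_top (inf_le_left : I ⊓ J ≤ I),
    Λ.rel_add le_top (le_sup_right : J ≤ I ⊔ J), Λ.rel_inf, Λ.rel_sup]
  ring

/-- a linear map after restriction of scalars. -/
def lenResMap {R' : Type u} [CommRing R'] (φ : R →+* R') {Y Y' : Type u} [AddCommGroup Y]
    [Module R' Y] [AddCommGroup Y'] [Module R' Y'] (f : Y →ₗ[R'] Y') : Res φ Y →ₗ[R] Res φ Y' where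
  toFun := f
  map_add' := f.map_add
  map_smul' r x := f.map_smul (φ r) x

/-- restriction of scalars. -/
noncomputable def res {R' : Type u} [CommRing R'] (φ : R →+* R') : Len R' where
  val X _ _ := Λ.val (Res φ X)
  add := fun X' X X'' _ _ _ _ _ _ f g hf hfg hg =>
    Λ.add _ _ _ (lenResMap φ f) (lenResMap φ g) hf hfg hg
  zero := fun _ _ _ h => Λ.zero _ h
  cont := fun X _ _ c h => Λ.cont _ c fun N hN => by
    obtain ⟨S, hS, rfl⟩ := Submodule.fg_def.1 hN
    let T : Set X := S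
    refine le_trans ?_ (h (Submodule.span R' T) (Submodule.fg_span hS))
    have h1 : ∀ x : Res φ X, x ∈ Submodule.span R S → (show X from x) ∈ Submodule.span R' T := by
      intro x hx
      exact Submodule.span_induction (R := R) (M := Res φ X)
        (p := fun y _ => (show X from y) ∈ Submodule.span R' T)
        (fun x hx => Submodule.subset_span hx) (Submodule.zero_mem _)
        (fun x y _ _ hx hy => Submodule.add_mem _ hx hy)
        (fun r x _ hx => Submodule.smul_mem _ (φ r) hx) hx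
    exact Λ.le_of_injective (X := Res φ (Submodule.span R' T))
      ⟨⟨fun x => ⟨x.1, h1 x.1 x.2⟩, fun _ _ => rfl⟩, fun _ _ => rfl⟩
      fun x y e => Subtype.ext (congrArg (fun z : Submodule.span R' T => z.1) e)

theorem res_val {R' : Type u} [CommRing R'] (φ : R →+* R') (Y : Type u) [AddCommGroup Y]
    [Module R Y] [Module R' Y] (h : ∀ (r : R) (y : Y), r • y = φ r • y) :
    (Λ.res φ).val Y = Λ.val Y := by
  exact (Λ.congr (X := Y) (X' := Res φ Y) { AddEquiv.refl Y with map_smul' := h }).symm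

theorem res_val_of_equiv {R' : Type u} [CommRing R'] (φ : R →+* R') {Y : Type u} [AddCommGroup Y]
    [Module R' Y] (e : X ≃+ Y) (h : ∀ (r : R) (x : X), e (r • x) = φ r • e x) :
    (Λ.res φ).val Y = Λ.val X := by
  exact (Λ.congr (X := X) (X' := Res φ Y) { e with map_smul' := h }).symm

theorem res_res {R' R'' : Type u} [CommRing R'] [CommRing R''] (φ : R →+* R') (ψ : R' →+* R'')
    (Y : Type u) [AddCommGroup Y] [Module R'' Y] :
    ((Λ.res φ).res ψ).val Y = (Λ.res (ψ.comp φ)).val Y := rfl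

theorem res_id (Y : Type u) [AddCommGroup Y] [Module R Y] :
    (Λ.res (RingHom.id R)).val Y = Λ.val Y := Λ.res_val _ Y fun _ _ => rfl

theorem res_quot {R' : Type u} [CommRing R'] (φ : R →+* R') (hφ : Function.Surjective φ)
    (J : Ideal R') : (Λ.res φ).val (R' ⧸ J) = Λ.val (R ⧸ J.comap φ) := by
  refine Λ.res_val_of_equiv φ (AddEquiv.ofBijective (Ideal.quotientMap J φ le_rfl).toAddMonoidHom
    ⟨Ideal.quotientMap_injective, Ideal.quotientMap_surjective (H := le_rfl) hφ⟩) fun r x => ?_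
  obtain ⟨x, rfl⟩ := Ideal.Quotient.mk_surjective x
  show Ideal.Quotient.mk J (φ (r * x)) = Ideal.Quotient.mk J (φ r * φ x)
  rw [map_mul]

theorem ext' {Λ Λ' : Len R}
    (h : ∀ (Y : Type u) [AddCommGroup Y] [Module R Y], Λ.val Y = Λ'.val Y) : Λ = Λ' := by
  cases Λ
  cases Λ'
  congr
  funext Y _ _
  exact h Y

/-- the usual length. -/
noncomputable def len (R : Type u) [CommRing R] : Len R where
  val X _ _ := (Module.length R X : ℝ≥0∞)
  add := fun X' X X'' _ _ _ _ _ _ f g hf hfg hg => by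
    rw [Module.length_eq_add_of_exact f g hf hg hfg, ENat.toENNReal_add]
  zero := fun X _ _ h => by rw [Module.length_eq_zero, ENat.toENNReal_zero]
  cont := fun X _ _ c h => by
    rcases eq_or_ne c ⊤ with rfl | hc
    · exact le_top
    have : Nonempty {N : Submodule R X // N.FG} := ⟨⟨⊥, Submodule.fg_bot⟩⟩
    have h1 : ⨆ N : {N : Submodule R X // N.FG}, Module.length R N.1 < ⊤ := by
      rw [← ENat.toENNReal_lt, ENat.toENNReal_iSup, ENat.toENNReal_top]
      exact lt_of_le_of_lt (iSup_le fun N => h N.1 N.2) hc.lt_top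
    obtain ⟨N, hN⟩ := ENat.exists_eq_iSup_of_lt_top h1
    have h2 : N.1 = ⊤ := by
      rw [eq_top_iff]
      intro x _
      by_contra hx
      have h3 : N.1 < N.1 ⊔ Submodule.span R {x} := lt_of_le_of_ne le_sup_left fun e =>
        hx (e ▸ Submodule.mem_sup_right (Submodule.mem_span_singleton_self x))
      have h4 := Order.height_strictMono h3 (by rwa [← Module.length_submodule, hN])
      rw [← Module.length_submodule, ← Module.length_submodule, hN] at h4
      exact absurd (le_iSup (fun N : {N : Submodule R X // N.FG} => Module.length R N.1)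
        ⟨_, N.2.sup (Submodule.fg_span_singleton x)⟩) (not_le.2 h4)
    rw [← Module.length_top, ← h2]
    exact h N.1 N.2

end Len

end Vale.Agent.P177
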