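import Vale.Agent.P177.SysB
import Vale.Agent.P177.RegDef
import Vale.Agent.P177.Len
import Vale.Agent.P202.MxCoverDef

/-! Saturated systems in a large algebra. -/

namespace Vale.Agent.P177

open IsLocalRing Polynomial Vale.Agent.P202

universe u

/-- a flat algebra with a normalised length that splits a finite extension. -/
structure TopData (p : ℕ) {A T B : Type u} [CommRing A] [IsLocalRing A] [CommRing T]
    [IsLocalRing T] [Algebra A T] [CommRing B] [Algebra A B] (z : List A) (ϖ : A) (D : EtData A T)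
    (Λ : Len B) (σ : Fin D.P.natDegree → T →ₐ[A] B) : Prop where
  reg : RegL A z
  dom : IsDomain T
  fin : Module.Finite A T
  inj : Function.Injective (algebraMap A T)
  res : ∀ t : T, ∃ a, t - algebraMap A T a ∈ maximalIdeal T
  G_ne : D.G ≠ 0
  ϖ_ne : ϖ ≠ 0
  ϖ_mem : ϖ ∈ maximalIdeal A
  flat : Module.Flat A B
  one : Λ.val (B ⧸ (maximalIdeal A).map (algebraMap A B)) = 1
  split : D.P.map (algebraMap A B) = ∏ i, (X - C (σ i D.θ))
  root : ∀ (a : A) (e : ℕ), ∃ η : B, η ^ p ^ e = algebraMap A B a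

/-- the large algebra and its deformation. -/
structure Big (p : ℕ) {V : Type u} [CommRing V] [IsLocalRing V] {n : ℕ} {A T : Type u} [CommRing A]
    [CommRing T] [Algebra A T] (ρ : PS V (n + 1) →+* A) (D : EtData A T) where
  Bt : Type u
  B : Type u
  [crt : CommRing Bt]
  [cr : CommRing B]
  [algt : Algebra (PS V (n + 1)) Bt]
  [alg : Algebra A B]
  π : Bt →+* B
  surj : Function.Surjective π
  ker : RingHom.ker π = (RingHom.ker ρ).map (algebraMap (PS V (n + 1)) Bt)
  comm : ∀ f, π (algebraMap (PS V (n + 1)) Bt f) = algebraMap A B (ρ f)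
  flat : Module.Flat (PS V (n + 1)) Bt
  complete : IsAdicComplete ((maximalIdeal (PS V (n + 1))).map (algebraMap (PS V (n + 1)) Bt)) Bt
  Λ : Len B
  one : Λ.val (B ⧸ ((maximalIdeal (PS V (n + 1))).map ρ).map (algebraMap A B)) = 1
  nsq : ∀ M : Ideal Bt, M.IsMaximal → (p : Bt) ∉ M ^ 2
  σ : Fin D.P.natDegree → T →ₐ[A] B
  split : D.P.map (algebraMap A B) = ∏ i, (X - C (σ i D.θ))
  root : ∀ i τ (e : ℕ), ∃ η : B, η ^ p ^ e = σ i τ
  sys : ∀ (i) (s : Type) [Fintype s] [DecidableEq s] (P : s → Ideal T), (∀ j, (P j).FG) →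
    (∀ j, algebraMap A T (ρ (MvPowerSeries.X 0)) ∈ (P j).radical) →
    ∃ (b : ℕ) (Nt : (s → ℕ) → Ideal Bt),
      SysB p (fun j => (P j).map (σ i)) (algebraMap A B (ρ (MvPowerSeries.X 0))) b
        (fun β => (Nt β).map π) ∧
      (∀ β, ∀ ξ, RingHom.ker π = Ideal.span {ξ} → ∀ x, ξ * x ∈ Nt β → x ∈ Nt β) ∧
      ∀ β, algebraMap (PS V (n + 1)) Bt (MvPowerSeries.X 0) ∈ (Nt β).radical

attribute [instance] Big.crt Big.cr Big.algt Big.alg

end Vale.Agent.P177
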