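import Vale.Agent.P177.WittBase
import Vale.Agent.P177.NMixAux
import Vale.Agent.P177.SysDef

/-! The large algebra in characteristic `p`. -/

namespace Vale.Agent.P177

open IsLocalRing Polynomial Vale.Agent.P202

universe u

theorem etData_exists_algHom {A T B : Type u} [CommRing A] [CommRing T] [Algebra A T] [CommRing B]
    [Algebra A B] (D : EtData A T) (hG : ∀ y : B, algebraMap A B D.G * y = 0 → y = 0) (θ : B)
    (hθ : aeval θ D.P = 0)
    (h : ∀ (τ : T) (f : A[X]), aeval D.θ f = D.G • τ → algebraMap A B D.G ∣ aeval θ f) :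
    ∃ σ : T →ₐ[A] B, σ D.θ = θ ∧
      ∀ (τ : T) (f : A[X]), aeval D.θ f = D.G • τ → algebraMap A B D.G * σ τ = aeval θ f := by
  choose F hF using D.span
  choose y hy using fun τ => h τ (F τ) (hF τ)
  have key : ∀ (τ : T) (f : A[X]), aeval D.θ f = D.G • τ →
      algebraMap A B D.G * y τ = aeval θ f := by
    intro τ f hf
    obtain ⟨c, hc⟩ := D.indep (f - F τ) (by rw [map_sub, hf, hF, sub_self])
    have h1 := congrArg (aeval θ) hc
    rw [map_sub, map_mul, hθ, zero_mul, sub_eq_zero] at h1
    rw [h1, hy]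
  have canc : ∀ a b : B, algebraMap A B D.G * a = algebraMap A B D.G * b → a = b :=
    fun a b hab => sub_eq_zero.1 (hG _ (by rw [mul_sub, hab, sub_self]))
  have hsm : ∀ (a : A) (τ : T), y (a • τ) = algebraMap A B a * y τ := by
    intro a τ
    refine canc _ _ ?_
    rw [key (a • τ) (C a * F τ) (by
      rw [map_mul, aeval_C, hF, ← Algebra.smul_def, smul_comm]), map_mul, aeval_C, hy]
    ring
  have h1 : y 1 = 1 := canc _ _ (by
    rw [key 1 (C D.G) (by rw [aeval_C, Algebra.algebraMap_eq_smul_one]), aeval_C, mul_one])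
  refine ⟨{ toFun := y, map_one' := h1, map_mul' := fun τ τ' => ?_
            map_zero' := by simpa using hsm 0 1
            map_add' := fun τ τ' => ?_
            commutes' := fun a => by rw [Algebra.algebraMap_eq_smul_one, hsm, h1, mul_one] },
    ?_, key⟩
  · refine canc _ _ (canc _ _ ?_)
    rw [← hsm, key (D.G • (τ * τ')) (F τ * F τ') (by
      rw [map_mul, hF, hF, smul_mul_smul_comm, mul_smul]), map_mul, hy, hy]
    ring
  · refine canc _ _ ?_
    rw [key (τ + τ') (F τ + F τ') (by rw [map_add, hF, hF, smul_add]), map_add, hy, hy, mul_add]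
  · refine canc _ _ ?_
    change algebraMap A B D.G * y D.θ = _
    rw [key D.θ (C D.G * X) (by rw [map_mul, aeval_C, aeval_X, Algebra.smul_def]), map_mul,
      aeval_C, aeval_X]

theorem bigp_split {D : Type u} [CommRing D] [IsDomain D] {P : D[X]} (hP : P.Monic)
    (h : P.Splits) {n : ℕ} (hn : P.natDegree = n) :
    ∃ θ : Fin n → D, P = ∏ i, (X - C (θ i)) := by
  have h1 := h.eq_prod_roots_of_monic hP
  have h2 := h.natDegree_eq_card_roots
  generalize P.roots = R at h1 h2
  induction R using Quotient.inductionOn with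
  | _ l =>
    have h3 : l.length = n := by rw [← hn, h2]; rfl
    subst h3
    refine ⟨l.get, h1.trans ?_⟩
    rw [← List.prod_ofFn, Multiset.quot_mk_to_coe, Multiset.map_coe, Multiset.prod_coe]
    conv_lhs => rw [← List.ofFn_get l, List.map_ofFn]
    rfl

theorem bigp_dvd {A T B : Type u} [CommRing A] [CommRing T] [Algebra A T] [Module.Finite A T]
    [CommRing B] [IsDomain B] [IsIntegrallyClosed B] [Algebra A B] (D : EtData A T)
    (hG : algebraMap A B D.G ≠ 0) (θ : B) (hθ : aeval θ D.P = 0) (τ : T) (f : A[X])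
    (hf : aeval D.θ f = D.G • τ) : algebraMap A B D.G ∣ aeval θ f := by
  obtain ⟨Q, hQ, hτ⟩ := Algebra.IsIntegral.isIntegral (R := A) τ
  have h1 := scaleRoots_aeval_eq_zero (r := D.G) (show aeval τ Q = 0 from hτ)
  rw [← Algebra.smul_def, ← hf, ← aeval_comp] at h1
  obtain ⟨c, hc⟩ := D.indep _ h1
  have h2 := congrArg (aeval θ) hc
  rw [map_mul, hθ, zero_mul, aeval_comp] at h2
  have hinj := IsFractionRing.injective B (FractionRing B)
  have hG' : algebraMap B (FractionRing B) (algebraMap A B D.G) ≠ 0 :=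
    fun h => hG (hinj (h.trans (map_zero _).symm))
  have h3 := scaleRoots_eval₂_mul (p := Q) ((algebraMap B (FractionRing B)).comp (algebraMap A B))
    (algebraMap B (FractionRing B) (aeval θ f) / algebraMap B (FractionRing B) (algebraMap A B D.G))
    D.G
  rw [RingHom.comp_apply, mul_div_cancel₀ _ hG', ← hom_eval₂, ← aeval_def, h2, map_zero] at h3
  have h4 := (mul_eq_zero.1 h3.symm).resolve_left (pow_ne_zero _ hG')
  obtain ⟨z, hz⟩ := IsIntegrallyClosed.algebraMap_eq_of_integral (R := B) (K := FractionRing B)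
    ⟨Q.map (algebraMap A B), hQ.map _, by rw [eval₂_map]; exact h4⟩
  refine ⟨z, hinj ?_⟩
  rw [map_mul, hz, mul_div_cancel₀ _ hG']

theorem bigp_gens {E : Type u} [CommRing E] {s : Type} [Fintype s] (q : s → Ideal E)
    (hq : ∀ j, (q j).FG) : ∃ m : ℕ, ∀ j, ∃ g : Fin m → E, q j = Ideal.span (Set.range g) := by
  choose n g hg using fun j => Submodule.fg_iff_exists_fin_generating_family.1 (hq j)
  refine ⟨∑ j, n j, fun j => ⟨fun i => if h : i.1 < n j then g j ⟨i.1, h⟩ else 0, ?_⟩⟩
  have hle : n j ≤ ∑ j, n j := Finset.single_le_sum (fun _ _ => Nat.zero_le _) (Finset.mem_univ j)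
  rw [← hg j]
  refine le_antisymm (Ideal.span_mono ?_) (Ideal.span_le.2 ?_)
  · rintro _ ⟨i, rfl⟩
    exact ⟨⟨i.1, i.2.trans_le hle⟩, dif_pos i.2⟩
  · rintro _ ⟨i, rfl⟩
    beta_reduce
    split_ifs with h
    · exact Submodule.subset_span ⟨_, rfl⟩
    · exact zero_mem _

theorem bigp_sigma {p : ℕ} [Fact p.Prime] {A : Type u} [CommRing A] [IsLocalRing A] (U : Ult p A)
    {T : Type u} [CommRing T] [Algebra A T] [Module.Finite A T] (D : EtData A T) (hG : D.G ≠ 0) :
    ∃ σ : Fin D.P.natDegree → T →ₐ[A] U.E,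
      D.P.map (algebraMap A U.E) = ∏ i, (X - C (σ i D.θ)) := by
  have := isIntegrallyClosed_of_splits U.splits
  have hG' : algebraMap A U.D D.G ≠ 0 := fun h => hG (U.inj (h.trans (map_zero _).symm))
  obtain ⟨θ, hθ⟩ := bigp_split (D.monic.map (algebraMap A U.D)) (U.splits _ (D.monic.map _))
    (D.monic.natDegree_map _)
  have hr : ∀ i, aeval (θ i) D.P = 0 := fun i => by
    rw [← eval_map_algebraMap, hθ, eval_prod]
    exact Finset.prod_eq_zero (Finset.mem_univ i) (by simp)
  choose σ hσ _ using fun i => etData_exists_algHom D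
    (fun y hy => (mul_eq_zero.1 hy).resolve_left hG') (θ i) (hr i) (bigp_dvd D hG' (θ i) (hr i))
  let j : U.D →ₐ[A] U.E := ⟨U.j, U.j_alg⟩
  refine ⟨fun i => j.comp (σ i), ?_⟩
  have e : algebraMap A U.E = U.j.comp (algebraMap A U.D) := RingHom.ext fun a => (U.j_alg a).symm
  rw [e, ← Polynomial.map_map, hθ, Polynomial.map_prod]
  refine Finset.prod_congr rfl fun i _ => ?_
  rw [Polynomial.map_sub, map_X, map_C, AlgHom.comp_apply, hσ]
  rfl

theorem bigp_reg {A B : Type u} [CommRing A] [NoZeroDivisors A] [CommRing B] [Algebra A B]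
    (h : Module.Flat A B) {a : A} (ha : a ≠ 0) (x : B) (hx : algebraMap A B a * x = 0) : x = 0 :=
  Module.Flat.isSMulRegular_of_nonZeroDivisors (M := B) (mem_nonZeroDivisors_of_ne_zero ha)
    (by simpa [Algebra.smul_def] using hx)

theorem Ult.exists_big_charP {p : ℕ} [Fact p.Prime] {k : Type u} [Field k] [CharP k p]
    [PerfectRing k p] {n : ℕ} (U : Ult p (PS k (n + 1))) {T : Type u} [CommRing T]
    [Algebra (PS k (n + 1)) T] [Module.Finite (PS k (n + 1)) T] (D : EtData (PS k (n + 1)) T)
    (hG : D.G ≠ 0) : Nonempty (Big p (V := WittVector p k)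
      (MvPowerSeries.map (σ := Fin (n + 1)) WittVector.constantCoeff) D) := by
  obtain ⟨s, hX, h0⟩ := exists_teich_lift p k (n + 1)
  obtain ⟨hflat, hcomp⟩ := U.witt s hX h0
  obtain ⟨σ, hσ⟩ := bigp_sigma U D hG
  let _ : Algebra (PS (WittVector p k) (n + 1)) (WittVector p U.E) :=
    ((WittVector.map (algebraMap (PS k (n + 1)) U.E)).comp s).toAlgebra
  have hk : RingHom.ker (WittVector.constantCoeff : WittVector p U.E →+* U.E) =
      Ideal.span {(p : WittVector p U.E)} := WittVector.ker_constantCoeff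
  have hρ : RingHom.ker (MvPowerSeries.map (σ := Fin (n + 1))
      (WittVector.constantCoeff : WittVector p k →+* k)) =
      Ideal.span {(p : PS (WittVector p k) (n + 1))} := by
    ext f
    rw [RingHom.mem_ker, ker_ps_map _ _ (witt_constantCoeff_eq_zero_iff p k),
      Ideal.mem_span_singleton, map_natCast]
  have hone : ∀ I : Ideal (PS k (n + 1)), I = maximalIdeal _ →
      U.ΛE.val (U.E ⧸ I.map (algebraMap (PS k (n + 1)) U.E)) = 1 := by
    rintro _ rfl
    exact U.oneE
  have ht := bigp_reg (B := U.E) U.flat (a := (MvPowerSeries.X 0 : PS k (n + 1))) fun h => by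
    simpa using congrArg (MvPowerSeries.coeff (Finsupp.single (0 : Fin (n + 1)) 1)) h
  refine ⟨{ Bt := WittVector p U.E, B := U.E, π := WittVector.constantCoeff
            surj := witt_constantCoeff_surjective p U.E
            ker := ?_, comm := fun f => ?_, flat := hflat, complete := hcomp, Λ := U.ΛE
            one := hone _ (map_maximalIdeal_of_surjective _
              (ps_map_surjective _ (witt_constantCoeff_surjective p k) _))
            nsq := witt_p_notMem_sq, σ := σ, split := hσ
            root := fun i τ e => ⟨rt p e (σ i τ), rt_pow e _⟩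
            sys := fun i ι _ _ P hP hrad => ?_ }⟩
  · rw [hk, hρ, Ideal.map_span, Set.image_singleton, map_natCast]
  · rw [← h0]
    rfl
  · rw [MvPowerSeries.map_X] at hrad ⊢
    obtain ⟨m, hm⟩ := bigp_gens (fun j => (P j).map (σ i)) fun j => (hP j).map _
    have htq : ∀ j, algebraMap (PS k (n + 1)) U.E (MvPowerSeries.X 0) ∈
        ((P j).map (σ i)).radical := fun j => by
      rw [← (σ i).commutes]
      exact Ideal.map_radical_le _ (Ideal.mem_map_of_mem _ (hrad j))
    have S := exists_sysB_nId (p := p) _ m hm ht htq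
    refine ⟨m, fun β => wId p (nId p (fun j => (P j).map (σ i)) β), ?_, fun β ξ hξ x hx => ?_,
      fun β => ?_⟩
    · have e : (fun β => (wId p (nId p (fun j => (P j).map (σ i)) β)).map
          (WittVector.constantCoeff : WittVector p U.E →+* U.E)) =
          nId p (fun j => (P j).map (σ i)) := funext fun β => (rootClosed_nId _ β).map_wId
      rw [e]
      exact S
    · obtain ⟨a, ha⟩ := Ideal.mem_span_singleton'.1
        (hξ ▸ hk ▸ Ideal.mem_span_singleton_self (p : WittVector p U.E))
      refine (rootClosed_nId _ β).mem_wId_of_p_mul x ?_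
      rw [← ha, mul_assoc]
      exact Ideal.mul_mem_left _ _ hx
    · obtain ⟨ν, hν⟩ := S.nmix_rad htq β
      refine ⟨ν, ?_⟩
      have e : algebraMap (PS (WittVector p k) (n + 1)) (WittVector p U.E) (MvPowerSeries.X 0) =
          WittVector.teichmuller p (algebraMap (PS k (n + 1)) U.E (MvPowerSeries.X 0)) := by
        rw [← WittVector.map_teichmuller, ← hX]
        rfl
      rw [e, ← map_pow]
      exact nmix_teich_mem hν

end Vale.Agent.P177
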