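import Vale.Agent.P177.DG

/-! Finite free complexes given by matrices. -/

namespace Vale.Agent.P177

open scoped ENNReal
open Matrix RingTheory.Sequence

universe u

/-- a bounded complex of finite free modules. -/
structure Cx (R : Type u) [CommRing R] where
  ι : Type
  [fin : Fintype ι]
  [dec : DecidableEq ι]
  deg : ι → ℕ
  d : Matrix ι ι R
  dd : d * d = 0
  hdeg : ∀ a b, d a b ≠ 0 → deg b = deg a + 1

attribute [instance] Cx.fin Cx.dec

section
variable {R : Type u} [CommRing R]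

/-- a matrix acting on vectors with entries in a module. -/
def mact {ι κ : Type} [Fintype κ] (A : Matrix ι κ R) (N : Type u) [AddCommGroup N] [Module R N] :
    (κ → N) →ₗ[R] (ι → N) where
  toFun x a := ∑ b, A a b • x b
  map_add' x y := by
    funext a
    simp [Finset.sum_add_distrib]
  map_smul' r x := by
    funext a
    simp [Finset.smul_sum, smul_comm r]

theorem mact_apply {ι κ : Type} [Fintype κ] (A : Matrix ι κ R) {N : Type u} [AddCommGroup N]
    [Module R N] (x : κ → N) (a : ι) : mact A N x a = ∑ b, A a b • x b := rfl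

theorem mact_mul {ι κ μ : Type} [Fintype κ] [Fintype μ] (A : Matrix ι κ R) (B : Matrix κ μ R)
    {N : Type u} [AddCommGroup N] [Module R N] (x : μ → N) :
    mact (A * B) N x = mact A N (mact B N x) := by
  funext a
  simp only [mact_apply, Matrix.mul_apply, Finset.sum_smul, Finset.smul_sum, mul_smul]
  exact Finset.sum_comm

theorem mact_add {ι κ : Type} [Fintype κ] (A B : Matrix ι κ R) {N : Type u} [AddCommGroup N]
    [Module R N] (x : κ → N) : mact (A + B) N x = mact A N x + mact B N x := by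
  funext a
  simp only [mact_apply, Matrix.add_apply, add_smul, Finset.sum_add_distrib, Pi.add_apply]

theorem mact_smul_one {ι : Type} [Fintype ι] [DecidableEq ι] (c : R) {N : Type u} [AddCommGroup N]
    [Module R N] (x : ι → N) : mact (c • (1 : Matrix ι ι R)) N x = c • x := by
  funext a
  simp [mact_apply, Matrix.one_apply, ite_smul]

/-- keep the coordinates satisfying a predicate. -/
def cut {ι : Type} (P : ι → Prop) [DecidablePred P] (N : Type u) [AddCommGroup N] [Module R N] :
    (ι → N) →ₗ[R] (ι → N) where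
  toFun x a := if P a then x a else 0
  map_add' x y := by
    funext a
    by_cases h : P a <;> simp [h]
  map_smul' r x := by
    funext a
    by_cases h : P a <;> simp [h]

theorem cx_cut_apply {ι : Type} (P : ι → Prop) [DecidablePred P] {N : Type u} [AddCommGroup N]
    [Module R N] (x : ι → N) (a : ι) : cut (R := R) P N x a = if P a then x a else 0 := rfl

theorem cx_mact_zero {ι κ : Type} [Fintype κ] {N : Type u} [AddCommGroup N] [Module R N]
    (x : κ → N) : mact (0 : Matrix ι κ R) N x = 0 := by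
  funext a
  simp [mact_apply]

theorem cx_mact_cut {ι κ : Type} [Fintype κ] (A : Matrix ι κ R) (P : κ → Prop) [DecidablePred P]
    (Q : ι → Prop) [DecidablePred Q] (h : ∀ a b, A a b ≠ 0 → (Q a ↔ P b)) {N : Type u}
    [AddCommGroup N] [Module R N] (x : κ → N) :
    mact A N (cut (R := R) P N x) = cut (R := R) Q N (mact A N x) := by
  funext a
  simp only [mact_apply, cx_cut_apply]
  split_ifs with hq
  · refine Finset.sum_congr rfl fun b _ => ?_
    by_cases h0 : A a b = 0
    · rw [h0, zero_smul, zero_smul]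
    · rw [if_pos ((h a b h0).1 hq)]
  · refine Finset.sum_eq_zero fun b _ => ?_
    by_cases h0 : A a b = 0
    · rw [h0, zero_smul]
    · rw [if_neg fun hp => hq ((h a b h0).2 hp), smul_zero]

theorem cx_mact_sum {ι κ : Type} [Fintype ι] [Fintype κ] (A : Matrix ι ι R) (B : Matrix κ κ R)
    {N : Type u} [AddCommGroup N] [Module R N] (x : ι ⊕ κ → N) :
    mact (Matrix.fromBlocks A 0 0 B) N x =
      Sum.elim (mact A N (x ∘ Sum.inl)) (mact B N (x ∘ Sum.inr)) := by
  funext a
  rcases a with a | a <;> simp [mact_apply, Fintype.sum_sum_type]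

theorem cx_smul_one {ι κ : Type} [DecidableEq ι] [DecidableEq κ] (c : R) :
    c • (1 : Matrix (ι ⊕ κ) (ι ⊕ κ) R) = Matrix.fromBlocks (c • 1) 0 0 (c • 1) := by
  rw [← Matrix.fromBlocks_one, Matrix.fromBlocks_smul, smul_zero, smul_zero]

theorem cx_ext {ι : Type} [Fintype ι] [DecidableEq ι] {deg : ι → ℕ} {d d' : Matrix ι ι R}
    {h1 : d * d = 0} {h2 : ∀ a b, d a b ≠ 0 → deg b = deg a + 1} {h1' : d' * d' = 0}
    {h2' : ∀ a b, d' a b ≠ 0 → deg b = deg a + 1} (h : d = d') :
    Cx.mk ι deg d h1 h2 = Cx.mk ι deg d' h1' h2' := by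
  subst h
  rfl

namespace Cx

/-- the complex with coefficients in a module. -/
def on (F : Cx R) (N : Type u) [AddCommGroup N] [Module R N] : DG R where
  M := F.ι → N
  d := mact F.d N
  pr i := cut (fun a => F.deg a = i) N
  dd := fun x => by rw [← mact_mul, F.dd, cx_mact_zero]
  pr_pr := fun i j x => by
    funext a
    rcases eq_or_ne i j with rfl | h
    · rw [if_pos rfl, cx_cut_apply, cx_cut_apply]
      split_ifs <;> rfl
    · rw [if_neg h, cx_cut_apply, cx_cut_apply]
      split_ifs with h1 h2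
      · exact absurd (h1.symm.trans h2) h
      · rfl
      · rfl
  bd := ⟨Finset.univ.sup F.deg + 1, fun x => by
    funext a
    rw [Finset.sum_apply]
    simp only [cx_cut_apply]
    rw [Finset.sum_ite_eq, if_pos]
    exact Finset.mem_range.2 (Nat.lt_succ_of_le (Finset.le_sup (Finset.mem_univ a)))⟩
  d_zero := fun x => by
    rw [cx_mact_cut F.d _ (fun _ => False) fun a b h => by simp [F.hdeg a b h]]
    rfl
  d_succ := fun i x => cx_mact_cut F.d _ _ (fun a b h => by simp [F.hdeg a b h]) x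

/-- base change. -/
def map {R' : Type u} [CommRing R'] (F : Cx R) (φ : R →+* R') : Cx R' where
  ι := F.ι
  deg := F.deg
  d := F.d.map φ
  dd := by rw [← Matrix.map_mul, F.dd, Matrix.map_zero _ φ.map_zero]
  hdeg a b h := F.hdeg a b fun h' => h (by simp [h'])

/-- the ring in degree zero. -/
def pt (R : Type u) [CommRing R] : Cx R where
  ι := Unit
  deg _ := 0
  d := 0
  dd := by simp
  hdeg _ _ h := absurd rfl h

/-- the mapping cone of multiplication by `a`. -/
def kos (F : Cx R) (a : R) : Cx R where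
  ι := F.ι ⊕ F.ι
  deg := Sum.elim F.deg fun b => F.deg b + 1
  d := Matrix.fromBlocks F.d (a • 1) 0 (-F.d)
  dd := by simp [Matrix.fromBlocks_multiply, F.dd]
  hdeg := by
    rintro (x | x) (y | y) h
    · exact F.hdeg x y h
    · rcases eq_or_ne x y with rfl | hxy
      · rfl
      · exact absurd (by simp [hxy]) h
    · exact absurd rfl h
    · exact congrArg (· + 1) (F.hdeg x y fun h' => h (by simp [h']))

/-- tensor product with a Koszul complex. -/
def kosL (F : Cx R) : List R → Cx R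
  | [] => F
  | a :: as => (F.kosL as).kos a

/-- a contractible complex. -/
def triv (R : Type u) [CommRing R] (U : Type) [Fintype U] [DecidableEq U] (dg : U → ℕ) : Cx R where
  ι := U × Bool
  deg a := if a.2 then dg a.1 + 1 else dg a.1
  d a b := if a.1 = b.1 ∧ a.2 = false ∧ b.2 = true then 1 else 0
  dd := by
    ext a c
    refine Matrix.mul_apply.trans (Finset.sum_eq_zero fun b _ => ?_)
    cases b.2 <;> simp
  hdeg := by
    rintro ⟨x, i⟩ ⟨y, j⟩ h
    obtain ⟨h1, h2, h3⟩ : x = y ∧ i = false ∧ j = true := by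
      by_contra hn
      exact h (if_neg hn)
    subst h1 h2 h3
    rfl

/-- direct sum. -/
def sum (F G : Cx R) : Cx R where
  ι := F.ι ⊕ G.ι
  deg := Sum.elim F.deg G.deg
  d := Matrix.fromBlocks F.d 0 0 G.d
  dd := by simp [Matrix.fromBlocks_multiply, F.dd, G.dd]
  hdeg := by
    rintro (x | x) (y | y) h
    · exact F.hdeg x y h
    · exact absurd rfl h
    · exact absurd rfl h
    · exact G.hdeg x y h

/-- the elements that act null-homotopically. -/
def Null (F : Cx R) : Ideal R where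
  carrier := {a | ∃ H : Matrix F.ι F.ι R, F.d * H + H * F.d = a • 1}
  add_mem' := by
    rintro a b ⟨H, h⟩ ⟨K, k⟩
    refine ⟨H + K, ?_⟩
    rw [mul_add, add_mul, add_smul, ← h, ← k]
    abel
  zero_mem' := ⟨0, by simp⟩
  smul_mem' := by
    rintro c a ⟨H, h⟩
    refine ⟨c • H, ?_⟩
    rw [mul_smul_comm, smul_mul_assoc, ← smul_add, h, smul_smul, smul_eq_mul]

/-- `C'` is a subcomplex of `C` spanned by basis vectors, with quotient `C''`. -/
def IsExt (C' C C'' : Cx R) : Prop :=
  ∃ e : C'.ι ⊕ C''.ι ≃ C.ι, (∀ a, C.deg (e (.inl a)) = C'.deg a) ∧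
    (∀ a, C.deg (e (.inr a)) = C''.deg a) ∧ (∀ a b, C.d (e (.inl a)) (e (.inl b)) = C'.d a b) ∧
    (∀ a b, C.d (e (.inr a)) (e (.inr b)) = C''.d a b) ∧
    ∀ a b, C.d (e (.inr a)) (e (.inl b)) = 0

/-- `F` is a resolution of `Y`. -/
def IsRes (F : Cx R) (Y : Type u) [AddCommGroup Y] [Module R Y] : Prop :=
  ∃ ε : (F.ι → R) →ₗ[R] Y, Function.Surjective ε ∧ (∀ x, ε ((F.on R).pr 0 x) = ε x) ∧
    (∀ x, ε ((F.on R).d x) = 0) ∧
    ∀ x, (F.on R).d x = 0 → ε x = 0 → x ∈ LinearMap.range (F.on R).d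

/-- change of coefficients. -/
def onMap (F : Cx R) {N N' : Type u} [AddCommGroup N] [Module R N] [AddCommGroup N'] [Module R N']
    (g : N →ₗ[R] N') : DG.Hom (F.on N) (F.on N') where
  f := g.compLeft F.ι
  d := fun x => funext fun a => by
    show g (∑ b, F.d a b • x b) = ∑ b, F.d a b • g (x b)
    simp only [map_sum, map_smul]
  pr := fun i x => funext fun a => by
    show g (if F.deg a = i then x a else 0) = if F.deg a = i then g (x a) else 0
    rw [apply_ite g, map_zero]

/-- a map of complexes given by a matrix. -/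
def onHom {F G : Cx R} (A : Matrix G.ι F.ι R) (hd : A * F.d = G.d * A)
    (hA : ∀ a b, A a b ≠ 0 → G.deg a = F.deg b) (N : Type u) [AddCommGroup N] [Module R N] :
    DG.Hom (F.on N) (G.on N) where
  f := mact A N
  d := fun x => (mact_mul A F.d x).symm.trans
    ((congrArg (fun M => mact M N x) hd).trans (mact_mul G.d A x))
  pr := fun i x => cx_mact_cut A (fun a => F.deg a = i) (fun a => G.deg a = i)
    (fun a b h => by rw [hA a b h]) x

theorem cx_range_of_mem_Null {F : Cx R} {a : R} (h : a ∈ F.Null) {N : Type u} [AddCommGroup N]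
    [Module R N] (x : F.ι → N) (hx : mact F.d N x = 0) : a • x ∈ LinearMap.range (mact F.d N) := by
  obtain ⟨H, hH⟩ := h
  refine ⟨mact H N x, ?_⟩
  rw [← mact_smul_one, ← hH, mact_add, mact_mul, mact_mul, hx, map_zero, add_zero]

theorem exists_graded_of_mem_Null {F : Cx R} {a : R} (h : a ∈ F.Null) :
    ∃ H : Matrix F.ι F.ι R, F.d * H + H * F.d = a • 1 ∧
      ∀ b c, H b c ≠ 0 → F.deg b = F.deg c + 1 := by
  obtain ⟨H, hH⟩ := h
  refine ⟨Matrix.of fun b c => if F.deg b = F.deg c + 1 then H b c else 0, ?_, fun b c hn => ?_⟩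
  · ext x y
    rcases eq_or_ne (F.deg x) (F.deg y) with hxy | hxy
    · rw [← hH]
      simp only [Matrix.add_apply, Matrix.mul_apply, Matrix.of_apply]
      congr 1 <;> refine Finset.sum_congr rfl fun b _ => ?_
      · by_cases h0 : F.d x b = 0
        · rw [h0, zero_mul, zero_mul]
        · rw [if_pos (by rw [F.hdeg x b h0, hxy])]
      · by_cases h0 : F.d b y = 0
        · rw [h0, mul_zero, mul_zero]
        · rw [if_pos (by rw [← F.hdeg b y h0, hxy])]
    · have h1 : x ≠ y := fun e => hxy (e ▸ rfl)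
      simp only [Matrix.add_apply, Matrix.mul_apply, Matrix.of_apply, Matrix.smul_apply,
        Matrix.one_apply_ne h1, smul_zero]
      rw [Finset.sum_eq_zero, Finset.sum_eq_zero, add_zero]
      · intro b _
        by_cases h0 : F.d b y = 0
        · rw [h0, mul_zero]
        · rw [if_neg (by rw [← F.hdeg b y h0]; exact hxy), zero_mul]
      · intro b _
        by_cases h0 : F.d x b = 0
        · rw [h0, zero_mul]
        · rw [if_neg (by rw [F.hdeg x b h0]; omega), mul_zero]
  · by_contra h1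
    exact hn (if_neg h1)

theorem map_map {R' R'' : Type u} [CommRing R'] [CommRing R''] (F : Cx R) (φ : R →+* R')
    (ψ : R' →+* R'') : (F.map φ).map ψ = F.map (ψ.comp φ) := rfl

theorem map_id (F : Cx R) : F.map (RingHom.id R) = F := rfl

theorem map_kos {R' : Type u} [CommRing R'] (F : Cx R) (φ : R →+* R') (a : R) :
    (F.kos a).map φ = (F.map φ).kos (φ a) := by
  have h : (Matrix.fromBlocks F.d (a • (1 : Matrix F.ι F.ι R)) 0 (-F.d)).map φ =
      Matrix.fromBlocks (F.d.map φ) (φ a • 1) 0 (-F.d.map φ) := by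
    ext (x | x) (y | y) <;> simp [Matrix.one_apply, apply_ite φ]
  exact cx_ext h

theorem map_kosL {R' : Type u} [CommRing R'] (F : Cx R) (φ : R →+* R') (as : List R) :
    (F.kosL as).map φ = (F.map φ).kosL (as.map φ) := by
  induction as with
  | nil => rfl
  | cons a as ih => rw [kosL, map_kos, ih, List.map_cons, kosL]

theorem map_pt {R' : Type u} [CommRing R'] (φ : R →+* R') : (pt R).map φ = pt R' := cx_ext (Matrix.map_zero _ φ.map_zero)

theorem map_triv {R' : Type u} [CommRing R'] (φ : R →+* R') (U : Type) [Fintype U]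
    [DecidableEq U] (dg : U → ℕ) : (triv R U dg).map φ = triv R' U dg := by
  refine cx_ext (Matrix.ext fun x y => ?_)
  show φ (if x.1 = y.1 ∧ x.2 = false ∧ y.2 = true then 1 else 0) =
    if x.1 = y.1 ∧ x.2 = false ∧ y.2 = true then 1 else 0
  rw [apply_ite φ, map_one, map_zero]

theorem map_sum {R' : Type u} [CommRing R'] (F G : Cx R) (φ : R →+* R') :
    (F.sum G).map φ = (F.map φ).sum (G.map φ) := by
  have h : (Matrix.fromBlocks F.d 0 0 G.d).map φ =
      Matrix.fromBlocks (F.d.map φ) 0 0 (G.d.map φ) := by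
    ext (x | x) (y | y) <;> simp
  exact cx_ext h

theorem kosL_append (F : Cx R) (as bs : List R) : F.kosL (as ++ bs) = (F.kosL bs).kosL as := by
  induction as with
  | nil => rfl
  | cons a as ih => rw [List.cons_append, kosL, ih, kosL]

theorem map_Null_le {R' : Type u} [CommRing R'] (F : Cx R) (φ : R →+* R') :
    F.Null.map φ ≤ (F.map φ).Null := by
  rw [Ideal.map_le_iff_le_comap]
  rintro a ⟨H, h⟩
  have h1 := congrArg φ.mapMatrix h
  have h2 : φ.mapMatrix (a • (1 : Matrix F.ι F.ι R)) = φ a • 1 := by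
    ext x y
    simp [Matrix.one_apply, apply_ite φ]
  rw [map_add, map_mul, map_mul, h2] at h1
  exact ⟨H.map φ, h1⟩

theorem Null_le_kos (F : Cx R) (a : R) : F.Null ≤ (F.kos a).Null := by
  rintro c ⟨H, h⟩
  have h1 : Matrix.fromBlocks F.d (a • 1) 0 (-F.d) * Matrix.fromBlocks H 0 0 (-H) +
      Matrix.fromBlocks H 0 0 (-H) * Matrix.fromBlocks F.d (a • 1) 0 (-F.d) = c • 1 := by
    rw [cx_smul_one]
    simp [Matrix.fromBlocks_multiply, Matrix.fromBlocks_add, h]
  exact ⟨_, h1⟩

theorem mem_Null_kos (F : Cx R) (a : R) : a ∈ (F.kos a).Null := by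
  have h1 : Matrix.fromBlocks F.d (a • 1) 0 (-F.d) * Matrix.fromBlocks 0 0 1 0 +
      Matrix.fromBlocks 0 0 1 0 * Matrix.fromBlocks F.d (a • 1) 0 (-F.d) = a • 1 := by
    rw [cx_smul_one]
    simp [Matrix.fromBlocks_multiply, Matrix.fromBlocks_add]
  exact ⟨_, h1⟩

theorem le_Null_kosL (F : Cx R) (as : List R) :
    F.Null ⊔ Ideal.ofList as ≤ (F.kosL as).Null := by
  induction as with
  | nil => rw [Ideal.ofList_nil, sup_bot_eq]; exact le_rfl
  | cons a as ih =>
    rw [Ideal.ofList_cons, sup_left_comm]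
    exact sup_le ((Ideal.span_singleton_le_iff_mem _).2 (mem_Null_kos _ a))
      (ih.trans (Null_le_kos _ a))

theorem Null_triv (U : Type) [Fintype U] [DecidableEq U] (dg : U → ℕ) :
    (triv R U dg).Null = ⊤ := by
  rw [Ideal.eq_top_iff_one]
  refine ⟨Matrix.of fun a b : U × Bool => if a.1 = b.1 ∧ a.2 = true ∧ b.2 = false then 1 else 0, ?_⟩
  ext ⟨x, i⟩ ⟨y, j⟩
  show (∑ b : U × Bool, (if x = b.1 ∧ i = false ∧ b.2 = true then (1 : R) else 0) *
    (if b.1 = y ∧ b.2 = true ∧ j = false then 1 else 0)) +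
    (∑ b : U × Bool, (if x = b.1 ∧ i = true ∧ b.2 = false then (1 : R) else 0) *
    (if b.1 = y ∧ b.2 = false ∧ j = true then 1 else 0)) =
    (1 : R) • (if (x, i) = (y, j) then (1 : R) else 0)
  cases i <;> cases j <;> simp [Fintype.sum_prod_type]

theorem Null_sum (F G : Cx R) : (F.sum G).Null = F.Null ⊓ G.Null := by
  refine le_antisymm ?_ ?_
  · rintro c ⟨H, h⟩
    obtain ⟨A, B, C, D, rfl⟩ : ∃ A B C D, H = Matrix.fromBlocks A B C D :=
      ⟨_, _, _, _, (Matrix.fromBlocks_toBlocks H).symm⟩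
    have h1 : Matrix.fromBlocks F.d 0 0 G.d * Matrix.fromBlocks A B C D +
      Matrix.fromBlocks A B C D * Matrix.fromBlocks F.d 0 0 G.d = _ := h.trans (cx_smul_one c)
    simp only [Matrix.fromBlocks_multiply, Matrix.fromBlocks_add, Matrix.fromBlocks_inj,
      Matrix.zero_mul, Matrix.mul_zero, add_zero, zero_add] at h1
    exact ⟨⟨A, h1.1⟩, ⟨D, h1.2.2.2⟩⟩
  · rintro c ⟨⟨H, h⟩, ⟨K, k⟩⟩
    have h1 : Matrix.fromBlocks F.d 0 0 G.d * Matrix.fromBlocks H 0 0 K +
        Matrix.fromBlocks H 0 0 K * Matrix.fromBlocks F.d 0 0 G.d = c • 1 := by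
      rw [cx_smul_one]
      simp [Matrix.fromBlocks_multiply, Matrix.fromBlocks_add, h, k]
    exact ⟨_, h1⟩

theorem isExt_sum (F G : Cx R) : IsExt F (F.sum G) G := by
  exact ⟨Equiv.refl _, fun _ => rfl, fun _ => rfl, fun _ _ => rfl, fun _ _ => rfl, fun _ _ => rfl⟩

theorem IsExt.map {R' : Type u} [CommRing R'] {C' C C'' : Cx R} (h : IsExt C' C C'')
    (φ : R →+* R') : IsExt (C'.map φ) (C.map φ) (C''.map φ) := by
  obtain ⟨e, h1, h2, h3, h4, h5⟩ := h
  exact ⟨e, h1, h2, fun a b => congrArg φ (h3 a b), fun a b => congrArg φ (h4 a b),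
    fun a b => (congrArg φ (h5 a b)).trans φ.map_zero⟩

theorem IsExt.mul_mem_Null {C' C C'' : Cx R} (h : IsExt C' C C'') {a b : R} (ha : a ∈ C'.Null)
    (hb : b ∈ C''.Null) : a * b ∈ C.Null := by
  obtain ⟨e, -, -, h3, h4, h5⟩ := h
  obtain ⟨H, hH⟩ := ha
  obtain ⟨K, hK⟩ := hb
  obtain ⟨f, hf⟩ : ∃ f, C.d = (Matrix.fromBlocks C'.d f 0 C''.d).submatrix e.symm e.symm := by
    refine ⟨Matrix.of fun x y => C.d (e (.inl x)) (e (.inr y)), ?_⟩
    ext x y
    obtain ⟨x, rfl⟩ := e.surjective x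
    obtain ⟨y, rfl⟩ := e.surjective y
    rcases x with x | x <;> rcases y with y | y <;> simp [h3, h4, h5]
  have h0 : C'.d * f + f * C''.d = 0 := by
    have h1 := C.dd
    rw [hf, Matrix.submatrix_mul_equiv] at h1
    have h2 := congrArg (fun M => (M.submatrix e e).toBlocks₁₂) h1
    simp only [Matrix.submatrix_submatrix, Equiv.symm_comp_self, Matrix.submatrix_id_id,
      Matrix.fromBlocks_multiply, Matrix.toBlocks_fromBlocks₁₂] at h2
    exact h2
  refine ⟨(Matrix.fromBlocks (b • H) (-(H * f * K)) 0 (a • K)).submatrix e.symm e.symm, ?_⟩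
  rw [hf, Matrix.submatrix_mul_equiv, Matrix.submatrix_mul_equiv,
    ← Matrix.submatrix_one_equiv e.symm]
  suffices hs : Matrix.fromBlocks C'.d f 0 C''.d * Matrix.fromBlocks (b • H) (-(H * f * K)) 0 (a • K)
      + Matrix.fromBlocks (b • H) (-(H * f * K)) 0 (a • K) * Matrix.fromBlocks C'.d f 0 C''.d =
      (a * b) • 1 from congrArg (fun M => Matrix.submatrix M e.symm e.symm) hs
  have e1 : C'.d * (H * f * K) = a • (f * K) - H * (C'.d * f) * K := by
    rw [← Matrix.mul_assoc, ← Matrix.mul_assoc, eq_sub_of_add_eq hH]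
    simp [Matrix.sub_mul, Matrix.mul_assoc]
  have e2 : H * f * K * C''.d = b • (H * f) - H * (f * C''.d) * K := by
    rw [Matrix.mul_assoc, eq_sub_of_add_eq' hK]
    simp [Matrix.mul_sub, Matrix.mul_assoc]
  have e3 : H * (C'.d * f) * K + H * (f * C''.d) * K = 0 := by
    rw [← Matrix.add_mul, ← Matrix.mul_add, h0, Matrix.mul_zero, Matrix.zero_mul]
  rw [cx_smul_one]
  simp only [Matrix.fromBlocks_multiply, Matrix.fromBlocks_add, Matrix.fromBlocks_inj,
    Matrix.zero_mul, Matrix.mul_zero, add_zero, zero_add, Matrix.mul_smul, Matrix.smul_mul,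
    Matrix.mul_neg, Matrix.neg_mul, smul_zero, neg_zero, e1, e2]
  refine ⟨?_, ?_, trivial, ?_⟩
  · rw [← smul_add, hH, smul_smul, mul_comm]
  · rw [← e3]
    abel
  · rw [← smul_add, hK, smul_smul]

theorem IsRes.sum_triv {F : Cx R} {Y : Type u} [AddCommGroup Y] [Module R Y] (h : F.IsRes Y)
    (U : Type) [Fintype U] [DecidableEq U] (dg : U → ℕ) : (F.sum (triv R U dg)).IsRes Y := by
  obtain ⟨ε, h1, h2, h3, h4⟩ := h
  refine ⟨ε.comp (LinearMap.funLeft R R Sum.inl), fun y => ?_, fun x => h2 (x ∘ Sum.inl),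
    fun x => ?_, fun x hx h0 => ?_⟩
  · obtain ⟨x, rfl⟩ := h1 y
    exact ⟨Sum.elim x 0, rfl⟩
  · exact (congrArg (fun z => ε (z ∘ Sum.inl)) (cx_mact_sum F.d (triv R U dg).d x)).trans
      (h3 (x ∘ Sum.inl))
  · have h5 := (cx_mact_sum F.d (triv R U dg).d x).symm.trans hx
    obtain ⟨y, hy⟩ := h4 (x ∘ Sum.inl) (congrArg (· ∘ Sum.inl) h5) h0
    obtain ⟨z, hz⟩ := cx_range_of_mem_Null (F := triv R U dg) (a := 1) (by simp [Null_triv])
      (x ∘ Sum.inr) (congrArg (· ∘ Sum.inr) h5)
    refine ⟨Sum.elim y z, (cx_mact_sum F.d (triv R U dg).d _).trans ?_⟩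
    rw [one_smul] at hz
    funext a
    rcases a with a | a
    · exact congrFun hy a
    · exact congrFun hz a

theorem IsRes.congr {F : Cx R} {Y Y' : Type u} [AddCommGroup Y] [Module R Y] [AddCommGroup Y']
    [Module R Y'] (h : F.IsRes Y) (e : Y ≃ₗ[R] Y') : F.IsRes Y' := by
  obtain ⟨ε, h1, h2, h3, h4⟩ := h
  exact ⟨e.toLinearMap.comp ε, e.surjective.comp h1, fun x => congrArg e (h2 x),
    fun x => (congrArg e (h3 x)).trans e.map_zero,
    fun x hx h0 => h4 x hx (e.map_eq_zero_iff.1 h0)⟩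

theorem killsH_of_mem {F : Cx R} {N : Type u} [AddCommGroup N] [Module R N] {a : R}
    (ha : a ∈ F.Null ⊔ Module.annihilator R N) (i : ℕ) : (F.on N).KillsH a i := by
  intro x hx
  obtain ⟨b, hb, c, hc, rfl⟩ := Submodule.mem_sup.1 ha
  have h1 : c • x = 0 := funext fun j => Module.mem_annihilator.1 hc (x j)
  rw [add_smul, h1, add_zero]
  exact cx_range_of_mem_Null hb x hx.1

end Cx

end

end Vale.Agent.P177
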