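import Vale.Agent.P177.Cx

/-! Homology of finite free complexes. -/

namespace Vale.Agent.P177

open scoped ENNReal

universe u

namespace Cx

variable {R : Type u} [CommRing R]

variable (Λ : Len R) {N N' N'' : Type u} [AddCommGroup N] [Module R N] [AddCommGroup N']
  [Module R N'] [AddCommGroup N''] [Module R N'']

theorem hl_on_eq_zero (F : Cx R) {i : ℕ} (h : ∀ a, F.deg a < i) : (F.on N).hl Λ i = 0 := by
  refine DG.hl_eq_zero Λ (LinearMap.ext fun x => funext fun a => ?_)
  exact if_neg (h a).ne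

theorem hl_on_congr (F : Cx R) (e : N ≃ₗ[R] N') (i : ℕ) :
    (F.on N).hl Λ i = (F.on N').hl Λ i :=
  (DG.Hom.qIso_of_bijective (F.onMap e.toLinearMap) e.bijective.comp_left).hl_eq Λ i

theorem h_on_of_null (F : Cx R) (h : F.Null = ⊤) : (F.on N).h Λ = 0 := by
  refine DG.Acyclic.h_eq_zero Λ fun (x : F.ι → N) hx => ?_
  obtain ⟨H, hH⟩ : (1 : R) ∈ F.Null := h ▸ Submodule.mem_top
  have h1 := mact_smul_one (ι := F.ι) (1 : R) (N := N) x
  have h2 : mact F.d N x = 0 := hx
  rw [← hH, mact_add, mact_mul, mact_mul, h2, map_zero, add_zero, one_smul] at h1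
  exact ⟨_, h1⟩

theorem h_on_le (F : Cx R) : (F.on N).h Λ ≤ Fintype.card F.ι * Λ.val N := by
  refine (DG.h_le_val Λ _).trans_eq ((Λ.val_pi fun _ : F.ι => N).trans ?_)
  simp

theorem hl_pt_zero : ((pt R).on N).hl Λ 0 = Λ.val N := by
  have hd : ((pt R).on N).d = 0 := LinearMap.ext fun (x : Unit → N) => funext fun (a : Unit) => by
    change ∑ b, (0 : R) • x b = 0
    simp
  have hp : ((pt R).on N).pr 0 = LinearMap.id := LinearMap.ext fun _ => funext fun _ => rfl
  rw [DG.hl, DG.Z, DG.B, hd, hp, LinearMap.ker_zero, LinearMap.range_zero, LinearMap.range_id,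
    inf_idem, bot_inf_eq, Len.rel_bot]
  exact Λ.congr (Submodule.topEquiv.trans (LinearEquiv.funUnique Unit R N))

theorem h_pt : ((pt R).on N).h Λ = Λ.val N := by
  rw [DG.h_eq_sum Λ (L := 1) fun i hi => LinearMap.ext fun x => funext fun a =>
    if_neg (show ¬ 0 = i by omega), Finset.sum_range_one, hl_pt_zero]

theorem chi_pt : ((pt R).on N).chi Λ = (Λ.val N).toReal := by
  rw [DG.chi_eq_sum Λ (L := 1) fun i hi => hl_on_eq_zero Λ (pt R) fun _ => hi, Finset.sum_range_one,
    hl_pt_zero, pow_zero, one_mul]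

/-- coefficients that are modules over a larger ring. -/
theorem hl_map {R' : Type u} [CommRing R'] (φ : R →+* R') (F : Cx R) {L : Type u} [AddCommGroup L]
    [Module R' L] (e : N ≃+ L) (he : ∀ (r : R) (x : N), e (r • x) = φ r • e x) (i : ℕ) :
    ((F.map φ).on L).hl (Λ.res φ) i = (F.on N).hl Λ i := by
  refine DG.hl_eq_of_semi Λ φ (X := F.on N) (Y := (F.map φ).on L)
    (AddEquiv.piCongrRight fun _ : F.ι => e) (fun r x => funext fun a => he r (x a))
    (fun (x : F.ι → N) => funext fun (a : F.ι) => ?_) (fun j x => funext fun a => ?_) i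
  · change e (∑ b, F.d a b • x b) = ∑ b, φ (F.d a b) • e (x b)
    exact (_root_.map_sum e _ _).trans (Finset.sum_congr rfl fun b _ => he _ _)
  · change e (if F.deg a = j then x a else 0) = if F.deg a = j then e (x a) else 0
    split_ifs <;> simp

/-- restriction of scalars for an endomorphism. -/
def Cx2_resL {R' : Type u} [CommRing R'] (ψ : R →+* R') {M : Type u} [AddCommGroup M] [Module R' M]
    (f : M →ₗ[R'] M) : Res ψ M →ₗ[R] Res ψ M where
  toFun := f
  map_add' := f.map_add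
  map_smul' r x := f.map_smul (ψ r) x

/-- restriction of scalars for a complex. -/
def Cx2_res {R' : Type u} [CommRing R'] (ψ : R →+* R') (Y : DG R') : DG R where
  M := Res ψ Y.M
  d := Cx2_resL ψ Y.d
  pr i := Cx2_resL ψ (Y.pr i)
  dd := Y.dd
  pr_pr := Y.pr_pr
  bd := Y.bd
  d_zero := Y.d_zero
  d_succ := Y.d_succ

/-- two rings over a common base of scalars. -/
theorem hl_map₂ {S R₁ R₂ : Type u} [CommRing S] [CommRing R₁] [CommRing R₂] (F : Cx S)
    (φ₁ : S →+* R₁) (φ₂ : S →+* R₂) (ψ₁ : R →+* R₁) (ψ₂ : R →+* R₂) {L₁ L₂ : Type u}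
    [AddCommGroup L₁] [Module R₁ L₁] [AddCommGroup L₂] [Module R₂ L₂] (e : L₁ ≃+ L₂)
    (hφ : ∀ (s : S) (x : L₁), e (φ₁ s • x) = φ₂ s • e x)
    (hψ : ∀ (r : R) (x : L₁), e (ψ₁ r • x) = ψ₂ r • e x) (i : ℕ) :
    ((F.map φ₁).on L₁).hl (Λ.res ψ₁) i = ((F.map φ₂).on L₂).hl (Λ.res ψ₂) i := by
  refine (DG.hl_eq_of_semi Λ ψ₁ (X := Cx2_res ψ₁ ((F.map φ₁).on L₁)) (Y := (F.map φ₁).on L₁)
    (AddEquiv.refl _) (fun _ _ => rfl) (fun _ => rfl) (fun _ _ => rfl) i).trans
    (DG.hl_eq_of_semi Λ ψ₂ (X := Cx2_res ψ₁ ((F.map φ₁).on L₁)) (Y := (F.map φ₂).on L₂)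
      (AddEquiv.piCongrRight fun _ : F.ι => e) (fun r x => funext fun a => hψ r (x a))
      (fun (x : F.ι → L₁) => funext fun (a : F.ι) => ?_) (fun j x => funext fun a => ?_) i).symm
  · change e (∑ b, φ₁ (F.d a b) • x b) = ∑ b, φ₂ (F.d a b) • e (x b)
    exact (_root_.map_sum e _ _).trans (Finset.sum_congr rfl fun b _ => hφ _ _)
  · change e (if F.deg a = j then x a else 0) = if F.deg a = j then e (x a) else 0
    split_ifs <;> simp

theorem Cx2_exact (F : Cx R) {f : N' →ₗ[R] N} {g : N →ₗ[R] N''} (hfg : Function.Exact f g) :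
    Function.Exact (F.onMap f).f (F.onMap g).f := by
  intro x
  constructor
  · intro h
    choose y hy using fun a => (hfg (x a)).1 (congrFun h a)
    exact ⟨y, funext hy⟩
  · rintro ⟨y, rfl⟩
    exact funext fun a => hfg.apply_apply_eq_zero (y a)

section Coeff
variable (F : Cx R) (f : N' →ₗ[R] N) (g : N →ₗ[R] N'') (hf : Function.Injective f)
  (hfg : Function.Exact f g) (hg : Function.Surjective g)
include f g hf hfg hg

theorem h_on_le_add : (F.on N).h Λ ≤ (F.on N').h Λ + (F.on N'').h Λ :=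
  DG.h_le_add Λ (F.onMap f) (F.onMap g) hf.comp_left (Cx2_exact F hfg) hg.comp_left

theorem h_on_left_le : (F.on N').h Λ ≤ (F.on N).h Λ + (F.on N'').h Λ :=
  DG.h_left_le Λ (F.onMap f) (F.onMap g) hf.comp_left (Cx2_exact F hfg) hg.comp_left

theorem h_on_right_le : (F.on N'').h Λ ≤ (F.on N').h Λ + (F.on N).h Λ :=
  DG.h_right_le Λ (F.onMap f) (F.onMap g) hf.comp_left (Cx2_exact F hfg) hg.comp_left

theorem chi_on_add (h' : (F.on N').h Λ ≠ ⊤) (h'' : (F.on N'').h Λ ≠ ⊤) :
    (F.on N).chi Λ = (F.on N').chi Λ + (F.on N'').chi Λ :=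
  DG.chi_add Λ (F.onMap f) (F.onMap g) hf.comp_left (Cx2_exact F hfg) hg.comp_left h' h''

end Coeff

theorem Cx2_ext {C' C C'' : Cx R} (h : IsExt C' C C'') (N : Type u) [AddCommGroup N] [Module R N] :
    ∃ (f : DG.Hom (C'.on N) (C.on N)) (g : DG.Hom (C.on N) (C''.on N)),
      Function.Injective f.f ∧ Function.Exact f.f g.f ∧ Function.Surjective g.f := by
  obtain ⟨e, h1, h2, h3, h4, h5⟩ := h
  let f : (C'.ι → N) →ₗ[R] (C.ι → N) :=
    { toFun := fun x a => Sum.elim x 0 (e.symm a)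
      map_add' := fun x y => funext fun a => by
        rw [Pi.add_apply]
        cases e.symm a <;> simp
      map_smul' := fun r x => funext fun a => by
        rw [RingHom.id_apply, Pi.smul_apply]
        cases e.symm a <;> simp }
  have fl : ∀ x a, f x (e (.inl a)) = x a := fun x a => by simp [f]
  have fr : ∀ x a, f x (e (.inr a)) = 0 := fun x a => by simp [f]
  let g : (C.ι → N) →ₗ[R] (C''.ι → N) := LinearMap.funLeft R N fun b => e (.inr b)
  have gr : ∀ y b, g y b = y (e (.inr b)) := fun _ _ => rfl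
  have hext : ∀ {x y : C.ι → N}, (∀ a, x (e (.inl a)) = y (e (.inl a))) →
      (∀ a, x (e (.inr a)) = y (e (.inr a))) → x = y := by
    intro x y hl hr
    funext a
    obtain ⟨a | a, rfl⟩ := e.surjective a
    exacts [hl a, hr a]
  have hs : ∀ (y : C.ι → N) (a : C.ι), mact C.d N y a = ∑ b, C.d a (e (.inl b)) • y (e (.inl b)) +
      ∑ b, C.d a (e (.inr b)) • y (e (.inr b)) := fun y a => by
    rw [mact_apply, ← e.sum_comp, Fintype.sum_sum_type]
  refine ⟨⟨f, fun (x : C'.ι → N) => hext (fun a => ?_) fun a => ?_,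
    fun i (x : C'.ι → N) => hext (fun a => ?_) fun a => ?_⟩,
    ⟨g, fun y => funext fun a => ?_, fun i y => funext fun a => ?_⟩,
    fun x y hxy => funext fun a => ?_,
    fun y => ⟨fun hy => ⟨fun a => y (e (.inl a)), hext (fl _) fun a => ?_⟩, ?_⟩,
    fun (z : C''.ι → N) => ?_⟩
  · refine (fl _ a).trans (Eq.trans ?_ (hs (f x) (e (.inl a))).symm)
    simp only [fl, fr, h3, smul_zero, Finset.sum_const_zero, add_zero]
    rfl
  · refine (fr _ a).trans (Eq.trans ?_ (hs (f x) (e (.inr a))).symm)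
    simp only [fr, h5, smul_zero, zero_smul, Finset.sum_const_zero, add_zero]
  · refine (fl _ a).trans ?_
    change (if C'.deg a = i then x a else 0)
      = if C.deg (e (.inl a)) = i then f x (e (.inl a)) else 0
    rw [h1, fl]
  · refine (fr _ a).trans ?_
    change 0 = if C.deg (e (.inr a)) = i then f x (e (.inr a)) else 0
    rw [fr, ite_self]
  · refine (hs y _).trans ?_
    simp only [h5, h4, zero_smul, Finset.sum_const_zero, zero_add]
    rfl
  · change (if C.deg (e (.inr a)) = i then y (e (.inr a)) else 0)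
      = if C''.deg a = i then y (e (.inr a)) else 0
    rw [h2]
  · exact (fl x a).symm.trans ((congrFun hxy _).trans (fl y a))
  · exact (fr _ a).trans (congrFun hy a).symm
  · rintro ⟨x, rfl⟩
    exact funext fun a => fr x a
  · exact ⟨fun a => Sum.elim 0 z (e.symm a), funext fun a => (gr _ a).trans (by simp)⟩

theorem IsExt.h_le {C' C C'' : Cx R} (h : IsExt C' C C'') :
    (C.on N).h Λ ≤ (C'.on N).h Λ + (C''.on N).h Λ := by
  obtain ⟨f, g, h1, h2, h3⟩ := Cx2_ext h N
  exact DG.h_le_add Λ f g h1 h2 h3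

theorem IsExt.h_left_le {C' C C'' : Cx R} (h : IsExt C' C C'') :
    (C'.on N).h Λ ≤ (C.on N).h Λ + (C''.on N).h Λ := by
  obtain ⟨f, g, h1, h2, h3⟩ := Cx2_ext h N
  exact DG.h_left_le Λ f g h1 h2 h3

theorem IsExt.chi_add {C' C C'' : Cx R} (h : IsExt C' C C'') (h' : (C'.on N).h Λ ≠ ⊤)
    (h'' : (C''.on N).h Λ ≠ ⊤) :
    (C.on N).chi Λ = (C'.on N).chi Λ + (C''.on N).chi Λ := by
  obtain ⟨f, g, h1, h2, h3⟩ := Cx2_ext h N
  exact DG.chi_add Λ f g h1 h2 h3 h' h''

theorem Cx2_val_pr (F : Cx R) (i : ℕ) : Λ.val (LinearMap.range ((F.on N).pr i))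
    = ∑ a, if F.deg a = i then Λ.val N else 0 := by
  have e : LinearMap.range ((F.on N).pr i) = Submodule.pi Set.univ
      fun a => if F.deg a = i then (⊤ : Submodule R N) else ⊥ := by
    ext x
    constructor
    · rintro ⟨y, rfl⟩ a _
      change (if F.deg a = i then y a else 0) ∈ if F.deg a = i then (⊤ : Submodule R N) else ⊥
      split_ifs <;> simp
    · intro hx
      refine ⟨x, funext fun a => ?_⟩
      have h1 : x a ∈ if F.deg a = i then (⊤ : Submodule R N) else ⊥ := hx a trivial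
      change (if F.deg a = i then x a else 0) = x a
      split_ifs at h1 ⊢
      · rfl
      · exact Eq.symm h1
  have h := Λ.rel_pi (fun a => if F.deg a = i then (⊤ : Submodule R N) else ⊥) fun _ : F.ι => ⊥
  rw [Submodule.pi_univ_bot, Len.rel_bot] at h
  rw [e]
  refine h.trans (Finset.sum_congr rfl fun a _ => ?_)
  split_ifs
  · exact (Λ.rel_bot _).trans (Λ.congr Submodule.topEquiv)
  · exact Λ.rel_of_le le_rfl

theorem Cx2_chi (F : Cx R) (h : Λ.val N ≠ ⊤) :
    (F.on N).chi Λ = (∑ a, (-1 : ℤ) ^ F.deg a : ℤ) * (Λ.val N).toReal := by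
  have h1 : Λ.val (F.on N).M ≠ ⊤ := by
    rw [show Λ.val (F.on N).M = _ from Λ.val_pi fun _ : F.ι => N]
    exact ENNReal.sum_ne_top.2 fun _ _ => h
  have h2 : ∀ i, (-1 : ℝ) ^ i * (Λ.val (LinearMap.range ((F.on N).pr i))).toReal
      = ∑ a, if F.deg a = i then (-1 : ℝ) ^ F.deg a * (Λ.val N).toReal else 0 := by
    intro i
    rw [Cx2_val_pr, ENNReal.toReal_sum fun a _ => by split_ifs <;> simp [h], Finset.mul_sum]
    refine Finset.sum_congr rfl fun a _ => ?_
    split_ifs with ha <;> simp [ha]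
  rw [DG.chi_eq_of_val Λ h1]
  simp only [h2]
  rw [finsum_sum_comm _ _ fun a _ => (Set.finite_singleton (F.deg a)).subset fun i hi => by
    by_contra hn
    exact hi (if_neg fun e => hn e.symm)]
  push_cast
  rw [Finset.sum_mul]
  refine Finset.sum_congr rfl fun a _ => ?_
  rw [finsum_eq_single _ (F.deg a) fun i hi => if_neg hi.symm, if_pos rfl]

/-- with coefficients of finite size only the ranks matter. -/
theorem chi_on_eq_zero_of_val (F : Cx R) (h : Λ.val N ≠ ⊤)
    (hr : ∑ a, (-1 : ℤ) ^ F.deg a = 0) : (F.on N).chi Λ = 0 := by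
  rw [Cx2_chi Λ F h, hr, Int.cast_zero, zero_mul]

theorem sum_sign_eq_zero (F : Cx R) {a : R} (ha : a ∈ F.Null) (hn : ¬ IsNilpotent a) :
    ∑ b, (-1 : ℤ) ^ F.deg b = 0 := by
  rw [nilpotent_iff_mem_prime] at hn
  push Not at hn
  obtain ⟨P, hP, haP⟩ := hn
  have h1 : (F.map (algebraMap R P.ResidueField)).Null = ⊤ :=
    Ideal.eq_top_of_isUnit_mem _ (F.map_Null_le _ (Ideal.mem_map_of_mem _ ha))
      (IsUnit.mk0 _ fun h => haP (Ideal.algebraMap_residueField_eq_zero.1 h))
  have hv : (Len.len P.ResidueField).val P.ResidueField = 1 := by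
    change ((Module.length P.ResidueField P.ResidueField : ℕ∞) : ℝ≥0∞) = 1
    simp
  have h2 := DG.chi_eq_zero_of_h _
    (h_on_of_null (Len.len P.ResidueField) (N := P.ResidueField) _ h1)
  rw [Cx2_chi _ _ (by rw [hv]; exact ENNReal.one_ne_top), hv, ENNReal.toReal_one, mul_one] at h2
  exact_mod_cast h2

end Cx

end Vale.Agent.P177
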