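import Vale.Agent.P177.Len

/-! Comparison of subquotients, internal direct sums, telescoping. -/

namespace Vale.Agent.P177

open scoped ENNReal

universe u

variable {R : Type u} [CommRing R] (Λ : Len R) {X X' : Type u} [AddCommGroup X] [Module R X]
  [AddCommGroup X'] [Module R X']

theorem DGAux_le_inj (f : X →ₗ[R] X') {A B : Submodule R X} {A' B' : Submodule R X'}
    (h1 : ∀ x ∈ A, f x ∈ A') (h3 : ∀ x ∈ A, f x ∈ B' → x ∈ B) : Λ.rel A B ≤ Λ.rel A' B' :=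
  calc Λ.rel A B ≤ Λ.rel A (A ⊓ B'.comap f) := Λ.rel_mono le_rfl fun x hx => h3 x hx.1 hx.2
    _ = Λ.rel (A.map f) B' := by rw [Λ.rel_inf, Λ.rel_map_comap]
    _ ≤ Λ.rel A' B' := Λ.rel_mono (Submodule.map_le_iff_le_comap.2 h1) le_rfl

theorem DGAux_le_surj (f : X →ₗ[R] X') {A B : Submodule R X} {A' B' : Submodule R X'}
    (h2 : ∀ y ∈ A', ∃ x ∈ A, f x - y ∈ B') (h3 : ∀ x ∈ A, x ∈ B → f x ∈ B') :
    Λ.rel A' B' ≤ Λ.rel A B :=
  calc Λ.rel A' B' ≤ Λ.rel (A.map f ⊔ B') B' := Λ.rel_mono (fun y hy => by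
        obtain ⟨x, hx, h⟩ := h2 y hy
        rw [← sub_sub_cancel (f x) y]
        exact sub_mem (Submodule.mem_sup_left (Submodule.mem_map_of_mem hx))
          (Submodule.mem_sup_right h)) le_rfl
    _ = Λ.rel A (B'.comap f) := by rw [Λ.rel_sup, Λ.rel_map_comap]
    _ ≤ Λ.rel A (A ⊓ B) := Λ.rel_mono le_rfl fun x hx => h3 x hx.1 hx.2
    _ = Λ.rel A B := Λ.rel_inf _ _

theorem DGAux_eq (f : X →ₗ[R] X') {A B : Submodule R X} {A' B' : Submodule R X'}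
    (h1 : ∀ x ∈ A, f x ∈ A') (h2 : ∀ y ∈ A', ∃ x ∈ A, f x - y ∈ B')
    (h3 : ∀ x ∈ A, f x ∈ B' ↔ x ∈ B) : Λ.rel A B = Λ.rel A' B' :=
  le_antisymm (DGAux_le_inj Λ f h1 fun x hx => (h3 x hx).1)
    (DGAux_le_surj Λ f h2 fun x hx => (h3 x hx).2)

theorem DGAux_split {A B C : Submodule R X} (h : A ⊓ C ≤ B) :
    Λ.rel A C = Λ.rel A B + Λ.rel (A ⊓ B) C := by
  rw [← Λ.rel_inf A C, Λ.rel_add (B := A ⊓ B) inf_le_left (le_inf inf_le_left h), Λ.rel_inf,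
    ← Λ.rel_inf (A ⊓ B) C, show A ⊓ B ⊓ C = A ⊓ C from
      le_antisymm (inf_le_inf_right _ inf_le_left) (le_inf (le_inf inf_le_left h) inf_le_right)]

theorem DGAux_semi {R' : Type u} [CommRing R'] (φ : R →+* R') {Y : Type u} [AddCommGroup Y]
    [Module R' Y] (e : X →ₛₗ[φ] Y) (he : Function.Surjective e) {A B : Submodule R X}
    {A' B' : Submodule R' Y} (hA : ∀ x, x ∈ A ↔ e x ∈ A') (hB : ∀ x, x ∈ B ↔ e x ∈ B') :
    (Λ.res φ).rel A' B' = Λ.rel A B := by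
  let q : X ⧸ B →ₛₗ[φ] Y ⧸ B' := B.mapQ B' e fun x hx => (hB x).1 hx
  let F : A.map B.mkQ →+ A'.map B'.mkQ :=
    { toFun := fun x => ⟨q x, by
        obtain ⟨_, x, hx, rfl⟩ := x
        exact ⟨e x, (hA x).1 hx, rfl⟩⟩
      map_zero' := Subtype.ext (map_zero q)
      map_add' := fun _ _ => Subtype.ext (map_add q _ _) }
  refine Λ.res_val_of_equiv φ (AddEquiv.ofBijective F ⟨(injective_iff_map_eq_zero F).2 ?_, ?_⟩)
    fun r x => Subtype.ext (map_smulₛₗ q r x.1)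
  · rintro ⟨_, x, hx, rfl⟩ h
    exact Subtype.ext ((Submodule.Quotient.mk_eq_zero B).2 ((hB x).2
      ((Submodule.Quotient.mk_eq_zero B').1 (congrArg Subtype.val h))))
  · rintro ⟨_, y, hy, rfl⟩
    obtain ⟨x, rfl⟩ := he y
    exact ⟨⟨_, x, (hA x).2 hy, rfl⟩, rfl⟩

theorem DGAux_ex {κ : Type} [Fintype κ] [DecidableEq κ] {A : κ → Submodule R X}
    (h : DirectSum.IsInternal A) (y : X) : ∃ a : κ → X, (∀ k, a k ∈ A k) ∧ ∑ k, a k = y := by
  obtain ⟨μ, hμ⟩ := (Submodule.mem_iSup_finset_iff_exists_sum (s := Finset.univ) A y).1 (by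
    simp only [Finset.mem_univ, iSup_pos, h.submodule_iSup_eq_top, Submodule.mem_top])
  exact ⟨fun k => μ k, fun k => (μ k).2, hμ⟩

theorem DGAux_uniq {κ : Type} [Fintype κ] [DecidableEq κ] {A : κ → Submodule R X}
    (h : DirectSum.IsInternal A) {a b : κ → X} (ha : ∀ k, a k ∈ A k) (hb : ∀ k, b k ∈ A k)
    (hab : ∑ k, a k = ∑ k, b k) (k : κ) : a k = b k :=
  (iSupIndep_iff_finsetSum_eq_imp_eq A).1 h.submodule_iSupIndep Finset.univ a b
    (fun k _ => ⟨ha k, hb k⟩) hab k (Finset.mem_univ k)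

theorem DGAux_tele (w : ℕ → ℝ) (h0 : w 0 = 0) (n : ℕ) :
    ∑ i ∈ Finset.range n, (-1 : ℝ) ^ i * (w i + w (i + 1)) = -((-1) ^ n * w n) := by
  induction n with
  | zero => simp [h0]
  | succ n ih =>
    rw [Finset.sum_range_succ, ih]
    ring

end Vale.Agent.P177
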