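import Vale.Agent.P177.Len
import Vale.Agent.P177.DGAux

/-! Bounded complexes as modules with a differential and projections. -/

namespace Vale.Agent.P177

open scoped ENNReal

universe u

/-- a bounded complex in non-negative degrees. -/
structure DG (R : Type u) [CommRing R] where
  M : Type u
  [ag : AddCommGroup M]
  [md : Module R M]
  d : M →ₗ[R] M
  pr : ℕ → M →ₗ[R] M
  dd : ∀ x, d (d x) = 0
  pr_pr : ∀ i j x, pr i (pr j x) = if i = j then pr i x else 0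
  bd : ∃ L, ∀ x, ∑ i ∈ Finset.range L, pr i x = x
  d_zero : ∀ x, d (pr 0 x) = 0
  d_succ : ∀ i x, d (pr (i + 1) x) = pr i (d x)

attribute [instance] DG.ag DG.md

namespace DG

variable {R : Type u} [CommRing R]

/-- cycles of degree `i`. -/
def Z (X : DG R) (i : ℕ) : Submodule R X.M := LinearMap.ker X.d ⊓ LinearMap.range (X.pr i)

/-- boundaries of degree `i`. -/
def B (X : DG R) (i : ℕ) : Submodule R X.M := LinearMap.range X.d ⊓ LinearMap.range (X.pr i)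

/-- size of the homology in degree `i`. -/
noncomputable def hl (Λ : Len R) (X : DG R) (i : ℕ) : ℝ≥0∞ := Λ.rel (X.Z i) (X.B i)

/-- size of the total homology. -/
noncomputable def h (Λ : Len R) (X : DG R) : ℝ≥0∞ :=
  Λ.rel (LinearMap.ker X.d) (LinearMap.range X.d)

/-- Euler characteristic. -/
noncomputable def chi (Λ : Len R) (X : DG R) : ℝ := ∑ᶠ i : ℕ, (-1 : ℝ) ^ i * (X.hl Λ i).toReal

/-- `c` kills the homology in degree `i`. -/
def KillsH (X : DG R) (c : R) (i : ℕ) : Prop := ∀ x ∈ X.Z i, c • x ∈ LinearMap.range X.d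

def Acyclic (X : DG R) : Prop := ∀ x, X.d x = 0 → x ∈ LinearMap.range X.d

/-- a map of complexes. -/
structure Hom (X Y : DG R) where
  f : X.M →ₗ[R] Y.M
  d : ∀ x, f (X.d x) = Y.d (f x)
  pr : ∀ i x, f (X.pr i x) = Y.pr i (f x)

/-- the map induces a bijection on homology. -/
structure Hom.QIso {X Y : DG R} (φ : Hom X Y) : Prop where
  inj : ∀ x, X.d x = 0 → φ.f x ∈ LinearMap.range Y.d → x ∈ LinearMap.range X.d
  surj : ∀ y, Y.d y = 0 → ∃ x, X.d x = 0 ∧ φ.f x - y ∈ LinearMap.range Y.d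

structure Stable (X : DG R) (A : Submodule R X.M) : Prop where
  d : ∀ x ∈ A, X.d x ∈ A
  pr : ∀ i, ∀ x ∈ A, X.pr i x ∈ A

/-- a subcomplex. -/
def sub (X : DG R) (A : Submodule R X.M) (hA : X.Stable A) : DG R where
  M := A
  d := X.d.restrict hA.d
  pr i := (X.pr i).restrict (hA.pr i)
  dd x := Subtype.ext (X.dd x)
  pr_pr i j x := Subtype.ext (by
    have := X.pr_pr i j x
    split_ifs at this ⊢ <;> exact this)
  bd := X.bd.imp fun L hL x => Subtype.ext (by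
    rw [Submodule.coe_sum]
    exact hL x)
  d_zero x := Subtype.ext (X.d_zero x)
  d_succ i x := Subtype.ext (X.d_succ i x)

/-- a quotient complex. -/
def quot (X : DG R) (A : Submodule R X.M) (hA : X.Stable A) : DG R where
  M := X.M ⧸ A
  d := A.mapQ A X.d hA.d
  pr i := A.mapQ A (X.pr i) (hA.pr i)
  dd x := by
    obtain ⟨x, rfl⟩ := A.mkQ_surjective x
    exact (congrArg A.mkQ (X.dd x)).trans (map_zero _)
  pr_pr i j x := by
    obtain ⟨x, rfl⟩ := A.mkQ_surjective x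
    refine (congrArg A.mkQ (X.pr_pr i j x)).trans ?_
    split_ifs
    · rfl
    · exact map_zero _
  bd := X.bd.imp fun L hL x => by
    obtain ⟨x, rfl⟩ := A.mkQ_surjective x
    exact (map_sum A.mkQ _ _).symm.trans (congrArg A.mkQ (hL x))
  d_zero x := by
    obtain ⟨x, rfl⟩ := A.mkQ_surjective x
    exact (congrArg A.mkQ (X.d_zero x)).trans (map_zero _)
  d_succ i x := by
    obtain ⟨x, rfl⟩ := A.mkQ_surjective x
    exact congrArg A.mkQ (X.d_succ i x)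

variable (Λ : Len R) {X X' X'' Y : DG R}

theorem pr_idem (X : DG R) (i : ℕ) (x : X.M) : X.pr i (X.pr i x) = X.pr i x := by
  rw [X.pr_pr, if_pos rfl]

theorem mem_range_pr {i : ℕ} {x : X.M} : x ∈ LinearMap.range (X.pr i) ↔ X.pr i x = x :=
  ⟨fun ⟨y, hy⟩ => hy ▸ X.pr_idem i y, fun h => ⟨x, h⟩⟩

theorem mem_Z {i : ℕ} {x : X.M} : x ∈ X.Z i ↔ X.d x = 0 ∧ X.pr i x = x :=
  and_congr Iff.rfl mem_range_pr

theorem pr_mem_Z {x : X.M} (h : X.d x = 0) (i : ℕ) : X.pr i x ∈ X.Z i := by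
  refine mem_Z.2 ⟨?_, X.pr_idem i x⟩
  cases i with
  | zero => exact X.d_zero x
  | succ i => rw [X.d_succ, h, map_zero]

theorem pr_mem_range {x : X.M} (h : x ∈ LinearMap.range X.d) (i : ℕ) :
    X.pr i x ∈ LinearMap.range X.d := by
  obtain ⟨y, rfl⟩ := h
  exact ⟨_, X.d_succ i y⟩

theorem hl_eq (X : DG R) (i : ℕ) : X.hl Λ i = Λ.rel (X.Z i) (LinearMap.range X.d) := by
  rw [← Λ.rel_inf (X.Z i) (LinearMap.range X.d)]
  refine congrArg (Λ.rel (X.Z i)) (le_antisymm ?_ fun x hx => ⟨hx.2, hx.1.2⟩)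
  rintro _ ⟨⟨y, rfl⟩, hx⟩
  exact ⟨⟨X.dd y, hx⟩, y, rfl⟩

theorem pr_eq_zero {L : ℕ} (hL : ∀ x, ∑ i ∈ Finset.range L, X.pr i x = x) {i : ℕ} (hi : L ≤ i) :
    X.pr i = 0 := by
  ext x
  rw [← hL x, map_sum]
  exact Finset.sum_eq_zero fun j hj => by
    rw [X.pr_pr, if_neg (by have := Finset.mem_range.1 hj; omega)]

theorem sum_pr {L : ℕ} (hL : ∀ i, L ≤ i → X.pr i = 0) (x : X.M) :
    ∑ i ∈ Finset.range L, X.pr i x = x := by
  obtain ⟨L', h⟩ := X.bd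
  have key : ∀ n ≤ L + L', (∀ i, n ≤ i → X.pr i = 0) → ∑ i ∈ Finset.range n, X.pr i x =
      ∑ i ∈ Finset.range (L + L'), X.pr i x := fun n hn h =>
    Finset.sum_subset (Finset.range_subset_range.2 hn) fun i _ hi => by
      rw [h i (not_lt.1 fun h => hi (Finset.mem_range.2 h)), LinearMap.zero_apply]
  rw [key L (by omega) hL, ← key L' (by omega) fun i hi => pr_eq_zero h hi, h]

theorem Hom.map_Z (φ : Hom X Y) {i : ℕ} {x : X.M} (h : x ∈ X.Z i) : φ.f x ∈ Y.Z i :=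
  mem_Z.2 ⟨by rw [← φ.d, (mem_Z.1 h).1, map_zero], by rw [← φ.pr, (mem_Z.1 h).2]⟩

theorem Hom.map_range (φ : Hom X Y) {x : X.M} (h : x ∈ LinearMap.range X.d) :
    φ.f x ∈ LinearMap.range Y.d := by
  obtain ⟨y, rfl⟩ := h
  exact ⟨_, (φ.d y).symm⟩

/-- inclusion of a subcomplex. -/
def subHom (X : DG R) (A : Submodule R X.M) (hA : X.Stable A) : Hom (X.sub A hA) X :=
  ⟨A.subtype, fun _ => rfl, fun _ _ => rfl⟩

/-- inclusion between subcomplexes. -/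
def inclHom (X : DG R) {A A' : Submodule R X.M} (hA : X.Stable A) (hA' : X.Stable A')
    (h : A ≤ A') : Hom (X.sub A hA) (X.sub A' hA') :=
  ⟨Submodule.inclusion h, fun _ => rfl, fun _ _ => rfl⟩

theorem exists_bound (X : DG R) : ∃ L, ∀ i, L ≤ i → X.pr i = 0 := by
  exact X.bd.imp fun L hL i hi => pr_eq_zero hL hi

theorem hl_eq_zero {i : ℕ} (h : X.pr i = 0) : X.hl Λ i = 0 := by
  refine Λ.rel_of_le fun x hx => ?_
  rw [← (mem_Z.1 hx).2, h, LinearMap.zero_apply]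
  exact zero_mem _

theorem h_eq_sum {L : ℕ} (hL : ∀ i, L ≤ i → X.pr i = 0) :
    X.h Λ = ∑ i ∈ Finset.range L, X.hl Λ i := by
  rw [← Fin.sum_univ_eq_sum_range (X.hl Λ) L]
  simp only [hl_eq]
  rw [← Λ.rel_pi]
  refine DGAux_eq Λ (LinearMap.pi fun i : Fin L => X.pr i) (fun x hx i _ => pr_mem_Z hx i)
    (fun y hy => ⟨∑ i, y i, sum_mem fun i _ => (hy i trivial).1, fun i _ => ?_⟩)
    fun x _ => ⟨fun h => ?_, fun h i _ => pr_mem_range h i⟩
  · rw [Pi.sub_apply, LinearMap.pi_apply, map_sum, Finset.sum_eq_single i (fun j _ hj => by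
      rw [← (mem_Z.1 (hy j trivial)).2, X.pr_pr, if_neg fun h => hj (Fin.ext h).symm])
      (fun h => absurd (Finset.mem_univ _) h), (mem_Z.1 (hy i trivial)).2, sub_self]
    exact zero_mem _
  · rw [← sum_pr hL x, ← Fin.sum_univ_eq_sum_range (fun i => X.pr i x) L]
    exact sum_mem fun i _ => h i trivial

theorem chi_eq_sum {L : ℕ} (hL : ∀ i, L ≤ i → X.hl Λ i = 0) :
    X.chi Λ = ∑ i ∈ Finset.range L, (-1 : ℝ) ^ i * (X.hl Λ i).toReal := by
  refine finsum_eq_sum_of_support_subset _ fun i hi => Finset.mem_coe.2 (Finset.mem_range.2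
    (not_le.1 fun h => hi ?_))
  simp only [hL i h, ENNReal.toReal_zero, mul_zero]

theorem hl_le_h (X : DG R) (i : ℕ) : X.hl Λ i ≤ X.h Λ := by
  rw [hl_eq]
  exact Λ.rel_mono inf_le_left le_rfl

theorem h_congr {R' : Type u} [CommRing R'] {Λ' : Len R'} {Y : DG R'}
    (h : ∀ i, X.hl Λ i = Y.hl Λ' i) : X.h Λ = Y.h Λ' := by
  obtain ⟨L, hL⟩ := X.exists_bound
  obtain ⟨L', hL'⟩ := Y.exists_bound
  rw [h_eq_sum Λ (L := L + L') fun i hi => hL i (by omega),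
    h_eq_sum Λ' (L := L + L') fun i hi => hL' i (by omega)]
  exact Finset.sum_congr rfl fun i _ => h i

theorem chi_congr {R' : Type u} [CommRing R'] {Λ' : Len R'} {Y : DG R'}
    (h : ∀ i, X.hl Λ i = Y.hl Λ' i) : X.chi Λ = Y.chi Λ' := by
  simp only [chi, h]

theorem abs_chi_le (h : X.h Λ ≠ ⊤) : |X.chi Λ| ≤ (X.h Λ).toReal := by
  obtain ⟨L, hL⟩ := X.exists_bound
  rw [chi_eq_sum Λ fun i hi => hl_eq_zero Λ (hL i hi), h_eq_sum Λ hL,
    ENNReal.toReal_sum fun i _ => ne_top_of_le_ne_top h (X.hl_le_h Λ i)]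
  refine (Finset.abs_sum_le_sum_abs _ _).trans (Finset.sum_le_sum fun i _ => ?_)
  rw [abs_mul, abs_neg_one_pow, one_mul, ENNReal.abs_toReal]

theorem chi_eq_zero_of_h (h : X.h Λ = 0) : X.chi Λ = 0 := by
  have := abs_chi_le Λ (X := X) (by rw [h]; exact ENNReal.zero_ne_top)
  rwa [h, ENNReal.toReal_zero, abs_nonpos_iff] at this

theorem Acyclic.h_eq_zero (h : X.Acyclic) : X.h Λ = 0 := by
  exact Λ.rel_of_le h

theorem h_le_val (X : DG R) : X.h Λ ≤ Λ.val X.M := by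
  exact ((Λ.rel_mono le_rfl bot_le).trans (Λ.rel_bot _).le).trans
    (Λ.le_of_injective _ (Submodule.subtype_injective _))

/-- the bottom term dominates. -/
theorem le_chi (h : X.h Λ ≠ ⊤) {L : ℕ} (hL : ∀ i, L < i → X.hl Λ i = 0) (b : ℝ)
    (hb : ∀ i, 0 < i → (X.hl Λ i).toReal ≤ b) : (X.hl Λ 0).toReal - L * b ≤ X.chi Λ := by
  rw [chi_eq_sum Λ (L := L + 1) hL, Finset.sum_range_succ', pow_zero, one_mul]
  have := Finset.card_nsmul_le_sum (Finset.range L)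
    (fun i => (-1 : ℝ) ^ (i + 1) * (X.hl Λ (i + 1)).toReal) (-b) fun i _ =>
      neg_le_of_abs_le (by
        rw [abs_mul, abs_neg_one_pow, one_mul, ENNReal.abs_toReal]
        exact hb _ i.succ_pos)
  rw [Finset.card_range, nsmul_eq_mul] at this
  linarith

theorem Hom.QIso.hl_eq {φ : Hom X Y} (h : φ.QIso) (i : ℕ) : X.hl Λ i = Y.hl Λ i := by
  rw [DG.hl_eq, DG.hl_eq]
  refine DGAux_eq Λ φ.f (fun x hx => φ.map_Z hx) (fun y hy => ?_)
    fun x hx => ⟨h.inj x hx.1, φ.map_range⟩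
  obtain ⟨x, h1, h2⟩ := h.surj y hy.1
  refine ⟨_, pr_mem_Z h1 i, ?_⟩
  rw [φ.pr, ← (mem_Z.1 hy).2, ← map_sub]
  exact pr_mem_range h2 i

theorem Hom.QIso.killsH {φ : Hom X Y} (h : φ.QIso) (c : R) (i : ℕ) :
    X.KillsH c i ↔ Y.KillsH c i := by
  refine ⟨fun hX y hy => ?_, fun hY x hx => h.inj _ (by rw [map_smul, (mem_Z.1 hx).1, smul_zero])
    (by rw [map_smul]; exact hY _ (φ.map_Z hx))⟩
  obtain ⟨x, h1, h2⟩ := h.surj y hy.1
  have h3 := φ.map_range (hX _ (pr_mem_Z h1 i))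
  have h4 := Submodule.smul_mem _ c (pr_mem_range h2 i)
  rw [map_sub, (mem_Z.1 hy).2, smul_sub] at h4
  rw [map_smul, φ.pr] at h3
  simpa only [sub_sub_cancel] using sub_mem h3 h4

theorem Hom.qIso_of_bijective (φ : Hom X Y) (h : Function.Bijective φ.f) : φ.QIso := by
  refine ⟨fun x _ ⟨y, hy⟩ => ?_, fun y hy => ?_⟩
  · obtain ⟨z, rfl⟩ := h.2 y
    exact ⟨z, h.1 ((φ.d z).trans hy)⟩
  · obtain ⟨x, rfl⟩ := h.2 y
    exact ⟨x, h.1 (by rw [φ.d, hy, map_zero]), by rw [sub_self]; exact zero_mem _⟩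

theorem Hom.qIso_of_surjective (φ : Hom X Y) (h : Function.Surjective φ.f)
    (hk : ∀ x, φ.f x = 0 → X.d x = 0 → ∃ y, φ.f y = 0 ∧ X.d y = x) : φ.QIso := by
  refine ⟨fun x hx ⟨y, hy⟩ => ?_, fun y hy => ?_⟩
  · obtain ⟨z, rfl⟩ := h y
    obtain ⟨w, -, hw⟩ := hk (x - X.d z) (by rw [map_sub, φ.d, hy, sub_self])
      (by rw [map_sub, hx, X.dd, sub_self])
    exact ⟨w + z, by rw [map_add, hw, sub_add_cancel]⟩
  · obtain ⟨x, rfl⟩ := h y
    obtain ⟨w, h1, h2⟩ := hk (X.d x) (by rw [φ.d, hy]) (X.dd x)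
    refine ⟨x - w, by rw [map_sub, h2, sub_self], ?_⟩
    rw [map_sub, h1, sub_zero, sub_self]
    exact zero_mem _

/-- change of rings. -/
theorem hl_eq_of_semi {R' : Type u} [CommRing R'] (φ : R →+* R') {Y : DG R'} (e : X.M ≃+ Y.M)
    (he : ∀ (r : R) (x : X.M), e (r • x) = φ r • e x) (hd : ∀ x, e (X.d x) = Y.d (e x))
    (hp : ∀ i x, e (X.pr i x) = Y.pr i (e x)) (i : ℕ) : Y.hl (Λ.res φ) i = X.hl Λ i := by
  rw [hl_eq, hl_eq]
  refine DGAux_semi Λ φ ⟨⟨e, map_add e⟩, he⟩ e.surjective (fun x => ?_) fun x =>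
    ⟨fun ⟨y, hy⟩ => ⟨e y, by rw [← hd, hy]; rfl⟩, fun ⟨y, hy⟩ => ?_⟩
  · show _ ↔ e x ∈ _
    rw [mem_Z, mem_Z, ← hd, ← hp, e.map_eq_zero_iff, e.apply_eq_iff_eq]
  · obtain ⟨z, rfl⟩ := e.surjective y
    exact ⟨z, e.injective ((hd z).trans hy)⟩

section SES
variable (f : Hom X' X) (g : Hom X X'') (hf : Function.Injective f.f)
  (hfg : Function.Exact f.f g.f) (hg : Function.Surjective g.f)
include f g hf hfg hg

theorem les : ∃ u v w : ℕ → ℝ≥0∞, w 0 = 0 ∧ ∀ i, X'.hl Λ i = u i + w (i + 1) ∧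
    X.hl Λ i = v i + u i ∧ X''.hl Λ i = w i + v i := by
  have hZ : ∀ i x, f.f x ∈ X.Z i → x ∈ X'.Z i := fun i x hx => mem_Z.2
    ⟨hf (by rw [f.d, (mem_Z.1 hx).1, map_zero]), hf (by rw [f.pr, (mem_Z.1 hx).2])⟩
  refine ⟨fun i => Λ.rel (X'.Z i) ((LinearMap.range X.d).comap f.f),
    fun i => Λ.rel (X.Z i) ((LinearMap.range X''.d).comap g.f),
    fun i => Λ.rel (X''.Z i) ((X.Z i).map g.f ⊔ LinearMap.range X''.d),
    Λ.rel_of_le fun y hy => ?_, fun i => ⟨?_, ?_, ?_⟩⟩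
  · obtain ⟨x, rfl⟩ := hg y
    exact Submodule.mem_sup_left ⟨X.pr 0 x, mem_Z.2 ⟨X.d_zero x, X.pr_idem 0 x⟩,
      (g.pr 0 x).trans (mem_Z.1 hy).2⟩
  · rw [hl_eq, DGAux_split Λ (B := (LinearMap.range X.d).comap f.f) fun x hx => f.map_range hx.2,
      ← Λ.rel_map_of_injective f.f hf (X'.Z i ⊓ _)]
    refine congrArg _ (((DGAux_eq Λ X.d (A := LinearMap.range (X.pr (i + 1)) ⊓
      (LinearMap.range f.f).comap X.d) (B := ((X.Z (i + 1)).map g.f ⊔
        LinearMap.range X''.d).comap g.f) ?_ ?_ ?_).symm).trans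
      (DGAux_eq Λ g.f ?_ ?_ fun _ _ => Iff.rfl))
    · rintro x ⟨h1, y, h2⟩
      refine ⟨y, ⟨hZ i y (mem_Z.2 ⟨by rw [h2, X.dd], ?_⟩), x, h2.symm⟩, h2⟩
      rw [h2, ← X.d_succ, mem_range_pr.1 h1]
    · rintro _ ⟨y, ⟨h1, z, h2⟩, rfl⟩
      have h3 : X.d (X.pr (i + 1) z) = f.f y := by rw [X.d_succ, h2, (mem_Z.1 (f.map_Z h1)).2]
      exact ⟨X.pr (i + 1) z, ⟨⟨z, rfl⟩, y, h3.symm⟩, by rw [h3, sub_self]; exact zero_mem _⟩
    · rintro x ⟨h1, -⟩
      constructor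
      · rintro ⟨_, ⟨y, rfl⟩, h2⟩
        refine Submodule.mem_sup_left ⟨X.pr (i + 1) (x - f.f y),
          pr_mem_Z (by rw [map_sub, ← f.d, h2, sub_self]) _, ?_⟩
        rw [g.pr, map_sub, hfg.apply_apply_eq_zero, sub_zero, ← g.pr, mem_range_pr.1 h1]
      · intro h2
        obtain ⟨_, ⟨z, hz, rfl⟩, _, ⟨y, rfl⟩, h3⟩ := Submodule.mem_sup.1 h2
        obtain ⟨y, rfl⟩ := hg y
        obtain ⟨t, ht⟩ := (hfg (x - z - X.d y)).1 (by
          rw [map_sub, map_sub, g.d, ← h3, add_sub_cancel_left, sub_self])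
        refine ⟨_, ⟨t, rfl⟩, ?_⟩
        rw [f.d, ht, map_sub, map_sub, X.dd, (mem_Z.1 hz).1, sub_zero, sub_zero]
    · rintro x ⟨h1, y, h2⟩
      exact mem_Z.2 ⟨by rw [← g.d, ← h2, hfg.apply_apply_eq_zero],
        by rw [← g.pr, mem_range_pr.1 h1]⟩
    · intro y hy
      obtain ⟨x, rfl⟩ := hg y
      have h1 : g.f (X.pr (i + 1) x) = g.f x := (g.pr _ x).trans (mem_Z.1 hy).2
      exact ⟨X.pr (i + 1) x, ⟨⟨x, rfl⟩, (hfg _).1 (by rw [g.d, h1, (mem_Z.1 hy).1])⟩,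
        by rw [h1, sub_self]; exact zero_mem _⟩
  · rw [hl_eq, DGAux_split Λ (B := (LinearMap.range X''.d).comap g.f) fun x hx => g.map_range hx.2]
    refine congrArg _ (Eq.symm (DGAux_eq Λ f.f (fun x hx => ⟨f.map_Z hx, ?_⟩) ?_
      fun _ _ => Iff.rfl))
    · show g.f (f.f x) ∈ LinearMap.range X''.d
      rw [hfg.apply_apply_eq_zero]
      exact zero_mem _
    · rintro y ⟨h1, z, h2⟩
      obtain ⟨z, rfl⟩ := hg z
      obtain ⟨t, ht⟩ := (hfg (y - X.d z)).1 (by rw [map_sub, g.d, h2, sub_self])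
      refine ⟨X'.pr i t, pr_mem_Z (hf ?_) i, ?_⟩
      · rw [f.d, ht, map_sub, X.dd, (mem_Z.1 h1).1, sub_self, map_zero]
      · rw [f.pr, ht, map_sub, (mem_Z.1 h1).2, sub_sub_cancel_left]
        exact neg_mem (pr_mem_range ⟨z, rfl⟩ i)
  · rw [hl_eq, DGAux_split Λ (B := (X.Z i).map g.f ⊔ LinearMap.range X''.d)
      fun x hx => Submodule.mem_sup_right hx.2]
    refine congrArg _ (Eq.symm (DGAux_eq Λ g.f (fun x hx => ⟨g.map_Z hx,
      Submodule.mem_sup_left ⟨x, hx, rfl⟩⟩) ?_ fun _ _ => Iff.rfl))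
    rintro y ⟨-, h2⟩
    obtain ⟨_, ⟨z, hz, rfl⟩, t, ht, rfl⟩ := Submodule.mem_sup.1 h2
    exact ⟨z, hz, by rw [sub_add_cancel_left]; exact neg_mem ht⟩

omit f g hf hfg hg in
theorem exists_bound3 (X' X X'' : DG R) : ∃ L, (∀ i, L ≤ i → X'.pr i = 0) ∧
    (∀ i, L ≤ i → X.pr i = 0) ∧ ∀ i, L ≤ i → X''.pr i = 0 := by
  obtain ⟨L1, h1⟩ := X'.exists_bound
  obtain ⟨L2, h2⟩ := X.exists_bound
  obtain ⟨L3, h3⟩ := X''.exists_bound
  exact ⟨L1 + L2 + L3, fun i hi => h1 i (by omega), fun i hi => h2 i (by omega),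
    fun i hi => h3 i (by omega)⟩

theorem hl_le_add (i : ℕ) : X.hl Λ i ≤ X'.hl Λ i + X''.hl Λ i := by
  obtain ⟨u, v, w, -, h⟩ := les Λ f g hf hfg hg
  rw [(h i).1, (h i).2.1, (h i).2.2, add_comm]
  exact add_le_add le_self_add le_add_self

theorem h_le_add : X.h Λ ≤ X'.h Λ + X''.h Λ := by
  obtain ⟨L, h1, h2, h3⟩ := exists_bound3 X' X X''
  rw [h_eq_sum Λ h1, h_eq_sum Λ h2, h_eq_sum Λ h3, ← Finset.sum_add_distrib]
  exact Finset.sum_le_sum fun i _ => hl_le_add Λ f g hf hfg hg i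

theorem h_left_le : X'.h Λ ≤ X.h Λ + X''.h Λ := by
  obtain ⟨L, h1, h2, h3⟩ := exists_bound3 X' X X''
  obtain ⟨u, v, w, -, h⟩ := les Λ f g hf hfg hg
  rw [h_eq_sum Λ h1, h_eq_sum Λ h2, h_eq_sum Λ (L := L + 1) fun i hi => h3 i (by omega),
    Finset.sum_range_succ', ← add_assoc, ← Finset.sum_add_distrib]
  refine le_trans (Finset.sum_le_sum fun i _ => ?_) le_self_add
  rw [(h i).1, (h i).2.1, (h (i + 1)).2.2]
  exact add_le_add le_add_self le_self_add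

theorem h_right_le : X''.h Λ ≤ X'.h Λ + X.h Λ := by
  obtain ⟨L, h1, h2, h3⟩ := exists_bound3 X' X X''
  obtain ⟨u, v, w, h0, h⟩ := les Λ f g hf hfg hg
  rw [h_eq_sum Λ h1, h_eq_sum Λ (L := L + 1) fun i hi => h2 i (by omega),
    h_eq_sum Λ (L := L + 1) fun i hi => h3 i (by omega),
    Finset.sum_congr rfl fun i _ => (h i).2.2, Finset.sum_add_distrib, Finset.sum_range_succ', h0,
    add_zero]
  exact add_le_add (Finset.sum_le_sum fun i _ => (h i).1 ▸ le_add_self)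
    (Finset.sum_le_sum fun i _ => (h i).2.1 ▸ le_self_add)

theorem chi_add (h' : X'.h Λ ≠ ⊤) (h'' : X''.h Λ ≠ ⊤) : X.chi Λ = X'.chi Λ + X''.chi Λ := by
  obtain ⟨L, h1, h2, h3⟩ := exists_bound3 X' X X''
  obtain ⟨u, v, w, h0, h⟩ := les Λ f g hf hfg hg
  have a1 := fun i => ENNReal.add_ne_top.1 ((h i).1 ▸ ne_top_of_le_ne_top h' (X'.hl_le_h Λ i))
  have a2 := fun i => ENNReal.add_ne_top.1 ((h i).2.2 ▸ ne_top_of_le_ne_top h'' (X''.hl_le_h Λ i))
  have a3 := DGAux_tele (fun i => (w i).toReal) (by rw [h0, ENNReal.toReal_zero]) L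
  have a4 : w L = 0 := (add_eq_zero.1 ((h L).2.2.symm.trans (hl_eq_zero Λ (h3 L le_rfl)))).1
  simp only [a4, ENNReal.toReal_zero, mul_zero, neg_zero] at a3
  rw [chi_eq_sum Λ fun i hi => hl_eq_zero Λ (h1 i hi), chi_eq_sum Λ fun i hi => hl_eq_zero Λ (h2 i hi),
    chi_eq_sum Λ fun i hi => hl_eq_zero Λ (h3 i hi), ← Finset.sum_add_distrib, ← add_zero (∑ _ ∈ _, _),
    ← a3, ← Finset.sum_add_distrib]
  refine Finset.sum_congr rfl fun i _ => ?_
  rw [(h i).1, (h i).2.1, (h i).2.2, ENNReal.toReal_add (a1 i).1 (a1 i).2,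
    ENNReal.toReal_add (a2 i).1 (a2 i).2, ENNReal.toReal_add (a2 i).2 (a1 i).1]
  ring

end SES

/-- termwise finite complexes. -/
theorem chi_eq_of_val (h : Λ.val X.M ≠ ⊤) :
    X.chi Λ = ∑ᶠ i : ℕ, (-1 : ℝ) ^ i * (Λ.val (LinearMap.range (X.pr i))).toReal := by
  obtain ⟨L, hL⟩ := X.exists_bound
  let w : ℕ → ℝ≥0∞ := fun i => Λ.rel (LinearMap.range (X.pr i)) (LinearMap.ker X.d)
  have h0 : w 0 = 0 := Λ.rel_of_le fun _ ⟨x, hx⟩ => hx ▸ X.d_zero x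
  have h1 : ∀ i, Λ.val (LinearMap.range (X.pr i)) = w i + (X.hl Λ i + w (i + 1)) := fun i => by
    rw [← Λ.rel_bot, DGAux_split Λ (B := LinearMap.ker X.d) (inf_le_right.trans bot_le), inf_comm,
      DGAux_split Λ (A := _ ⊓ _) (B := LinearMap.range X.d) (inf_le_right.trans bot_le), hl_eq]
    refine congrArg _ (congrArg _ (DGAux_eq Λ X.d ?_ ?_ fun _ _ => Iff.rfl).symm)
    · rintro _ ⟨x, rfl⟩
      exact ⟨⟨X.dd _, _, (X.d_succ i x).symm⟩, _, rfl⟩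
    · rintro _ ⟨⟨-, h2⟩, x, rfl⟩
      exact ⟨_, ⟨x, rfl⟩, by rw [X.d_succ, mem_range_pr.1 h2, sub_self]; exact zero_mem _⟩
  have a1 := fun i => ENNReal.add_ne_top.1 (h1 i ▸ ne_top_of_le_ne_top h
    (Λ.le_of_injective _ (LinearMap.range (X.pr i)).subtype_injective))
  have a2 : ∀ i, L ≤ i → Λ.val (LinearMap.range (X.pr i)) = 0 := fun i hi => by
    rw [← Λ.rel_bot, hL i hi]
    exact Λ.rel_of_le LinearMap.range_zero.le
  have a3 := DGAux_tele (fun i => (w i).toReal) (by rw [h0, ENNReal.toReal_zero]) L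
  have a4 : w L = 0 := (add_eq_zero.1 ((h1 L).symm.trans (a2 L le_rfl))).1
  simp only [a4, ENNReal.toReal_zero, mul_zero, neg_zero] at a3
  rw [chi_eq_sum Λ fun i hi => hl_eq_zero Λ (hL i hi), finsum_eq_sum_of_support_subset
    (s := Finset.range L) _ fun i hi => Finset.mem_coe.2 (Finset.mem_range.2 (not_le.1 fun h => hi
      (by simp only [a2 i h, ENNReal.toReal_zero, mul_zero]))), ← add_zero (∑ _ ∈ _, _),
    ← a3, ← Finset.sum_add_distrib]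
  refine Finset.sum_congr rfl fun i _ => ?_
  rw [h1, ENNReal.toReal_add (a1 i).1 (a1 i).2, ENNReal.toReal_add
    (ENNReal.add_ne_top.1 (a1 i).2).1 (ENNReal.add_ne_top.1 (a1 i).2).2]
  ring

/-- a finite filtration. -/
theorem h_le_sum_of_filt (X : DG R) (n : ℕ) (A : ℕ → Submodule R X.M) (hA : ∀ w, X.Stable (A w))
    (h0 : A 0 = ⊥) (hn : A n = ⊤) (Y : ℕ → DG R) (g : ∀ w, Hom (X.sub (A (w + 1)) (hA _)) (Y w))
    (hg : ∀ w, w < n → Function.Surjective (g w).f)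
    (hk : ∀ w, w < n → ∀ x : A (w + 1), (g w).f x = 0 ↔ (x : X.M) ∈ A w)
    (hm : ∀ w, A w ≤ A (w + 1)) : X.h Λ ≤ ∑ w ∈ Finset.range n, (Y w).h Λ := by
  have key : ∀ m ≤ n, (X.sub (A m) (hA m)).h Λ ≤ ∑ w ∈ Finset.range m, (Y w).h Λ := by
    intro m
    induction m with
    | zero =>
      refine fun _ => (Acyclic.h_eq_zero Λ fun x _ => ⟨0, (map_zero _).trans ?_⟩).le
      exact Subtype.ext ((Submodule.mem_bot R).1 (h0 ▸ x.2)).symm
    | succ m ih =>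
      intro hmn
      rw [Finset.sum_range_succ]
      exact (h_le_add Λ (X.inclHom (hA m) (hA _) (hm m)) (g m) (Submodule.inclusion_injective (hm m))
        (fun x => (hk m hmn x).trans ⟨fun h => ⟨⟨_, h⟩, rfl⟩, fun ⟨y, hy⟩ => hy ▸ y.2⟩)
        (hg m hmn)).trans (add_le_add (ih (Nat.le_of_succ_le hmn)) le_rfl)
  exact (h_congr Λ (((X.subHom _ (hA n)).qIso_of_bijective ⟨Subtype.val_injective,
    fun x => ⟨⟨x, hn ▸ Submodule.mem_top⟩, rfl⟩⟩).hl_eq Λ)).symm.trans_le (key n le_rfl)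

/-- a finite direct sum of subcomplexes. -/
theorem hl_eq_sum_of_internal (X : DG R) {κ : Type} [Fintype κ] [DecidableEq κ]
    (A : κ → Submodule R X.M) (hA : ∀ k, X.Stable (A k)) (h : DirectSum.IsInternal A) (i : ℕ) :
    X.hl Λ i = ∑ k, (X.sub (A k) (hA k)).hl Λ i := by
  rw [Finset.sum_congr rfl fun k _ => ((X.sub (A k) (hA k)).hl_eq Λ i).trans
    (Λ.rel_map_of_injective (A k).subtype Subtype.val_injective _ _).symm, ← Λ.rel_pi, hl_eq]
  refine (DGAux_eq Λ (∑ k, LinearMap.proj k) (fun z hz => ?_) (fun y hy => ?_) fun z hz => ?_).symm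
  · rw [LinearMap.sum_apply]
    refine sum_mem fun k _ => ?_
    obtain ⟨x, h1, h2⟩ := hz k trivial
    exact Set.mem_of_eq_of_mem h2.symm ((X.subHom _ (hA k)).map_Z h1)
  · obtain ⟨a, h1, rfl⟩ := DGAux_ex h y
    refine ⟨a, fun k _ => ⟨⟨a k, h1 k⟩, mem_Z.2 ⟨Subtype.ext ?_, Subtype.ext ?_⟩, rfl⟩, ?_⟩
    · exact DGAux_uniq h (b := 0) (fun k => (hA k).d _ (h1 k)) (fun k => zero_mem _)
        (by rw [← map_sum, (mem_Z.1 hy).1]; exact Finset.sum_const_zero.symm) k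
    · exact DGAux_uniq h (fun k => (hA k).pr i _ (h1 k)) h1 (by rw [← map_sum, (mem_Z.1 hy).2]) k
    · rw [LinearMap.sum_apply]
      exact Set.mem_of_eq_of_mem (sub_self (∑ k, a k)) (zero_mem _)
  · rw [LinearMap.sum_apply]
    refine ⟨fun ⟨y, hy⟩ k _ => ?_, fun h' => sum_mem fun k _ => ?_⟩
    · obtain ⟨a, h1, rfl⟩ := DGAux_ex h y
      exact ⟨_, ⟨⟨a k, h1 k⟩, rfl⟩, DGAux_uniq h (fun k => (hA k).d _ (h1 k))
        (fun k => Submodule.map_subtype_le _ _ (hz k trivial)) ((map_sum _ _ _).symm.trans hy) k⟩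
    · obtain ⟨x, h1, h2⟩ := h' k trivial
      exact Set.mem_of_eq_of_mem h2.symm ((X.subHom _ (hA k)).map_range h1)

end DG

end Vale.Agent.P177
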