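import Vale.Agent.P177.Cx

/-! Shifts, mapping cones and the lifting lemma for finite free complexes. -/

namespace Vale.Agent.P177

universe u

variable {R : Type u} [CommRing R]

namespace Cx

/-- the iterated shift. -/
def devSh (F : Cx R) (k : ℕ) : Cx R where
  ι := F.ι
  deg a := F.deg a + k
  d := (-1 : R) ^ k • F.d
  dd := by rw [Matrix.smul_mul, Matrix.mul_smul, F.dd, smul_zero, smul_zero]
  hdeg a b h := by
    have := F.hdeg a b fun h' => h (by simp [h'])
    omega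

/-- the shift. -/
def devShift (F : Cx R) : Cx R where
  ι := F.ι
  deg a := F.deg a + 1
  d := -F.d
  dd := by rw [neg_mul_neg, F.dd]
  hdeg a b h := congrArg (· + 1) (F.hdeg a b fun h' => h (by simp [h']))

theorem devSh_zero (F : Cx R) : F.devSh 0 = F := cx_ext (by simp)

theorem devSh_succ (F : Cx R) (k : ℕ) : F.devSh (k + 1) = (F.devSh k).devShift :=
  cx_ext (show (-1 : R) ^ (k + 1) • F.d = -((-1 : R) ^ k • F.d) by simp [pow_succ])

theorem dev_null_shift (F : Cx R) : F.Null ≤ F.devShift.Null := by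
  rintro c ⟨H, h⟩
  refine ⟨-H, ?_⟩
  show -F.d * -H + -H * -F.d = c • 1
  rw [neg_mul_neg, neg_mul_neg, h]

theorem dev_null_sh (F : Cx R) (k : ℕ) : F.Null ≤ (F.devSh k).Null := by
  induction k with
  | zero => rw [devSh_zero]
  | succ k ih => rw [devSh_succ]; exact ih.trans (dev_null_shift _)

theorem dev_isExt_kos (F : Cx R) : IsExt F (F.kos 1) F.devShift :=
  ⟨Equiv.refl _, fun _ => rfl, fun _ => rfl, fun _ _ => rfl, fun _ _ => rfl, fun _ _ => rfl⟩

/-- a resolution placed in degrees at least `M`. -/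
def DevRes (G : Cx R) (M : ℕ) (Y : Type u) [AddCommGroup Y] [Module R Y] : Prop :=
  (∀ b, M ≤ G.deg b) ∧ ∃ ε : (G.on R).M →ₗ[R] Y, Function.Surjective ε ∧
    (∀ x, ε ((G.on R).pr M x) = ε x) ∧ (∀ x, ε ((G.on R).d x) = 0) ∧
    ∀ x, (G.on R).d x = 0 → ε x = 0 → x ∈ LinearMap.range (G.on R).d

theorem IsRes.devRes {G : Cx R} {Y : Type u} [AddCommGroup Y] [Module R Y] (h : G.IsRes Y) :
    G.DevRes 0 Y := ⟨fun _ => Nat.zero_le _, h⟩

theorem dev_mact_neg {ι κ : Type} [Fintype κ] (A : Matrix ι κ R) (x : κ → R) :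
    mact (-A) R x = -mact A R x := by
  funext a
  simp [mact_apply]

theorem DevRes.shift {G : Cx R} {M : ℕ} {Y : Type u} [AddCommGroup Y] [Module R Y]
    (h : G.DevRes M Y) : G.devShift.DevRes (M + 1) Y := by
  obtain ⟨h0, ε, h1, h2, h3, h4⟩ := h
  refine ⟨fun b => Nat.succ_le_succ (h0 b), ε, h1, fun x => ?_, fun x => ?_, fun x hx h0 => ?_⟩
  · refine Eq.trans (congrArg ε (funext fun a => ?_)) (h2 x)
    exact if_congr Nat.succ_inj rfl rfl
  · exact (congrArg ε (dev_mact_neg G.d x)).trans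
      ((map_neg ε _).trans ((congrArg _ (h3 x)).trans neg_zero))
  · obtain ⟨y, hy⟩ := h4 x (neg_eq_zero.1 ((dev_mact_neg G.d x).symm.trans hx)) h0
    exact ⟨-y, (dev_mact_neg G.d _).trans ((congrArg _ (map_neg (mact G.d R) y)).trans
      ((neg_neg _).trans hy))⟩

theorem IsRes.devSh {G : Cx R} {Y : Type u} [AddCommGroup Y] [Module R Y] (h : G.IsRes Y)
    (M : ℕ) : (G.devSh M).DevRes M Y := by
  induction M with
  | zero => rw [devSh_zero]; exact h.devRes
  | succ M ih => rw [devSh_succ]; exact ih.shift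

theorem dev_d_pr {G : Cx R} {M : ℕ} (h : ∀ b, M ≤ G.deg b) (y : (G.on R).M) :
    (G.on R).d ((G.on R).pr M y) = 0 := by
  cases M with
  | zero => exact DG.d_zero _ _
  | succ M =>
    rw [DG.d_succ]
    exact funext fun a => if_neg (by have := h a; omega)

/-- a map of complexes given by a matrix. -/
structure DevMap (G F : Cx R) where
  A : Matrix F.ι G.ι R
  hd : A * G.d = F.d * A
  hA : ∀ a b, A a b ≠ 0 → F.deg a = G.deg b

variable {F G : Cx R}

/-- the underlying map. -/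
def DevMap.hom (φ : DevMap G F) : DG.Hom (G.on R) (F.on R) := onHom φ.A φ.hd φ.hA R

/-- the mapping cone. -/
def DevMap.cone (φ : DevMap G F) : Cx R where
  ι := F.ι ⊕ G.ι
  deg := Sum.elim F.deg fun b => G.deg b + 1
  d := Matrix.fromBlocks F.d φ.A 0 (-G.d)
  dd := by simp [Matrix.fromBlocks_multiply, F.dd, G.dd, φ.hd]
  hdeg := by
    rintro (x | x) (y | y) h
    · exact F.hdeg x y h
    · exact congrArg (· + 1) (φ.hA x y h).symm
    · exact absurd rfl h
    · exact congrArg (· + 1) (G.hdeg x y fun h' => h (by simp [h']))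

theorem DevMap.isExt (φ : DevMap G F) : IsExt F φ.cone G.devShift :=
  ⟨Equiv.refl _, fun _ => rfl, fun _ => rfl, fun _ _ => rfl, fun _ _ => rfl, fun _ _ => rfl⟩

/-- an element of the cone. -/
def DevMap.pair (φ : DevMap G F) (x : (F.on R).M) (y : (G.on R).M) : (φ.cone.on R).M :=
  Sum.elim x y

theorem dev_mact_blocks {ι κ : Type} [Fintype ι] [Fintype κ] (A : Matrix ι ι R) (B : Matrix ι κ R)
    (D : Matrix κ κ R) (x : ι → R) (y : κ → R) :
    mact (Matrix.fromBlocks A B 0 (-D)) R (Sum.elim x y) =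
      Sum.elim (mact A R x + mact B R y) (-mact D R y) := by
  funext a
  rcases a with a | a <;> simp [mact_apply, Fintype.sum_sum_type]

theorem DevMap.cone_d (φ : DevMap G F) (x : (F.on R).M) (y : (G.on R).M) :
    (φ.cone.on R).d (φ.pair x y) = φ.pair ((F.on R).d x + φ.hom.f y) (-(G.on R).d y) :=
  dev_mact_blocks F.d φ.A G.d x y

theorem DevMap.cone_pr (φ : DevMap G F) (i : ℕ) (x : (F.on R).M) :
    (φ.cone.on R).pr i (φ.pair x 0) = φ.pair ((F.on R).pr i x) 0 := by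
  funext a
  rcases a with a | a
  · rfl
  · exact ite_self _

theorem DevMap.cone_cases (φ : DevMap G F) (z : (φ.cone.on R).M) :
    ∃ (x : (F.on R).M) (y : (G.on R).M), z = φ.pair x y :=
  ⟨z ∘ Sum.inl, z ∘ Sum.inr, funext fun a => by rcases a with a | a <;> rfl⟩

theorem DevMap.pair_eq_zero (φ : DevMap G F) {x : (F.on R).M} {y : (G.on R).M}
    (h : φ.pair x y = 0) : x = 0 ∧ y = 0 := ⟨congrArg (· ∘ Sum.inl) h, congrArg (· ∘ Sum.inr) h⟩

theorem DevMap.pair_sub (φ : DevMap G F) (x x' : (F.on R).M) (y y' : (G.on R).M) :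
    φ.pair x y - φ.pair x' y' = φ.pair (x - x') (y - y') := by
  funext a
  rcases a with a | a <;> rfl

/-- a basis vector. -/
def devE (G : Cx R) (b : G.ι) : (G.on R).M := (Pi.single b 1 : G.ι → R)

theorem dev_single {ι κ : Type} [Fintype ι] [Fintype κ] [DecidableEq ι] [DecidableEq κ]
    (A : Matrix ι κ R) (b : κ) :
    mact A R (Pi.single b 1) = ∑ c, A c b • (Pi.single c 1 : ι → R) := by
  funext a
  simp [mact_apply, Finset.sum_apply, Pi.single_apply]

theorem dev_d_single (G : Cx R) (b : G.ι) :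
    (G.on R).d (G.devE b) = ∑ c, G.d c b • G.devE c := dev_single G.d b

theorem dev_pr_single (G : Cx R) (b : G.ι) (i : ℕ) (h : G.deg b ≠ i) :
    (G.on R).pr i (G.devE b) = 0 := by
  funext a
  show (if G.deg a = i then (Pi.single b 1 : G.ι → R) a else 0) = 0
  split_ifs with h1
  · exact Pi.single_eq_of_ne (by rintro rfl; exact h h1) _
  · rfl

theorem dev_pr_ne (X : DG R) {i j : ℕ} (h : i ≠ j) {x : X.M} (hx : X.pr j x = x) :
    X.pr i x = 0 := by
  rw [← hx, X.pr_pr, if_neg h]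

/-- lifting on basis vectors. -/
theorem dev_lift_col {X : DG R} (M : ℕ) (hG : ∀ b, M ≤ G.deg b)
    (hF : ∀ i, M < i → ∀ x ∈ X.Z i, x ∈ LinearMap.range X.d)
    (c₀ : G.ι → X.M) (h0 : ∀ b, c₀ b ∈ X.Z M)
    (h1 : ∀ b, ∑ c, G.d c b • c₀ c ∈ LinearMap.range X.d) (n : ℕ) :
    ∃ c : G.ι → X.M, (∀ b, X.pr (G.deg b) (c b) = c b) ∧
      (∀ b, G.deg b = M → c b = c₀ b) ∧
      ∀ b, G.deg b ≤ M + n → X.d (c b) = ∑ b', G.d b' b • c b' := by
  induction n with
  | zero =>
    refine ⟨fun b => if G.deg b = M then c₀ b else 0, fun b => ?_, fun b hb => if_pos hb,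
      fun b hb => ?_⟩
    · beta_reduce
      split_ifs with hb
      · rw [hb]
        exact (DG.mem_Z.1 (h0 b)).2
      · exact map_zero _
    · have hb' : G.deg b = M := le_antisymm hb (hG b)
      simp only [if_pos hb']
      rw [(DG.mem_Z.1 (h0 b)).1]
      refine (Finset.sum_eq_zero fun b' _ => ?_).symm
      by_cases h : G.d b' b = 0
      · rw [h, zero_smul]
      · have := G.hdeg b' b h
        have := hG b'
        omega
  | succ n ih =>
    obtain ⟨c, hc1, hc2, hc3⟩ := ih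
    have key : ∀ b, G.deg b = M + n + 1 → ∃ w, X.pr (M + n + 1) w = w ∧
        X.d w = ∑ b', G.d b' b • c b' := by
      intro b hb
      have hp : X.pr (M + n) (∑ b', G.d b' b • c b') = ∑ b', G.d b' b • c b' := by
        rw [_root_.map_sum]
        refine Finset.sum_congr rfl fun b' _ => ?_
        by_cases h : G.d b' b = 0
        · rw [h, zero_smul, map_zero]
        · have := G.hdeg b' b h
          rw [map_smul, ← show G.deg b' = M + n by omega, hc1]
      have hr : ∑ b', G.d b' b • c b' ∈ LinearMap.range X.d := by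
        rcases Nat.eq_zero_or_pos n with rfl | hn
        · rw [show ∑ b', G.d b' b • c b' = ∑ b', G.d b' b • c₀ b' from
            Finset.sum_congr rfl fun b' _ => ?_]
          · exact h1 b
          by_cases h : G.d b' b = 0
          · rw [h, zero_smul, zero_smul]
          · have := G.hdeg b' b h
            rw [hc2 b' (by omega)]
        · refine hF (M + n) (by omega) _ (DG.mem_Z.2 ⟨?_, hp⟩)
          rw [_root_.map_sum]
          have e : ∀ b', X.d (G.d b' b • c b') =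
              ∑ b'', (G.d b'' b' * G.d b' b) • c b'' := by
            intro b'
            by_cases h : G.d b' b = 0
            · simp [h]
            · have := G.hdeg b' b h
              rw [map_smul, hc3 b' (by omega), Finset.smul_sum]
              exact Finset.sum_congr rfl fun b'' _ => by rw [smul_smul, mul_comm]
          simp only [e]
          rw [Finset.sum_comm]
          refine Finset.sum_eq_zero fun b'' _ => ?_
          rw [← Finset.sum_smul, ← Matrix.mul_apply, G.dd, Matrix.zero_apply, zero_smul]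
      obtain ⟨w, hw⟩ := hr
      exact ⟨X.pr (M + n + 1) w, DG.pr_idem _ _ _, by rw [DG.d_succ, hw, hp]⟩
    choose! w hw1 hw2 using key
    have hs : ∀ b, G.deg b ≤ M + n + 1 →
        ∑ b', G.d b' b • (if G.deg b' = M + n + 1 then w b' else c b') =
          ∑ b', G.d b' b • c b' := fun b hb => Finset.sum_congr rfl fun b' _ => by
      by_cases h : G.d b' b = 0
      · rw [h, zero_smul, zero_smul]
      · have := G.hdeg b' b h
        rw [if_neg (by omega)]
    refine ⟨fun b => if G.deg b = M + n + 1 then w b else c b, fun b => ?_,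
      fun b hb => (if_neg (by omega)).trans (hc2 b hb), fun b hb => ?_⟩
    · beta_reduce
      split_ifs with hb
      · rw [hb]
        exact hw1 b hb
      · exact hc1 b
    · beta_reduce
      rw [hs b hb]
      split_ifs with hb'
      · exact hw2 b hb'
      · exact hc3 b (by omega)

/-- the lifting lemma. -/
theorem dev_lift (M : ℕ) (hG : ∀ b, M ≤ G.deg b) {W : Type u} [AddCommGroup W] [Module R W]
    (η : (F.on R).M →ₗ[R] W) (θ : (G.on R).M →ₗ[R] W) (hη : ∀ x, η ((F.on R).pr M x) = η x)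
    (hθ : ∀ y, θ ((G.on R).pr M y) = θ y) (hθd : ∀ y, θ ((G.on R).d y) = 0)
    (hs : ∀ y, ∃ x ∈ (F.on R).Z M, η x = θ y)
    (hF : ∀ i, M ≤ i → ∀ x ∈ (F.on R).Z i, η x = 0 → x ∈ LinearMap.range (F.on R).d) :
    ∃ φ : DevMap G F, ∀ y, η (φ.hom.f y) = θ y := by
  choose c₀ h0 h0' using fun b : G.ι => hs (G.devE b)
  obtain ⟨c, hc1, hc2, hc3⟩ := dev_lift_col M hG (fun i hi x hx => hF i hi.le x hx (by
      rw [← hη, dev_pr_ne _ hi.ne (DG.mem_Z.1 hx).2, map_zero])) c₀ h0
    (fun b => hF M le_rfl _ (sum_mem fun c _ => Submodule.smul_mem _ _ (h0 c)) (by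
      rw [← hθd (G.devE b), dev_d_single, _root_.map_sum, _root_.map_sum]
      exact Finset.sum_congr rfl fun c _ => by rw [map_smul, map_smul, h0']))
    (Finset.univ.sup G.deg)
  have hc4 : ∀ b, (F.on R).d (c b) = ∑ b', G.d b' b • c b' := fun b =>
    hc3 b ((Finset.le_sup (Finset.mem_univ b)).trans (Nat.le_add_left _ _))
  let φ : DevMap G F := ⟨Matrix.of fun a b => c b a, Matrix.ext fun a b => by
      have := (congrFun (hc4 b) a).trans (Finset.sum_apply a _ _)
      refine Eq.trans ?_ this.symm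
      exact Finset.sum_congr rfl fun b' _ => mul_comm _ _, fun a b h => by
      by_contra hn
      exact h ((congrFun (hc1 b) a).symm.trans (if_neg hn))⟩
  have hφ : ∀ b, φ.hom.f (G.devE b) = c b := fun b => funext fun a => by
    show ∑ b', c b' a • (Pi.single b 1 : G.ι → R) b' = c b a
    simp [Pi.single_apply]
  refine ⟨φ, fun y => ?_⟩
  have : η ∘ₗ φ.hom.f = θ := by
    refine (Pi.basisFun R G.ι).ext fun b => ?_
    have e : (Pi.basisFun R G.ι b : (G.on R).M) = G.devE b := Pi.basisFun_apply R G.ι b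
    refine (congrArg (η ∘ₗ φ.hom.f) e).trans (Eq.trans ?_ (congrArg θ e).symm)
    rw [LinearMap.comp_apply, hφ]
    by_cases hb : G.deg b = M
    · rw [hc2 b hb, h0']
    · rw [← hη, dev_pr_ne _ (Ne.symm hb) (hc1 b), map_zero, ← hθ, dev_pr_single _ _ _ hb, map_zero]
  exact LinearMap.congr_fun this y

/-- the cone of a lift of an injection resolves the cokernel. -/
theorem dev_res_cone {Y' Y Y'' : Type u}
    [AddCommGroup Y'] [Module R Y'] [AddCommGroup Y] [Module R Y] [AddCommGroup Y''] [Module R Y'']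
    (f : Y' →ₗ[R] Y) (g : Y →ₗ[R] Y'') (hf : Function.Injective f) (hfg : Function.Exact f g)
    (hg : Function.Surjective g) (h' : G.IsRes Y') (h : F.IsRes Y) :
    ∃ C : Cx R, C.IsRes Y'' ∧ IsExt F C G.devShift := by
  obtain ⟨-, θ, t1, t2, t3, t4⟩ := h'.devRes
  obtain ⟨-, ε, e1, e2, e3, e4⟩ := h.devRes
  obtain ⟨φ, hφ⟩ := dev_lift (F := F) (G := G) 0 (fun _ => Nat.zero_le _) ε (f ∘ₗ θ) e2
    (fun y => congrArg f (t2 y)) (fun y => (congrArg f (t3 y)).trans (map_zero f))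
    (fun y => by
      obtain ⟨x, hx⟩ := e1 (f (θ y))
      exact ⟨_, DG.mem_Z.2 ⟨(F.on R).d_zero x, DG.pr_idem _ _ _⟩, (e2 x).trans hx⟩)
    fun i _ x hx h0 => e4 x (DG.mem_Z.1 hx).1 h0
  have hφ' : ∀ y, ε (φ.hom.f y) = f (θ y) := hφ
  refine ⟨φ.cone, ⟨g ∘ₗ ε ∘ₗ LinearMap.funLeft R R Sum.inl, fun y => ?_,
    fun x => congrArg g (e2 (x ∘ Sum.inl)), fun z => ?_, fun z hz h0 => ?_⟩, φ.isExt⟩
  · obtain ⟨y, rfl⟩ := hg y
    obtain ⟨x, rfl⟩ := e1 y
    exact ⟨Sum.elim x 0, rfl⟩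
  · obtain ⟨x, y, rfl⟩ := φ.cone_cases z
    rw [φ.cone_d]
    show g (ε ((F.on R).d x + φ.hom.f y)) = 0
    rw [map_add, e3, zero_add, hφ', hfg.apply_apply_eq_zero]
  · obtain ⟨x, y, rfl⟩ := φ.cone_cases z
    rw [φ.cone_d] at hz
    obtain ⟨z1, z2⟩ := φ.pair_eq_zero hz
    have h0' : g (ε x) = 0 := h0
    obtain ⟨y', rfl⟩ := t4 y (neg_eq_zero.1 z2) (hf (by
      rw [← hφ', eq_neg_of_add_eq_zero_right z1, map_neg, e3, neg_zero, map_zero]))
    obtain ⟨t, ht⟩ := (hfg _).1 h0'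
    obtain ⟨y'', hy⟩ := t1 (t + θ y')
    obtain ⟨w, hw⟩ := e4 (x + φ.hom.f y' - φ.hom.f ((G.on R).pr 0 y''))
      (by rw [map_sub, map_add, ← φ.hom.d, ← φ.hom.d, z1, DG.d_zero, map_zero, sub_zero])
      (by rw [map_sub, map_add, hφ', hφ', t2, hy, map_add, ht, sub_self])
    refine ⟨φ.pair w ((G.on R).pr 0 y'' - y'), ?_⟩
    rw [φ.cone_d, hw, map_sub, map_sub, DG.d_zero]
    congr 1 <;> abel

/-- killing the top homology. -/
theorem dev_kill (M : ℕ)
    (hF : ∀ i, M + 1 ≤ i → ∀ x ∈ (F.on R).Z i, x ∈ LinearMap.range (F.on R).d)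
    (hG : G.DevRes M (((F.on R).Z M).map (LinearMap.range (F.on R).d).mkQ)) :
    ∃ C : Cx R, IsExt F C G.devShift ∧
      ∀ i, M ≤ i → ∀ x ∈ (C.on R).Z i, x ∈ LinearMap.range (C.on R).d := by
  obtain ⟨t0, θ, t1, t2, t3, t4⟩ := hG
  have hk : ∀ i, M ≤ i → ∀ x ∈ (F.on R).Z i,
      (LinearMap.range (F.on R).d).mkQ ((F.on R).pr M x) = 0 →
        x ∈ LinearMap.range (F.on R).d := by
    intro i hi x hx h0
    rcases hi.eq_or_lt with rfl | hi
    · rw [(DG.mem_Z.1 hx).2] at h0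
      exact (Submodule.Quotient.mk_eq_zero _).1 h0
    · exact hF i hi x hx
  obtain ⟨φ, hφ⟩ := dev_lift (F := F) (G := G) M t0
    ((LinearMap.range (F.on R).d).mkQ ∘ₗ (F.on R).pr M) (Submodule.subtype _ ∘ₗ θ)
    (fun x => congrArg (LinearMap.range (F.on R).d).mkQ (DG.pr_idem _ _ _))
    (fun y => congrArg Subtype.val (t2 y)) (fun y => congrArg Subtype.val (t3 y))
    (fun y => by
      obtain ⟨x, hx, hx'⟩ := (θ y).2
      exact ⟨x, hx, (congrArg (LinearMap.range (F.on R).d).mkQ (DG.mem_Z.1 hx).2).trans hx'⟩) hk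
  have hφ' : ∀ y, (LinearMap.range (F.on R).d).mkQ ((F.on R).pr M (φ.hom.f y)) = (θ y).1 := hφ
  refine ⟨φ.cone, φ.isExt, fun i hi z hz => ?_⟩
  obtain ⟨x, y, rfl⟩ := φ.cone_cases z
  obtain ⟨hz, hzp⟩ := DG.mem_Z.1 hz
  rw [φ.cone_d] at hz
  obtain ⟨z1, z2⟩ := φ.pair_eq_zero hz
  obtain ⟨y₁, rfl⟩ := t4 y (neg_eq_zero.1 z2) (Subtype.ext (by
    rw [← hφ', eq_neg_of_add_eq_zero_right z1]
    exact (Submodule.Quotient.mk_eq_zero _).2 (DG.pr_mem_range (neg_mem ⟨x, rfl⟩) M)))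
  have hx' : (F.on R).pr i (x + φ.hom.f y₁) ∈ (F.on R).Z i :=
    DG.pr_mem_Z (by rw [map_add, ← φ.hom.d, z1]) i
  have hsum : φ.pair x ((G.on R).d y₁) = φ.pair ((F.on R).pr i (x + φ.hom.f y₁)) 0 -
      (φ.cone.on R).pr i ((φ.cone.on R).d (φ.pair 0 y₁)) := by
    rw [← φ.cone_pr, ← map_sub, φ.cone_d, φ.pair_sub, map_zero, zero_add, add_sub_cancel_right,
      zero_sub, neg_neg, hzp]
  rw [hsum]
  refine sub_mem ?_ (DG.pr_mem_range ⟨_, rfl⟩ i)
  generalize (F.on R).pr i (x + φ.hom.f y₁) = x' at hx'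
  rcases hi.eq_or_lt with rfl | hi
  · obtain ⟨y₂, hy₂⟩ := t1 ⟨_, x', hx', rfl⟩
    have hd := dev_d_pr t0 y₂
    obtain ⟨w, hw⟩ := hk M le_rfl (x' - φ.hom.f ((G.on R).pr M y₂))
      (sub_mem hx' (φ.hom.map_Z (DG.mem_Z.2 ⟨hd, DG.pr_idem _ _ _⟩))) (by
        rw [map_sub, map_sub, hφ', t2, hy₂, (DG.mem_Z.1 hx').2, sub_self])
    refine ⟨φ.pair w ((G.on R).pr M y₂), ?_⟩
    rw [φ.cone_d, hw, hd, sub_add_cancel, neg_zero]
  · obtain ⟨w, hw⟩ := hF i hi x' hx'
    refine ⟨φ.pair w 0, ?_⟩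
    rw [φ.cone_d, hw, map_zero, map_zero, add_zero, neg_zero]

end Cx

end Vale.Agent.P177
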