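import Vale.Agent.P177.Kos
import Vale.Agent.P177.RegDef
import Vale.Agent.P202.ResolAux

/-! Existence of finite free resolutions. -/

namespace Vale.Agent.P177

universe u

variable {R : Type u} [CommRing R]

open IsLocalRing

/-- a minimal presentation of a finite module. -/
theorem resex_min [IsLocalRing R] (Y : Type u) [AddCommGroup Y] [Module R Y] [Module.Finite R Y] :
    ∃ (n : ℕ) (ε : (Fin n → R) →ₗ[R] Y), Function.Surjective ε ∧
      ∀ v, ε v = 0 → ∀ s, v s ∈ maximalIdeal R := by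
  classical
  have hex : ∃ n : ℕ, ∃ w : Fin n → Y, Submodule.span R (Set.range w) = ⊤ :=
    Module.Finite.exists_fin
  obtain ⟨w, hw⟩ := Nat.find_spec hex
  have hmin := fun m (hm : m < Nat.find hex) => Nat.find_min hex hm
  generalize Nat.find hex = n at w hw hmin
  refine ⟨n, Fintype.linearCombination R w, ?_, ?_⟩
  · rw [← LinearMap.range_eq_top, Fintype.range_linearCombination, hw]
  · intro v hsum s
    by_contra hs
    obtain ⟨u, hu⟩ := (notMem_maximalIdeal.mp hs).exists_left_inv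
    obtain ⟨m, rfl⟩ : ∃ m, n = m + 1 := ⟨n - 1, by have := s.2; omega⟩
    refine hmin m (Nat.lt_succ_self m) ⟨fun t => w (s.succAbove t), ?_⟩
    rw [Fintype.linearCombination_apply, Fin.sum_univ_succAbove _ s] at hsum
    rw [← hw]
    refine le_antisymm (Submodule.span_mono ?_) (Submodule.span_le.mpr ?_)
    · rintro _ ⟨t, rfl⟩
      exact ⟨_, rfl⟩
    · rintro _ ⟨t, rfl⟩
      rcases Fin.eq_self_or_eq_succAbove s t with rfl | ⟨t', rfl⟩
      · have h1 : w t = -(u • ∑ i, v (t.succAbove i) • w (t.succAbove i)) := by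
          rw [eq_neg_of_add_eq_zero_right hsum, smul_neg, neg_neg, smul_smul, hu, one_smul]
        rw [h1]
        exact Submodule.neg_mem _ (Submodule.smul_mem _ _ (Submodule.sum_mem _ fun i _ =>
          Submodule.smul_mem _ _ (Submodule.subset_span ⟨i, rfl⟩)))
      · exact Submodule.subset_span ⟨t', rfl⟩

theorem resex_chain [IsLocalRing R] [IsNoetherianRing R] (n : ℕ) (Z0 : Submodule R (Fin n → R)) :
    ∃ (σ : ℕ → Σ n : ℕ, Submodule R (Fin n → R))
      (φ : ∀ i, Matrix (Fin (σ i).1) (Fin (σ (i + 1)).1) R), σ 0 = ⟨n, Z0⟩ ∧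
      (∀ i, LinearMap.range (φ i).mulVecLin = (σ i).2) ∧
      (∀ i, LinearMap.ker (φ i).mulVecLin = (σ (i + 1)).2) ∧
      ∀ i v, (φ i).mulVec v = 0 → ∀ s, v s ∈ maximalIdeal R := by
  choose nx ψ h1 h2 using P202.resol_min_step (T := R)
  let σ : ℕ → Σ n : ℕ, Submodule R (Fin n → R) := fun i =>
    Nat.rec ⟨n, Z0⟩ (fun _ a => ⟨nx a.1 a.2, LinearMap.ker (ψ a.1 a.2).mulVecLin⟩) i
  exact ⟨σ, fun i => ψ (σ i).1 (σ i).2, rfl, fun i => h1 _ _, fun i => rfl, fun i => h2 _ _⟩

theorem resex_zero (Y : Type u) [AddCommGroup Y] [Module R Y] [Subsingleton Y] :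
    ∃ F : Cx R, F.IsRes Y ∧ ∀ a, F.deg a < 0 := by
  refine ⟨⟨Empty, fun _ => 0, 0, by simp, fun a => a.elim⟩, ⟨0, fun y => ⟨0, Subsingleton.elim _ _⟩,
    fun _ => rfl, fun _ => rfl, fun x _ _ => ⟨0, funext fun a => a.elim⟩⟩, fun a => a.elim⟩

theorem resex_iff (F : Cx R) (Y : Type u) [AddCommGroup Y] [Module R Y] :
    F.IsRes Y ↔ ∃ ε : (F.ι → R) →ₗ[R] Y, Function.Surjective ε ∧
      (∀ x : F.ι → R, ε (fun a => if F.deg a = 0 then x a else 0) = ε x) ∧
      (∀ x : F.ι → R, ε (F.d.mulVec x) = 0) ∧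
      ∀ x : F.ι → R, F.d.mulVec x = 0 → ε x = 0 → ∃ z : F.ι → R, F.d.mulVec z = x := Iff.rfl

theorem resex_step {Y : Type u} [AddCommGroup Y] [Module R Y] {n : ℕ} (ε : (Fin n → R) →ₗ[R] Y)
    (hε : Function.Surjective ε) {K : Submodule R (Fin n → R)} (hK : LinearMap.ker ε = K) {k : ℕ}
    (h : ∃ G : Cx R, G.IsRes K ∧ ∀ a, G.deg a < k) :
    ∃ F : Cx R, F.IsRes Y ∧ ∀ a, F.deg a < k + 1 := by
  subst hK
  obtain ⟨G, hG, hk⟩ := h
  obtain ⟨η, h1, h2, h3, h4⟩ := (resex_iff G _).1 hG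
  have hz0 : ∀ x : G.ι → R, G.d.mulVec (fun a => if G.deg a = 0 then x a else 0) = 0 :=
    fun x => (G.on R).d_zero x
  obtain ⟨A, hAv⟩ : ∃ A : Matrix (Fin n) G.ι R, ∀ v : G.ι → R, A.mulVec v = (η v : Fin n → R) :=
    ⟨LinearMap.toMatrix' ((LinearMap.ker ε).subtype ∘ₗ η), fun v => by
      rw [← Matrix.toLin'_apply, Matrix.toLin'_toMatrix']
      rfl⟩
  have hAd : A * G.d = 0 := by
    refine Matrix.toLin'.injective (LinearMap.ext fun v => ?_)
    rw [Matrix.toLin'_apply, ← Matrix.mulVec_mulVec, hAv, h3, map_zero]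
    rfl
  have hA0 : ∀ s b, A s b ≠ 0 → G.deg b = 0 := by
    intro s b hs
    by_contra hb
    apply hs
    have h5 : (fun a => if G.deg a = 0 then (Pi.single b 1 : G.ι → R) a else 0) = 0 := by
      funext a
      split_ifs with ha
      · exact Pi.single_eq_of_ne (fun e : a = b => hb (e ▸ ha)) _
      · rfl
    have h6 := h2 (Pi.single b 1)
    rw [h5, map_zero] at h6
    have h7 := congrFun (hAv (Pi.single b 1)) s
    rw [← h6, Matrix.mulVec_single_one] at h7
    exact h7
  let F : Cx R :=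
    { ι := Fin n ⊕ G.ι
      deg := Sum.elim (fun _ => 0) fun b => G.deg b + 1
      d := Matrix.fromBlocks 0 A 0 G.d
      dd := by simp [Matrix.fromBlocks_multiply, hAd, G.dd]
      hdeg := by
        rintro (a | a) (b | b) hab
        · exact absurd rfl hab
        · exact congrArg (· + 1) (hA0 a b hab)
        · exact absurd rfl hab
        · exact congrArg (· + 1) (G.hdeg a b hab) }
  have hF : ∀ v : Fin n ⊕ G.ι → R, (Matrix.fromBlocks 0 A 0 G.d).mulVec v =
      Sum.elim (A.mulVec (v ∘ Sum.inr)) (G.d.mulVec (v ∘ Sum.inr)) := fun v => by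
    rw [Matrix.fromBlocks_mulVec, Matrix.zero_mulVec, Matrix.zero_mulVec, zero_add, zero_add]
  refine ⟨F, (resex_iff F Y).2 ⟨ε.comp (LinearMap.funLeft R R Sum.inl), fun y => ?_, fun _ => rfl,
    fun v => ?_, fun v hv h0 => ?_⟩, ?_⟩
  · obtain ⟨v, rfl⟩ := hε y
    exact ⟨Sum.elim v 0, rfl⟩
  · have h5 : ε (A.mulVec (v ∘ Sum.inr)) = 0 := by
      rw [hAv]
      exact (η _).2
    exact (congrArg (fun z => ε (z ∘ Sum.inl)) (hF v)).trans h5
  · have hv' := (hF v).symm.trans hv
    have h5 : A.mulVec (v ∘ Sum.inr) = 0 := congrArg (· ∘ Sum.inl) hv'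
    have h6 : G.d.mulVec (v ∘ Sum.inr) = 0 := congrArg (· ∘ Sum.inr) hv'
    rw [hAv] at h5
    obtain ⟨z, hz⟩ := h4 (v ∘ Sum.inr) h6 (Subtype.ext h5)
    obtain ⟨w, hw⟩ := h1 ⟨v ∘ Sum.inl, h0⟩
    have h7 := hz0 w
    have h8 := (h2 w).trans hw
    have h9 := hz0 z
    have h10 := h2 z
    generalize (fun a => if G.deg a = 0 then w a else 0) = w0 at h7 h8
    generalize (fun a => if G.deg a = 0 then z a else 0) = z0 at h9 h10
    refine ⟨Sum.elim 0 (w0 + (z - z0)), (hF _).trans ?_⟩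
    rw [Sum.elim_comp_inr, hAv, map_add, map_sub, h8, h10, sub_self, add_zero, Matrix.mulVec_add,
      Matrix.mulVec_sub, h7, h9, hz, zero_add, sub_zero]
    exact Sum.elim_comp_inl_inr v
  · rintro (a | a)
    · exact Nat.succ_pos k
    · exact Nat.succ_lt_succ (hk a)

theorem resex_exMod {β : ℕ → Type} [∀ i, Fintype (β i)] {φ : ∀ i, Matrix (β i) (β (i + 1)) R}
    (hφφ : ∀ i, φ i * φ (i + 1) = 0) {x : List R} (hx : RingTheory.Sequence.IsWeaklyRegular R x)
    (h0 : ∀ i, P202.ExMod φ ⊥ i) (k : ℕ) (hk : k ≤ x.length) :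
    ∀ i, k ≤ i → P202.ExMod φ (Ideal.ofList (x.take k)) i := by
  induction k with
  | zero =>
    intro i _
    simpa using h0 i
  | succ k ih =>
    intro i hi
    obtain ⟨i, rfl⟩ : ∃ j, i = j + 1 := ⟨i - 1, by omega⟩
    rw [List.take_succ_eq_append_getElem hk, Ideal.ofList_append, Ideal.ofList_singleton]
    refine P202.ExMod.step hφφ (fun t ht => ?_) (ih (by omega) i (by omega))
      (ih (by omega) _ (by omega))
    have h1 := hx.regular_mod_prev k hk
    have h2 : (Ideal.ofList (x.take k) • ⊤ : Submodule R R) = Ideal.ofList (x.take k) := by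
      rw [smul_eq_mul, Ideal.mul_top]
    rw [h2] at h1
    rw [← Submodule.Quotient.mk_eq_zero] at ht ⊢
    exact h1.right_eq_zero_of_smul ht

/-- finite free resolutions over a regular local ring. -/
theorem RegL.exists_res [IsLocalRing R] {x : List R} (h : RegL R x) (Y : Type u) [AddCommGroup Y]
    [Module R Y] [Module.Finite R Y] :
    ∃ F : Cx R, F.IsRes Y ∧ ∀ a, F.deg a ≤ x.length := by
  have := h.noeth
  obtain ⟨n, ε, hε, hmin0⟩ := resex_min (R := R) Y
  obtain ⟨σ, φ, e, hr, hk, hmin⟩ := resex_chain n (LinearMap.ker ε)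
  have hcol : ∀ i t, (fun s => φ i s t) ∈ (σ i).2 := fun i t =>
    hr i ▸ ⟨Pi.single t 1, by
      funext s
      simp⟩
  have hφφ : ∀ i, φ i * φ (i + 1) = 0 := by
    intro i
    ext a t
    have h1 := hcol (i + 1) t
    rw [← hk, LinearMap.mem_ker] at h1
    exact congrFun h1 a
  have hσ : ∀ i, ∀ v ∈ (σ i).2, ∀ s, v s ∈ maximalIdeal R := by
    intro i
    cases i with
    | zero =>
      rw [e]
      exact hmin0
    | succ i =>
      rw [← hk]
      exact hmin i
  have hφm : ∀ i s t, φ i s t ∈ maximalIdeal R := fun i s t => hσ i _ (hcol i t) s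
  have hE : ∀ i, P202.ExMod (β := fun i => Fin (σ i).1) φ ⊥ i := by
    intro i v hv
    have h1 : v ∈ LinearMap.ker (φ i).mulVecLin := funext hv
    rw [hk, ← hr] at h1
    obtain ⟨u, hu⟩ := h1
    exact ⟨u, fun s => sub_eq_zero.2 (congrFun hu s).symm⟩
  have hE' := resex_exMod (β := fun i => Fin (σ i).1) hφφ h.reg hE x.length le_rfl x.length le_rfl
  rw [List.take_length, h.span] at hE'
  have hemp : IsEmpty (Fin (σ (x.length + 1)).1) := by
    refine ⟨fun s => ?_⟩
    obtain ⟨u, hu⟩ := hE' (fun _ => 1) (fun s => P202.resol_mulVec_mem' _ _ _ s (hφm _ s))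
    have h3 := Ideal.add_mem _ (hu s) (P202.resol_mulVec_mem' _ _ u s (hφm _ s))
    rw [sub_add_cancel] at h3
    exact (maximalIdeal.isMaximal R).ne_top ((Ideal.eq_top_iff_one _).mpr h3)
  have key : ∀ j i, i + j = x.length → ∃ G : Cx R, G.IsRes (σ i).2 ∧ ∀ a, G.deg a < j := by
    intro j
    induction j with
    | zero =>
      intro i hi
      obtain rfl : i = x.length := hi
      have h1 : (σ x.length).2 = ⊥ := by
        rw [← hr, LinearMap.range_eq_bot]
        exact LinearMap.ext fun v => by rw [Subsingleton.elim v 0, map_zero, map_zero]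
      have h2 : Subsingleton (σ x.length).2 := by
        rw [h1]
        infer_instance
      exact resex_zero _
    | succ j ih =>
      intro i hi
      rw [← hr i]
      refine resex_step (φ i).mulVecLin.rangeRestrict (LinearMap.surjective_rangeRestrict _)
        ((LinearMap.ker_rangeRestrict _).trans (hk i)) (ih (i + 1) (by omega))
  have h1 := key x.length 0 (Nat.zero_add _)
  rw [e] at h1
  obtain ⟨F, hF, hd⟩ := resex_step ε hε rfl h1
  exact ⟨F, hF, fun a => Nat.lt_succ_iff.1 (hd a)⟩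

end Vale.Agent.P177
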