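import Vale.Agent.P177.Res
import Vale.Agent.P177.ResEx
import Vale.Agent.P177.DevAux

/-! Devissage for additive functions on complexes with support. -/

namespace Vale.Agent.P177

open IsLocalRing

universe u

variable {R : Type u} [CommRing R]

/-- additive on complexes supported on `a`. -/
structure AddFun (a : Ideal R) (ψ : Cx R → ℝ) : Prop where
  null : ∀ F : Cx R, F.Null = ⊤ → ψ F = 0
  ext : ∀ C' C C'' : Cx R, Cx.IsExt C' C C'' → a ≤ C'.Null.radical → a ≤ C''.Null.radical →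
    ψ C = ψ C' + ψ C''

theorem AddFun.mono {a b : Ideal R} {ψ : Cx R → ℝ} (h : AddFun a ψ) (hab : a ≤ b) :
    AddFun b ψ := ⟨h.null, fun C' C C'' e h' h'' => h.ext C' C C'' e (hab.trans h') (hab.trans h'')⟩

theorem AddFun.sub_mul {a : Ideal R} {ψ ψ' : Cx R → ℝ} (h : AddFun a ψ) (h' : AddFun a ψ')
    (c : ℝ) : AddFun a fun F => ψ F - c * ψ' F := 
  ⟨fun F hF => by rw [h.null F hF, h'.null F hF, mul_zero, sub_zero], fun C' C C'' e h1 h2 => by
    rw [h.ext C' C C'' e h1 h2, h'.ext C' C C'' e h1 h2]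
    ring⟩

theorem addFun_chi {R' : Type u} [CommRing R'] (φ : R →+* R') (Λ : Len R') (N : Type u)
    [AddCommGroup N] [Module R' N] (a : Ideal R) (h : Thick Λ N (a.map φ)) :
    AddFun a fun F => ((F.map φ).on N).chi Λ := by
  have key : ∀ C : Cx R, a ≤ C.Null.radical → ((C.map φ).on N).h Λ ≠ ⊤ := fun C hC =>
    h _ ((Ideal.map_mono hC).trans ((Ideal.map_radical_le φ).trans
      (Ideal.radical_mono ((C.map_Null_le φ).trans le_sup_left))))
  refine ⟨fun F hF => DG.chi_eq_zero_of_h Λ (Cx.h_on_of_null Λ _ (top_le_iff.1 ?_)),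
    fun C' C C'' e h1 h2 => (e.map φ).chi_add Λ (key C' h1) (key C'' h2)⟩
  have := F.map_Null_le φ
  rwa [hF, Ideal.map_top] at this

theorem dev_shift {a : Ideal R} {ψ : Cx R → ℝ} (h : AddFun a ψ) {F : Cx R}
    (hF : a ≤ F.Null.radical) : ψ F.devShift = -ψ F := by
  have h1 := h.ext _ _ _ F.dev_isExt_kos hF (hF.trans (Ideal.radical_mono F.dev_null_shift))
  rw [h.null _ ((Ideal.eq_top_iff_one _).2 (F.mem_Null_kos 1))] at h1
  linarith

theorem dev_null_top {F : Cx R} {Y : Type u} [AddCommGroup Y] [Module R Y] [Subsingleton Y]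
    (h : F.IsRes Y) : F.Null = ⊤ :=
  top_le_iff.1 (le_trans (fun r _ => Module.mem_annihilator.2 fun _ => Subsingleton.elim _ _)
    h.le_Null)

theorem dev_res_eq {a : Ideal R} {ψ : Cx R → ℝ} (h : AddFun a ψ) {Y : Type u} [AddCommGroup Y]
    [Module R Y] (ha : a ≤ (Module.annihilator R Y).radical) {F G : Cx R} (hF : F.IsRes Y)
    (hG : G.IsRes Y) : ψ F = ψ G := by
  obtain ⟨C, hC, e⟩ := Cx.dev_res_cone (Y'' := PUnit.{u + 1}) LinearMap.id 0 Function.injective_id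
    (fun y => ⟨fun _ => ⟨y, rfl⟩, fun _ => rfl⟩) (fun _ => ⟨0, rfl⟩) hG hF
  have hG' := ha.trans (Ideal.radical_mono hG.le_Null)
  have h1 := h.ext _ _ _ e (ha.trans (Ideal.radical_mono hF.le_Null))
    (hG'.trans (Ideal.radical_mono G.dev_null_shift))
  rw [h.null _ (dev_null_top hC), dev_shift h hG'] at h1
  linarith

/-- additivity on short exact sequences of modules. -/
theorem AddFun.res_add {a : Ideal R} {ψ : Cx R → ℝ} (h : AddFun a ψ) {Y' Y Y'' : Type u}
    [AddCommGroup Y'] [Module R Y'] [AddCommGroup Y] [Module R Y] [AddCommGroup Y''] [Module R Y'']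
    (f : Y' →ₗ[R] Y) (g : Y →ₗ[R] Y'') (hf : Function.Injective f) (hfg : Function.Exact f g)
    (hg : Function.Surjective g) (ha : a ≤ (Module.annihilator R Y).radical) {F' F F'' : Cx R}
    (h' : F'.IsRes Y') (h₀ : F.IsRes Y) (h'' : F''.IsRes Y'') : ψ F = ψ F' + ψ F'' := by
  obtain ⟨C, hC, e⟩ := Cx.dev_res_cone f g hf hfg hg h' h₀
  have hG' := ha.trans (Ideal.radical_mono ((f.annihilator_le_of_injective hf).trans h'.le_Null))
  have h1 := h.ext _ _ _ e (ha.trans (Ideal.radical_mono h₀.le_Null))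
    (hG'.trans (Ideal.radical_mono F'.dev_null_shift))
  rw [dev_res_eq h (ha.trans (Ideal.radical_mono (g.annihilator_le_of_surjective hg))) hC h'',
    dev_shift h hG'] at h1
  linarith

theorem AddFun.res_eq {a : Ideal R} {ψ : Cx R → ℝ} (h : AddFun a ψ) {Y : Type u} [AddCommGroup Y]
    [Module R Y] (ha : a ≤ (Module.annihilator R Y).radical) {F G : Cx R} (hF : F.IsRes Y)
    (hG : G.IsRes Y) : ψ F = ψ G := dev_res_eq h ha hF hG

variable [IsLocalRing R] {x : List R}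

theorem dev_pos (hR : RegL R x) {a : Ideal R} {ψ : Cx R → ℝ} (h : AddFun a ψ)
    (h0 : ∀ Q : Ideal R, Q.IsPrime → a ≤ Q → ∀ F : Cx R, F.IsRes (R ⧸ Q) → 0 ≤ ψ F)
    (Y : Type u) [AddCommGroup Y] [Module R Y] [hY : Module.Finite R Y] :
    a ≤ (Module.annihilator R Y).radical → ∀ F : Cx R, F.IsRes Y → 0 ≤ ψ F ∧
      ∀ Q₀ ∈ a.minimalPrimes, (∀ F : Cx R, F.IsRes (R ⧸ Q₀) → 0 < ψ F) →
        Module.annihilator R Y ≤ Q₀ → 0 < ψ F := by
  have := hR.noeth
  induction hY using IsNoetherianRing.induction_on_isQuotientEquivQuotientPrime R with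
  | subsingleton N =>
    refine fun _ F hF => ⟨(h.null F (dev_null_top hF)).ge, fun Q₀ hQ _ hN => ?_⟩
    exact absurd (top_le_iff.1 (le_trans (fun r _ => Module.mem_annihilator.2
      fun _ => Subsingleton.elim _ _) hN)) hQ.1.1.ne_top
  | quotient N p e =>
    intro ha F hF
    rw [e.annihilator_eq, Ideal.annihilator_quotient] at ha ⊢
    rw [p.2.radical] at ha
    refine ⟨h0 p.1 p.2 ha F (hF.congr e), fun Q₀ hQ h1 hN => ?_⟩
    obtain rfl : Q₀ = p.1 := le_antisymm (hQ.2 ⟨p.2, ha⟩ hN) hN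
    exact h1 F (hF.congr e)
  | exact N₁ N₂ N₃ f g hf hg hfg ih₁ ih₃ =>
    intro ha F hF
    obtain ⟨F₁, hF₁, -⟩ := hR.exists_res N₁
    obtain ⟨F₃, hF₃, -⟩ := hR.exists_res N₃
    obtain ⟨a1, b1⟩ := ih₁ (ha.trans (Ideal.radical_mono (f.annihilator_le_of_injective hf))) F₁ hF₁
    obtain ⟨a3, b3⟩ := ih₃ (ha.trans (Ideal.radical_mono (g.annihilator_le_of_surjective hg))) F₃ hF₃
    rw [h.res_add f g hf hfg hg ha hF₁ hF hF₃]
    refine ⟨add_nonneg a1 a3, fun Q₀ hQ h1 hN => ?_⟩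
    have hm : Module.annihilator R N₁ * Module.annihilator R N₃ ≤ Q₀ := by
      refine le_trans (Ideal.mul_le.2 fun r hr s hs => Module.mem_annihilator.2 fun y => ?_) hN
      obtain ⟨z, hz⟩ := (hfg (s • y)).1 (by rw [map_smul, Module.mem_annihilator.1 hs])
      rw [mul_smul, ← hz, ← map_smul, Module.mem_annihilator.1 hr, map_zero]
    rcases hQ.1.1.mul_le.1 hm with hm | hm
    · exact add_pos_of_pos_of_nonneg (b1 Q₀ hQ h1 hm) a3
    · exact add_pos_of_nonneg_of_pos a1 (b3 Q₀ hQ h1 hm)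

theorem dev_zero_res (hR : RegL R x) {a : Ideal R} {ψ : Cx R → ℝ} (h : AddFun a ψ)
    (h0 : ∀ Q : Ideal R, Q.IsPrime → a ≤ Q → ∀ F : Cx R, F.IsRes (R ⧸ Q) → ψ F = 0)
    (Y : Type u) [AddCommGroup Y] [Module R Y] [Module.Finite R Y]
    (ha : a ≤ (Module.annihilator R Y).radical) (F : Cx R) (hF : F.IsRes Y) : ψ F = 0 := by
  have h1 := (dev_pos hR h (fun Q hQ hQ' F hF => (h0 Q hQ hQ' F hF).ge) Y ha F hF).1
  have h2 := (dev_pos hR (h.sub_mul h 2) (fun Q hQ hQ' F hF => by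
    simp [h0 Q hQ hQ' F hF]) Y ha F hF).1
  linarith

theorem AddFun.eq_zero (hR : RegL R x) {a : Ideal R} {ψ : Cx R → ℝ} (h : AddFun a ψ)
    (h0 : ∀ Q : Ideal R, Q.IsPrime → a ≤ Q → ∀ F : Cx R, F.IsRes (R ⧸ Q) → ψ F = 0)
    (F : Cx R) (hF : a ≤ F.Null.radical) : ψ F = 0 := by
  have := hR.noeth
  have key : ∀ (M : ℕ) (F : Cx R), a ≤ F.Null.radical →
      (∀ i, M ≤ i → ∀ x ∈ (F.on R).Z i, x ∈ LinearMap.range (F.on R).d) → ψ F = 0 := by
    intro M
    induction M with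
    | zero =>
      intro F _ hx
      refine h.null F (dev_null_top (Y := PUnit.{u + 1}) ⟨0, fun _ => ⟨0, rfl⟩, fun _ => rfl,
        fun _ => rfl, fun (y : (F.on R).M) hy _ => ?_⟩)
      obtain ⟨L, hL⟩ := (F.on R).bd
      rw [← hL y]
      exact sum_mem fun i _ => hx i (Nat.zero_le i) _ (DG.pr_mem_Z hy i)
    | succ M ih =>
      intro F hF hx
      have : Module.Finite R (F.on R).M := inferInstanceAs (Module.Finite R (F.ι → R))
      obtain ⟨G, hG, -⟩ := hR.exists_res (((F.on R).Z M).map (LinearMap.range (F.on R).d).mkQ)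
      have hann : F.Null ≤
          Module.annihilator R (((F.on R).Z M).map (LinearMap.range (F.on R).d).mkQ) := by
        intro r hr
        refine Module.mem_annihilator.2 ?_
        rintro ⟨_, y, hy, rfl⟩
        refine Subtype.ext ((map_smul (LinearMap.range (F.on R).d).mkQ r y).symm.trans ?_)
        exact (Submodule.Quotient.mk_eq_zero _).2
          (Cx.killsH_of_mem (Ideal.mem_sup_left hr) M y hy)
      obtain ⟨C, e, hC⟩ := Cx.dev_kill M hx (hG.devSh M)
      have hsh : ∀ k, a ≤ (G.devSh k).Null.radical := fun k =>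
        hF.trans (Ideal.radical_mono (hann.trans (hG.le_Null.trans (G.dev_null_sh k))))
      have hz : ∀ k, ψ (G.devSh k) = 0 := by
        intro k
        induction k with
        | zero =>
          rw [Cx.devSh_zero]
          exact dev_zero_res hR h h0 _ (hF.trans (Ideal.radical_mono hann)) G hG
        | succ k ihk => rw [Cx.devSh_succ, dev_shift h (hsh k), ihk, neg_zero]
      rw [← Cx.devSh_succ] at e
      have h1 := h.ext _ _ _ e hF (hsh _)
      rw [hz, add_zero] at h1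
      rw [← h1]
      refine ih C (fun r hr => ?_) hC
      obtain ⟨m, hm⟩ := hF hr
      obtain ⟨k, hk⟩ := hsh (M + 1) hr
      exact ⟨m + k, by rw [pow_add]; exact e.mul_mem_Null hm hk⟩
  obtain ⟨L, hL⟩ := (F.on R).exists_bound
  refine key L F hF fun i hi y hy => ?_
  rw [← (DG.mem_Z.1 hy).2, hL i hi, LinearMap.zero_apply]
  exact zero_mem _

theorem AddFun.pos (hR : RegL R x) {a : Ideal R} {ψ : Cx R → ℝ} (h : AddFun a ψ)
    (h0 : ∀ Q : Ideal R, Q.IsPrime → a ≤ Q → ∀ F : Cx R, F.IsRes (R ⧸ Q) → 0 ≤ ψ F)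
    (Q₀ : Ideal R) (hQ₀ : Q₀ ∈ a.minimalPrimes) (h1 : ∀ F : Cx R, F.IsRes (R ⧸ Q₀) → 0 < ψ F)
    (Y : Type u) [AddCommGroup Y] [Module R Y] [Module.Finite R Y]
    (ha : a ≤ (Module.annihilator R Y).radical) (hY : Module.annihilator R Y ≤ Q₀)
    (F : Cx R) (hF : F.IsRes Y) : 0 < ψ F := (dev_pos hR h h0 Y ha F hF).2 Q₀ hQ₀ h1 hY

end Vale.Agent.P177
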