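import Vale.Agent.P202.MxMult
import Vale.Agent.P177.RegDef

/-! Dimension theory of Noetherian local rings. -/

namespace Vale.Agent.P177

open IsLocalRing RingTheory.Sequence Vale.Agent.P202

universe u

section
variable {T : Type u} [CommRing T] [IsLocalRing T] [IsNoetherianRing T]

omit [IsNoetherianRing T] in
theorem dim_local {I : Ideal T} (hI : I ≠ ⊤) : IsLocalRing (T ⧸ I) :=
  have := Ideal.Quotient.nontrivial_iff.2 hI
  IsLocalRing.of_surjective' (Ideal.Quotient.mk I) Ideal.Quotient.mk_surjective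

theorem dim_kd (A : Type*) [CommRing A] [IsLocalRing A] [IsNoetherianRing A] :
    ringKrullDim A = dimNat A := by
  rw [← IsLocalRing.maximalIdeal_height_eq_ringKrullDim, stepA_dimNat_eq,
    ← WithBot.coe_natCast, ENat.natCast_toNat Ideal.height_ne_top_of_isPrime]

theorem dim_kd_quot {I : Ideal T} (hI : I ≠ ⊤) : ringKrullDim (T ⧸ I) = dimNat (T ⧸ I) :=
  have := dim_local hI
  dim_kd _

theorem dim_congr {A B : Type*} [CommRing A] [CommRing B] (e : A ≃+* B) : dimNat A = dimNat B := by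
  rw [dimNat, dimNat, ringKrullDim_eq_of_ringEquiv e]

theorem dim_top {A : Type*} [CommRing A] : dimNat (A ⧸ (⊤ : Ideal A)) = 0 := by
  rw [dimNat, ringKrullDim_eq_bot_of_subsingleton]; rfl

omit [IsNoetherianRing T] in
theorem dim_sop_iff {I : Ideal T} (hI : I ≠ ⊤) [IsLocalRing (T ⧸ I)] (w : List T) :
    Sop I w ↔ Sop ⊥ (w.map (Ideal.Quotient.mk I)) := by
  have hm := map_maximalIdeal_of_surjective (Ideal.Quotient.mk I) Ideal.Quotient.mk_surjective
  have hI' : I ≤ maximalIdeal T := le_maximalIdeal hI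
  have key : ∀ a, Ideal.Quotient.mk I a ∈ maximalIdeal (T ⧸ I) ↔ a ∈ maximalIdeal T := fun a => by
    rw [← hm, Ideal.mem_quotient_iff_mem hI']
  have key2 : ∀ a, Ideal.Quotient.mk I a ∈ (⊥ ⊔ Ideal.ofList (w.map (Ideal.Quotient.mk I))).radical ↔
      a ∈ (I ⊔ Ideal.ofList w).radical := fun a => by
    rw [bot_sup_eq, ← Ideal.map_ofList, Ideal.mem_radical_iff, Ideal.mem_radical_iff]
    refine exists_congr fun n => ?_
    rw [← map_pow, Ideal.mem_quotient_iff_mem_sup, sup_comm]
  constructor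
  · intro h
    refine ⟨fun a ha => ?_, fun a ha => ?_⟩
    · obtain ⟨b, hb, rfl⟩ := List.mem_map.1 ha
      exact (key b).2 (h.mem b hb)
    · obtain ⟨b, rfl⟩ := Ideal.Quotient.mk_surjective a
      exact (key2 b).2 (h.rad ((key b).1 ha))
  · intro h
    exact ⟨fun a ha => (key a).1 (h.mem _ (List.mem_map_of_mem ha)),
      fun a ha => (key2 a).1 (h.rad ((key a).2 ha))⟩

theorem dim_ofList {A : Type*} [CommRing A] (w : List A) :
    Ideal.span (Set.range w.get) = Ideal.ofList w := by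
  rw [Set.range_list_get]

theorem dim_powIdeal {A B : Type*} [CommRing A] [CommRing B] (f : A →+* B) (w : List A) (M : ℕ) :
    powIdeal (fun i => f (w.get i)) M = (Ideal.ofList (w.map (· ^ M))).map f := by
  rw [Ideal.map_ofList, powIdeal, Ideal.ofList]
  congr 1
  ext a
  constructor
  · rintro ⟨i, rfl⟩
    exact List.mem_map.2 ⟨_, List.mem_map.2 ⟨_, w.get_mem i, rfl⟩, map_pow _ _ _⟩
  · intro ha
    obtain ⟨_, hb, rfl⟩ := List.mem_map.1 ha
    obtain ⟨c, hc, rfl⟩ := List.mem_map.1 hb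
    obtain ⟨i, rfl⟩ := List.mem_iff_get.1 hc
    exact ⟨i, (map_pow _ _ _).symm⟩

theorem dim_length_sup {A : Type*} [CommRing A] (I K : Ideal A) :
    Module.length A (A ⧸ (I ⊔ K)) =
      Module.length (A ⧸ I) ((A ⧸ I) ⧸ K.map (Ideal.Quotient.mk I)) := by
  rw [← (DoubleQuot.quotQuotEquivQuotSupₐ A I K).toLinearEquiv.length_eq]
  exact Module.length_eq_of_surjective (S := A) (R := A ⧸ I)
    (M := (A ⧸ I) ⧸ K.map (Ideal.Quotient.mkₐ A I)) Ideal.Quotient.mk_surjective

omit [IsNoetherianRing T] in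
theorem Sop.dim_mono {I J : Ideal T} {w : List T} (h : Sop I w) (hIJ : I ≤ J) : Sop J w :=
  ⟨h.mem, h.rad.trans (Ideal.radical_mono (sup_le_sup_right hIJ _))⟩

theorem Sop.dim_pow {I : Ideal T} {w : List T} (h : Sop I w) :
    ∃ L, maximalIdeal T ^ L ≤ I ⊔ Ideal.ofList w :=
  Ideal.exists_pow_le_of_le_radical_of_fg h.rad (IsNoetherian.noetherian _)

theorem exists_sop (I : Ideal T) (hI : I ≠ ⊤) :
    ∃ w : List T, w.length = dimNat (T ⧸ I) ∧ Sop I w := by
  have := dim_local hI
  obtain ⟨s, hs, hcard⟩ := (maximalIdeal (T ⧸ I)).exists_finset_card_eq_height_of_isNoetherianRing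
  have hd : dimNat (T ⧸ I) = s.card := by rw [stepA_dimNat_eq, ← hcard, ENat.toNat_natCast]
  choose g hg using Ideal.Quotient.mk_surjective (I := I)
  refine ⟨s.toList.map g, by simp [hd], (dim_sop_iff hI _).2 ?_⟩
  have e : (s.toList.map g).map (Ideal.Quotient.mk I) = s.toList := by
    rw [List.map_map]; simp [Function.comp_def, hg]
  have e2 : Ideal.ofList s.toList = Ideal.span (s : Set (T ⧸ I)) := by
    unfold Ideal.ofList; congr 1; ext a; simp
  rw [e]
  refine ⟨fun a ha => hs.1.2 (Ideal.subset_span (by simpa using ha)), ?_⟩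
  rw [bot_sup_eq, e2, Ideal.radical_eq_sInf]
  exact le_sInf fun q hq => hs.2 ⟨hq.2, hq.1⟩ (le_maximalIdeal hq.2.ne_top)

theorem Sop.dimNat_le {I : Ideal T} {w : List T} (h : Sop I w) :
    dimNat (T ⧸ I) ≤ w.length := by
  by_cases hI : I = ⊤
  · subst hI; rw [dim_top]; exact Nat.zero_le _
  have := dim_local hI
  have h' := (dim_sop_iff hI w).1 h
  obtain ⟨L, hL⟩ := h'.dim_pow
  rw [bot_sup_eq, ← dim_ofList] at hL
  simpa using stepA_dimNat_le _ (by
    rw [dim_ofList]; exact Ideal.span_le.2 fun a ha => h'.mem a ha) L hL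

theorem dimNat_quot_bot : dimNat (T ⧸ (⊥ : Ideal T)) = dimNat T :=
  dim_congr (RingEquiv.quotientBot T)

theorem dimNat_quot_mono {I J : Ideal T} (h : I ≤ J) : dimNat (T ⧸ J) ≤ dimNat (T ⧸ I) := by
  by_cases hI : I = ⊤
  · subst hI; rw [top_le_iff.1 h]
  obtain ⟨w, hw, hs⟩ := exists_sop I hI
  exact hw ▸ (hs.dim_mono h).dimNat_le

theorem dimNat_quot_radical (I : Ideal T) : dimNat (T ⧸ I.radical) = dimNat (T ⧸ I) := by
  refine le_antisymm (dimNat_quot_mono Ideal.le_radical) ?_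
  by_cases hI : I = ⊤
  · subst hI; rw [dim_top]; exact Nat.zero_le _
  obtain ⟨w, hw, hs⟩ := exists_sop I.radical (by rwa [Ne, Ideal.radical_eq_top])
  refine hw ▸ Sop.dimNat_le ⟨hs.mem, hs.rad.trans ?_⟩
  rw [Ideal.radical_sup, Ideal.radical_idem, ← Ideal.radical_sup]

theorem dimNat_quot_lt {P J : Ideal T} [P.IsPrime] (h : P < J) (hJ : J ≠ ⊤) :
    dimNat (T ⧸ J) < dimNat (T ⧸ P) := by
  obtain ⟨c, hc, hc'⟩ := SetLike.exists_of_lt h
  have := ringKrullDim_succ_le_of_surjective (Ideal.Quotient.factor h.le)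
    (Ideal.Quotient.factor_surjective h.le) (r := Ideal.Quotient.mk P c)
    (mem_nonZeroDivisors_of_ne_zero (by rwa [Ne, Ideal.Quotient.eq_zero_iff_mem]))
    (by simpa [Ideal.Quotient.eq_zero_iff_mem] using hc)
  rw [dim_kd_quot hJ, dim_kd_quot (Ideal.IsPrime.ne_top ‹_›)] at this
  exact_mod_cast this

theorem dimNat_quot_eq_zero_iff {P : Ideal T} [P.IsPrime] :
    dimNat (T ⧸ P) = 0 ↔ P = maximalIdeal T := by
  constructor
  · intro h
    by_contra hne
    have := dimNat_quot_lt (lt_of_le_of_ne (le_maximalIdeal (Ideal.IsPrime.ne_top ‹_›)) hne)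
      (maximalIdeal.isMaximal T).ne_top
    omega
  · rintro rfl
    exact Nat.le_zero.1 (Sop.dimNat_le (w := []) ⟨by simp, le_sup_left.trans Ideal.le_radical⟩)

theorem exists_prime_dimNat (I : Ideal T) (hI : I ≠ ⊤) :
    ∃ P : Ideal T, P.IsPrime ∧ I ≤ P ∧ dimNat (T ⧸ P) = dimNat (T ⧸ I) := by
  have h := (dim_kd_quot hI).ge
  rw [ringKrullDim_quotient, Order.le_krullDim_iff] at h
  obtain ⟨l, hl⟩ := h
  have hP := l.head.1.2
  refine ⟨l.head.1.1, hP, l.head.2, le_antisymm (dimNat_quot_mono l.head.2) ?_⟩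
  have h2 : ((dimNat (T ⧸ I) : ℕ) : WithBot ℕ∞) ≤ ringKrullDim (T ⧸ l.head.1.1) := by
    rw [ringKrullDim_quotient, Order.le_krullDim_iff]
    exact ⟨⟨l.length, fun i => ⟨(l i).1, l.head_le i⟩, l.step⟩, hl⟩
  rw [dim_kd_quot hP.ne_top] at h2
  exact_mod_cast h2

/-- one element fewer is needed after cutting with an element outside a prime. -/
theorem exists_sop_sup {P : Ideal T} [P.IsPrime] (hP : 0 < dimNat (T ⧸ P)) {c : T} (hc : c ∉ P) :
    ∃ w : List T, w.length < dimNat (T ⧸ P) ∧ Sop (P ⊔ Ideal.span {c}) w := by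
  by_cases h : P ⊔ Ideal.span {c} = ⊤
  · exact ⟨[], hP, by simp, by rw [h, top_sup_eq, Ideal.radical_top]; exact le_top⟩
  obtain ⟨w, hw, hs⟩ := exists_sop _ h
  refine ⟨w, hw ▸ dimNat_quot_lt (lt_of_le_of_ne le_sup_left fun e => hc ?_) h, hs⟩
  rw [e]; exact Ideal.mem_sup_right (Ideal.mem_span_singleton_self c)

theorem dimNat_quot_comap {S : Type u} [CommRing S] (φ : S →+* T) (hφ : Function.Surjective φ)
    (I : Ideal T) : dimNat (S ⧸ I.comap φ) = dimNat (T ⧸ I) :=
  dim_congr (RingEquiv.ofBijective (Ideal.quotientMap I φ le_rfl)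
    ⟨Ideal.quotientMap_injective, Ideal.quotientMap_surjective hφ⟩)

theorem dimNat_eq_of_finite {S : Type u} [CommRing S] (φ : S →+* T) (hφ : φ.Finite) :
    dimNat (S ⧸ RingHom.ker φ) = dimNat T := by
  have h1 : (RingHom.kerLift φ).Finite :=
    RingHom.Finite.of_comp_finite (f := Ideal.Quotient.mk _) hφ
  let _ := (RingHom.kerLift φ).toAlgebra
  have : Module.Finite (S ⧸ RingHom.ker φ) T := h1
  have : FaithfulSMul (S ⧸ RingHom.ker φ) T :=
    (faithfulSMul_iff_algebraMap_injective _ _).2 (RingHom.kerLift_injective φ)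
  rw [dimNat, dimNat]
  congr 2
  refine le_antisymm (iSup_le fun l => ?_)
    (Order.krullDim_le_of_strictMono (PrimeSpectrum.comap (algebraMap _ T)) fun I J h =>
      Ideal.IsIntegral.comap_lt_comap (R := S ⧸ RingHom.ker φ) h)
  obtain ⟨⟨P, hP, hP'⟩⟩ := Ideal.nonempty_primesOver (S := T) l.head.asIdeal
  obtain ⟨L, hL, -⟩ := Ideal.exists_ltSeries_of_hasGoingUp l P
  rw [← hL]
  exact Order.LTSeries.length_le_krullDim L

theorem length_quot_ne_top {I : Ideal T} (h : maximalIdeal T ≤ I.radical) :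
    Module.length T (T ⧸ I) ≠ ⊤ := by
  obtain ⟨L, hL⟩ := Ideal.exists_pow_le_of_le_radical_of_fg h (IsNoetherian.noetherian _)
  exact P202.length_quot_ne_top (IsNoetherian.noetherian _) L I (by rwa [smul_top_ideal])

/-- upper bound for the Hilbert-Samuel function. -/
theorem exists_length_pow_le {q : Ideal T} (h : maximalIdeal T ≤ q.radical) :
    ∃ C : ℕ, ∀ j : ℕ, Module.length T (T ⧸ q ^ j) ≤ (C * j ^ dimNat T : ℕ) := by
  have hfg : (maximalIdeal T).FG := IsNoetherian.noetherian _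
  obtain ⟨L, hL⟩ := Ideal.exists_pow_le_of_le_radical_of_fg h hfg
  obtain ⟨c, hc⟩ := stepA_growth T
  refine ⟨⌈c⌉₊ * (L + 1) ^ dimNat T, fun j => ?_⟩
  rcases Nat.eq_zero_or_pos j with rfl | hj
  · rw [pow_zero, Ideal.one_eq_top, Module.length_eq_zero]; exact zero_le
  have h1 : maximalIdeal T ^ (L * j) ≤ q ^ j := by rw [pow_mul]; exact Ideal.pow_right_mono hL j
  have h2 := stepA_len_mono hfg (L * j) le_rfl h1
  have h3 : Module.length T (T ⧸ q ^ j) ≠ ⊤ :=
    P202.length_quot_ne_top hfg (L * j) _ (by rwa [smul_top_ideal])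
  rw [← ENat.natCast_toNat h3, Nat.cast_le]
  refine h2.trans ?_
  have h4 : (len T (T ⧸ maximalIdeal T ^ (L * j)) : ℝ) ≤
      ((⌈c⌉₊ * (L + 1) ^ dimNat T * j ^ dimNat T : ℕ) : ℝ) := by
    refine (hc _).trans ?_
    have : (1 : ℝ) ≤ j := by exact_mod_cast hj
    push_cast
    rw [mul_assoc, ← mul_pow]
    gcongr
    · exact Nat.le_ceil c
    · linarith
  exact_mod_cast h4

/-- lower bound for parameter ideals. -/
theorem Sop.pow_le_length {I : Ideal T} (hI : I ≠ ⊤) {w : List T} (h : Sop I w)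
    (hl : w.length = dimNat (T ⧸ I)) (M : ℕ) :
    ((M ^ w.length : ℕ) : ℕ∞) ≤ Module.length T (T ⧸ (I ⊔ Ideal.ofList (w.map (· ^ M)))) := by
  have := dim_local hI
  have h' := (dim_sop_iff hI w).1 h
  obtain ⟨L, hL⟩ := h'.dim_pow
  have e0 : Ideal.span (Set.range fun i => Ideal.Quotient.mk I (w.get i)) =
      Ideal.ofList (w.map (Ideal.Quotient.mk I)) := by
    rw [← Ideal.map_ofList, ← dim_ofList, Ideal.map_span, ← Set.range_comp]; rfl
  rw [bot_sup_eq, ← e0] at hL
  have h1 := mult_mul_pow_le hl.symm (fun i => Ideal.Quotient.mk I (w.get i))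
    (fun i => h'.mem _ (List.mem_map_of_mem (w.get_mem i))) L hL M
  have h2 := (tendsto_hsSeq_gen (T ⧸ I)).2
  rw [dim_powIdeal] at h1
  have h3 : M ^ w.length ≤ len (T ⧸ I) ((T ⧸ I) ⧸
      (Ideal.ofList (w.map (· ^ M))).map (Ideal.Quotient.mk I)) := by
    have : ((M ^ w.length : ℕ) : ℝ) ≤ mult (T ⧸ I) * (M : ℝ) ^ w.length := by
      push_cast; exact le_mul_of_one_le_left (by positivity) h2
    exact_mod_cast this.trans h1
  rw [dim_length_sup]
  exact le_trans (Nat.cast_le.2 h3) (ENat.natCast_toNat_le_self _)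

theorem supportDim_eq (M : Type u) [AddCommGroup M] [Module T M] [Module.Finite T M]
    [Nontrivial M] :
    Module.supportDim T M = (dimNat (T ⧸ Module.annihilator T M) : ℕ) := by
  rw [Module.supportDim_eq_ringKrullDim_quotient_annihilator, dim_kd_quot]
  rw [Ne, Module.annihilator_eq_top_iff]
  exact not_subsingleton M

theorem le_radical_of_length_tensor (M N : Type u) [AddCommGroup M] [Module T M]
    [Module.Finite T M] [AddCommGroup N] [Module T N] [Module.Finite T N]
    (h : Module.length T (TensorProduct T M N) ≠ ⊤) :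
    maximalIdeal T ≤ (Module.annihilator T M ⊔ Module.annihilator T N).radical := by
  rw [Ideal.radical_eq_sInf]
  refine le_sInf fun q ⟨hq, hp⟩ => ?_
  let p : PrimeSpectrum T := ⟨q, hp⟩
  have h1 : p ∈ Module.support T M := Module.mem_support_iff_of_finite.2 (le_sup_left.trans hq)
  have h2 : p ∈ Module.support T N := Module.mem_support_iff_of_finite.2 (le_sup_right.trans hq)
  rw [Module.mem_support_iff_nontrivial_residueField_tensorProduct] at h1 h2
  have h3 : p ∈ Module.support T (TensorProduct T M N) := by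
    rw [Module.mem_support_iff_nontrivial_residueField_tensorProduct,
      (TensorProduct.AlgebraTensorModule.distribBaseChange T _ M N).toEquiv.nontrivial_congr,
      Module.FaithfullyFlat.nontrivial_tensorProduct_iff_right]
    exact h2
  have h4 := Module.annihilator_le_of_mem_support h3
  rw [Module.length_ne_top_iff, isFiniteLength_iff_isNoetherian_isArtinian] at h
  obtain ⟨_, _⟩ := h
  obtain ⟨n, hn⟩ := IsArtinian.monotone_stabilizes (R := T) (M := TensorProduct T M N)
    ⟨fun k => maximalIdeal T ^ k • (⊤ : Submodule T (TensorProduct T M N)),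
      fun _ _ h => Submodule.smul_mono_left (Ideal.pow_le_pow_right h)⟩
  have h5 : maximalIdeal T ^ n • (⊤ : Submodule T (TensorProduct T M N)) = ⊥ := by
    refine Submodule.eq_bot_of_le_smul_of_le_jacobson_bot (maximalIdeal T) _
      (IsNoetherian.noetherian _) (le_of_eq ?_) (maximalIdeal_le_jacobson _)
    rw [← mul_smul, ← pow_succ']
    exact hn (n + 1) (Nat.le_succ n)
  refine Ideal.IsPrime.le_of_pow_le (n := n) (le_trans ?_ h4)
  rw [← Submodule.annihilator_top, Submodule.le_annihilator_iff]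
  exact h5

end

end Vale.Agent.P177
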