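import Vale.Agent.P177.DG

/-! Complexes with a cyclic action. -/

namespace Vale.Agent.P177

open scoped ENNReal

universe u

/-- a complex with an action of the cyclic group of order `l`. -/
structure EDG (R : Type u) [CommRing R] (l : ℕ) extends DG R where
  τ : M →ₗ[R] M
  τ_d : ∀ x, τ (d x) = d (τ x)
  τ_pr : ∀ i x, τ (pr i x) = pr i (τ x)
  τ_pow : ∀ x, (τ ^ l) x = x

namespace EDG

variable {R : Type u} [CommRing R] {l : ℕ}

theorem mem_inv (X : EDG R l) {x : X.M} : x ∈ LinearMap.ker (X.τ - LinearMap.id) ↔ X.τ x = x :=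
  sub_eq_zero

theorem stable_inv (X : EDG R l) : X.toDG.Stable (LinearMap.ker (X.τ - LinearMap.id)) := by
  exact ⟨fun x hx => X.mem_inv.2 (by rw [X.τ_d, X.mem_inv.1 hx]),
    fun i x hx => X.mem_inv.2 (by rw [X.τ_pr, X.mem_inv.1 hx])⟩

/-- invariants. -/
def inv (X : EDG R l) : DG R := X.toDG.sub _ X.stable_inv

/-- `l - 1` times the cyclic Adams operation. -/
noncomputable def psi (Λ : Len R) (X : EDG R l) : ℝ := l * X.inv.chi Λ - X.toDG.chi Λ

structure Stable (X : EDG R l) (A : Submodule R X.M) : Prop extends X.toDG.Stable A where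
  τ : ∀ x ∈ A, X.τ x ∈ A

def sub (X : EDG R l) (A : Submodule R X.M) (hA : X.Stable A) : EDG R l where
  toDG := X.toDG.sub A hA.toStable
  τ := X.τ.restrict hA.τ
  τ_d x := Subtype.ext (X.τ_d x.1)
  τ_pr i x := Subtype.ext (X.τ_pr i x.1)
  τ_pow x := (LinearMap.congr_fun (Module.End.pow_restrict l hA.τ) x).trans
    (Subtype.ext (X.τ_pow x.1))

structure Hom (X Y : EDG R l) extends DG.Hom X.toDG Y.toDG where
  τ : ∀ x, f (X.τ x) = Y.τ (f x)

variable (Λ : Len R) {X X' X'' Y : EDG R l}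

theorem map_pow (f : X.M →ₗ[R] Y.M) (hf : ∀ x, f (X.τ x) = Y.τ (f x)) (k : ℕ) (x : X.M) :
    f ((X.τ ^ k) x) = (Y.τ ^ k) (f x) := by
  induction k with
  | zero => rfl
  | succ k ih => rw [pow_succ', pow_succ', Module.End.mul_apply, hf, ih, Module.End.mul_apply]

theorem pow_inv {x : X.M} (h : X.τ x = x) (k : ℕ) : (X.τ ^ k) x = x := by
  induction k with
  | zero => rfl
  | succ k ih => rw [pow_succ, Module.End.mul_apply, h, ih]

/-- the norm map. -/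
noncomputable def nm (X : EDG R l) : X.M →ₗ[R] X.M := ∑ k ∈ Finset.range l, X.τ ^ k

theorem nm_apply (x : X.M) : X.nm x = ∑ k ∈ Finset.range l, (X.τ ^ k) x :=
  LinearMap.sum_apply _ _ _

theorem τ_nm (x : X.M) : X.τ (X.nm x) = X.nm x := by
  have h := (Finset.sum_range_succ' (fun k => (X.τ ^ k) x) l).symm.trans
    (Finset.sum_range_succ _ l)
  simp only [X.τ_pow, pow_zero, Module.End.one_apply, add_left_inj, pow_succ',
    Module.End.mul_apply] at h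
  rw [nm_apply, map_sum, h]

theorem map_nm (f : X.M →ₗ[R] Y.M) (hf : ∀ x, f (X.τ x) = Y.τ (f x)) (x : X.M) :
    f (X.nm x) = Y.nm (f x) := by
  simp only [nm_apply, map_sum, map_pow f hf]

/-- the averaging map. -/
noncomputable def av (hl : IsUnit (l : R)) (X : EDG R l) (x : X.M) : X.inv.M :=
  ⟨(↑hl.unit⁻¹ : R) • X.nm x, X.mem_inv.2 (by rw [map_smul, τ_nm])⟩

theorem map_av (hl : IsUnit (l : R)) (f : X.M →ₗ[R] Y.M) (hf : ∀ x, f (X.τ x) = Y.τ (f x))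
    (x : X.M) : f (X.av hl x).1 = (Y.av hl (f x)).1 := by
  simp only [av, map_smul, map_nm f hf]

theorem av_inv (hl : IsUnit (l : R)) (x : X.inv.M) : X.av hl x.1 = x := by
  refine Subtype.ext ?_
  simp only [av, nm_apply, pow_inv (X.mem_inv.1 x.2), Finset.sum_const, Finset.card_range,
    ← Nat.cast_smul_eq_nsmul R, smul_smul, IsUnit.val_inv_mul, one_smul]

theorem mem_range_inv (hl : IsUnit (l : R)) (x : X.inv.M) (h : x.1 ∈ LinearMap.range X.d) :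
    x ∈ LinearMap.range X.inv.d := by
  obtain ⟨y, hy⟩ := h
  refine ⟨X.av hl y, Subtype.ext ((map_av hl X.d (fun x => (X.τ_d x).symm) y).trans ?_)⟩
  rw [hy, av_inv]

/-- the map induced on invariants. -/
def Hom.inv (φ : Hom X Y) : DG.Hom X.inv Y.inv :=
  ⟨φ.f.restrict fun x hx => Y.mem_inv.2 (by rw [← φ.τ, X.mem_inv.1 hx]),
    fun x => Subtype.ext (φ.d x.1), fun i x => Subtype.ext (φ.pr i x.1)⟩

theorem sub_hl {Z : DG R} (A : Submodule R Z.M) (hA : Z.Stable A) {i : ℕ} (h : Z.pr i = 0) :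
    (Z.sub A hA).hl Λ i = 0 :=
  DG.hl_eq_zero Λ (LinearMap.ext fun x => Subtype.ext (LinearMap.congr_fun h x.1))

theorem chi_sum (Z : DG R) {κ : Type} [Fintype κ] [DecidableEq κ] (A : κ → Submodule R Z.M)
    (hA : ∀ k, Z.Stable (A k)) (h : DirectSum.IsInternal A) (hfin : Z.h Λ ≠ ⊤) :
    Z.chi Λ = ∑ k, (Z.sub (A k) (hA k)).chi Λ := by
  obtain ⟨L, hL⟩ := Z.exists_bound
  rw [DG.chi_eq_sum Λ fun i hi => DG.hl_eq_zero Λ (hL i hi), Finset.sum_congr rfl fun k _ =>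
    DG.chi_eq_sum Λ fun i hi => sub_hl Λ (A k) (hA k) (hL i hi), Finset.sum_comm]
  refine Finset.sum_congr rfl fun i _ => ?_
  have h1 := ne_top_of_le_ne_top hfin (Z.hl_le_h Λ i)
  rw [Z.hl_eq_sum_of_internal Λ A hA h] at h1 ⊢
  rw [ENNReal.toReal_sum (ENNReal.sum_ne_top.1 h1), Finset.mul_sum]

theorem chi_val {Z W : DG R} (f : Z.M →ₗ[R] W.M) (hf : Function.Bijective f)
    (hp : ∀ i x, f (Z.pr i x) = W.pr i (f x)) (h : Λ.val Z.M ≠ ⊤) : Z.chi Λ = W.chi Λ := by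
  rw [DG.chi_eq_of_val Λ h, DG.chi_eq_of_val Λ (Λ.congr (LinearEquiv.ofBijective f hf) ▸ h)]
  refine finsum_congr fun i => ?_
  rw [← Λ.rel_bot, ← Λ.rel_bot, DGAux_eq Λ f (A := LinearMap.range (Z.pr i)) (B := ⊥)
    (A' := LinearMap.range (W.pr i)) (B' := ⊥)
    (fun _ ⟨x, hx⟩ => ⟨f x, by rw [← hp, hx]⟩) (fun _ ⟨y, hy⟩ => ?_)
    fun x _ => map_eq_zero_iff f hf.1]
  obtain ⟨x, rfl⟩ := hf.2 y
  exact ⟨_, ⟨x, rfl⟩, by rw [hp, hy, sub_self]; exact zero_mem _⟩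

theorem inv_h_le (hl : IsUnit (l : R)) (X : EDG R l) : X.inv.h Λ ≤ X.toDG.h Λ := by
  exact DGAux_le_inj Λ (Submodule.subtype _) (fun x hx => congrArg Subtype.val hx)
    fun x _ hx => mem_range_inv hl x hx

theorem psi_eq_zero_of_h (hl : IsUnit (l : R)) (h : X.toDG.h Λ = 0) : X.psi Λ = 0 := by
  rw [psi, DG.chi_eq_zero_of_h Λ h, DG.chi_eq_zero_of_h Λ (le_zero_iff.1 (h ▸ inv_h_le Λ hl X)),
    mul_zero, sub_zero]

theorem psi_congr (hl : IsUnit (l : R)) (φ : Hom X Y) (h : φ.toHom.QIso) :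
    X.psi Λ = Y.psi Λ := by
  have h' : φ.inv.QIso := by
    refine ⟨fun x hx ⟨y, hy⟩ => mem_range_inv hl x (h.inj _ (congrArg Subtype.val hx)
      ⟨y.1, congrArg Subtype.val hy⟩), fun y hy => ?_⟩
    obtain ⟨x, h1, w, h2⟩ := h.surj y.1 (congrArg Subtype.val hy)
    refine ⟨X.av hl x, Subtype.ext ((map_av hl X.d (fun x => (X.τ_d x).symm) x).trans ?_),
      Y.av hl w, Subtype.ext ((map_av hl Y.d (fun x => (Y.τ_d x).symm) w).trans ?_)⟩
    · rw [h1]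
      exact congrArg Subtype.val (av_inv hl 0)
    · show _ = φ.f (X.av hl x).1 - y.1
      rw [map_av hl φ.f φ.τ, h2]
      refine .trans ?_ (congrArg (fun t => _ - t.1) (av_inv hl y))
      simp only [av, map_sub, smul_sub]
  rw [psi, psi, DG.chi_congr Λ (h.hl_eq Λ), DG.chi_congr Λ (h'.hl_eq Λ)]

theorem psi_add (hl : IsUnit (l : R)) (f : Hom X' X) (g : Hom X X'')
    (hf : Function.Injective f.f) (hfg : Function.Exact f.f g.f) (hg : Function.Surjective g.f)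
    (h' : X'.toDG.h Λ ≠ ⊤) (h'' : X''.toDG.h Λ ≠ ⊤) : X.psi Λ = X'.psi Λ + X''.psi Λ := by
  rw [psi, psi, psi, DG.chi_add Λ f.toHom g.toHom hf hfg hg h' h'',
    DG.chi_add Λ f.inv g.inv (fun x y h => Subtype.ext (hf (congrArg Subtype.val h)))
      (fun x => ⟨fun h => ?_, fun ⟨y, hy⟩ => hy ▸ Subtype.ext (hfg.apply_apply_eq_zero _)⟩)
      (fun y => ?_) (ne_top_of_le_ne_top h' (inv_h_le Λ hl X'))
      (ne_top_of_le_ne_top h'' (inv_h_le Λ hl X''))]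
  · ring
  · obtain ⟨y, hy⟩ := (hfg x.1).1 (congrArg Subtype.val h)
    exact ⟨⟨y, X'.mem_inv.2 (hf (by rw [f.τ, hy, X.mem_inv.1 x.2]))⟩, Subtype.ext hy⟩
  · obtain ⟨x, hx⟩ := hg y.1
    exact ⟨X.av hl x, Subtype.ext ((map_av hl g.f g.τ x).trans (by rw [hx, av_inv]))⟩

theorem psi_of_trivial (X : EDG R l) (h : ∀ x, X.τ x = x) :
    X.psi Λ = ((l : ℝ) - 1) * X.toDG.chi Λ := by
  rw [psi, show X.inv.chi Λ = X.toDG.chi Λ from DG.chi_congr Λ
    (((X.toDG.subHom _ X.stable_inv).qIso_of_bijective ⟨Subtype.val_injective,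
      fun x => ⟨⟨x, X.mem_inv.2 (h x)⟩, rfl⟩⟩).hl_eq Λ)]
  ring

/-- induced complexes contribute nothing. -/
theorem psi_of_induced (X : EDG R l) (hl : l ≠ 0) (A : Submodule R X.M) (hA : X.toDG.Stable A)
    (h : DirectSum.IsInternal fun k : Fin l => A.map (X.τ ^ (k : ℕ))) (hfin : X.toDG.h Λ ≠ ⊤) :
    X.psi Λ = 0 := by
  have : NeZero l := ⟨hl⟩
  have h1 : X.τ ^ l = 1 := LinearMap.ext X.τ_pow
  have hT : ∀ j k : Fin l, X.τ ^ ((j + k : Fin l) : ℕ) = X.τ ^ (j : ℕ) * X.τ ^ (k : ℕ) :=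
    fun j k => by rw [Fin.val_add, ← pow_eq_pow_mod _ h1, pow_add]
  have hinj : ∀ k : ℕ, Function.Injective (X.τ ^ k) := fun k =>
    (Module.End.isUnit_iff _).1 ((IsUnit.of_pow_eq_one h1 hl).pow k) |>.1
  have hd := map_pow X.d fun x => (X.τ_d x).symm
  have hp := fun i => map_pow (X.pr i) fun x => (X.τ_pr i x).symm
  have hS : ∀ k : Fin l, X.toDG.Stable (A.map (X.τ ^ (k : ℕ))) := fun k =>
    ⟨fun _ ⟨x, hx, e⟩ => ⟨_, hA.d x hx, by rw [← hd, e]⟩,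
      fun i _ ⟨x, hx, e⟩ => ⟨_, hA.pr i x hx, by rw [← hp, e]⟩⟩
  have h2 : ∀ (k : Fin l) i, (X.toDG.sub A hA).hl Λ i = (X.toDG.sub _ (hS k)).hl Λ i := fun k =>
    (DG.Hom.qIso_of_bijective (X := X.toDG.sub A hA) (Y := X.toDG.sub _ (hS k))
      ⟨(X.τ ^ (k : ℕ)).restrict fun x hx => ⟨x, hx, rfl⟩,
      fun x => Subtype.ext (hd k x.1).symm, fun i x => Subtype.ext (hp i k x.1).symm⟩
      ⟨fun x y h => Subtype.ext (hinj k (congrArg Subtype.val h)),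
        fun ⟨_, x, hx, e⟩ => ⟨⟨x, hx⟩, Subtype.ext e⟩⟩).hl_eq Λ
  have hn : ∀ x, X.nm x = ∑ k : Fin l, (X.τ ^ (k : ℕ)) x := fun x => by
    rw [nm_apply, Fin.sum_univ_eq_sum_range fun k => (X.τ ^ k) x]
  have h3 : (X.toDG.sub A hA).chi Λ = X.inv.chi Λ := by
    refine DG.chi_congr Λ ((DG.Hom.qIso_of_bijective (X := X.toDG.sub A hA) (Y := X.inv)
      ⟨X.nm.restrict fun x _ => X.mem_inv.2 (τ_nm x),
      fun x => Subtype.ext (map_nm X.d (fun x => (X.τ_d x).symm) x.1).symm,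
      fun i x => Subtype.ext (map_nm (X.pr i) (fun x => (X.τ_pr i x).symm) x.1).symm⟩
      ⟨fun x y e => Subtype.ext (hinj ((0 : Fin l) : ℕ) (DGAux_uniq h (fun k => ⟨_, x.2, rfl⟩)
        (fun k => ⟨_, y.2, rfl⟩) ((hn _).symm.trans ((congrArg Subtype.val e).trans (hn _))) 0)),
        fun y => ?_⟩).hl_eq Λ)
    obtain ⟨b, hb, e⟩ := DGAux_ex h y.1
    choose a ha ea using hb
    refine ⟨⟨a 0, ha 0⟩, Subtype.ext ((hn _).trans (.trans (Finset.sum_congr rfl fun j _ => ?_) e))⟩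
    have h4 := DGAux_uniq h (a := fun k => (X.τ ^ (k : ℕ)) (a (k - j))) (b := b)
      (fun k => ⟨_, ha _, rfl⟩) (fun k => ⟨_, ha k, ea k⟩) (by
        rw [e, ← pow_inv (X.mem_inv.1 y.2) j, ← e, map_sum, ← Equiv.sum_comp (Equiv.addLeft j)]
        refine Finset.sum_congr rfl fun k _ => ?_
        rw [Equiv.coe_addLeft, hT, add_sub_cancel_left, Module.End.mul_apply, ea]) j
    rwa [sub_self] at h4
  rw [psi, chi_sum Λ X.toDG _ hS h hfin, Finset.sum_congr rfl fun k _ => (DG.chi_congr Λ (h2 k)).symm,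
    Finset.sum_const, Finset.card_univ, Fintype.card_fin, nsmul_eq_mul, h3, sub_self]

theorem psi_eq_sum_of_internal (hl : IsUnit (l : R)) (X : EDG R l) {κ : Type} [Fintype κ]
    [DecidableEq κ]
    (A : κ → Submodule R X.M) (hA : ∀ k, X.Stable (A k)) (h : DirectSum.IsInternal A)
    (hfin : X.toDG.h Λ ≠ ⊤) : X.psi Λ = ∑ k, (X.sub (A k) (hA k)).psi Λ := by
  let A' : κ → Submodule R X.inv.M := fun k => (A k).comap (Submodule.subtype _)
  have hA' : ∀ k, X.inv.Stable (A' k) := fun k =>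
    ⟨fun x hx => (hA k).d x.1 hx, fun i x hx => (hA k).pr i x.1 hx⟩
  have h' : DirectSum.IsInternal A' := by
    refine DirectSum.isInternal_submodule_of_iSupIndep_of_iSup_eq_top
      ((iSupIndep_iff_finsetSum_eq_zero_imp_eq_zero A').2 fun s v hv e i hi => Subtype.ext
        ((iSupIndep_iff_finsetSum_eq_zero_imp_eq_zero A).1 h.submodule_iSupIndep s
          (fun k => (v k).1) hv ((map_sum (Submodule.subtype _) v s).symm.trans
            (congrArg Subtype.val e)) i hi)) (eq_top_iff.2 fun y _ => ?_)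
    obtain ⟨a, ha, e⟩ := DGAux_ex h y.1
    have h1 := DGAux_uniq h (fun k => (hA k).τ _ (ha k)) ha (by rw [← map_sum, e, X.mem_inv.1 y.2])
    rw [show y = ∑ k, (⟨a k, X.mem_inv.2 (h1 k)⟩ : X.inv.M) from
      Subtype.ext (e.symm.trans (map_sum (Submodule.subtype _)
        (fun k => (⟨a k, X.mem_inv.2 (h1 k)⟩ : X.inv.M)) _).symm)]
    exact sum_mem fun k _ => Submodule.mem_iSup_of_mem k (ha k)
  rw [psi, chi_sum Λ X.toDG A (fun k => (hA k).toStable) h hfin,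
    chi_sum Λ X.inv A' hA' h' (ne_top_of_le_ne_top hfin (inv_h_le Λ hl X)), Finset.mul_sum,
    ← Finset.sum_sub_distrib]
  refine Finset.sum_congr rfl fun k _ => congrArg
    (fun t : ℝ => l * t - (X.sub (A k) (hA k)).toDG.chi Λ) (DG.chi_congr Λ
    ((DG.Hom.qIso_of_bijective (X := X.inv.sub (A' k) (hA' k)) (Y := (X.sub (A k) (hA k)).inv)
      ⟨⟨⟨fun x => ⟨⟨x.1.1, x.2⟩, (X.sub (A k) (hA k)).mem_inv.2
        (Subtype.ext (X.mem_inv.1 x.1.2))⟩, fun _ _ => rfl⟩, fun _ _ => rfl⟩,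
        fun _ => rfl, fun _ _ => rfl⟩
      ⟨fun x y e => Subtype.ext (Subtype.ext (congrArg (fun t => t.1.1) e)),
        fun y => ⟨⟨⟨y.1.1, X.mem_inv.2 (congrArg Subtype.val
          ((X.sub (A k) (hA k)).mem_inv.1 y.2))⟩, y.1.2⟩, rfl⟩⟩).hl_eq Λ))

theorem psi_eq_sum_of_filt (hl : IsUnit (l : R)) (X : EDG R l) (n : ℕ) (A : ℕ → Submodule R X.M)
    (hA : ∀ w, X.Stable (A w)) (h0 : A 0 = ⊥) (hn : A n = ⊤) (Y : ℕ → EDG R l)
    (g : ∀ w, Hom (X.sub (A (w + 1)) (hA _)) (Y w))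
    (hg : ∀ w, w < n → Function.Surjective (g w).f)
    (hk : ∀ w, w < n → ∀ x : A (w + 1), (g w).f x = 0 ↔ (x : X.M) ∈ A w)
    (hm : ∀ w, A w ≤ A (w + 1)) (hfin : ∀ w, w < n → (Y w).toDG.h Λ ≠ ⊤) :
    X.psi Λ = ∑ w ∈ Finset.range n, (Y w).psi Λ := by
  have key : ∀ m ≤ n, (X.sub (A m) (hA m)).toDG.h Λ ≠ ⊤ ∧
      (X.sub (A m) (hA m)).psi Λ = ∑ w ∈ Finset.range m, (Y w).psi Λ := by
    intro m
    induction m with
    | zero =>
      have h1 : (X.sub (A 0) (hA 0)).toDG.h Λ = 0 :=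
        DG.Acyclic.h_eq_zero Λ fun x _ => ⟨0, (map_zero _).trans
          (Subtype.ext ((Submodule.mem_bot R).1 (h0 ▸ x.2)).symm)⟩
      exact fun _ => ⟨h1 ▸ ENNReal.zero_ne_top, psi_eq_zero_of_h Λ hl h1⟩
    | succ m ih =>
      intro hmn
      obtain ⟨h1, h2⟩ := ih (Nat.le_of_succ_le hmn)
      let f : Hom (X.sub (A m) (hA m)) (X.sub (A (m + 1)) (hA _)) :=
        ⟨X.toDG.inclHom (hA m).toStable (hA _).toStable (hm m), fun _ => rfl⟩
      have hf : Function.Injective f.f := Submodule.inclusion_injective (hm m)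
      have hfg : Function.Exact f.f (g m).f := fun x =>
        (hk m hmn x).trans ⟨fun h => ⟨⟨_, h⟩, rfl⟩, fun ⟨y, hy⟩ => hy ▸ y.2⟩
      rw [Finset.sum_range_succ, ← h2]
      exact ⟨ne_top_of_le_ne_top (ENNReal.add_ne_top.2 ⟨h1, hfin m hmn⟩)
        (DG.h_le_add Λ f.toHom (g m).toHom hf hfg (hg m hmn)),
        psi_add Λ hl f (g m) hf hfg (hg m hmn) h1 (hfin m hmn)⟩
  exact (psi_congr Λ hl (X := X.sub (A n) (hA n))
    ⟨X.toDG.subHom _ (hA n).toStable, fun _ => rfl⟩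
    (DG.Hom.qIso_of_bijective _ ⟨Subtype.val_injective,
      fun x => ⟨⟨x, hn ▸ Submodule.mem_top⟩, rfl⟩⟩)).symm.trans (key n le_rfl).2

/-- for termwise finite complexes the differential is irrelevant. -/
theorem psi_eq_of_val (hl : IsUnit (l : R)) (e : X.M ≃ₗ[R] Y.M)
    (hp : ∀ i x, e (X.pr i x) = Y.pr i (e x)) (hτ : ∀ x, e (X.τ x) = Y.τ (e x))
    (h : Λ.val X.M ≠ ⊤) : X.psi Λ = Y.psi Λ := by
  rw [psi, psi, chi_val Λ e.toLinearMap e.bijective hp h, chi_val Λ (Z := X.inv) (W := Y.inv)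
    (e.toLinearMap.restrict fun x hx => Y.mem_inv.2 ((hτ x).symm.trans
      (congrArg e (X.mem_inv.1 hx))))
    ⟨fun x y h => Subtype.ext (e.injective (congrArg Subtype.val h)), fun y => ?_⟩
    (fun i x => Subtype.ext (hp i x.1))
    (ne_top_of_le_ne_top h (Λ.le_of_injective _ (Submodule.subtype_injective _)))]
  obtain ⟨x, hx⟩ := e.surjective y.1
  exact ⟨⟨x, X.mem_inv.2 (e.injective (by rw [hτ, hx, Y.mem_inv.1 y.2]))⟩, Subtype.ext hx⟩

end EDG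

end Vale.Agent.P177
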