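import Vale.Agent.P177.Pow

/-! Lattices in tensor powers. -/

namespace Vale.Agent.P177

open scoped ENNReal

universe u

theorem EDG.eqf_psi_bij {R : Type u} [CommRing R] {l : ℕ} (Λ : Len R) {X Y : EDG R l}
    (φ : EDG.Hom X Y) (h : Function.Bijective φ.f) : X.psi Λ = Y.psi Λ := by
  have h' : Function.Bijective φ.inv.f := by
    refine ⟨fun x y e => Subtype.ext (h.1 (congrArg Subtype.val e)), fun y => ?_⟩
    obtain ⟨x, hx⟩ := h.2 y.1
    exact ⟨⟨x, X.mem_inv.2 (h.1 (by rw [φ.τ, hx, Y.mem_inv.1 y.2]))⟩, Subtype.ext hx⟩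
  rw [EDG.psi, EDG.psi, DG.chi_congr Λ ((φ.toHom.qIso_of_bijective h).hl_eq Λ),
    DG.chi_congr Λ ((φ.inv.qIso_of_bijective h').hl_eq Λ)]

namespace Cx

variable {R : Type u} [CommRing R]

/-- the graded complex of a filtration by basis vectors. -/
def gr (G : Cx R) (pat : G.ι → ℕ) (h : ∀ a b, G.d a b ≠ 0 → pat a ≤ pat b) : Cx R where
  ι := G.ι
  deg := G.deg
  d a b := if pat a = pat b then G.d a b else 0
  dd := by
    ext a c
    change ∑ b, (if pat a = pat b then G.d a b else 0) * (if pat b = pat c then G.d b c else 0) = 0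
    by_cases hac : pat a = pat c
    · refine Eq.trans (Finset.sum_congr rfl fun b _ => ?_)
        (Matrix.mul_apply.symm.trans (congrFun (congrFun G.dd a) c))
      by_cases h1 : G.d a b = 0
      · simp only [h1, ite_self, zero_mul]
      by_cases h2 : G.d b c = 0
      · simp only [h2, ite_self, mul_zero]
      have h3 := h a b h1
      have h4 := h b c h2
      rw [if_pos (by omega), if_pos (by omega)]
    · refine Finset.sum_eq_zero fun b _ => ?_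
      by_cases h1 : pat a = pat b
      · rw [if_neg (show ¬ pat b = pat c by omega), mul_zero]
      · rw [if_neg h1, zero_mul]
  hdeg a b h0 := G.hdeg a b fun h1 => h0 (by simp only [h1, ite_self])

/-- vectors with prescribed coordinate submodules. -/
def box {ι : Type} {N : Type u} [AddCommGroup N] [Module R N] (A : ι → Submodule R N) :
    Submodule R (ι → N) :=
  Submodule.pi Set.univ A

variable (Λ : Len R) {N : Type u} [AddCommGroup N] [Module R N] {l : ℕ}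

theorem eqf_mem_box {ι : Type} {A : ι → Submodule R N} {x : ι → N} :
    x ∈ box A ↔ ∀ J, x J ∈ A J := ⟨fun h J => h J trivial, fun h J _ => h J⟩

theorem eqf_mem_cut {ι : Type} {A : ι → Submodule R N} {Q : ι → Prop} [DecidablePred Q]
    {x : ι → N} : x ∈ box (fun J => if Q J then A J else ⊥) ↔
      x ∈ box A ∧ ∀ J, ¬ Q J → x J = 0 := by
  simp only [eqf_mem_box]
  refine ⟨fun h => ⟨fun J => ?_, fun J hJ => by simpa [hJ] using h J⟩, fun h J => ?_⟩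
  · have := h J
    split_ifs at this
    · exact this
    · rw [(Submodule.mem_bot R).1 this]; exact zero_mem _
  · split_ifs with hJ
    · exact h.1 J
    · exact (Submodule.mem_bot R).2 (h.2 J hJ)

theorem eqf_cut_mem {ι : Type} {A : ι → Submodule R N} (Q : ι → Prop) [DecidablePred Q]
    {x : ι → N} (h : x ∈ box A) : cut (R := R) Q N x ∈ box A := by
  refine eqf_mem_box.2 fun J => ?_
  rw [cx_cut_apply]
  split_ifs
  · exact eqf_mem_box.1 h J
  · exact zero_mem _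

/-- the differential, the projections and the rotation on vectors. -/
def eqfD (G : Cx R) (l : ℕ) (N : Type u) [AddCommGroup N] [Module R N] :
    ((Fin (l + 1) → G.ι) → N) →ₗ[R] ((Fin (l + 1) → G.ι) → N) := (G.onPow l N).d

def eqfP (G : Cx R) (l : ℕ) (N : Type u) [AddCommGroup N] [Module R N] (i : ℕ) :
    ((Fin (l + 1) → G.ι) → N) →ₗ[R] ((Fin (l + 1) → G.ι) → N) := (G.onPow l N).pr i

def eqfT (G : Cx R) (l : ℕ) (N : Type u) [AddCommGroup N] [Module R N] :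
    ((Fin (l + 1) → G.ι) → N) →ₗ[R] ((Fin (l + 1) → G.ι) → N) := (G.onPow l N).τ

/-- stable submodules of vectors, and the complexes they define. -/
def eqfSt (G : Cx R) (L : Submodule R ((Fin (l + 1) → G.ι) → N)) : Prop := (G.onPow l N).Stable L

def eqfSub (G : Cx R) (L : Submodule R ((Fin (l + 1) → G.ι) → N)) (hL : G.eqfSt L) :
    EDG R (l + 1) := (G.onPow l N).sub L hL

theorem eqf_stable {G : Cx R} {L : Submodule R ((Fin (l + 1) → G.ι) → N)} :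
    G.eqfSt L ↔ (∀ x ∈ L, G.eqfD l N x ∈ L) ∧ (∀ i, ∀ x ∈ L, G.eqfP l N i x ∈ L) ∧
      ∀ x ∈ L, G.eqfT l N x ∈ L :=
  ⟨fun h => ⟨h.d, h.pr, h.τ⟩, fun h => ⟨⟨h.1, h.2.1⟩, h.2.2⟩⟩

theorem eqf_d (G : Cx R) (x : (Fin (l + 1) → G.ι) → N) (J : Fin (l + 1) → G.ι) :
    G.eqfD l N x J = ∑ k, ∑ a, ((-1) ^ (∑ j ∈ Finset.Iio k, G.deg (J j)) * G.d (J k) a) •
      x (Function.update J k a) := by
  change ∑ J' : Fin (l + 1) → G.ι, (∑ k, if ∀ j, j ≠ k → J j = J' j then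
    (-1) ^ (∑ j ∈ Finset.Iio k, G.deg (J j)) * G.d (J k) (J' k) else 0) • x J' = _
  simp only [Finset.sum_smul]
  rw [Finset.sum_comm]
  refine Finset.sum_congr rfl fun k _ => (Finset.sum_of_injOn (Function.update J k)
    (Function.update_injective J k).injOn (fun _ _ => Finset.mem_coe.2 (Finset.mem_univ _))
    (fun J' _ hJ => ?_) fun a _ => ?_).symm
  · rw [if_neg, zero_smul]
    refine fun h => hJ ⟨J' k, Finset.mem_coe.2 (Finset.mem_univ _), funext fun j => ?_⟩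
    by_cases hj : j = k
    · rw [hj, Function.update_self]
    · rw [Function.update_of_ne hj, h j hj]
  · rw [if_pos fun j hj => (Function.update_of_ne hj a J).symm, Function.update_self]

theorem eqf_pr (G : Cx R) (i : ℕ) (x : (Fin (l + 1) → G.ι) → N) (J : Fin (l + 1) → G.ι) :
    G.eqfP l N i x J = if ∑ k, G.deg (J k) = i then x J else 0 := rfl

theorem eqf_τ (G : Cx R) (x : (Fin (l + 1) → G.ι) → N) (J : Fin (l + 1) → G.ι) :
    G.eqfT l N x J = (-1 : R) ^ (G.deg (J 0) * ∑ k : Fin l, G.deg (J k.succ)) •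
      x (J ∘ finRotate (l + 1)) := onPow_τ_apply G l x J

theorem stable_box (G : Cx R) (A : (Fin (l + 1) → G.ι) → Submodule R N)
    (hrot : ∀ J, A (J ∘ finRotate (l + 1)) = A J)
    (hd : ∀ (J : Fin (l + 1) → G.ι) (k : Fin (l + 1)) (a : G.ι), ∀ y ∈ A J,
      G.d a (J k) • y ∈ A (Function.update J k a)) :
    (G.onPow l N).Stable (box A) := by
  refine (eqf_stable (L := box A)).2 ⟨fun x hx => eqf_mem_box.2 fun J => ?_,
    fun i x hx => eqf_cut_mem (fun J : Fin (l + 1) → G.ι => ∑ k, G.deg (J k) = i) hx,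
    fun x hx => eqf_mem_box.2 fun J => ?_⟩
  · rw [eqf_d]
    refine sum_mem fun k _ => sum_mem fun a _ => ?_
    have := hd (Function.update J k a) k (J k) _ (eqf_mem_box.1 hx _)
    rw [Function.update_self, Function.update_idem, Function.update_eq_self] at this
    rw [mul_smul]
    exact Submodule.smul_mem _ _ this
  · rw [eqf_τ]
    exact Submodule.smul_mem _ _ (hrot J ▸ eqf_mem_box.1 hx _)

/-- cutting along an invariant predicate commutes with the differential. -/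
theorem eqf_d_cut (G : Cx R) (Q : (Fin (l + 1) → G.ι) → Prop) [DecidablePred Q]
    (hQ : ∀ J k a, G.d (J k) a ≠ 0 → (Q (Function.update J k a) ↔ Q J))
    (x : (Fin (l + 1) → G.ι) → N) :
    G.eqfD l N (cut (R := R) Q N x) = cut (R := R) Q N (G.eqfD l N x) := by
  funext J
  rw [cx_cut_apply, eqf_d, eqf_d]
  split_ifs with hJ
  · refine Finset.sum_congr rfl fun k _ => Finset.sum_congr rfl fun a _ => ?_
    by_cases h0 : G.d (J k) a = 0
    · simp only [h0, mul_zero, zero_smul]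
    · rw [cx_cut_apply, if_pos ((hQ J k a h0).2 hJ)]
  · refine Finset.sum_eq_zero fun k _ => Finset.sum_eq_zero fun a _ => ?_
    by_cases h0 : G.d (J k) a = 0
    · simp only [h0, mul_zero, zero_smul]
    · rw [cx_cut_apply, if_neg fun h => hJ ((hQ J k a h0).1 h), smul_zero]

theorem eqf_pr_cut (G : Cx R) (Q : (Fin (l + 1) → G.ι) → Prop) [DecidablePred Q] (i : ℕ)
    (x : (Fin (l + 1) → G.ι) → N) :
    G.eqfP l N i (cut (R := R) Q N x) = cut (R := R) Q N (G.eqfP l N i x) := by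
  funext J
  rw [cx_cut_apply, eqf_pr, eqf_pr, cx_cut_apply]
  split_ifs <;> rfl

theorem eqf_τ_cut (G : Cx R) (Q : (Fin (l + 1) → G.ι) → Prop) [DecidablePred Q]
    (hQ : ∀ J, Q (J ∘ finRotate (l + 1)) ↔ Q J) (x : (Fin (l + 1) → G.ι) → N) :
    G.eqfT l N (cut (R := R) Q N x) = cut (R := R) Q N (G.eqfT l N x) := by
  funext J
  rw [cx_cut_apply, eqf_τ, eqf_τ, cx_cut_apply]
  by_cases hJ : Q J
  · rw [if_pos hJ, if_pos ((hQ J).2 hJ)]
  · rw [if_neg hJ, if_neg fun h => hJ ((hQ J).1 h), smul_zero]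

theorem eqf_cut_fix {ι : Type} {Q : ι → Prop} [DecidablePred Q] {x : ι → N} :
    (∀ J, ¬ Q J → x J = 0) ↔ cut (R := R) Q N x = x := by
  refine ⟨fun h => funext fun J => ?_, fun h J hJ => by rw [← h, cx_cut_apply, if_neg hJ]⟩
  rw [cx_cut_apply]
  split_ifs with hJ
  · rfl
  · exact (h J hJ).symm

theorem eqf_cut_mem' {ι : Type} {A : ι → Submodule R N} (Q : ι → Prop) [DecidablePred Q]
    {x : ι → N} (h : x ∈ box A) : cut (R := R) Q N x ∈ box fun J => if Q J then A J else ⊥ :=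
  eqf_mem_cut.2 ⟨eqf_cut_mem Q h, fun J hJ => by rw [cx_cut_apply, if_neg hJ]⟩

theorem eqf_stable_cut (G : Cx R) {A : (Fin (l + 1) → G.ι) → Submodule R N}
    (hA : G.eqfSt (box A)) (Q : (Fin (l + 1) → G.ι) → Prop) [DecidablePred Q]
    (hQ : ∀ J k a, G.d (J k) a ≠ 0 → (Q (Function.update J k a) ↔ Q J))
    (hQ' : ∀ J, Q (J ∘ finRotate (l + 1)) ↔ Q J) :
    G.eqfSt (box fun J => if Q J then A J else ⊥) := by
  refine eqf_stable.2 ⟨fun x hx => ?_, fun i x hx => ?_, fun x hx => ?_⟩ <;>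
    obtain ⟨h1, h2⟩ := eqf_mem_cut.1 hx <;> rw [← (eqf_cut_fix (R := R)).1 h2]
  · rw [eqf_d_cut G Q hQ]
    exact eqf_cut_mem' Q ((eqf_stable.1 hA).1 x h1)
  · rw [eqf_pr_cut G Q]
    exact eqf_cut_mem' Q ((eqf_stable.1 hA).2.1 i x h1)
  · rw [eqf_τ_cut G Q hQ']
    exact eqf_cut_mem' Q ((eqf_stable.1 hA).2.2 x h1)

theorem eqf_h_cut_le (G : Cx R) {A : (Fin (l + 1) → G.ι) → Submodule R N}
    (hA : G.eqfSt (box A)) (Q : (Fin (l + 1) → G.ι) → Prop) [DecidablePred Q]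
    (hQ : ∀ J k a, G.d (J k) a ≠ 0 → (Q (Function.update J k a) ↔ Q J))
    (hA' : G.eqfSt (box fun J => if Q J then A J else ⊥)) :
    (G.eqfSub _ hA').toDG.h Λ ≤ (G.eqfSub _ hA).toDG.h Λ := by
  let f : box (fun J => if Q J then A J else ⊥) →ₗ[R] box A :=
    Submodule.inclusion fun x hx => (eqf_mem_cut.1 hx).1
  have key : ∀ (x : box fun J => if Q J then A J else ⊥) (y : box A), G.eqfD l N y.1 = x.1 →
      G.eqfD l N (cut (R := R) Q N y.1) = x.1 := fun x y h => by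
    rw [eqf_d_cut G Q hQ, h]
    exact eqf_cut_fix.1 (eqf_mem_cut.1 x.2).2
  exact DGAux_le_inj Λ f (fun x hx => Subtype.ext (congrArg Subtype.val hx :)) fun x _ ⟨y, hy⟩ =>
    ⟨⟨_, eqf_cut_mem' Q y.2⟩, Subtype.ext (key x y (congrArg Subtype.val hy))⟩

/-- additivity along a short exact sequence of lattices. -/
theorem eqf_add (hl : IsUnit ((l + 1 : ℕ) : R)) {G₁ G₂ : Cx R} {N' : Type u} [AddCommGroup N']
    [Module R N'] {L' L : Submodule R ((Fin (l + 1) → G₁.ι) → N)}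
    {M : Submodule R ((Fin (l + 1) → G₂.ι) → N')} (hL' : G₁.eqfSt L') (hL : G₁.eqfSt L)
    (hM : G₂.eqfSt M) (g : ((Fin (l + 1) → G₁.ι) → N) →ₗ[R] ((Fin (l + 1) → G₂.ι) → N'))
    (hg : ∀ x ∈ L, g x ∈ M) (hd : ∀ x ∈ L, g (G₁.eqfD l N x) = G₂.eqfD l N' (g x))
    (hp : ∀ i, ∀ x ∈ L, g (G₁.eqfP l N i x) = G₂.eqfP l N' i (g x))
    (ht : ∀ x ∈ L, g (G₁.eqfT l N x) = G₂.eqfT l N' (g x)) (hs : ∀ y ∈ M, ∃ x ∈ L, g x = y)
    (hle : L' ≤ L) (hk : ∀ x ∈ L, g x = 0 ↔ x ∈ L') (h' : (G₁.eqfSub _ hL').toDG.h Λ ≠ ⊤)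
    (h'' : (G₂.eqfSub _ hM).toDG.h Λ ≠ ⊤) : (G₁.eqfSub _ hL).toDG.h Λ ≠ ⊤ ∧
      (G₁.eqfSub _ hL).psi Λ = (G₁.eqfSub _ hL').psi Λ + (G₂.eqfSub _ hM).psi Λ := by
  let f : EDG.Hom (G₁.eqfSub _ hL') (G₁.eqfSub _ hL) :=
    ⟨⟨(Submodule.inclusion hle :), fun _ => rfl, fun _ _ => rfl⟩, fun _ => rfl⟩
  let g' : EDG.Hom (G₁.eqfSub _ hL) (G₂.eqfSub _ hM) :=
    ⟨⟨g.restrict hg, fun x => Subtype.ext (hd x.1 x.2), fun i x => Subtype.ext (hp i x.1 x.2)⟩,
      fun x => Subtype.ext (ht x.1 x.2)⟩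
  have h1 : Function.Injective f.f := Submodule.inclusion_injective hle
  have h2 : Function.Exact f.f g'.f := fun x => Subtype.ext_iff.trans
    ((hk x.1 x.2).trans ⟨fun h => ⟨⟨_, h⟩, rfl⟩, fun ⟨y, hy⟩ => hy ▸ y.2⟩)
  have h3 : Function.Surjective g'.f := fun y =>
    let ⟨x, hx, e⟩ := hs y.1 y.2
    ⟨⟨x, hx⟩, Subtype.ext e⟩
  exact ⟨ne_top_of_le_ne_top (ENNReal.add_ne_top.2 ⟨h', h''⟩)
    (DG.h_le_add Λ f.toHom g'.toHom h1 h2 h3), EDG.psi_add Λ hl f g' h1 h2 h3 h' h''⟩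

theorem eqf_zero (hl : IsUnit ((l + 1 : ℕ) : R)) {G : Cx R}
    {L : Submodule R ((Fin (l + 1) → G.ι) → N)} (hL : G.eqfSt L) (h : ∀ x ∈ L, x = 0) :
    (G.eqfSub _ hL).toDG.h Λ ≠ ⊤ ∧ (G.eqfSub _ hL).psi Λ = 0 := by
  have h1 : (G.eqfSub _ hL).toDG.h Λ = 0 := DG.Acyclic.h_eq_zero Λ fun x _ =>
    ⟨0, (map_zero _).trans (Subtype.ext (h x.1 x.2).symm)⟩
  exact ⟨h1 ▸ ENNReal.zero_ne_top, EDG.psi_eq_zero_of_h Λ hl h1⟩

theorem eqf_congr {G : Cx R} {L L' : Submodule R ((Fin (l + 1) → G.ι) → N)} (hL : G.eqfSt L)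
    (hL' : G.eqfSt L') (h : L = L') : G.eqfSub _ hL = G.eqfSub _ hL' := by
  subst h
  rfl

theorem eqf_wt_update {ι : Type} (pat : ι → ℕ) (J : Fin (l + 1) → ι) (k : Fin (l + 1)) (a : ι) :
    ∑ j, pat (Function.update J k a j) + pat (J k) = ∑ j, pat (J j) + pat a := by
  rw [← Finset.add_sum_erase _ _ (Finset.mem_univ k),
    ← Finset.add_sum_erase _ (fun j => pat (J j)) (Finset.mem_univ k), Function.update_self,
    Finset.sum_congr rfl fun j hj => by rw [Function.update_of_ne (Finset.ne_of_mem_erase hj)]]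
  ring

theorem eqf_wt_rot {ι : Type} (pat : ι → ℕ) (J : Fin (l + 1) → ι) :
    ∑ j, pat ((J ∘ finRotate (l + 1)) j) = ∑ j, pat (J j) :=
  Equiv.sum_comp (finRotate (l + 1)) fun j => pat (J j)

theorem eqf_mem_lt {ι : Type} {wt : ι → ℕ} {w : ℕ} {x : ι → N} :
    x ∈ box (fun J => if wt J < w then (⊤ : Submodule R N) else ⊥) ↔ ∀ J, w ≤ wt J → x J = 0 :=
  eqf_mem_cut.trans ⟨fun h J hJ => h.2 J (not_lt.2 hJ),
    fun h => ⟨fun _ _ => trivial, fun J hJ => h J (not_lt.1 hJ)⟩⟩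

section Filt

variable {ι : Type} [Fintype ι] [DecidableEq ι] {deg : ι → ℕ} {d₁ d₂ : Matrix ι ι R}
  {a₁ : d₁ * d₁ = 0} {b₁ : ∀ a b, d₁ a b ≠ 0 → deg b = deg a + 1}
  {a₂ : d₂ * d₂ = 0} {b₂ : ∀ a b, d₂ a b ≠ 0 → deg b = deg a + 1} (pat : ι → ℕ)

theorem eqf_st_lt (G : Cx R) (pat : G.ι → ℕ) (h : ∀ a b, G.d a b ≠ 0 → pat a ≤ pat b)
    {L : Submodule R ((Fin (l + 1) → G.ι) → N)} (hL : G.eqfSt L) (w : ℕ) :
    G.eqfSt (L ⊓ box fun J => if ∑ k, pat (J k) < w then ⊤ else ⊥) := by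
  obtain ⟨h1, h2, h3⟩ := eqf_stable.1 hL
  refine eqf_stable.2 ⟨fun x hx => ⟨h1 x hx.1, eqf_mem_lt.2 fun J hJ => ?_⟩,
    fun i x hx => ⟨h2 i x hx.1, eqf_mem_lt.2 fun J hJ => ?_⟩,
    fun x hx => ⟨h3 x hx.1, eqf_mem_lt.2 fun J hJ => ?_⟩⟩
  · rw [eqf_d]
    refine Finset.sum_eq_zero fun k _ => Finset.sum_eq_zero fun a _ => ?_
    by_cases h0 : G.d (J k) a = 0
    · rw [h0, mul_zero, zero_smul]
    · have h3 := h _ _ h0
      have h4 := eqf_wt_update pat J k a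
      rw [eqf_mem_lt.1 hx.2 _ (by omega), smul_zero]
  · rw [eqf_pr, eqf_mem_lt.1 hx.2 J hJ, ite_self]
  · rw [eqf_τ, eqf_mem_lt.1 hx.2 _ (by rwa [eqf_wt_rot]), smul_zero]

theorem eqf_d_gr (h : ∀ a b, d₁ a b ≠ 0 → pat a ≤ pat b)
    (h2 : ∀ a b, d₂ a b = if pat a = pat b then d₁ a b else 0) (w : ℕ)
    (x : (Fin (l + 1) → ι) → N) (hx : ∀ J, w + 1 ≤ ∑ k, pat (J k) → x J = 0) :
    cut (R := R) (fun J => ∑ k, pat (J k) = w) N ((Cx.mk ι deg d₁ a₁ b₁).eqfD l N x) =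
      (Cx.mk ι deg d₂ a₂ b₂).eqfD l N (cut (R := R) (fun J => ∑ k, pat (J k) = w) N x) := by
  funext J
  rw [cx_cut_apply, eqf_d, eqf_d]
  split_ifs with hJ
  · refine Finset.sum_congr rfl fun k _ => Finset.sum_congr rfl fun a _ => ?_
    have h4 := eqf_wt_update pat J k a
    change (_ * d₁ (J k) a) • _ = (_ * d₂ (J k) a) • _
    rw [h2, cx_cut_apply]
    by_cases h5 : pat (J k) = pat a
    · rw [if_pos h5, if_pos (by omega)]
    · rw [if_neg h5, mul_zero, zero_smul]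
      by_cases h0 : d₁ (J k) a = 0
      · rw [h0, mul_zero, zero_smul]
      · have h3 := h _ _ h0
        rw [hx _ (by omega), smul_zero]
  · refine (Finset.sum_eq_zero fun k _ => Finset.sum_eq_zero fun a _ => ?_).symm
    have h4 := eqf_wt_update pat J k a
    change (_ * d₂ (J k) a) • _ = _
    rw [h2, cx_cut_apply]
    by_cases h5 : pat (J k) = pat a
    · rw [if_neg (show ¬ ∑ j, pat (Function.update J k a j) = w by omega), smul_zero]
    · rw [if_neg h5, mul_zero, zero_smul]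

theorem eqf_filt (hl : IsUnit ((l + 1 : ℕ) : R)) (h : ∀ a b, d₁ a b ≠ 0 → pat a ≤ pat b)
    (h2 : ∀ a b, d₂ a b = if pat a = pat b then d₁ a b else 0)
    (L : Submodule R ((Fin (l + 1) → ι) → N))
    (hL : (Cx.mk ι deg d₁ a₁ b₁).eqfSt L) (A : (Fin (l + 1) → ι) → Submodule R N)
    (hA : ∀ w, (Cx.mk ι deg d₂ a₂ b₂).eqfSt (box fun J => if ∑ k, pat (J k) = w then A J else ⊥))
    (hub : ∀ x ∈ L, ∀ J, (∀ J', ∑ k, pat (J k) < ∑ k, pat (J' k) → x J' = 0) → x J ∈ A J)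
    (hlb : ∀ J, ∀ y ∈ A J, ∃ x ∈ L, x J = y ∧
      ∀ J', J' ≠ J → ∑ k, pat (J k) ≤ ∑ k, pat (J' k) → x J' = 0)
    (hfin : ∀ w, ((Cx.mk ι deg d₂ a₂ b₂).eqfSub _ (hA w)).toDG.h Λ ≠ ⊤) (n : ℕ) :
    ((Cx.mk ι deg d₁ a₁ b₁).eqfSub _ (eqf_st_lt _ pat h hL n)).toDG.h Λ ≠ ⊤ ∧
      ((Cx.mk ι deg d₁ a₁ b₁).eqfSub _ (eqf_st_lt _ pat h hL n)).psi Λ =
        ∑ w ∈ Finset.range n, ((Cx.mk ι deg d₂ a₂ b₂).eqfSub _ (hA w)).psi Λ := by
  induction n with
  | zero => exact eqf_zero Λ hl _ fun x hx => funext fun J => eqf_mem_lt.1 hx.2 J (Nat.zero_le _)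
  | succ w ih =>
    rw [Finset.sum_range_succ, ← ih.2]
    refine eqf_add Λ hl _ _ (hA w) (cut (fun J => ∑ k, pat (J k) = w) N)
      (fun x hx => eqf_mem_box.2 fun J => ?_) (fun x hx => eqf_d_gr pat h h2 w x (eqf_mem_lt.1 hx.2))
      (fun i x _ => (eqf_pr_cut (Cx.mk ι deg d₂ a₂ b₂) _ i x).symm)
      (fun x _ => (eqf_τ_cut (Cx.mk ι deg d₂ a₂ b₂) _ (fun J => by rw [eqf_wt_rot]) x).symm)
      (fun y hy => ?_) (fun x hx => ⟨hx.1, eqf_mem_lt.2 fun J hJ => eqf_mem_lt.1 hx.2 J (by omega)⟩)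
      (fun x hx => ⟨fun h3 => ⟨hx.1, eqf_mem_lt.2 fun J hJ => ?_⟩, fun h3 => funext fun J => ?_⟩)
      ih.1 (hfin w)
    · rw [cx_cut_apply]
      split_ifs with hJ
      · exact hub _ hx.1 J fun J' hJ' => eqf_mem_lt.1 hx.2 J' (by omega)
      · exact zero_mem _
    · obtain ⟨h3, h4⟩ := eqf_mem_cut.1 hy
      choose x hx h5 h6 using fun J => hlb J _ (eqf_mem_box.1 h3 J)
      refine ⟨∑ J with ∑ k, pat (J k) = w, x J, ⟨sum_mem fun J _ => hx J,
        eqf_mem_lt.2 fun J hJ => ?_⟩, funext fun J => ?_⟩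
      · refine (Finset.sum_apply _ _ _).trans (Finset.sum_eq_zero fun J' hJ' => ?_)
        have h7 := (Finset.mem_filter.1 hJ').2
        exact h6 J' J (by rintro rfl; omega) (by omega)
      · rw [cx_cut_apply]
        split_ifs with hJ
        · rw [Finset.sum_apply, Finset.sum_eq_single_of_mem J
            (Finset.mem_filter.2 ⟨Finset.mem_univ _, hJ⟩) fun J' hJ' h7 =>
              h6 J' J h7.symm (by have := (Finset.mem_filter.1 hJ').2; omega), h5]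
        · exact (h4 J hJ).symm
    · rcases hJ.lt_or_eq with h4 | h4
      · exact eqf_mem_lt.1 hx.2 J h4
      · exact (if_pos h4.symm).symm.trans (congrFun h3 J)
    · rw [cx_cut_apply]
      split_ifs with hJ
      · exact eqf_mem_lt.1 h3.2 J hJ.ge
      · rfl

theorem eqf_gr (hl : IsUnit ((l + 1 : ℕ) : R)) (h : ∀ a b, d₁ a b ≠ 0 → pat a ≤ pat b)
    (h2 : ∀ a b, d₂ a b = if pat a = pat b then d₁ a b else 0)
    (L : Submodule R ((Fin (l + 1) → ι) → N))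
    (hL : (Cx.mk ι deg d₁ a₁ b₁).eqfSt L) (A : (Fin (l + 1) → ι) → Submodule R N)
    (hA : (Cx.mk ι deg d₂ a₂ b₂).eqfSt (box A))
    (hub : ∀ x ∈ L, ∀ J, (∀ J', ∑ k, pat (J k) < ∑ k, pat (J' k) → x J' = 0) → x J ∈ A J)
    (hlb : ∀ J, ∀ y ∈ A J, ∃ x ∈ L, x J = y ∧
      ∀ J', J' ≠ J → ∑ k, pat (J k) ≤ ∑ k, pat (J' k) → x J' = 0)
    (hfin : ((Cx.mk ι deg d₂ a₂ b₂).eqfSub _ hA).toDG.h Λ ≠ ⊤) :
    ((Cx.mk ι deg d₁ a₁ b₁).eqfSub L hL).toDG.h Λ ≠ ⊤ ∧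
      ((Cx.mk ι deg d₁ a₁ b₁).eqfSub L hL).psi Λ = ((Cx.mk ι deg d₂ a₂ b₂).eqfSub _ hA).psi Λ := by
  have h0 : ∀ a b, d₂ a b ≠ 0 → pat a = pat b := fun a b h1 =>
    by_contra fun h3 => h1 ((h2 a b).trans (if_neg h3))
  have hQ : ∀ w (J : Fin (l + 1) → ι) k a, d₂ (J k) a ≠ 0 →
      (∑ j, pat (Function.update J k a j) = w ↔ ∑ j, pat (J j) = w) := by
    intro w J k a h1
    have h2 := h0 _ _ h1
    have h3 := eqf_wt_update pat J k a
    omega
  have hA' := fun w => eqf_stable_cut _ hA (fun J => ∑ k, pat (J k) = w) (hQ w)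
    fun J => by rw [eqf_wt_rot]
  have hfin' := fun w => ne_top_of_le_ne_top hfin (eqf_h_cut_le Λ _ hA _ (hQ w) (hA' w))
  obtain ⟨n, hn⟩ : ∃ n, ∀ M : Submodule R ((Fin (l + 1) → ι) → N),
      (M ⊓ box fun J => if ∑ k, pat (J k) < n then ⊤ else ⊥) = M :=
    ⟨(Finset.univ.sup fun J : Fin (l + 1) → ι => ∑ k, pat (J k)) + 1, fun M =>
      inf_eq_left.2 fun x _ => eqf_mem_lt.2 fun J hJ => absurd hJ (not_le.2 (Nat.lt_succ_of_le
        (Finset.le_sup (f := fun J : Fin (l + 1) → ι => ∑ k, pat (J k)) (Finset.mem_univ J))))⟩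
  have h1 := eqf_filt Λ pat hl h h2 L hL A hA' hub hlb hfin' n
  have h3 := eqf_filt Λ pat hl (fun a b h1 => (h0 a b h1).le)
    (fun a b => by
      split_ifs with h1
      · rfl
      · exact (h2 a b).trans (if_neg h1)) (box A) hA A hA' (fun x hx J _ => eqf_mem_box.1 hx J)
    (fun J y hy => ⟨Pi.single J y, eqf_mem_box.2 fun J' => by
      by_cases h1 : J' = J
      · rw [h1, Pi.single_eq_same]; exact hy
      · rw [Pi.single_eq_of_ne h1]; exact zero_mem _, Pi.single_eq_same _ _,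
        fun J' h1 _ => Pi.single_eq_of_ne h1 _⟩) hfin' n
  rw [eqf_congr _ hL (hn L)] at h1
  rw [eqf_congr _ hA (hn _)] at h3
  exact ⟨h1.1, h1.2.trans h3.2.symm⟩

end Filt

/-- passing to the graded complex. -/
theorem psi_eq_gr (hl : IsUnit ((l + 1 : ℕ) : R)) (G : Cx R) (pat : G.ι → ℕ)
    (h : ∀ a b, G.d a b ≠ 0 → pat a ≤ pat b) (L : Submodule R ((Fin (l + 1) → G.ι) → N))
    (hL : (G.onPow l N).Stable L) (A : (Fin (l + 1) → G.ι) → Submodule R N)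
    (hA : ((G.gr pat h).onPow l N).Stable (box A))
    (hub : ∀ x ∈ L, ∀ J, (∀ J', ∑ k, pat (J k) < ∑ k, pat (J' k) → x J' = 0) → x J ∈ A J)
    (hlb : ∀ J, ∀ y ∈ A J, ∃ x ∈ L, x J = y ∧
      ∀ J', J' ≠ J → ∑ k, pat (J k) ≤ ∑ k, pat (J' k) → x J' = 0)
    (hfin : (((G.gr pat h).onPow l N).sub _ hA).toDG.h Λ ≠ ⊤) :
    ((G.onPow l N).sub L hL).toDG.h Λ ≠ ⊤ ∧
      ((G.onPow l N).sub L hL).psi Λ = (((G.gr pat h).onPow l N).sub _ hA).psi Λ :=
  eqf_gr Λ (d₁ := G.d) (d₂ := (G.gr pat h).d) (a₁ := G.dd) (b₁ := G.hdeg) (a₂ := (G.gr pat h).dd)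
    (b₂ := (G.gr pat h).hdeg) pat hl h (fun _ _ => rfl) L hL A hA hub hlb hfin

/-- a box supported on a subcomplex. -/
theorem psi_box_eq {F G : Cx R} (e : F.ι → G.ι) (he : Function.Injective e)
    (hdeg : ∀ a, G.deg (e a) = F.deg a) (hd : ∀ a b, G.d (e a) (e b) = F.d a b)
    (A : (Fin (l + 1) → G.ι) → Submodule R N) (hA : (G.onPow l N).Stable (box A))
    (A₀ : Submodule R N) (h₀ : ∀ J, A (e ∘ J) = A₀)
    (h₁ : ∀ J, (∃ k, J k ∉ Set.range e) → A J = ⊥) :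
    ((G.onPow l N).sub _ hA).psi Λ = F.psi Λ l A₀ := by
  change G.eqfSt (box A) at hA
  have hz : ∀ x : box A, ∀ J, (∃ k, J k ∉ Set.range e) → x.1 J = 0 := fun x J hJ =>
    (Submodule.mem_bot R).1 (h₁ J hJ ▸ eqf_mem_box.1 x.2 J)
  let f : box A →ₗ[R] (Fin (l + 1) → F.ι) → A₀ := LinearMap.pi fun J =>
    LinearMap.codRestrict A₀ ((LinearMap.proj (e ∘ J)).comp (box A).subtype)
      fun x => h₀ J ▸ eqf_mem_box.1 x.2 _
  obtain ⟨s1, s2, s3⟩ := eqf_stable.1 hA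
  have hf : ∀ x J, (f x J).1 = x.1 (e ∘ J) := fun _ _ => rfl
  have k1 : ∀ x : box A, f ⟨_, s1 x.1 x.2⟩ = F.eqfD l A₀ (f x) := by
    refine fun x => funext fun J => Subtype.ext ?_
    rw [hf, Subtype.coe_mk, eqf_d, eqf_d, Submodule.coe_sum]
    refine Finset.sum_congr rfl fun k _ => ?_
    rw [Submodule.coe_sum]
    refine (Finset.sum_of_injOn e he.injOn (fun _ _ => Finset.mem_coe.2 (Finset.mem_univ _))
      (fun a _ ha => ?_) fun a _ => ?_).symm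
    · rw [hz x _ ⟨k, by
        rw [Function.update_self]
        exact fun ⟨b, hb⟩ => ha ⟨b, Finset.mem_coe.2 (Finset.mem_univ _), hb⟩⟩, smul_zero]
    · simp only [Function.comp_apply, hdeg, hd, ← Function.comp_update]
      rfl
  have k2 : ∀ i (x : box A), f ⟨_, s2 i x.1 x.2⟩ = F.eqfP l A₀ i (f x) := by
    refine fun i x => funext fun J => Subtype.ext ?_
    rw [hf, Subtype.coe_mk, eqf_pr, eqf_pr]
    simp only [Function.comp_apply, hdeg]
    split_ifs <;> rfl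
  have k3 : ∀ x : box A, f ⟨_, s3 x.1 x.2⟩ = F.eqfT l A₀ (f x) := by
    refine fun x => funext fun J => Subtype.ext ?_
    rw [hf, Subtype.coe_mk, eqf_τ, eqf_τ]
    simp only [Function.comp_apply, hdeg]
    rfl
  have k4 : Function.Bijective f := by
    refine ⟨fun x y hxy => Subtype.ext (funext fun J => ?_), fun y => ?_⟩
    · by_cases hJ : ∃ k, J k ∉ Set.range e
      · rw [hz x J hJ, hz y J hJ]
      · push Not at hJ
        choose J' hJ' using hJ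
        obtain rfl : e ∘ J' = J := funext hJ'
        exact congrArg Subtype.val (congrFun hxy J')
    · have hinj : Function.Injective fun J : Fin (l + 1) → F.ι => e ∘ J := he.comp_left
      refine ⟨⟨Function.extend (fun J => e ∘ J) (fun J => (y J).1) 0, eqf_mem_box.2 fun J => ?_⟩,
        funext fun J => Subtype.ext (hinj.extend_apply (fun J => (y J).1) 0 J)⟩
      by_cases hJ : ∃ J', (fun J => e ∘ J) J' = J
      · obtain ⟨J', rfl⟩ := hJ
        rw [hinj.extend_apply, h₀]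
        exact (y J').2
      · rw [Function.extend_apply' _ _ _ hJ]
        exact zero_mem _
  exact EDG.eqf_psi_bij Λ (X := G.eqfSub _ hA) (Y := F.onPow l A₀) ⟨⟨f, k1, k2⟩, k3⟩ k4

end Cx

end Vale.Agent.P177
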