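import Vale.Agent.P177.Eqf

/-! Free orbits do not contribute. -/

namespace Vale.Agent.P177

universe u

theorem eqf2_rot_id (l : ℕ) : (finRotate (l + 1))^[l + 1] = id := by
  rw [← Equiv.Perm.coe_pow]
  exact funext fun k => Fin.ext (by
    rw [Cx.pow_rot_val, Nat.add_mod_right, Nat.mod_eq_of_lt k.2, id])

/-- representatives of free orbits. -/
theorem eqf2_rep {l : ℕ} (hp : (l + 1).Prime) : ∃ Rep : (Fin (l + 1) → ℕ) → Prop,
    ∀ p, (¬ ∀ k, p k = p 0) → ∃! k : Fin (l + 1), Rep (p ∘ (finRotate (l + 1))^[k]) := by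
  obtain ⟨c, hc⟩ := Countable.exists_injective_nat (Fin (l + 1) → ℕ)
  let ρ : (Fin (l + 1) → ℕ) → Fin (l + 1) → ℕ := fun p => p ∘ finRotate (l + 1)
  have h1 : ∀ k p, ρ^[k] p = p ∘ (finRotate (l + 1))^[k] := fun k => by
    induction k with
    | zero => exact fun _ => rfl
    | succ k ih => exact fun p => by rw [Function.iterate_succ_apply, ih, Function.iterate_succ']; rfl
  have h2 : ∀ p, Function.IsPeriodicPt ρ (l + 1) p := fun p => (h1 _ p).trans (by
    rw [eqf2_rot_id, Function.comp_id])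
  refine ⟨fun q => ∀ m, c q ≤ c (ρ^[m] q), fun p hp' => ?_⟩
  simp only [← h1, ← Function.iterate_add_apply]
  have : Fact (l + 1).Prime := ⟨hp⟩
  have h3 : Function.minimalPeriod ρ p = l + 1 :=
    Function.minimalPeriod_eq_prime (h2 p) fun h => hp' fun k => by
      induction k using Fin.induction with
      | zero => rfl
      | succ k ih => rw [← Cx.pow_rot_castSucc, ← ih]; exact congrFun h _
  obtain ⟨k, hk⟩ := Finite.exists_min fun k : Fin (l + 1) => c (ρ^[k] p)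
  have h4 : ∀ m, c (ρ^[k] p) ≤ c (ρ^[m] p) := fun m =>
    (h2 p).iterate_mod_apply m ▸ hk ⟨m % (l + 1), Nat.mod_lt _ l.succ_pos⟩
  refine ⟨k, fun m => h4 _, fun j hj => Fin.ext ?_⟩
  have h5 := hj (k + (l + 1 - j))
  rw [show k + (l + 1 - j) + j = k + (l + 1) by omega, Function.iterate_add_apply, (h2 p).eq] at h5
  exact (Function.iterate_eq_iterate_iff_of_lt_minimalPeriod (j.2.trans_eq h3.symm)
    (k.2.trans_eq h3.symm)).1 (hc (le_antisymm h5 (h4 _)))

variable {R : Type u} [CommRing R] (Λ : Len R)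

/-- the quotient by an invariant subcomplex. -/
def EDG.eqf2Quot {l : ℕ} (X : EDG R l) (A : Submodule R X.M) (hA : X.Stable A) : EDG R l where
  toDG := X.toDG.quot A hA.toStable
  τ := A.mapQ A X.τ hA.τ
  τ_d x := by
    obtain ⟨x, rfl⟩ := A.mkQ_surjective x
    exact congrArg A.mkQ (X.τ_d x)
  τ_pr i x := by
    obtain ⟨x, rfl⟩ := A.mkQ_surjective x
    exact congrArg A.mkQ (X.τ_pr i x)
  τ_pow x := by
    obtain ⟨x, rfl⟩ := A.mkQ_surjective x
    exact (LinearMap.congr_fun (A.mapQ_pow hA.τ l) _).symm.trans (congrArg A.mkQ (X.τ_pow x))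

theorem EDG.eqf2_val {l : ℕ} {X' X Y : EDG R l} (f : EDG.Hom X' X) (g : X.M →ₗ[R] Y.M)
    (hf : Function.Injective f.f) (hfg : Function.Exact f.f g) (hg : Function.Surjective g)
    (hp : ∀ i x, g (X.pr i x) = Y.pr i (g x)) (ht : ∀ x, g (X.τ x) = Y.τ (g x))
    (hv : Λ.val Y.M ≠ ⊤) (h' : X'.toDG.h Λ ≠ ⊤) :
    X.toDG.h Λ ≠ ⊤ ∧ (IsUnit (l : R) → X.psi Λ = X'.psi Λ + Y.psi Λ) := by
  have hS : X.Stable (LinearMap.ker g) := by
    refine ⟨⟨fun x hx => ?_, fun i x hx => ?_⟩, fun x hx => ?_⟩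
    · obtain ⟨y, rfl⟩ := (hfg x).1 hx
      exact (hfg _).2 ⟨_, f.d y⟩
    · exact (hp i x).trans ((congrArg _ hx).trans (map_zero _))
    · exact (ht x).trans ((congrArg _ hx).trans (map_zero _))
  let q : EDG.Hom X (X.eqf2Quot _ hS) :=
    ⟨⟨(LinearMap.ker g).mkQ, fun _ => rfl, fun _ _ => rfl⟩, fun _ => rfl⟩
  have h1 : Function.Exact f.f q.f := fun x => (Submodule.Quotient.mk_eq_zero _).trans (hfg x)
  have h2 : Function.Surjective q.f := (LinearMap.ker g).mkQ_surjective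
  let e : (X.eqf2Quot _ hS).M ≃ₗ[R] Y.M := g.quotKerEquivOfSurjective hg
  have h3 : Λ.val (X.eqf2Quot _ hS).M ≠ ⊤ := (Λ.congr e).trans_ne hv
  have h4 := ne_top_of_le_ne_top h3 (DG.h_le_val Λ _)
  refine ⟨ne_top_of_le_ne_top (ENNReal.add_ne_top.2 ⟨h', h4⟩)
    (DG.h_le_add Λ f.toHom q.toHom hf h1 h2), fun hl => ?_⟩
  rw [EDG.psi_add Λ hl f q hf h1 h2 h' h4, EDG.psi_eq_of_val Λ hl e (fun i x => ?_)
    (fun x => ?_) h3] <;> obtain ⟨x, rfl⟩ := h2 x
  · exact hp i x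
  · exact ht x

theorem DG.eqf2_conc (X : DG R) (n : ℕ) (h : ∀ x, X.pr n x = x) (hv : Λ.val X.M ≠ ⊤) :
    X.chi Λ = (-1) ^ n * (Λ.val X.M).toReal := by
  rw [DG.chi_eq_of_val Λ hv, finsum_eq_single _ n fun i hi => ?_,
    Λ.len_congr_sub (LinearMap.range_eq_top.2 fun x => ⟨x, h x⟩), Λ.congr Submodule.topEquiv]
  rw [← Λ.rel_bot, Λ.rel_of_le, ENNReal.toReal_zero, mul_zero]
  rintro _ ⟨x, rfl⟩
  rw [← h x, X.pr_pr, if_neg hi]
  exact zero_mem _

namespace Cx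

variable {N : Type u} [AddCommGroup N] [Module R N] {l : ℕ}

theorem eqf2_val_box {ι : Type} [Fintype ι] (A : ι → Submodule R N) :
    Λ.val (box A) = ∑ J, Λ.val (A J) := by
  rw [← Λ.rel_bot, ← Submodule.pi_univ_bot, box, Λ.rel_pi]
  simp only [Λ.rel_bot]

theorem eqf2_unit (s : ℕ) : IsUnit ((-1 : R) ^ s) := isUnit_one.neg.pow s

theorem eqf2_τ_pow (G : Cx R) (k : ℕ) (x : (Fin (l + 1) → G.ι) → N) (J : Fin (l + 1) → G.ι) :
    (G.eqfT l N ^ k) x J = 0 ↔ x (J ∘ (finRotate (l + 1))^[k]) = 0 := by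
  induction k generalizing J with
  | zero => rfl
  | succ k ih =>
    rw [pow_succ', Module.End.mul_apply, eqf_τ, (eqf2_unit _).smul_eq_zero, ih,
      Function.iterate_succ']
    rfl

theorem eqf2_rot {G : Cx R} {A : (Fin (l + 1) → G.ι) → Submodule R N} (hA : G.eqfSt (box A))
    (J : Fin (l + 1) → G.ι) : A (J ∘ finRotate (l + 1)) = A J := by
  have h1 : ∀ J, A (J ∘ finRotate (l + 1)) ≤ A J := fun J y hy => by
    have h2 := eqf_mem_box.1 ((eqf_stable.1 hA).2.2 (Pi.single (J ∘ finRotate (l + 1)) y)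
      (eqf_mem_box.2 fun J' => by
        by_cases h1 : J' = J ∘ finRotate (l + 1)
        · rw [h1, Pi.single_eq_same]; exact hy
        · rw [Pi.single_eq_of_ne h1]; exact zero_mem _)) J
    rwa [eqf_τ, Submodule.smul_mem_iff_of_isUnit _ (eqf2_unit _), Pi.single_eq_same] at h2
  have h2 : ∀ k J, A (J ∘ (finRotate (l + 1))^[k]) ≤ A J := fun k J => by
    induction k with
    | zero => rfl
    | succ k ih => exact (h1 (J ∘ (finRotate (l + 1))^[k])).trans ih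
  refine le_antisymm (h1 J) (le_of_eq_of_le ?_ (h2 l _))
  rw [Function.comp_assoc, ← Function.iterate_succ', eqf2_rot_id, Function.comp_id]

/-- a box whose support is freely permuted. -/
theorem eqf2_free (G : Cx R) {A : (Fin (l + 1) → G.ι) → Submodule R N} (hA : G.eqfSt (box A))
    (Q : (Fin (l + 1) → G.ι) → Prop)
    (hQ : ∀ J k a, G.d (J k) a ≠ 0 → (Q (Function.update J k a) ↔ Q J))
    (hu : ∀ J, A J = ⊥ ∨ ∃! k : Fin (l + 1), Q (J ∘ (finRotate (l + 1))^[k]))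
    (hfin : (G.eqfSub _ hA).toDG.h Λ ≠ ⊤) : (G.eqfSub _ hA).psi Λ = 0 := by
  classical
  let S : Submodule R (box A) := (box fun J => if Q J then ⊤ else ⊥).comap (box A).subtype
  have hS : ∀ x : box A, x ∈ S ↔ ∀ J, ¬ Q J → x.1 J = 0 := fun x =>
    eqf_mem_cut.trans ⟨fun h => h.2, fun h => ⟨fun _ _ => trivial, h⟩⟩
  let T : box A →ₗ[R] box A := (G.eqfSub _ hA).τ
  have hT : ∀ k (x : box A), ((T ^ k) x).1 = (G.eqfT l N ^ k) x.1 := fun k x =>
    EDG.map_pow (X := G.eqfSub _ hA) (Y := G.onPow l N) (box A).subtype (fun _ => rfl) k x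
  have hT' : ∀ x, (T ^ (l + 1)) x = x := (G.eqfSub _ hA).τ_pow
  have hm : ∀ (k : Fin (l + 1)) (y : box A), y ∈ S.map (T ^ (k : ℕ)) ↔
      ∀ J, ¬ Q (J ∘ (finRotate (l + 1))^[k]) → y.1 J = 0 := by
    intro k y
    refine ⟨?_, fun h => ⟨(T ^ (l + 1 - k)) y, (hS _).2 fun J hJ => ?_, ?_⟩⟩
    · rintro ⟨x, hx, rfl⟩ J hJ
      rw [hT, eqf2_τ_pow]
      exact (hS x).1 hx _ hJ
    · rw [hT, eqf2_τ_pow]
      refine h _ ?_
      rwa [Function.comp_assoc, ← Function.iterate_add, Nat.sub_add_cancel k.2.le, eqf2_rot_id,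
        Function.comp_id]
    · rw [← Module.End.mul_apply, ← pow_add, Nat.add_sub_cancel' k.2.le, hT']
  have h0 : ∀ (x : box A) J, A J = ⊥ → x.1 J = 0 := fun x J h =>
    (Submodule.mem_bot R).1 (h ▸ eqf_mem_box.1 x.2 J)
  have h1 : ∀ x ∈ S, G.eqfD l N x.1 = cut (R := R) Q N (G.eqfD l N x.1) := fun x hx => by
    rw [← eqf_d_cut G Q hQ, eqf_cut_fix.1 ((hS x).1 hx)]
  have h2 : ∀ i, ∀ x ∈ S, G.eqfP l N i x.1 = cut (R := R) Q N (G.eqfP l N i x.1) := fun i x hx => by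
    rw [← eqf_pr_cut G Q, eqf_cut_fix.1 ((hS x).1 hx)]
  have h3 : DirectSum.IsInternal fun k : Fin (l + 1) => S.map (T ^ (k : ℕ)) := by
    refine DirectSum.isInternal_submodule_of_iSupIndep_of_iSup_eq_top
      ((iSupIndep_iff_finsetSum_eq_zero_imp_eq_zero _).2 fun s v hv e i hi =>
        Subtype.ext (funext fun J => ?_)) (eq_top_iff.2 fun y _ => ?_)
    · rcases hu J with h | ⟨k, -, hk⟩
      · exact h0 _ J h
      by_cases h : Q (J ∘ (finRotate (l + 1))^[i])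
      · have h4 := congrFun (congrArg Subtype.val e) J
        rwa [Submodule.coe_sum, Finset.sum_apply, Finset.sum_eq_single_of_mem i hi fun j hj hji =>
          (hm j _).1 (hv j hj) J fun h5 => hji ((hk j h5).trans (hk i h).symm)] at h4
      · exact (hm i _).1 (hv i hi) J h
    · have h4 : y = ∑ k : Fin (l + 1), (⟨cut (R := R) (fun J => Q (J ∘ (finRotate (l + 1))^[k])) N
          y.1, eqf_cut_mem _ y.2⟩ : box A) := by
        refine Subtype.ext (funext fun J => ?_)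
        rw [Submodule.coe_sum, Finset.sum_apply]
        simp only [cx_cut_apply]
        rcases hu J with h | ⟨k, hk, hk'⟩
        · simp only [h0 y J h, ite_self, Finset.sum_const_zero]
        · rw [Finset.sum_eq_single k (fun j _ hj => if_neg fun h => hj (hk' j h))
            fun h => absurd (Finset.mem_univ k) h, if_pos hk]
      rw [h4]
      exact sum_mem fun k _ => Submodule.mem_iSup_of_mem k ((hm k _).2 fun J hJ => if_neg hJ)
  exact EDG.psi_of_induced Λ (G.eqfSub _ hA) l.succ_ne_zero S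
    ⟨fun x hx => (hS _).2 ((eqf_cut_fix (R := R)).2 (h1 x hx).symm),
      fun i x hx => (hS _).2 ((eqf_cut_fix (R := R)).2 (h2 i x hx).symm)⟩ h3 hfin

theorem eqf2_const (hp : (l + 1).Prime) (hl : IsUnit ((l + 1 : ℕ) : R)) (G : Cx R) (pat : G.ι → ℕ)
    (h : ∀ a b, G.d a b ≠ 0 → pat a = pat b) (A : (Fin (l + 1) → G.ι) → Submodule R N)
    (hA : G.eqfSt (box A)) (hfin : (G.eqfSub _ hA).toDG.h Λ ≠ ⊤) (m : ℕ) (hm : ∀ a, pat a < m) :
    ∃ hv : ∀ v, G.eqfSt (box fun J => if ∀ k, pat (J k) = v then A J else ⊥),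
      (G.eqfSub _ hA).psi Λ = ∑ v ∈ Finset.range m, (G.eqfSub _ (hv v)).psi Λ := by
  have h1 : ∀ (J : Fin (l + 1) → G.ι) k a, G.d (J k) a ≠ 0 →
      ∀ j, pat (Function.update J k a j) = pat (J j) := fun J k a h0 j => by
    by_cases hj : j = k
    · rw [hj, Function.update_self, h _ _ h0]
    · rw [Function.update_of_ne hj]
  have h2 : ∀ v (J : Fin (l + 1) → G.ι), (∀ k, pat ((J ∘ finRotate (l + 1)) k) = v) ↔
      ∀ k, pat (J k) = v := fun v J => (finRotate (l + 1)).forall_congr_right (q := fun k => pat (J k) = v)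
  have h3 : ∀ v (J : Fin (l + 1) → G.ι) k a, G.d (J k) a ≠ 0 →
      ((∀ j, pat (Function.update J k a j) = v) ↔ ∀ j, pat (J j) = v) := fun v J k a h0 => by
    simp only [h1 J k a h0]
  have h4 : ∀ n (J : Fin (l + 1) → G.ι) k a, G.d (J k) a ≠ 0 →
      ((∀ v < n, ¬ ∀ j, pat (Function.update J k a j) = v) ↔ ∀ v < n, ¬ ∀ j, pat (J j) = v) :=
    fun v J k a h0 => by simp only [h1 J k a h0]
  have hv := fun v => eqf_stable_cut G hA (fun J => ∀ k, pat (J k) = v) (h3 v) (h2 v)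
  have hw := fun n => eqf_stable_cut G hA (fun J => ∀ v < n, ¬ ∀ k, pat (J k) = v) (h4 n)
    fun J => by simp only [h2]
  have hfw := fun n => ne_top_of_le_ne_top hfin (eqf_h_cut_le Λ G hA _ (h4 n) (hw n))
  have key : ∀ n, (G.eqfSub _ hA).psi Λ = (G.eqfSub _ (hw n)).psi Λ +
      ∑ v ∈ Finset.range n, (G.eqfSub _ (hv v)).psi Λ := by
    intro n
    induction n with
    | zero =>
      rw [Finset.sum_range_zero, add_zero, eqf_congr hA (hw 0) (congrArg box (funext fun J =>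
        (if_pos fun v hv => absurd hv v.not_lt_zero).symm))]
    | succ n ih =>
      rw [ih, Finset.sum_range_succ, add_comm (∑ v ∈ _, _), ← add_assoc, (eqf_add Λ hl (hw (n + 1))
        (hw n) (hv n) (cut (fun J => ∀ k, pat (J k) = n) N)
        (fun x hx => eqf_cut_mem' _ (eqf_mem_cut.1 hx).1) (fun x _ => (eqf_d_cut G _ (h3 n) x).symm)
        (fun i x _ => (eqf_pr_cut G _ i x).symm) (fun x _ => (eqf_τ_cut G _ (h2 n) x).symm)
        (fun y hy => ⟨y, ?_, eqf_cut_fix.1 (eqf_mem_cut.1 hy).2⟩) (fun x hx => ?_)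
        (fun x hx => ⟨fun h0 => ?_, fun h0 => funext fun J => ?_⟩) (hfw _)
        (ne_top_of_le_ne_top hfin (eqf_h_cut_le Λ G hA _ (h3 n) (hv n)))).2]
      · refine eqf_mem_cut.2 ⟨(eqf_mem_cut.1 hy).1, fun J hJ => (eqf_mem_cut.1 hy).2 J fun h5 => ?_⟩
        exact hJ fun v hv h6 => hv.ne ((h6 0).symm.trans (h5 0))
      · exact eqf_mem_cut.2 ⟨(eqf_mem_cut.1 hx).1, fun J hJ => (eqf_mem_cut.1 hx).2 J
          fun h5 => hJ fun v hv => h5 v (Nat.lt_succ_of_lt hv)⟩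
      · refine eqf_mem_cut.2 ⟨(eqf_mem_cut.1 hx).1, fun J hJ => ?_⟩
        by_cases h5 : ∀ k, pat (J k) = n
        · exact (if_pos h5).symm.trans (congrFun h0 J)
        · refine (eqf_mem_cut.1 hx).2 J fun h6 => hJ fun v hv => ?_
          rcases (Nat.lt_succ_iff.1 hv).lt_or_eq with h7 | rfl
          · exact h6 v h7
          · exact h5
      · rw [cx_cut_apply]
        split_ifs with h5
        · exact (eqf_mem_cut.1 h0).2 J fun h6 => h6 n n.lt_succ_self h5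
        · rfl
  obtain ⟨Rep, hR⟩ := eqf2_rep hp
  refine ⟨hv, (key m).trans ?_⟩
  rw [eqf2_free Λ G (hw m) (fun J => Rep (pat ∘ J)) (fun J k a h0 => ?_) (fun J => ?_) (hfw m),
    zero_add]
  · rw [show pat ∘ Function.update J k a = pat ∘ J from funext (h1 J k a h0)]
  · by_cases h5 : ∀ k, pat (J k) = pat (J 0)
    · exact Or.inl (if_neg fun h6 => h6 _ (hm _) h5)
    · exact Or.inr (hR (pat ∘ J) h5)

/-- only constant patterns contribute. -/
theorem psi_eq_sum_const (hp : (l + 1).Prime) (hl : IsUnit ((l + 1 : ℕ) : R)) (G : Cx R) (pat : G.ι → ℕ)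
    (h : ∀ a b, G.d a b ≠ 0 → pat a = pat b) (A : (Fin (l + 1) → G.ι) → Submodule R N)
    (hA : (G.onPow l N).Stable (box A)) (hfin : ((G.onPow l N).sub _ hA).toDG.h Λ ≠ ⊤)
    (m : ℕ) (hm : ∀ a, pat a < m) :
    ∃ hv : ∀ v, (G.onPow l N).Stable (box fun J => if ∀ k, pat (J k) = v then A J else ⊥),
      ((G.onPow l N).sub _ hA).psi Λ =
        ∑ v ∈ Finset.range m, ((G.onPow l N).sub _ (hv v)).psi Λ :=
  eqf2_const Λ hp hl G pat h A hA hfin m hm

/-- the complex with zero differential. -/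
def eqf2Z (G : Cx R) : Cx R := Cx.mk G.ι G.deg 0 (zero_mul _) fun _ _ h => absurd rfl h

theorem eqf2_one (hev : Even l) (G : Cx R) (a : G.ι) {A : (Fin (l + 1) → G.ι) → Submodule R N}
    (hA : G.eqfSt (box A)) (h : ∀ J, J ≠ (fun _ => a) → A J = ⊥)
    (hv : Λ.val (A fun _ => a) ≠ ⊤) :
    (G.eqfSub _ hA).psi Λ = l * ((-1) ^ G.deg a * (Λ.val (A fun _ => a)).toReal) := by
  have h0 : ∀ (x : box A) J, J ≠ (fun _ => a) → x.1 J = 0 := fun x J hJ =>
    (Submodule.mem_bot R).1 (h J hJ ▸ eqf_mem_box.1 x.2 J)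
  have h1 : ∀ x : box A, G.eqfT l N x.1 = x.1 := fun x => funext fun J => by
    rw [eqf_τ]
    by_cases hJ : J = fun _ => a
    · subst hJ
      rw [Finset.sum_const, Finset.card_univ, Fintype.card_fin, smul_eq_mul,
        ((hev.mul_right _).mul_left _).neg_one_pow, one_smul]
      rfl
    · rw [h0 x J hJ, h0 x _ fun h2 => hJ (pow_comp_inj.1 h2), smul_zero]
  have h2 : ∀ x : box A, G.eqfP l N ((l + 1) * G.deg a) x.1 = x.1 := fun x => funext fun J => by
    rw [eqf_pr]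
    by_cases hJ : J = fun _ => a
    · subst hJ
      rw [if_pos (by rw [Finset.sum_const, Finset.card_univ, Fintype.card_fin, smul_eq_mul])]
    · rw [h0 x J hJ, ite_self]
  have h3 : Λ.val (G.eqfSub _ hA).M = Λ.val (A fun _ => a) := (eqf2_val_box Λ A).trans
    (Finset.sum_eq_single _ (fun J _ hJ => by rw [← Λ.rel_bot, Λ.rel_of_le (h J hJ).le])
      fun h => absurd (Finset.mem_univ _) h)
  rw [EDG.psi_of_trivial Λ _ fun x => Subtype.ext (h1 x),
    DG.eqf2_conc Λ _ _ (fun x => Subtype.ext (h2 x)) (h3.trans_ne hv), h3, pow_mul,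
    hev.add_one.neg_one_pow, Nat.cast_add_one, add_sub_cancel_right]

theorem eqf2_quot (G : Cx R) (A B : (Fin (l + 1) → G.ι) → Submodule R N) (hA : G.eqfSt (box A))
    (hB : G.eqfSt (box B)) (hBA : ∀ J, B J ≤ A J) (hrel : ∀ J, Λ.rel (A J) (B J) ≠ ⊤)
    (hfin : (G.eqfSub _ hB).toDG.h Λ ≠ ⊤) : (G.eqfSub _ hA).toDG.h Λ ≠ ⊤ ∧
      ((l + 1).Prime → Even l → IsUnit ((l + 1 : ℕ) : R) →
        (G.eqfSub _ hA).psi Λ = (G.eqfSub _ hB).psi Λ +
          l * ∑ a, (-1 : ℝ) ^ G.deg a * (Λ.rel (A fun _ => a) (B fun _ => a)).toReal) := by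
  classical
  let φ : Submodule R N → N →ₗ[R] ∀ J, N ⧸ B J := fun C =>
    LinearMap.pi fun J => if B J = C then (B J).mkQ else 0
  have hφ : ∀ J y, φ (B J) y = 0 ↔ y ∈ B J := fun J y => by
    refine ⟨fun h => ?_, fun h => funext fun J' => ?_⟩
    · have h1 := congrFun h J
      rwa [LinearMap.pi_apply, if_pos rfl, Submodule.mkQ_apply, Pi.zero_apply,
        Submodule.Quotient.mk_eq_zero] at h1
    · rw [LinearMap.pi_apply, Pi.zero_apply]
      split_ifs with h1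
      · exact (Submodule.Quotient.mk_eq_zero _).2 (h1 ▸ h)
      · rfl
  let A' := fun J => (A J).map (φ (B J))
  have hv : ∀ J, Λ.val (A' J) = Λ.rel (A J) (B J) := fun J =>
    Λ.len_map_congr _ _ _ fun y _ => (hφ J y).trans (Submodule.Quotient.mk_eq_zero _).symm
  have hA' : G.eqf2Z.eqfSt (box A') := stable_box G.eqf2Z A'
    (fun J => congrArg₂ (fun C D => Submodule.map (φ D) C) (eqf2_rot hA J) (eqf2_rot hB J))
    fun J k a y _ => (zero_smul R y).symm ▸ zero_mem _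
  let g : box A →ₗ[R] box A' := (LinearMap.pi fun J => (φ (B J)).comp (LinearMap.proj J)).restrict
    fun x hx => eqf_mem_box.2 fun J => ⟨_, eqf_mem_box.1 hx J, rfl⟩
  have hg : ∀ x J, (g x).1 J = φ (B J) (x.1 J) := fun _ _ => rfl
  have hle : box B ≤ box A := fun x hx => eqf_mem_box.2 fun J => hBA J (eqf_mem_box.1 hx J)
  let f : EDG.Hom (G.eqfSub _ hB) (G.eqfSub _ hA) :=
    ⟨⟨(Submodule.inclusion hle :), fun _ => rfl, fun _ _ => rfl⟩, fun _ => rfl⟩
  have h1 : Function.Exact (Submodule.inclusion hle) g := fun x =>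
    ⟨fun h => ⟨⟨x.1, eqf_mem_box.2 fun J => (hφ J _).1 (congrFun (congrArg Subtype.val h) J)⟩, rfl⟩,
      fun ⟨y, hy⟩ => Subtype.ext (funext fun J => (hφ J _).2 (hy ▸ eqf_mem_box.1 y.2 J))⟩
  have h2 : Function.Surjective g := fun y => by
    choose x hx e using fun J => eqf_mem_box.1 y.2 J
    exact ⟨⟨x, eqf_mem_box.2 hx⟩, Subtype.ext (funext e)⟩
  have h3 : ∀ i (x : box A) J, φ (B J) (G.eqfP l N i x.1 J) = G.eqf2Z.eqfP l _ i (g x).1 J := by
    intro i x J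
    refine Eq.trans ?_ (eqf_pr G i (g x).1 J).symm
    rw [eqf_pr, hg]
    split_ifs
    · rfl
    · exact map_zero _
  have h4 : ∀ (x : box A) J, φ (B J) (G.eqfT l N x.1 J) = G.eqf2Z.eqfT l _ (g x).1 J := by
    intro x J
    refine Eq.trans ?_ (eqf_τ G.eqf2Z (g x).1 J).symm
    rw [eqf_τ, map_smul, ← eqf2_rot hB J]
    rfl
  have h5 : Λ.val (G.eqf2Z.eqfSub _ hA').M ≠ ⊤ := (eqf2_val_box Λ A').trans_ne
    (ENNReal.sum_ne_top.2 fun J _ => (hv J).trans_ne (hrel J))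
  obtain ⟨h6, h7⟩ := EDG.eqf2_val Λ (Y := G.eqf2Z.eqfSub _ hA') f g
    (Submodule.inclusion_injective hle) h1 h2 (fun i x => Subtype.ext (funext (h3 i x)))
    (fun x => Subtype.ext (funext (h4 x))) h5 hfin
  refine ⟨h6, fun hp hev hl => (h7 hl).trans (congrArg _ ?_)⟩
  let e := Fintype.equivFin G.ι
  obtain ⟨hc, h8⟩ := eqf2_const Λ hp hl G.eqf2Z (fun a => e a) (fun _ _ h => absurd rfl h) A' hA'
    (ne_top_of_le_ne_top h5 (DG.h_le_val Λ _)) _ fun a => (e a).2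
  rw [h8, Finset.sum_range, ← e.sum_comp, Finset.mul_sum]
  refine Finset.sum_congr rfl fun a _ => ?_
  have h9 : (if ∀ _ : Fin (l + 1), (e a : ℕ) = e a then A' fun _ => a else ⊥) = A' fun _ => a :=
    if_pos fun _ => rfl
  have h10 := (Λ.len_congr_sub h9).trans (hv _)
  exact (eqf2_one Λ hev G.eqf2Z a (hc (e a)) (fun J hJ => if_neg fun h => hJ
    (funext fun k => e.injective (Fin.ext (h k)))) (h10.trans_ne (hrel _))).trans
    (congrArg (fun t : ENNReal => l * ((-1 : ℝ) ^ G.deg a * t.toReal)) h10)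

/-- two boxes with termwise finite quotient. -/
theorem h_box_ne_top (G : Cx R) (A B : (Fin (l + 1) → G.ι) → Submodule R N)
    (hA : (G.onPow l N).Stable (box A)) (hB : (G.onPow l N).Stable (box B)) (hBA : ∀ J, B J ≤ A J)
    (hrel : ∀ J, Λ.rel (A J) (B J) ≠ ⊤) (hfin : ((G.onPow l N).sub _ hB).toDG.h Λ ≠ ⊤) :
    ((G.onPow l N).sub _ hA).toDG.h Λ ≠ ⊤ :=
  (eqf2_quot Λ G A B hA hB hBA hrel hfin).1

theorem psi_box_sub (hp : (l + 1).Prime) (hev : Even l) (hl : IsUnit ((l + 1 : ℕ) : R)) (G : Cx R)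
    (A B : (Fin (l + 1) → G.ι) → Submodule R N)
    (hA : (G.onPow l N).Stable (box A)) (hB : (G.onPow l N).Stable (box B)) (hBA : ∀ J, B J ≤ A J)
    (hrel : ∀ J, Λ.rel (A J) (B J) ≠ ⊤) (hfin : ((G.onPow l N).sub _ hB).toDG.h Λ ≠ ⊤) :
    ((G.onPow l N).sub _ hA).psi Λ = ((G.onPow l N).sub _ hB).psi Λ +
      l * ∑ a, (-1 : ℝ) ^ G.deg a * (Λ.rel (A fun _ => a) (B fun _ => a)).toReal :=
  (eqf2_quot Λ G A B hA hB hBA hrel hfin).2 hp hev hl

end Cx

end Vale.Agent.P177
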