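import Vale.Agent.P177.Cx

/-! Generic trivialisations of complexes and their Pluecker ideals. -/

namespace Vale.Agent.P177

open Matrix

universe u

variable {S : Type u} [CommRing S]

/-- a trivialisation after inverting `c`. -/
structure Triv (F : Cx S) where
  r : ℕ
  dg : Fin r → ℕ
  anti : Antitone dg
  M : Matrix F.ι (Fin r × Bool) S
  M' : Matrix (Fin r × Bool) F.ι S
  c : S
  mul : M * M' = c • (1 : Matrix F.ι F.ι S)
  mul' : M' * M = c • (1 : Matrix (Fin r × Bool) (Fin r × Bool) S)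
  deg : ∀ j a, M j a ≠ 0 → F.deg j = (Cx.triv S (Fin r) dg).deg a
  deg' : ∀ a j, M' a j ≠ 0 → (Cx.triv S (Fin r) dg).deg a = F.deg j
  comm : F.d * M = M * (show Matrix (Fin r × Bool) (Fin r × Bool) S from (Cx.triv S (Fin r) dg).d)
  comm' : M' * F.d =
    (show Matrix (Fin r × Bool) (Fin r × Bool) S from (Cx.triv S (Fin r) dg).d) * M'

/-- a trivialisation with Pluecker ideals. -/
structure Flag (F : Cx S) extends Triv F where
  Pm : Fin r × Bool → Ideal S
  Pp : Fin r × Bool → Ideal S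
  eta : ∀ a, ∀ μ ∈ Pm a, ∃ v : Fin r × Bool → S, v a = μ ∧
    (∀ a', v a' ≠ 0 → a' = a ∨ a'.1 < a.1) ∧ ∀ j, (M *ᵥ v) j ∈ Pp a
  lam : ∀ a, ∀ η ∈ Pp a, ∃ (w : F.ι → S) (v : Fin r × Bool → S), (∀ j, w j ∈ Pm a) ∧
    (∀ a', v a' ≠ 0 → a.1 < a'.1) ∧ ∀ j, η * M' a j = c * w j + (v ᵥ* M') j

theorem Flag_eta_span {ι κ : Type} [Fintype κ] (M : Matrix ι κ S) (a : κ) (Q : κ → Prop)
    (T : Set S) (J : Ideal S) (h : ∀ μ ∈ T, ∃ v : κ → S, v a = μ ∧ (∀ a', v a' ≠ 0 → Q a') ∧
      ∀ j, (M *ᵥ v) j ∈ J) : ∀ μ ∈ Ideal.span T, ∃ v : κ → S, v a = μ ∧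
      (∀ a', v a' ≠ 0 → Q a') ∧ ∀ j, (M *ᵥ v) j ∈ J := by
  intro μ hμ
  induction hμ using Submodule.span_induction with
  | mem x hx => exact h x hx
  | zero => exact ⟨0, rfl, fun _ h => absurd rfl h, fun j => by simp⟩
  | add x y _ _ hx hy =>
    obtain ⟨v, h1, h2, h3⟩ := hx
    obtain ⟨w, h4, h5, h6⟩ := hy
    refine ⟨v + w, by rw [Pi.add_apply, h1, h4], fun a' ha => ?_, fun j => ?_⟩
    · by_contra hn
      exact ha (by rw [Pi.add_apply, not_not.1 (mt (h2 a') hn), not_not.1 (mt (h5 a') hn), add_zero])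
    · rw [mulVec_add]
      exact add_mem (h3 j) (h6 j)
  | smul r x _ hx =>
    obtain ⟨v, h1, h2, h3⟩ := hx
    refine ⟨r • v, by rw [Pi.smul_apply, h1], fun a' ha => h2 a' fun h0 => ha ?_, fun j => ?_⟩
    · rw [Pi.smul_apply, h0, smul_zero]
    · rw [mulVec_smul]
      exact J.smul_mem r (h3 j)

theorem Flag_lam_span {ι κ : Type} [Fintype κ] (M' : Matrix κ ι S) (c : S) (a : κ) (Q : κ → Prop)
    (T : Set S) (J : Ideal S) (h : ∀ η ∈ T, ∃ (w : ι → S) (v : κ → S), (∀ j, w j ∈ J) ∧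
      (∀ a', v a' ≠ 0 → Q a') ∧ ∀ j, η * M' a j = c * w j + (v ᵥ* M') j) :
    ∀ η ∈ Ideal.span T, ∃ (w : ι → S) (v : κ → S), (∀ j, w j ∈ J) ∧
      (∀ a', v a' ≠ 0 → Q a') ∧ ∀ j, η * M' a j = c * w j + (v ᵥ* M') j := by
  intro μ hμ
  induction hμ using Submodule.span_induction with
  | mem x hx => exact h x hx
  | zero => exact ⟨0, 0, fun _ => zero_mem _, fun _ h => absurd rfl h, fun j => by simp⟩
  | add x y _ _ hx hy =>
    obtain ⟨w, v, h1, h2, h3⟩ := hx
    obtain ⟨w', v', h4, h5, h6⟩ := hy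
    refine ⟨w + w', v + v', fun j => add_mem (h1 j) (h4 j), fun a' ha => ?_, fun j => ?_⟩
    · by_contra hn
      exact ha (by rw [Pi.add_apply, not_not.1 (mt (h2 a') hn), not_not.1 (mt (h5 a') hn), add_zero])
    · rw [add_vecMul, add_mul, h3, h6, Pi.add_apply, Pi.add_apply]
      ring
  | smul r x _ hx =>
    obtain ⟨w, v, h1, h2, h3⟩ := hx
    refine ⟨r • w, r • v, fun j => J.smul_mem r (h1 j), fun a' ha => h2 a' fun h0 => ha ?_,
      fun j => ?_⟩
    · rw [Pi.smul_apply, h0, smul_zero]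
    · rw [smul_vecMul, smul_eq_mul, mul_assoc, h3, Pi.smul_apply, Pi.smul_apply, smul_eq_mul,
        smul_eq_mul]
      ring

theorem Flag_map_smul {S' : Type u} [CommRing S'] (φ : S →+* S') {ι : Type} [DecidableEq ι]
    (c : S) : (c • (1 : Matrix ι ι S)).map φ = φ c • (1 : Matrix ι ι S') := by
  ext i j
  simp [Matrix.one_apply, apply_ite φ]

theorem Flag_map_triv {S' : Type u} [CommRing S'] (φ : S →+* S') {r : ℕ} (dg : Fin r → ℕ) :
    (show Matrix (Fin r × Bool) (Fin r × Bool) S' from (Cx.triv S' (Fin r) dg).d) =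
      (show Matrix (Fin r × Bool) (Fin r × Bool) S from (Cx.triv S (Fin r) dg).d).map φ := by
  ext x y
  show (if x.1 = y.1 ∧ x.2 = false ∧ y.2 = true then 1 else 0) =
    φ (if x.1 = y.1 ∧ x.2 = false ∧ y.2 = true then 1 else 0)
  rw [apply_ite φ, map_one, map_zero]

/-- base change. -/
def Flag.map {F : Cx S} (Φ : Flag F) {S' : Type u} [CommRing S'] (φ : S →+* S') :
    Flag (F.map φ) where
  r := Φ.r
  dg := Φ.dg
  anti := Φ.anti
  M := Φ.M.map φ
  M' := Φ.M'.map φ
  c := φ Φ.c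
  mul := (Matrix.map_mul.symm.trans (congrArg (·.map φ) Φ.mul)).trans (Flag_map_smul φ _)
  mul' := (Matrix.map_mul.symm.trans (congrArg (·.map φ) Φ.mul')).trans (Flag_map_smul φ _)
  deg j a h := Φ.deg j a fun h0 => h ((congrArg φ h0).trans φ.map_zero)
  deg' a j h := Φ.deg' a j fun h0 => h ((congrArg φ h0).trans φ.map_zero)
  comm := by
    rw [Flag_map_triv φ]
    exact (Matrix.map_mul.symm.trans (congrArg (·.map φ) Φ.comm)).trans Matrix.map_mul
  comm' := by
    rw [Flag_map_triv φ]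
    exact (Matrix.map_mul.symm.trans (congrArg (·.map φ) Φ.comm')).trans Matrix.map_mul
  Pm a := (Φ.Pm a).map φ
  Pp a := (Φ.Pp a).map φ
  eta a := Flag_eta_span _ a _ _ _ (by
    rintro _ ⟨μ, hμ, rfl⟩
    obtain ⟨v, h1, h2, h3⟩ := Φ.eta a μ hμ
    refine ⟨φ ∘ v, congrArg φ h1, fun a' h => h2 a' fun h0 =>
      h ((congrArg φ h0).trans φ.map_zero), fun j => ?_⟩
    exact φ.map_mulVec Φ.M v j ▸ Ideal.mem_map_of_mem φ (h3 j))
  lam a := Flag_lam_span _ _ a _ _ _ (by
    rintro _ ⟨μ, hμ, rfl⟩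
    obtain ⟨w, v, h1, h2, h3⟩ := Φ.lam a μ hμ
    refine ⟨φ ∘ w, φ ∘ v, fun j => Ideal.mem_map_of_mem φ (h1 j), fun a' h => h2 a' fun h0 =>
      h ((congrArg φ h0).trans φ.map_zero), fun j => ?_⟩
    have h4 := congrArg φ (h3 j)
    rw [map_mul, map_add, map_mul] at h4
    exact h4.trans (congrArg _ (φ.map_vecMul Φ.M' v j)))

section Pl
variable {ι κ : Type} [Fintype κ] [DecidableEq κ] (M : Matrix ι κ S)

/-- rows of `M` on `D`, rows of the identity elsewhere. -/
def Flag_mat (D : Finset κ) (f : κ → Option ι) : Matrix κ κ S :=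
  Matrix.of fun i => if i ∈ D then (f i).elim 0 (fun k => M k) else Pi.single i 1

/-- the ideal of minors. -/
def Flag_P (D : Finset κ) : Ideal S := Ideal.span (Set.range fun f => (Flag_mat M D f).det)

theorem Flag_det_mem (D : Finset κ) (f : κ → Option ι) : (Flag_mat M D f).det ∈ Flag_P M D :=
  Ideal.subset_span ⟨f, rfl⟩

theorem Flag_row (D : Finset κ) (f : κ → Option ι) (i : κ) :
    Flag_mat M D f i = if i ∈ D then (f i).elim 0 (fun k => M k) else Pi.single i 1 := rfl

theorem Flag_eta (D : Finset κ) (a : κ) (ha : a ∉ D) (f : κ → Option ι) :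
    ∃ v : κ → S, v a = (Flag_mat M D f).det ∧ (∀ a', v a' ≠ 0 → a' = a ∨ a' ∈ D) ∧
      ∀ j, (M *ᵥ v) j ∈ Flag_P M (insert a D) := by
  have h1 : ∀ i, i ∉ D → (Flag_mat M D f).adjugate i a =
      (Flag_mat M D f).det * (1 : Matrix κ κ S) i a := fun i hi => by
    have h := congrFun (congrFun (Matrix.mul_adjugate (Flag_mat M D f)) i) a
    rw [Matrix.mul_apply', Flag_row, if_neg hi, single_dotProduct, one_mul] at h
    exact h
  refine ⟨fun k => (Flag_mat M D f).adjugate k a, ?_, fun a' h => ?_, fun j => ?_⟩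
  · exact (h1 a ha).trans (by rw [Matrix.one_apply_eq, mul_one])
  · by_contra hn
    push Not at hn
    exact h ((h1 a' hn.2).trans (by rw [Matrix.one_apply_ne hn.1, mul_zero]))
  · have h2 : (Flag_mat M D f).updateRow a (M j) =
        Flag_mat M (insert a D) (Function.update f a (some j)) := by
      funext i
      rcases eq_or_ne i a with rfl | hi
      · rw [Matrix.updateRow_self, Flag_row, if_pos (Finset.mem_insert_self _ _),
          Function.update_self]
        rfl
      · rw [Matrix.updateRow_ne hi, Flag_row, Flag_row, Function.update_of_ne hi]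
        simp only [Finset.mem_insert, hi, false_or]
    have h3 := Flag_det_mem M (insert a D) (Function.update f a (some j))
    rw [← h2, ← Matrix.cramer_transpose_apply, Matrix.cramer_eq_adjugate_mulVec,
      ← Matrix.adjugate_transpose] at h3
    exact (congrArg (· ∈ Flag_P M (insert a D)) (dotProduct_comm (M j) _)).mpr h3

theorem Flag_adj (D : Finset κ) (a : κ) (ha : a ∉ D) (f : κ → Option ι) {i : κ}
    (hi : i ∈ insert a D) : (Flag_mat M (insert a D) f).adjugate a i ∈ Flag_P M D := by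
  have h : (Flag_mat M (insert a D) f).updateRow i (Pi.single a 1) =
      (Flag_mat M D (f ∘ Equiv.swap a i)).submatrix (Equiv.swap a i) id := by
    funext k
    show _ = Flag_mat M D (f ∘ Equiv.swap a i) (Equiv.swap a i k)
    rcases eq_or_ne k i with rfl | hk
    · rw [Matrix.updateRow_self, Equiv.swap_apply_right, Flag_row, if_neg ha]
    · rw [Matrix.updateRow_ne hk, Flag_row, Flag_row, Function.comp_apply, Equiv.swap_apply_self]
      rcases eq_or_ne k a with rfl | hk'
      · rw [Equiv.swap_apply_left, if_pos (Finset.mem_insert_self _ _),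
          if_pos ((Finset.mem_insert.1 hi).resolve_left hk.symm)]
      · rw [Equiv.swap_apply_of_ne_of_ne hk' hk]
        simp only [Finset.mem_insert, hk', false_or]
  rw [Matrix.adjugate_apply, h, Matrix.det_permute]
  exact Ideal.mul_mem_left _ _ (Flag_det_mem M D _)

variable [Fintype ι] [DecidableEq ι] (M' : Matrix κ ι S) (c : S)

theorem Flag_lam (h : M * M' = c • (1 : Matrix ι ι S)) (D : Finset κ) (a : κ) (ha : a ∉ D)
    (f : κ → Option ι) : ∃ (w : ι → S) (v : κ → S), (∀ j, w j ∈ Flag_P M D) ∧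
      (∀ a', v a' ≠ 0 → a' ∉ insert a D) ∧
      ∀ j, (Flag_mat M (insert a D) f).det * M' a j = c * w j + (v ᵥ* M') j := by
  refine ⟨fun j => ∑ i, if i ∈ insert a D ∧ f i = some j then
      (Flag_mat M (insert a D) f).adjugate a i else 0,
    fun i => if i ∈ insert a D then 0 else (Flag_mat M (insert a D) f).adjugate a i,
    fun j => Ideal.sum_mem _ fun i _ => ?_, fun a' h0 hn => h0 (if_pos hn), fun j => ?_⟩
  · split_ifs with hi
    · exact Flag_adj M D a ha f hi.1
    · exact zero_mem _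
  · have h0 : (Flag_mat M (insert a D) f).adjugate * (Flag_mat M (insert a D) f * M') =
        (Flag_mat M (insert a D) f).det • M' := by
      rw [← Matrix.mul_assoc, Matrix.adjugate_mul, Matrix.smul_mul, Matrix.one_mul]
    have h1 : ((Flag_mat M (insert a D) f).adjugate * (Flag_mat M (insert a D) f * M')) a j =
        (Flag_mat M (insert a D) f).det * M' a j := by rw [h0, Matrix.smul_apply, smul_eq_mul]
    rw [← h1, Matrix.mul_apply, Finset.mul_sum, Matrix.vecMul, dotProduct,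
      ← Finset.sum_add_distrib]
    refine Finset.sum_congr rfl fun i _ => ?_
    rw [Matrix.mul_apply', Flag_row]
    by_cases hi : i ∈ insert a D
    · simp only [hi, if_true, true_and, zero_mul, add_zero]
      cases f i with
      | none => simp
      | some k =>
        have h2 := congrFun (congrFun h k) j
        rw [Matrix.mul_apply'] at h2
        simp only [Option.elim_some, h2, Matrix.smul_apply, Matrix.one_apply, Option.some.injEq,
          smul_eq_mul]
        split_ifs <;> ring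
    · simp [hi]

omit [DecidableEq ι] in
theorem Flag_pow (h' : M' * M = c • (1 : Matrix κ κ S)) (D : Finset κ) :
    c ^ D.card ∈ Flag_P M D := by
  let α : κ → Option ι → S := fun i o =>
    if i ∈ D then o.elim 0 (fun k => M' i k) else o.elim 1 fun _ => 0
  have h1 : (Matrix.diagonal fun i => if i ∈ D then c else 1) =
      fun i => ∑ o : Option ι, α i o • Flag_mat M D (fun _ => o) i := by
    funext i j
    rw [Fintype.sum_option]
    by_cases hi : i ∈ D
    · have h2 := congrFun (congrFun h' i) j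
      simp only [Matrix.mul_apply, Matrix.smul_apply, Matrix.one_apply, smul_eq_mul, mul_ite,
        mul_one, mul_zero] at h2
      simp [α, Flag_row, hi, h2, Matrix.diagonal_apply]
    · simp [α, Flag_row, hi, Matrix.diagonal_apply, Pi.single_apply, eq_comm]
  have h2 : c ^ D.card = (Matrix.diagonal fun i => if i ∈ D then c else 1).det := by
    rw [Matrix.det_diagonal, Finset.prod_ite_mem, Finset.univ_inter, Finset.prod_const]
  classical
  rw [h2, h1]
  have h3 := (Matrix.detRowAlternating (n := κ) (R := S)).toMultilinearMap.map_sum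
    fun i (o : Option ι) => α i o • Flag_mat M D (fun _ => o) i
  refine (congrArg (· ∈ Flag_P M D) h3).mpr (Ideal.sum_mem _ fun f _ => ?_)
  rw [MultilinearMap.map_smul_univ]
  exact Ideal.mul_mem_left _ _ (Flag_det_mem M D f)

end Pl

theorem exists_pluecker {ι κ : Type} [Fintype ι] [Fintype κ] [DecidableEq ι] [DecidableEq κ]
    (M : Matrix ι κ S) (M' : Matrix κ ι S) (c : S) (h : M * M' = c • (1 : Matrix ι ι S))
    (h' : M' * M = c • (1 : Matrix κ κ S)) :
    ∃ P : Finset κ → Ideal S, (∀ D, (P D).FG) ∧ (∀ D, c ^ D.card ∈ P D) ∧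
      (∀ D a, a ∉ D → ∀ μ ∈ P D, ∃ v : κ → S, v a = μ ∧ (∀ a', v a' ≠ 0 → a' = a ∨ a' ∈ D) ∧
        ∀ j, (M *ᵥ v) j ∈ P (insert a D)) ∧
      ∀ D a, a ∉ D → ∀ η ∈ P (insert a D), ∃ (w : ι → S) (v : κ → S), (∀ j, w j ∈ P D) ∧
        (∀ a', v a' ≠ 0 → a' ∉ insert a D) ∧ ∀ j, η * M' a j = c * w j + (v ᵥ* M') j := by
  refine ⟨Flag_P M, fun D => Submodule.fg_span (Set.finite_range _), Flag_pow M M' c h',
    fun D a ha => Flag_eta_span M a _ _ _ ?_, fun D a ha => Flag_lam_span M' c a _ _ _ ?_⟩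
  · rintro _ ⟨f, rfl⟩
    exact Flag_eta M D a ha f
  · rintro _ ⟨f, rfl⟩
    exact Flag_lam M M' c h D a ha f

theorem Triv.exists_flag {F : Cx S} (Θ : Triv F) : ∃ Φ : Flag F, Φ.toTriv = Θ ∧
    ∀ a, Θ.c ∈ (Φ.Pm a).radical ∧ Θ.c ∈ (Φ.Pp a).radical ∧ (Φ.Pm a).FG ∧ (Φ.Pp a).FG := by
  obtain ⟨P, h1, h2, h3, h4⟩ := exists_pluecker Θ.M Θ.M' Θ.c Θ.mul Θ.mul'
  let dg : Fin Θ.r × Bool → ℕ := (Cx.triv S (Fin Θ.r) Θ.dg).deg
  let D : Fin Θ.r × Bool → Finset (Fin Θ.r × Bool) := fun a =>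
    Finset.univ.filter fun a' => dg a' = dg a ∧ a'.1 < a.1
  have hD : ∀ a a', a' ∈ D a ↔ dg a' = dg a ∧ a'.1 < a.1 := fun a a' => by simp [D]
  have hn : ∀ a, a ∉ D a := fun a h => lt_irrefl _ ((hD a a).1 h).2
  refine ⟨⟨Θ, fun a => P (D a), fun a => P (insert a (D a)), fun a μ hμ => ?_, fun a η hη => ?_⟩,
    rfl, fun a => ⟨⟨_, h2 _⟩, ⟨_, h2 _⟩, h1 _, h1 _⟩⟩
  · obtain ⟨v, e1, e2, e3⟩ := h3 _ a (hn a) μ hμ
    exact ⟨v, e1, fun a' h => (e2 a' h).imp_right fun h => ((hD a a').1 h).2, e3⟩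
  · obtain ⟨w, v, e1, e2, e3⟩ := h4 _ a (hn a) η hη
    refine ⟨fun j => if F.deg j = dg a then w j else 0, fun a' => if dg a' = dg a then v a' else 0,
      fun j => ?_, fun a' h => ?_, fun j => ?_⟩
    · dsimp only
      split_ifs
      · exact e1 j
      · exact zero_mem _
    · have h5 : dg a' = dg a := by
        by_contra h5
        exact h (if_neg h5)
      have h6 := e2 a' fun h0 => h ((if_pos h5).trans h0)
      rw [Finset.mem_insert, hD, not_or, not_and] at h6
      refine lt_of_le_of_ne (not_lt.1 (h6.2 h5)) fun h7 => h6.1 ?_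
      obtain ⟨x, b⟩ := a
      obtain ⟨y, b'⟩ := a'
      obtain rfl : x = y := h7
      have h8 : (if b' then Θ.dg x + 1 else Θ.dg x) = if b then Θ.dg x + 1 else Θ.dg x := h5
      cases b <;> cases b' <;> simp at h8 ⊢
    · dsimp only
      split_ifs with hj
      · rw [e3]
        refine congrArg _ (Finset.sum_congr rfl fun a' _ => ?_)
        dsimp only
        split_ifs with h5
        · rfl
        · rw [not_not.1 (mt (Θ.deg' a' j) fun h => h5 (h.trans hj)), mul_zero, mul_zero]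
      · rw [not_not.1 (mt (Θ.deg' a j) fun h => hj h.symm), mul_zero, mul_zero, zero_add]
        refine (Finset.sum_eq_zero fun a' _ => ?_).symm
        dsimp only
        split_ifs with h5
        · rw [not_not.1 (mt (Θ.deg' a' j) fun h => hj (h.symm.trans h5)), mul_zero]
        · rw [zero_mul]

end Vale.Agent.P177
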