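import Vale.Agent.P177.SysDef
import Vale.Agent.P177.Len2
import Vale.Agent.P177.Reg

/-! The image of an ideal under all embeddings at once. -/

namespace Vale.Agent.P177

open scoped ENNReal
open IsLocalRing Vale.Agent.P202

universe u

variable {p : ℕ} {A T B : Type u} [CommRing A] [IsLocalRing A] [CommRing T] [IsLocalRing T]
  [Algebra A T] [CommRing B] [Algebra A B] {z : List A} {ϖ : A} {D : EtData A T} {Λ : Len B}
  {σ : Fin D.P.natDegree → T →ₐ[A] B}

/-- the span of the vectors of conjugates. -/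
def gam {r : ℕ} (σ : Fin r → T →ₐ[A] B) (I : Ideal T) : Submodule B (Fin r → B) :=
  Submodule.span B ((fun τ i => σ i τ) '' I)

section
omit [IsLocalRing A] [IsLocalRing T]

theorem gam_mem {r : ℕ} (σ : Fin r → T →ₐ[A] B) {I : Ideal T} {τ : T} (h : τ ∈ I) :
    (fun i => σ i τ) ∈ gam σ I := Submodule.subset_span ⟨τ, h, rfl⟩

theorem gam_le {r : ℕ} (σ : Fin r → T →ₐ[A] B) {I : Ideal T} {N : Submodule B (Fin r → B)}
    (h : ∀ τ ∈ I, (fun i => σ i τ) ∈ N) : gam σ I ≤ N :=
  Submodule.span_le.2 (by rintro _ ⟨τ, hτ, rfl⟩; exact h τ hτ)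

/-- multiplication by the conjugates of an element. -/
theorem gam_mul_mem {r : ℕ} (σ : Fin r → T →ₐ[A] B) {I : Ideal T} (t : T) {x : Fin r → B}
    (h : x ∈ gam σ I) : (fun i => σ i t) * x ∈ gam σ I := by
  refine gam_le σ (N := (gam σ I).comap (LinearMap.mulLeft B fun i => σ i t)) (fun τ hτ => ?_) h
  have e : (fun i => σ i t) * (fun i => σ i τ) = fun i => σ i (t * τ) :=
    funext fun i => (map_mul _ _ _).symm
  rw [Submodule.mem_comap, LinearMap.mulLeft_apply, e]
  exact gam_mem σ (I.mul_mem_left t hτ)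

open Polynomial in
theorem gam_eval_mul_mem {r : ℕ} (σ : Fin r → T →ₐ[A] B) {I : Ideal T} (t : T) (E : B[X])
    {x : Fin r → B} (h : x ∈ gam σ I) : (fun i => E.eval (σ i t)) * x ∈ gam σ I := by
  induction E using Polynomial.induction_on' with
  | add f g hf hg =>
    have e : (fun i => (f + g).eval (σ i t)) * x =
        (fun i => f.eval (σ i t)) * x + (fun i => g.eval (σ i t)) * x :=
      funext fun i => by simp [add_mul]
    exact e ▸ Submodule.add_mem _ hf hg
  | monomial n c =>
    have e : (fun i => (monomial n c).eval (σ i t)) * x = c • ((fun i => σ i (t ^ n)) * x) :=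
      funext fun i => by simp [mul_assoc]
    exact e ▸ Submodule.smul_mem _ c (gam_mul_mem σ _ h)

open TensorProduct in
/-- all embeddings at once. -/
noncomputable def gamTheta {r : ℕ} (σ : Fin r → T →ₐ[A] B) : B ⊗[A] T →ₐ[B] (Fin r → B) :=
  Algebra.TensorProduct.lift (Algebra.ofId B _) (AlgHom.pi σ) fun _ _ => Commute.all _ _

theorem gamTheta_tmul {r : ℕ} (σ : Fin r → T →ₐ[A] B) (b : B) (τ : T) :
    gamTheta σ (b ⊗ₜ τ) = b • fun i => σ i τ := by
  rw [gamTheta, Algebra.TensorProduct.lift_tmul, Algebra.smul_def]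
  rfl

theorem gam_eq_map {r : ℕ} (σ : Fin r → T →ₐ[A] B) (I : Ideal T) :
    gam σ I = ((I.restrictScalars A).baseChange B).map (gamTheta σ).toLinearMap := by
  rw [Submodule.baseChange_eq_span, Submodule.map_span, Submodule.map_coe, Set.image_image, gam]
  congr 1
  refine Set.image_congr fun τ _ => ?_
  exact ((gamTheta_tmul σ 1 τ).trans (one_smul _ _)).symm

open Polynomial in
/-- the idempotent-like polynomials. -/
noncomputable def gamE (D : EtData A T) (σ : Fin D.P.natDegree → T →ₐ[A] B)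
    (i : Fin D.P.natDegree) : B[X] :=
  D.b.map (algebraMap A B) * ∏ j ∈ Finset.univ.erase i, (X - C (σ j D.θ))

open Polynomial in
theorem gamE_mul (hs : D.P.map (algebraMap A B) = ∏ i, (X - C (σ i D.θ)))
    (i : Fin D.P.natDegree) :
    (X - C (σ i D.θ)) * gamE D σ i = (D.b * D.P).map (algebraMap A B) := by
  rw [gamE, mul_left_comm, Finset.mul_prod_erase _ (fun j => X - C (σ j D.θ)) (Finset.mem_univ i),
    ← hs, Polynomial.map_mul]

open Polynomial in
theorem gamE_sum (hs : D.P.map (algebraMap A B) = ∏ i, (X - C (σ i D.θ))) :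
    ∑ i, gamE D σ i = C (algebraMap A B D.G) - (D.a * D.P).map (algebraMap A B) := by
  have h1 : derivative (D.P.map (algebraMap A B)) =
      ∑ i, ∏ j ∈ Finset.univ.erase i, (X - C (σ j D.θ)) := by
    rw [hs, derivative_prod_finset]
    simp
  have h2 := congrArg (Polynomial.map (algebraMap A B)) D.bezout
  rw [Polynomial.map_add, map_C, Polynomial.map_mul (f := algebraMap A B) (p := D.b),
    ← derivative_map, h1, Finset.mul_sum] at h2
  rw [← h2, add_sub_cancel_left]
  rfl

open Polynomial in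
theorem gamE_eval (hs : D.P.map (algebraMap A B) = ∏ i, (X - C (σ i D.θ)))
    (i j : Fin D.P.natDegree) :
    (gamE D σ i).eval (σ j D.θ) = if j = i then algebraMap A B D.G else 0 := by
  have h0 : ∀ i j, j ≠ i → (gamE D σ i).eval (σ j D.θ) = 0 := fun i j h => by
    rw [gamE, eval_mul, eval_prod, Finset.prod_eq_zero (Finset.mem_erase.2 ⟨h, Finset.mem_univ j⟩)
      (by simp), mul_zero]
  split_ifs with h
  · subst h
    have h1 := congrArg (eval (σ j D.θ)) (gamE_sum hs)
    rw [eval_finsetSum, Finset.sum_eq_single j (fun i _ hi => h0 i j hi.symm) (by simp), eval_sub,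
      eval_C, eval_map_algebraMap, aeval_algHom_apply, map_mul, D.root, mul_zero, map_zero,
      sub_zero] at h1
    exact h1
  · exact h0 i j h

open Polynomial TensorProduct in
theorem gamTheta_kill (hs : D.P.map (algebraMap A B) = ∏ i, (X - C (σ i D.θ)))
    (w : B ⊗[A] T) (hw : gamTheta σ w = 0) : D.G • D.G • w = 0 := by
  have hθ : ∀ f : A[X], aeval ((1 : B) ⊗ₜ[A] D.θ) (f.map (algebraMap A B)) =
      (1 : B) ⊗ₜ[A] aeval D.θ f := fun f => by
    rw [aeval_map_algebraMap]
    exact aeval_algHom_apply (Algebra.TensorProduct.includeRight (R := A) (A := B)) D.θ f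
  have h1 : ∀ w : B ⊗[A] T, ∃ F : B[X], aeval ((1 : B) ⊗ₜ[A] D.θ) F = D.G • w := fun w => by
    induction w with
    | zero => exact ⟨0, by simp⟩
    | add x y hx hy =>
      obtain ⟨F, hF⟩ := hx
      obtain ⟨F', hF'⟩ := hy
      exact ⟨F + F', by rw [map_add, hF, hF', smul_add]⟩
    | tmul b τ =>
      obtain ⟨f, hf⟩ := D.span τ
      refine ⟨b • f.map (algebraMap A B), ?_⟩
      rw [map_smul, hθ, hf, smul_tmul', smul_eq_mul, mul_one, tmul_smul]
  obtain ⟨F, hF⟩ := h1 w
  have h2 : ∀ i, F.eval (σ i D.θ) = 0 := fun i => by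
    have h3 := aeval_algHom_apply ((Pi.evalAlgHom B (fun _ => B) i).comp (gamTheta σ))
      ((1 : B) ⊗ₜ[A] D.θ) F
    rw [hF, AlgHom.comp_apply, AlgHom.comp_apply, gamTheta_tmul, one_smul,
      ← algebraMap_smul B D.G w, map_smul, hw, smul_zero, map_zero, coe_aeval_eq_eval] at h3
    exact h3
  have h3 : ∀ i, aeval ((1 : B) ⊗ₜ[A] D.θ) (F * gamE D σ i) = 0 := fun i => by
    obtain ⟨Q, hQ⟩ := dvd_iff_isRoot.2 (h2 i)
    rw [hQ, mul_right_comm, gamE_mul hs, map_mul, hθ, map_mul, D.root, mul_zero, tmul_zero,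
      zero_mul]
  have h4 := congrArg (fun E => aeval ((1 : B) ⊗ₜ[A] D.θ) (F * E)) (gamE_sum hs)
  simp only [Finset.mul_sum, map_sum, h3, Finset.sum_const_zero] at h4
  rw [map_mul, map_sub, hθ, map_mul, D.root, mul_zero, tmul_zero, sub_zero, aeval_C, hF,
    mul_comm, ← Algebra.smul_def, algebraMap_smul] at h4
  exact h4.symm

end

theorem gam_mono {r : ℕ} (σ : Fin r → T →ₐ[A] B) {I J : Ideal T} (h : I ≤ J) :
    gam σ I ≤ gam σ J := gam_le σ fun _ hτ => gam_mem σ (h hτ)

theorem gam_sup {r : ℕ} (σ : Fin r → T →ₐ[A] B) (I J : Ideal T) :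
    gam σ (I ⊔ J) = gam σ I ⊔ gam σ J := by
  refine le_antisymm (gam_le σ fun τ hτ => ?_)
    (sup_le (gam_mono σ le_sup_left) (gam_mono σ le_sup_right))
  obtain ⟨a, ha, b, hb, rfl⟩ := Submodule.mem_sup.1 hτ
  have e : (fun i => σ i (a + b)) = (fun i => σ i a) + fun i => σ i b :=
    funext fun i => map_add _ _ _
  exact e ▸ Submodule.add_mem_sup (gam_mem σ ha) (gam_mem σ hb)

theorem gam_map_mul {r : ℕ} (σ : Fin r → T →ₐ[A] B) (K : Ideal A) (I : Ideal T) :
    gam σ (K.map (algebraMap A T) * I) = K.map (algebraMap A B) • gam σ I := by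
  have e : ∀ (a : A) (τ : T), (fun i => σ i (algebraMap A T a * τ)) =
      algebraMap A B a • fun i => σ i τ := fun a τ => funext fun i => by simp
  refine le_antisymm (gam_le σ fun τ hτ => ?_) ?_
  · have h1 : τ ∈ K • I.restrictScalars A := by
      rw [← Ideal.smul_restrictScalars]
      exact hτ
    refine Submodule.smul_induction_on h1 (fun a ha τ hτ => ?_) fun a b ha hb => ?_
    · rw [Algebra.smul_def, e]
      exact Submodule.smul_mem_smul (Ideal.mem_map_of_mem _ ha) (gam_mem σ hτ)
    · have e : (fun i => σ i (a + b)) = (fun i => σ i a) + fun i => σ i b :=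
        funext fun i => map_add _ _ _
      exact e ▸ Submodule.add_mem _ ha hb
  · rw [gam, Ideal.map, Submodule.span_smul_span, Submodule.span_le]
    rintro _ ⟨_, ⟨a, ha, rfl⟩, _, ⟨τ, hτ, rfl⟩, rfl⟩
    have h1 := gam_mem σ (Ideal.mul_mem_mul (Ideal.mem_map_of_mem (algebraMap A T) ha) hτ)
    rw [e] at h1
    exact h1

theorem mem_map_of_mem_gam {r : ℕ} (σ : Fin r → T →ₐ[A] B) {I : Ideal T} {x : Fin r → B}
    (h : x ∈ gam σ I) (i : Fin r) : x i ∈ I.map (σ i) :=
  gam_le σ (N := Submodule.comap (LinearMap.proj (φ := fun _ => B) i) (I.map (σ i)))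
    (fun _ hτ => Ideal.mem_map_of_mem (σ i) hτ) h

namespace TopData

variable (h : TopData p z ϖ D Λ σ)
include h

theorem noeth : IsNoetherianRing T := by
  have := h.reg.noeth
  have := h.fin
  exact IsNoetherianRing.of_finite A T

theorem isLocalHom : IsLocalHom (algebraMap A T) := by
  have := h.fin
  exact (algebraMap_isIntegral_iff.2 inferInstance).isLocalHom h.inj

theorem dimNat_eq : dimNat T = z.length := by
  have := h.noeth
  have := h.reg.noeth
  rw [← dimNat_eq_of_finite (algebraMap A T) (RingHom.finite_algebraMap.2 h.fin),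
    (RingHom.injective_iff_ker_eq_bot _).1 h.inj, dimNat_quot_bot, h.reg.dimNat_eq]

theorem max_le : maximalIdeal T ≤ ((maximalIdeal A).map (algebraMap A T)).radical := by
  have := h.fin
  rw [Ideal.radical_eq_sInf]
  refine le_sInf ?_
  rintro Q ⟨hQ, hp⟩
  have h1 : (Q.comap (algebraMap A T)).IsMaximal :=
    ((maximalIdeal.isMaximal A).eq_of_le (Ideal.comap_ne_top _ hp.ne_top)
      (Ideal.map_le_iff_le_comap.1 hQ)) ▸ maximalIdeal.isMaximal A
  exact (eq_maximalIdeal (Ideal.isMaximal_of_isIntegral_of_isMaximal_comap Q h1)).ge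

theorem natDegree_pos : 0 < D.P.natDegree := by
  refine Nat.pos_of_ne_zero fun h0 => ?_
  have h1 := D.root
  rw [D.monic.natDegree_eq_zero.1 h0, map_one] at h1
  exact one_ne_zero h1

theorem reg_of_ne {a : A} (ha : a ≠ 0) (y : B) (hy : algebraMap A B a * y = 0) : y = 0 := by
  have := h.flat
  have := h.reg.isDomain
  refine Module.Flat.isSMulRegular_of_nonZeroDivisors (M := B) (mem_nonZeroDivisors_of_ne_zero ha) ?_
  simpa [Algebra.smul_def] using hy

theorem single_mem_gam (I : Ideal T) (i : Fin D.P.natDegree) {y : B} (hy : y ∈ I.map (σ i)) :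
    (Pi.single i (algebraMap A B D.G * y) : Fin D.P.natDegree → B) ∈ gam σ I := by
  have h1 : I.map (σ i) ≤ (gam σ I).comap ((LinearMap.single B (fun _ => B) i).comp
      (LinearMap.mulLeft B (algebraMap A B D.G))) := by
    refine Ideal.span_le.2 ?_
    rintro _ ⟨τ, hτ, rfl⟩
    have e : (fun j => (gamE D σ i).eval (σ j D.θ)) * (fun j => σ j τ) =
        Pi.single i (algebraMap A B D.G * σ i τ) := funext fun j => by
      rw [Pi.mul_apply, gamE_eval h.split]
      split_ifs with hj
      · subst hj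
        simp
      · simp [hj]
    exact (e ▸ gam_eval_mul_mem σ D.θ (gamE D σ i) (gam_mem σ hτ) :)
  exact h1 hy

theorem gam_inj : Function.Injective (gamTheta σ) := by
  have := h.flat
  have := h.dom
  have h1 : Function.Injective (LinearMap.lsmul A T D.G) := fun x y hxy =>
    mul_left_cancel₀ ((map_ne_zero_iff _ h.inj).2 h.G_ne) (by simpa [Algebra.smul_def] using hxy)
  have h2 := Module.Flat.lTensor_preserves_injective_linearMap (M := B) _ h1
  have h3 : ∀ w : TensorProduct A B T, D.G • w = 0 → w = 0 := fun w hw => h2 (by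
    rw [map_zero, ← hw]
    exact LinearMap.congr_fun (LinearMap.lTensor_smul_action B T D.G) w)
  exact (injective_iff_map_eq_zero _).2 fun w hw => h3 _ (h3 _ (gamTheta_kill h.split w hw))

theorem mem_gam_of_smul {I J K : Ideal T} (g : A)
    (hK : ∀ τ ∈ J, algebraMap A T g * τ ∈ I → τ ∈ K) {x : Fin D.P.natDegree → B}
    (hx : x ∈ gam σ J) (hg : algebraMap A B g • x ∈ gam σ I) : x ∈ gam σ K := by
  have := h.flat
  rw [gam_eq_map] at hx hg ⊢
  obtain ⟨_, ⟨w, rfl⟩, rfl⟩ := hx
  refine Submodule.mem_map_of_mem ?_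
  rw [← map_smul] at hg
  obtain ⟨_, ⟨v, rfl⟩, hv⟩ := hg
  have hv' := h.gam_inj hv
  let f := (I.restrictScalars A).mkQ ∘ₗ (g • (J.restrictScalars A).subtype)
  have e0 : (I.restrictScalars A).mkQ ∘ₗ (I.restrictScalars A).subtype = 0 :=
    LinearMap.ext fun x => (Submodule.Quotient.mk_eq_zero _).2 x.2
  have h1 : f.baseChange B w = 0 := by
    rw [LinearMap.baseChange_comp, LinearMap.baseChange_smul, LinearMap.comp_apply,
      LinearMap.smul_apply, ← algebraMap_smul B g, ← hv', ← LinearMap.comp_apply,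
      ← LinearMap.baseChange_comp, e0, LinearMap.baseChange_zero, LinearMap.zero_apply]
  obtain ⟨w', rfl⟩ := (Module.Flat.ker_lTensor_eq B B f).le h1
  let k : LinearMap.ker f →ₗ[A] K.restrictScalars A :=
    ((J.restrictScalars A).subtype ∘ₗ (LinearMap.ker f).subtype).codRestrict _ fun τ =>
      hK _ τ.1.2 (by
        rw [← Algebra.smul_def]
        exact (Submodule.Quotient.mk_eq_zero (I.restrictScalars A)).1 τ.2)
  refine ⟨k.baseChange B w', ?_⟩
  have e1 : (K.restrictScalars A).subtype ∘ₗ k =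
      (J.restrictScalars A).subtype ∘ₗ (LinearMap.ker f).subtype := rfl
  rw [← LinearMap.comp_apply, ← LinearMap.baseChange_comp, e1, LinearMap.baseChange_comp]
  rfl

theorem rel_gam {I J : Ideal T} (hJ : J ≤ I) (hfin : (Len.len T).rel I J ≠ ⊤) :
    Λ.rel (gam σ I) (gam σ J) = (Len.len T).rel I J := by
  have := h.flat
  have := h.isLocalHom
  have e1 : (Len.len T).rel I J = (Module.length A (Submodule.map J.mkQ I) : ℝ≥0∞) := by
    rw [← Len.len_res (algebraMap A T) h.res]
    exact (Len.len A).res_val _ _ fun r y => (algebraMap_smul T r y).symm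
  have hH : Module.length A (Submodule.map J.mkQ I) ≠ ⊤ := fun e => hfin (by rw [e1, e]; rfl)
  have e2 := Λ.val_baseChange B (Submodule.map J.mkQ I) hH
  rw [Λ.congr (Submodule.quotEquivOfEq _ ((maximalIdeal A).map (algebraMap A B))
    (by rw [smul_eq_mul, Ideal.mul_top])), h.one, mul_one] at e2
  rw [gam_eq_map, gam_eq_map, Λ.rel_map_of_injective (gamTheta σ).toLinearMap h.gam_inj, e1, ← e2]
  let q : T →ₗ[A] T ⧸ J := J.mkQ.restrictScalars A
  let ι : Submodule.map J.mkQ I →ₗ[A] T ⧸ J := (Submodule.map J.mkQ I).subtype.restrictScalars A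
  have hq : LinearMap.ker (q.baseChange B) = (J.restrictScalars A).baseChange B := by
    have hk : LinearMap.ker q = J.restrictScalars A :=
      Submodule.ext fun x => Submodule.Quotient.mk_eq_zero J
    rw [← hk]
    exact Module.Flat.ker_lTensor_eq B B q
  have hι : Function.Injective (ι.baseChange B) :=
    Module.Flat.lTensor_preserves_injective_linearMap (M := B) ι Subtype.val_injective
  rw [Len.rel, Λ.len_map_congr _ (q.baseChange B) _ fun x _ => by
    rw [← LinearMap.mem_ker, Submodule.ker_mkQ, ← hq, LinearMap.mem_ker]]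
  refine Eq.trans (Λ.len_congr_sub ?_) (Λ.congr (LinearEquiv.ofInjective _ hι)).symm
  let k : I.restrictScalars A →ₗ[A] Submodule.map J.mkQ I :=
    { toFun := fun x => ⟨J.mkQ x.1, Submodule.mem_map_of_mem x.2⟩
      map_add' := fun _ _ => rfl
      map_smul' := fun _ _ => rfl }
  have hk : Function.Surjective (k.baseChange B) :=
    LinearMap.lTensor_surjective B (by rintro ⟨_, x, hx, rfl⟩; exact ⟨⟨x, hx⟩, rfl⟩)
  have e3 : q ∘ₗ (I.restrictScalars A).subtype = ι ∘ₗ k := rfl
  rw [Submodule.baseChange, ← LinearMap.range_comp, ← LinearMap.baseChange_comp, e3,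
    LinearMap.baseChange_comp, LinearMap.range_comp_of_range_eq_top _ (LinearMap.range_eq_top.2 hk)]

end TopData

end Vale.Agent.P177
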