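import Mathlib

/-! Products of powers of finitely many ideals. -/

namespace Vale.Agent.P177

universe u

/-- a product of powers of ideals. -/
def mpow {S : Type u} [CommRing S] {s : Type} [Fintype s] (P : s → Ideal S) (β : s → ℕ) : Ideal S :=
  ∏ j, P j ^ β j

/-- a saturated system of lattices. -/
structure Sat {S : Type u} [CommRing S] {s : Type} [DecidableEq s] (P : s → Ideal S) {N : Type u}
    [AddCommGroup N] [Module S N] (lat : (s → ℕ) → Submodule S N) : Prop where
  gen : ∀ β j, lat (β + Pi.single j 1) = P j • lat β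
  sat : ∀ β j x, (∀ g ∈ P j, g • x ∈ lat (β + Pi.single j 1)) → x ∈ lat β

variable {S : Type u} [CommRing S] {s : Type} [Fintype s] [DecidableEq s]

theorem mpow_add (P : s → Ideal S) (β γ : s → ℕ) : mpow P (β + γ) = mpow P β * mpow P γ := by
  simp only [mpow, Pi.add_apply, pow_add, Finset.prod_mul_distrib]

theorem mpow_single (P : s → Ideal S) (j : s) (n : ℕ) : mpow P (Pi.single j n) = P j ^ n := by
  unfold mpow
  rw [Finset.prod_eq_single j, Pi.single_eq_same]
  · intro i _ hi
    rw [Pi.single_eq_of_ne hi, pow_zero]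
  · simp

theorem mpow_map {S' : Type u} [CommRing S'] (φ : S →+* S') (P : s → Ideal S) (β : s → ℕ) :
    (mpow P β).map φ = mpow (fun j => (P j).map φ) β := by
  unfold mpow
  rw [← Ideal.mapHom_apply, map_prod]
  simp only [map_pow, Ideal.mapHom_apply]

theorem MRees_zero (P : s → Ideal S) : mpow P 0 = 1 := by
  simp [mpow]

theorem MRees_ind {p : (s → ℕ) → Prop} (zero : p 0)
    (succ : ∀ γ j, p γ → p (γ + Pi.single j 1)) (γ : s → ℕ) : p γ := by
  induction hn : ∑ i, γ i generalizing γ with
  | zero =>
    have : γ = 0 := funext fun i => (Finset.sum_eq_zero_iff.1 hn) i (Finset.mem_univ i)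
    exact this ▸ zero
  | succ n ih =>
    obtain ⟨j, -, hj⟩ := Finset.exists_ne_zero_of_sum_ne_zero (s := Finset.univ) (f := γ)
      (by rw [hn]; exact n.succ_ne_zero)
    have e : γ = Function.update γ j (γ j - 1) + Pi.single j 1 := by
      funext i
      rcases eq_or_ne i j with rfl | hi
      · simp only [Pi.add_apply, Function.update_self, Pi.single_eq_same]
        omega
      · simp [hi]
    rw [e]
    refine succ _ j (ih _ ?_)
    have h2 := congrArg (fun g : s → ℕ => ∑ i, g i) e
    simp only [Pi.add_apply, Finset.sum_add_distrib, Finset.sum_pi_single', Finset.mem_univ,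
      if_true] at h2
    omega

theorem Sat.add {P : s → Ideal S} {N : Type u} [AddCommGroup N] [Module S N]
    {lat : (s → ℕ) → Submodule S N} (h : Sat P lat) (β γ : s → ℕ) :
    lat (β + γ) = mpow P γ • lat β := by
  induction γ using MRees_ind with
  | zero => rw [add_zero, MRees_zero, Ideal.one_eq_top, Submodule.top_smul]
  | succ γ j ih => rw [← add_assoc, h.gen, ih, mpow_add, mpow_single, pow_one, mul_comm,
      Submodule.mul_smul]

theorem Sat.mem_of_add {P : s → Ideal S} {N : Type u} [AddCommGroup N] [Module S N]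
    {lat : (s → ℕ) → Submodule S N} (h : Sat P lat) (β γ : s → ℕ) (x : N)
    (hx : ∀ g ∈ mpow P γ, g • x ∈ lat (β + γ)) : x ∈ lat β := by
  induction γ using MRees_ind generalizing x with
  | zero => simpa using hx 1 (by rw [MRees_zero, Ideal.one_eq_top]; trivial)
  | succ γ j ih =>
    refine ih x fun g hg => h.sat _ j _ fun g' hg' => ?_
    rw [← mul_smul, add_assoc]
    refine hx _ ?_
    rw [mpow_add, mpow_single, pow_one, mul_comm g']
    exact Ideal.mul_mem_mul hg hg' 

end Vale.Agent.P177
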