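import Vale.Agent.P177.Len2
import Vale.Agent.P177.Flag
import Vale.Agent.P177.MRees

/-! The cyclic Adams operation on saturated lattices. -/

namespace Vale.Agent.P177

open scoped ENNReal

universe u

variable {S : Type u} [CommRing S] {F : Cx S}

/-- the ideals of a flag occur in a family. -/
structure Flag.In (Φ : Flag F) {s : Type} (P : s → Ideal S) where
  em : Fin Φ.r × Bool → s
  ep : Fin Φ.r × Bool → s
  ec : s
  hm : ∀ a, P (em a) = Φ.Pm a
  hp : ∀ a, P (ep a) = Φ.Pp a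
  hc : P ec = Ideal.span {Φ.c}

variable {Φ : Flag F} {s : Type} [Fintype s] [DecidableEq s] {P : s → Ideal S}

def Flag.In.map (I : Φ.In P) {S' : Type u} [CommRing S'] (φ : S →+* S') :
    (Φ.map φ).In fun j => (P j).map φ where
  em := I.em
  ep := I.ep
  ec := I.ec
  hm a := congrArg (Ideal.map φ) (I.hm a)
  hp a := congrArg (Ideal.map φ) (I.hp a)
  hc := by rw [I.hc, Ideal.map_span, Set.image_singleton]; rfl

/-- exponent of the twisting lattice. -/
def Flag.In.one (I : Φ.In P) : s → ℕ := ∑ a, Pi.single (I.ep a) 1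

/-- exponent of a graded piece. -/
def Flag.In.ex (I : Φ.In P) (a : Fin Φ.r × Bool) : s → ℕ :=
  Pi.single I.ec 1 + Pi.single (I.em a) 1 + ∑ a' ∈ Finset.univ.erase a, Pi.single (I.ep a') 1

theorem Flag.exists_in (Φ : Flag F) (q : Ideal S) :
    ∃ (s : Type) (_ : Fintype s) (_ : DecidableEq s) (P : s → Ideal S) (_ : Φ.In P) (j₀ : s),
      P j₀ = q ∧ ∀ j, P j = q ∨ P j = Ideal.span {Φ.c} ∨ ∃ a, P j = Φ.Pm a ∨ P j = Φ.Pp a := by
  refine ⟨(Fin Φ.r × Bool) ⊕ (Fin Φ.r × Bool) ⊕ Bool, inferInstance, inferInstance,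
    Sum.elim Φ.Pm (Sum.elim Φ.Pp fun b => if b then q else Ideal.span {Φ.c}),
    ⟨.inl, fun a => .inr (.inl a), .inr (.inr false), fun _ => rfl, fun _ => rfl, rfl⟩,
    .inr (.inr true), rfl, ?_⟩
  rintro (a | a | _ | _)
  · exact .inr (.inr ⟨a, .inl rfl⟩)
  · exact .inr (.inr ⟨a, .inr rfl⟩)
  · exact .inr (.inl rfl)
  · exact .inl rfl

theorem Geo_mact_mem {ι κ : Type} [Fintype κ] (A : Matrix ι κ S) {N : Type u} [AddCommGroup N]
    [Module S N] {L : Submodule S N} {x : κ → N} (h : ∀ j, x j ∈ L) (i : ι) :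
    mact A N x i ∈ L := L.sum_mem fun j _ => L.smul_mem _ (h j)

theorem Geo_triv (Φ : Flag F) {N : Type u} [AddCommGroup N] [Module S N] (x : F.ι → N)
    (π : Fin Φ.r) : mact Φ.M' N (mact F.d N x) (π, false) = mact Φ.M' N x (π, true) ∧
      mact Φ.M' N (mact F.d N x) (π, true) = 0 := by
  rw [← mact_mul, Φ.comm', mact_mul]
  constructor
  · rw [mact_apply, Finset.sum_eq_single (π, true)]
    · exact (congrArg (· • _) (if_pos ⟨rfl, rfl, rfl⟩)).trans (one_smul _ _)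
    · rintro ⟨ρ, b⟩ - h
      refine (congrArg (· • _) (if_neg ?_)).trans (zero_smul _ _)
      rintro ⟨h1, -, h2⟩
      exact h (Prod.ext h1.symm h2)
    · simp
  · refine Finset.sum_eq_zero fun b _ => (congrArg (· • _) (if_neg ?_)).trans (zero_smul _ _)
    rintro ⟨-, h1, -⟩
    exact Bool.noConfusion h1

omit [Fintype s] in
theorem Geo_one (I : Φ.In P) (a : Fin Φ.r × Bool) : I.one =
    ∑ a' ∈ Finset.univ.erase a, Pi.single (I.ep a') 1 + Pi.single (I.ep a) 1 :=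
  (Finset.sum_erase_add _ _ (Finset.mem_univ a)).symm

variable (I : Φ.In P) {N : Type u} [AddCommGroup N] [Module S N] {lat : (s → ℕ) → Submodule S N}
  (hs : Sat P lat) (hc : IsSMulRegular N Φ.c)
include hs hc

omit [Fintype s] hc in
theorem Geo_ub (γ : s → ℕ) (a : Fin Φ.r × Bool) (x : F.ι → N) (hx : ∀ j, x j ∈ lat (γ + I.one))
    (h0 : ∀ a', a.1 < a'.1 → mact Φ.M' N x a' = 0) : mact Φ.M' N x a ∈ lat (γ + I.ex a) := by
  refine hs.sat _ (I.ep a) _ fun η hη => ?_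
  rw [I.hp] at hη
  obtain ⟨w, v, h1, h2, h3⟩ := Φ.lam a η hη
  have e : γ + I.ex a + Pi.single (I.ep a) 1 =
      γ + I.one + Pi.single (I.em a) 1 + Pi.single I.ec 1 := by
    rw [Geo_one I a, Flag.In.ex]
    abel
  have h4 : η • mact Φ.M' N x a = ∑ j, Φ.c • w j • x j + ∑ a', v a' • mact Φ.M' N x a' := by
    simp only [mact_apply, Finset.smul_sum, smul_smul, h3, add_smul, Finset.sum_add_distrib,
      Matrix.vecMul, dotProduct, Finset.sum_smul]
    rw [Finset.sum_comm]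
  rw [h4, Finset.sum_eq_zero (s := Finset.univ) (f := fun a' => v a' • mact Φ.M' N x a'),
    add_zero, e, hs.gen, hs.gen, I.hc, I.hm]
  · exact Submodule.sum_mem _ fun j _ => Submodule.smul_mem_smul
      (Ideal.mem_span_singleton_self _) (Submodule.smul_mem_smul (h1 j) (hx j))
  · intro a' _
    by_cases h5 : v a' = 0
    · rw [h5, zero_smul]
    · rw [h0 a' (h2 a' h5), smul_zero]

omit [Fintype s] hc in
theorem Geo_lb (γ : s → ℕ) (a : Fin Φ.r × Bool) (y : N) (hy : y ∈ lat (γ + I.ex a)) :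
    ∃ x : F.ι → N, (∀ j, x j ∈ lat (γ + I.one)) ∧ mact Φ.M' N x a = y ∧
      ∀ a', mact Φ.M' N x a' ≠ 0 → a' = a ∨ a'.1 < a.1 := by
  have e : γ + I.ex a = γ + ∑ a' ∈ Finset.univ.erase a, Pi.single (I.ep a') 1 +
      Pi.single (I.em a) 1 + Pi.single I.ec 1 := by
    rw [Flag.In.ex]
    abel
  rw [e, hs.gen, hs.gen, I.hc, I.hm, ← Submodule.mul_smul] at hy
  refine Submodule.smul_induction_on hy (fun g hg z hz => ?_) ?_
  · obtain ⟨μ, hμ, rfl⟩ := Ideal.mem_span_singleton_mul.1 hg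
    obtain ⟨v, h1, h2, h3⟩ := Φ.eta a μ hμ
    have h4 : ∀ a', mact Φ.M' N (fun j => Φ.M.mulVec v j • z) a' = (Φ.c * v a') • z := fun a' => by
      have h5 := congrFun (Matrix.mulVec_mulVec v Φ.M' Φ.M) a'
      rw [Φ.mul', Matrix.smul_mulVec, Matrix.one_mulVec, Pi.smul_apply, smul_eq_mul] at h5
      rw [← h5, mact_apply, Matrix.mulVec, dotProduct, Finset.sum_smul]
      simp only [smul_smul]
    refine ⟨fun j => Φ.M.mulVec v j • z, fun j => ?_, by rw [h4, h1], fun a' h => h2 a' ?_⟩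
    · rw [Geo_one I a, ← add_assoc, hs.gen, I.hp]
      exact Submodule.smul_mem_smul (h3 j) hz
    · intro h0
      exact h (by rw [h4, h0, mul_zero, zero_smul])
  · rintro _ _ ⟨x, h1, rfl, h2⟩ ⟨x', h3, rfl, h4⟩
    refine ⟨x + x', fun j => add_mem (h1 j) (h3 j), by rw [map_add, Pi.add_apply], fun a' h => ?_⟩
    by_contra hn
    exact h (by rw [map_add, Pi.add_apply, not_not.1 (mt (h2 a') hn), not_not.1 (mt (h4 a') hn),
      add_zero])

theorem Flag.In.lat_le (γ : s → ℕ) (π : Fin Φ.r) :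
    lat (γ + I.ex (π, true)) ≤ lat (γ + I.ex (π, false)) := by
  intro y hy
  obtain ⟨x, h1, rfl, h3⟩ := Geo_lb I hs γ _ y hy
  rw [← (Geo_triv Φ x π).1]
  refine Geo_ub I hs γ _ _ (Geo_mact_mem _ h1) ?_
  rintro ⟨ρ, _ | _⟩ hρ
  · rw [(Geo_triv Φ x ρ).1]
    by_contra hn
    rcases h3 _ hn with h | h
    · exact hρ.ne' (Prod.ext_iff.1 h).1
    · exact lt_asymm h hρ
  · exact (Geo_triv Φ x ρ).2

theorem Flag.In.smul_mem (γ : s → ℕ) (π : Fin Φ.r) {a : S} (ha : a ∈ F.Null) :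
    ∀ y ∈ lat (γ + I.ex (π, false)), a • y ∈ lat (γ + I.ex (π, true)) := by
  intro y hy
  obtain ⟨x, h1, rfl, h3⟩ := Geo_lb I hs γ _ y hy
  obtain ⟨H, hH, hH'⟩ := Cx.exists_graded_of_mem_Null ha
  let dg : Fin Φ.r × Bool → ℕ := (Cx.triv S (Fin Φ.r) Φ.dg).deg
  have hcut : ∀ (n : ℕ) (x : F.ι → N), mact Φ.M' N (cut (R := S) (fun j => F.deg j = n) N x) =
      cut (R := S) (fun a' => dg a' = n) N (mact Φ.M' N x) := fun n x =>
    cx_mact_cut _ _ _ (fun a' j h => by rw [← Φ.deg' a' j h]) x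
  let x0 := cut (R := S) (fun j => F.deg j = Φ.dg π) N x
  have h4 : ∀ j, x0 j ∈ lat (γ + I.one) := fun j => by
    show (if F.deg j = Φ.dg π then x j else 0) ∈ _
    split_ifs
    · exact h1 j
    · exact zero_mem _
  have h5 : ∀ a', mact Φ.M' N x0 a' = if dg a' = Φ.dg π then mact Φ.M' N x a' else 0 :=
    fun a' => congrFun (hcut _ x) a'
  have h6 : mact Φ.M' N (mact F.d N x0) = 0 := by
    funext ⟨ρ, b⟩
    cases b
    · rw [(Geo_triv Φ x0 ρ).1, h5]
      refine ite_eq_right_iff.2 fun h => ?_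
      by_contra hn
      rcases h3 _ hn with h7 | h7
      · exact Bool.noConfusion (congrArg Prod.snd h7)
      · have h8 : Φ.dg π ≤ Φ.dg ρ := Φ.anti (le_of_lt h7)
        have h9 : Φ.dg ρ + 1 = Φ.dg π := h
        omega
    · exact (Geo_triv Φ x0 ρ).2
  have h7 : mact F.d N x0 = 0 := by
    have h8 := congrArg (mact Φ.M N) h6
    rw [← mact_mul, Φ.mul, mact_smul_one, map_zero] at h8
    exact funext fun j => hc ((congrFun h8 j).trans (smul_zero _).symm)
  have h8 : mact F.d N (mact H N x0) = a • x0 := by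
    rw [← mact_smul_one, ← hH, mact_add, mact_mul, mact_mul, h7, map_zero, add_zero]
  have h9 : ∀ ρ, mact Φ.M' N (mact H N x0) (ρ, true) = a • mact Φ.M' N x0 (ρ, false) :=
    fun ρ => by rw [← (Geo_triv Φ _ ρ).1, h8, map_smul, Pi.smul_apply]
  have h10 := h9 π
  rw [h5, if_pos (show dg (π, false) = Φ.dg π from rfl)] at h10
  rw [← h10]
  refine Geo_ub I hs γ _ _ (Geo_mact_mem _ h4) ?_
  rintro ⟨ρ, _ | _⟩ hρ
  · rw [cx_mact_cut H _ (fun j => F.deg j = Φ.dg π + 1) (fun b c h => by simp [hH' b c h]) x, hcut]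
    refine if_neg fun h => ?_
    have h11 : Φ.dg ρ ≤ Φ.dg π := Φ.anti (le_of_lt hρ)
    have h12 : Φ.dg ρ = Φ.dg π + 1 := h
    omega
  · rw [h9, h5]
    refine smul_eq_zero_of_right _ (ite_eq_right_iff.2 fun _ => ?_)
    by_contra hn
    rcases h3 _ hn with h | h
    · exact hρ.ne' (Prod.ext_iff.1 h).1
    · exact lt_asymm h hρ

theorem Flag.In.lat_le_smul (γ : s → ℕ) (π : Fin Φ.r) (n : ℕ) :
    lat (γ + n • I.ex (π, true)) ≤ lat (γ + n • I.ex (π, false)) := by
  induction n generalizing γ with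
  | zero => rw [zero_smul, zero_smul]
  | succ n ih =>
    rw [succ_nsmul, ← add_assoc, succ_nsmul', ← add_assoc]
    refine (I.lat_le hs hc _ π).trans ?_
    rw [add_right_comm]
    exact ih _

theorem Flag.In.pow_smul_le (γ : s → ℕ) (π : Fin Φ.r) (n : ℕ) {q : Ideal S} (hq : q ≤ F.Null) :
    q ^ n • lat (γ + n • I.ex (π, false)) ≤ lat (γ + n • I.ex (π, true)) := by
  induction n generalizing γ with
  | zero => rw [zero_smul, zero_smul, pow_zero, Ideal.one_eq_top, Submodule.top_smul]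
  | succ n ih =>
    rw [succ_nsmul', ← add_assoc, succ_nsmul, ← add_assoc, pow_succ', Submodule.mul_smul]
    refine (smul_mono_right q (ih _)).trans ?_
    rw [add_right_comm]
    exact Submodule.smul_le.2 fun a ha y hy => I.smul_mem hs hc _ π (hq ha) y hy

end Vale.Agent.P177
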