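import Vale.Agent.P177.Geo2Aux

/-! The cyclic Adams operation on saturated lattices. -/

namespace Vale.Agent.P177

open Matrix

universe u

variable {S : Type u} [CommRing S] {F : Cx S} {Φ : Flag F} {s : Type} [Fintype s] [DecidableEq s]
  {P : s → Ideal S} (I : Φ.In P) {N : Type u} [AddCommGroup N] [Module S N]
  {lat : (s → ℕ) → Submodule S N} (hs : Sat P lat) (hc : IsSMulRegular N Φ.c)

omit [Fintype s] in
theorem Geo2_ex_add (a : Fin Φ.r × Bool) : I.ex a + Pi.single (I.ep a) 1 =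
    I.one + (Pi.single I.ec 1 + Pi.single (I.em a) 1) := by
  rw [Flag.In.ex, Flag.In.one, add_assoc, Finset.sum_erase_add _ _ (Finset.mem_univ a), add_comm]

theorem Geo2_cm (a : Fin Φ.r × Bool) : mpow P (Pi.single I.ec 1 + Pi.single (I.em a) 1) =
    Ideal.span {Φ.c} * Φ.Pm a := by
  rw [mpow_add, mpow_single, mpow_single, pow_one, pow_one, I.hc, I.hm]

theorem Geo2_p (a : Fin Φ.r × Bool) : mpow P (Pi.single (I.ep a) 1) = Φ.Pp a := by
  rw [mpow_single, pow_one, I.hp]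

include hs in
theorem Geo2_hub {l : ℕ} (γ : s → ℕ) (y : (Fin (l + 1) → F.ι) → N)
    (hy : ∀ K, y K ∈ lat (γ + (l + 1) • I.one)) (J : Fin (l + 1) → Fin Φ.r × Bool)
    (hz : ∀ J' : Fin (l + 1) → Fin Φ.r × Bool, ∑ k, ((J k).1 : ℕ) < ∑ k, ((J' k).1 : ℕ) →
      mact (kron Φ.M' l) N y J' = 0) :
    mact (kron Φ.M' l) N y J ∈ lat (γ + ∑ k, I.ex (J k)) := by
  refine hs.mem_of_add _ (∑ k, Pi.single (I.ep (J k)) 1) _ fun g hg => ?_
  rw [Geo2_mpow_sum] at hg
  refine Geo2_prod_le (fun k => mpow P (Pi.single (I.ep (J k)) 1))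
    ((lat (γ + ∑ k, I.ex (J k) + ∑ k, Pi.single (I.ep (J k)) 1)).comap
      (LinearMap.toSpanSingleton S N (mact (kron Φ.M' l) N y J))) (fun η hη => ?_) hg
  simp only [Geo2_p] at hη
  choose w v hw hv he using fun k => Φ.lam (J k) (η k) (hη k)
  have e1 := Geo2_kron Φ.M' (fun k => Pi.single (J k) (η k) - v k) y
  have hv0 : ∀ k, v k (J k) = 0 := fun k => by
    by_contra h
    exact lt_irrefl _ (hv k _ h)
  rw [Finset.sum_eq_single J (fun J' _ hne => ?_) (fun h => absurd (Finset.mem_univ J) h)] at e1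
  · simp only [Pi.sub_apply, Pi.single_eq_same, hv0, sub_zero] at e1
    rw [Submodule.mem_comap, LinearMap.toSpanSingleton_apply, e1, add_assoc,
      ← Finset.sum_add_distrib]
    simp only [Geo2_ex_add]
    rw [Finset.sum_add_distrib, Finset.sum_const, Finset.card_univ, Fintype.card_fin, ← add_assoc]
    refine Submodule.sum_mem _ fun K _ => Geo2_smul_mem hs _ _ (fun k => ?_) (hy K)
    have e2 : ((Pi.single (J k) (η k) - v k) ᵥ* Φ.M') (K k) = Φ.c * w k (K k) := by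
      rw [sub_vecMul, Pi.sub_apply, sub_eq_iff_eq_add, ← he k (K k)]
      simp
    rw [e2, Geo2_cm]
    exact Ideal.mul_mem_mul (Ideal.mem_span_singleton_self _) (hw k _)
  · by_cases h0 : ∏ k, (Pi.single (J k) (η k) - v k : Fin Φ.r × Bool → S) (J' k) = 0
    · rw [h0, zero_smul]
    · rw [hz J' (Geo2_lt (fun a : Fin Φ.r × Bool => (a.1 : ℕ)) hne fun k => ?_), smul_zero]
      refine or_iff_not_imp_left.2 fun hk => hv k _ fun h => h0 ?_
      refine Finset.prod_eq_zero (Finset.mem_univ k) ?_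
      rw [Pi.sub_apply, Pi.single_eq_of_ne hk, h, sub_zero]

include hs in
theorem Geo2_hlb {l : ℕ} (γ : s → ℕ) (J : Fin (l + 1) → Fin Φ.r × Bool)
    (T : Submodule S ((Fin (l + 1) → Fin Φ.r × Bool) → N))
    (hT : ∀ y : (Fin (l + 1) → F.ι) → N, (∀ K, y K ∈ lat (γ + (l + 1) • I.one)) →
      mact (kron Φ.M' l) N y ∈ T) :
    ∀ z ∈ lat (γ + ∑ k, I.ex (J k)), ∃ x ∈ T, x J = z ∧
      ∀ J', J' ≠ J → ∑ k, ((J k).1 : ℕ) ≤ ∑ k, ((J' k).1 : ℕ) → x J' = 0 := by
  let U : Submodule S N := (T ⊓ Submodule.pi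
    {J' | J' ≠ J ∧ ∑ k, ((J k).1 : ℕ) ≤ ∑ k, ((J' k).1 : ℕ)} fun _ => ⊥).map (LinearMap.proj J)
  have e0 : γ + ∑ k, I.ex (J k) =
      γ + (∑ k, ∑ a' ∈ Finset.univ.erase (J k), Pi.single (I.ep a') 1) +
        ∑ k, (Pi.single I.ec 1 + Pi.single (I.em (J k)) 1) := by
    rw [add_assoc, ← Finset.sum_add_distrib]
    exact congrArg _ (Finset.sum_congr rfl fun k _ => add_comm _ _)
  have key : lat (γ + ∑ k, I.ex (J k)) ≤ U := by
    rw [e0, hs.add, Geo2_mpow_sum, Submodule.smul_le]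
    intro g hg y hy
    refine Geo2_prod_le (fun k => mpow P (Pi.single I.ec 1 + Pi.single (I.em (J k)) 1))
      (U.comap (LinearMap.toSpanSingleton S N y)) (fun η hη => ?_) hg
    simp only [Geo2_cm, Ideal.mem_span_singleton_mul] at hη
    choose μ hμ hη using hη
    choose v hv1 hv2 hv3 using fun k => Φ.eta (J k) (μ k) (hμ k)
    have e1 : ∀ J', mact (kron Φ.M' l) N (fun K => (∏ k, (Φ.M *ᵥ v k) (K k)) • y) J' =
        (∏ k, Φ.c * v k (J' k)) • y := by
      intro J'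
      rw [Geo2_kron']
      simp only [mulVec_mulVec, Φ.mul', smul_mulVec, one_mulVec, Pi.smul_apply, smul_eq_mul]
    refine ⟨mact (kron Φ.M' l) N (fun K => (∏ k, (Φ.M *ᵥ v k) (K k)) • y),
      ⟨hT _ fun K => ?_, fun J' hJ' => ?_⟩, ?_⟩
    · have h1 := Geo2_smul_mem hs (fun k => Pi.single (I.ep (J k)) 1)
        (fun k => (Φ.M *ᵥ v k) (K k)) (fun k => by rw [Geo2_p]; exact hv3 k _) hy
      rw [add_assoc, ← Finset.sum_add_distrib] at h1
      simp only [Finset.sum_erase_add _ _ (Finset.mem_univ _)] at h1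
      rw [Finset.sum_const, Finset.card_univ, Fintype.card_fin] at h1
      exact h1
    · rw [SetLike.mem_coe, Submodule.mem_bot, e1]
      by_cases h0 : ∏ k, Φ.c * v k (J' k) = 0
      · rw [h0, zero_smul]
      · refine absurd (Geo2_lt (fun a : Fin Φ.r × Bool => (a.1 : ℕ)) hJ'.1.symm fun k => ?_)
          (not_lt.2 hJ'.2)
        refine (hv2 k (J' k) fun h => h0 ?_).imp Eq.symm id
        refine Finset.prod_eq_zero (Finset.mem_univ k) ?_
        rw [h, mul_zero]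
    · rw [LinearMap.proj_apply, e1, LinearMap.toSpanSingleton_apply]
      simp only [hv1, hη]
  intro z hz
  obtain ⟨x, ⟨h1, h2⟩, h3⟩ := key hz
  exact ⟨x, h1, h3, fun J' a b => h2 J' ⟨a, b⟩⟩

omit [Fintype s] in
theorem Geo2_stable {l : ℕ} (e : Fin Φ.r × Bool → s → ℕ)
    (he : ∀ γ π, lat (γ + e (π, true)) ≤ lat (γ + e (π, false))) (γ : s → ℕ) :
    ((Cx.triv S (Fin Φ.r) Φ.dg).onPow l N).Stable
      (Cx.box fun J : Fin (l + 1) → Fin Φ.r × Bool => lat (γ + ∑ k, e (J k))) := by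
  refine Cx.stable_box (Cx.triv S (Fin Φ.r) Φ.dg) _ (fun J => ?_) ?_
  · exact congrArg (fun t => lat (γ + t)) (Equiv.sum_comp (finRotate (l + 1)) fun k => e (J k))
  · intro (J : Fin (l + 1) → Fin Φ.r × Bool) k (a : Fin Φ.r × Bool) y hy
    show (if a.1 = (J k).1 ∧ a.2 = false ∧ (J k).2 = true then (1 : S) else 0) • y ∈
      lat (γ + ∑ j, e (Function.update J k a j))
    split_ifs with h
    · have e1 : ∑ j, e (Function.update J k a j) =
          ∑ j ∈ Finset.univ.erase k, e (J j) + e (a.1, false) := by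
        rw [← Finset.sum_erase_add _ _ (Finset.mem_univ k), Function.update_self, ← h.2.1]
        exact congrArg (· + _) (Finset.sum_congr rfl fun j hj => by
          rw [Function.update_of_ne (Finset.ne_of_mem_erase hj)])
      have e2 : ∑ j, e (J j) = ∑ j ∈ Finset.univ.erase k, e (J j) + e (a.1, true) := by
        rw [← Finset.sum_erase_add _ _ (Finset.mem_univ k), h.1, ← h.2.2]
      have hy' : y ∈ lat (γ + ∑ j, e (J j)) := hy
      rw [e2, ← add_assoc] at hy'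
      rw [one_smul, e1, ← add_assoc]
      exact he _ _ hy'
    · rw [zero_smul]
      exact Submodule.zero_mem _

theorem Geo2_triv (U : Type) [Fintype U] [DecidableEq U] (dg : U → ℕ) (a b : U × Bool)
    (h : (Cx.triv S U dg).d a b ≠ 0) : a.1 = b.1 := by
  by_contra hn
  exact h (if_neg fun h' => hn h'.1)

include hs hc

variable (Λ : Len S) (hfin : ∀ γ π, Λ.rel (lat (γ + I.ex (π, false))) (lat (γ + I.ex (π, true))) ≠ ⊤)
include hfin

theorem Geo2_rel {κ : Type} (T : Finset κ) (J : κ → Fin Φ.r × Bool) : ∀ γ : s → ℕ,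
    lat (γ + ∑ k ∈ T, I.ex ((J k).1, true)) ≤ lat (γ + ∑ k ∈ T, I.ex (J k)) ∧
      Λ.rel (lat (γ + ∑ k ∈ T, I.ex (J k))) (lat (γ + ∑ k ∈ T, I.ex ((J k).1, true))) ≠ ⊤ := by
  classical
  have h1 : ∀ (γ : s → ℕ) (a : Fin Φ.r × Bool), lat (γ + I.ex (a.1, true)) ≤ lat (γ + I.ex a) ∧
      Λ.rel (lat (γ + I.ex a)) (lat (γ + I.ex (a.1, true))) ≠ ⊤ := by
    rintro γ ⟨π, _ | _⟩
    · exact ⟨I.lat_le hs hc γ π, hfin γ π⟩
    · exact ⟨le_rfl, by rw [Λ.rel_of_le le_rfl]; exact ENNReal.zero_ne_top⟩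
  induction T using Finset.induction_on with
  | empty => exact fun γ => ⟨le_rfl, (Λ.rel_of_le le_rfl).trans_ne ENNReal.zero_ne_top⟩
  | insert k T hk ih =>
    intro γ
    obtain ⟨a1, a2⟩ := ih (γ + I.ex ((J k).1, true))
    obtain ⟨b1, b2⟩ := h1 (γ + ∑ k ∈ T, I.ex (J k)) (J k)
    rw [Finset.sum_insert hk, Finset.sum_insert hk, ← add_assoc, ← add_assoc,
      add_right_comm γ (I.ex (J k))]
    rw [add_right_comm γ _ (I.ex ((J k).1, true))] at b1 b2
    exact ⟨a1.trans b1, ne_top_of_le_ne_top (ENNReal.add_ne_top.2 ⟨b2, a2⟩) (Λ.rel_le_add _ _ _)⟩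

theorem Geo2_main {l : ℕ} (hl : IsUnit ((l + 1 : ℕ) : S)) (γ : s → ℕ) :
    ((F.pow l).on (lat (γ + (l + 1) • I.one))).h Λ ≠ ⊤ ∧
      F.psi Λ l (lat (γ + (l + 1) • I.one)) =
        (((Cx.triv S (Fin Φ.r) Φ.dg).onPow l N).sub _
          (Geo2_stable I.ex (I.lat_le hs hc) γ)).psi Λ := by
  have hB := Geo2_stable (l := l) (lat := lat) (fun a => I.ex (a.1, true)) (fun _ _ => le_rfl) γ
  have h0 := Geo2_acyclic Λ (Cx.triv S (Fin Φ.r) Φ.dg) (Cx.Null_triv _ _)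
    (fun a : Fin Φ.r × Bool => a.1) (Geo2_triv _ _) _ hB
    fun J J' h => congrArg (fun t => lat (γ + t))
      (Finset.sum_congr rfl fun k _ => congrArg (fun π => I.ex (π, true)) (h k))
  have h1 := Cx.h_box_ne_top Λ (Cx.triv S (Fin Φ.r) Φ.dg) _ _
    (Geo2_stable I.ex (I.lat_le hs hc) γ) hB
    (fun J => (Geo2_rel I hs hc Λ hfin Finset.univ J γ).1)
    (fun J => (Geo2_rel I hs hc Λ hfin Finset.univ J γ).2) (h0 ▸ ENNReal.zero_ne_top)
  obtain ⟨hL, h2, h3⟩ := Geo2_range Λ hl (F.powMap l (lat (γ + (l + 1) • I.one)).subtype)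
    (Cx.powHom (F := F) (G := Cx.triv S (Fin Φ.r) Φ.dg) Φ.M' Φ.comm' Φ.deg' l N)
    (by
      intro x y h
      have h' : mact (kron Φ.M' l) N (fun K => (x K : N)) =
        mact (kron Φ.M' l) N (fun K => (y K : N)) := h
      have h4 := congrArg (mact (kron Φ.M l) N) h'
      rw [← mact_mul, ← mact_mul, ← kron_mul, Φ.mul, kron_smul_one, mact_smul_one,
        mact_smul_one] at h4
      funext K
      exact Subtype.ext (hc.pow (l + 1) (congrFun h4 K)))
  obtain ⟨h4, h5⟩ := Geo2_gr Λ hl (Cx.triv S (Fin Φ.r) Φ.dg)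
    (fun a : Fin Φ.r × Bool => (a.1 : ℕ)) (fun a b h => congrArg Fin.val (Geo2_triv _ _ a b h))
    _ hL _ (Geo2_stable I.ex (I.lat_le hs hc) γ)
    (by
      rintro _ ⟨x, rfl⟩ J hz
      exact Geo2_hub I hs γ (fun K => (x K : N)) (fun K => (x K).2) J hz)
    (fun J => Geo2_hlb I hs γ J _ fun y hy => ⟨fun K => ⟨y K, hy K⟩, rfl⟩) h1
  exact ⟨h2.trans_ne h4, h3.trans h5⟩


theorem Flag.In.h_ne_top (γ : s → ℕ) : (F.on (lat (γ + I.one))).h Λ ≠ ⊤ := by
  have h := (Geo2_main (l := 0) I hs hc Λ hfin (by simp) γ).1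
  rw [DG.h_congr Λ (Cx.hl_pow_zero Λ F), zero_add, one_smul] at h
  exact h

theorem Flag.In.psi_eq {l : ℕ} (hp : (l + 1).Prime) (hev : Even l) (hl : IsUnit ((l + 1 : ℕ) : S))
    (γ : s → ℕ) : F.psi Λ l (lat (γ + (l + 1) • I.one)) =
      l * ∑ π, (-1 : ℝ) ^ Φ.dg π * (Λ.rel (lat (γ + (l + 1) • I.ex (π, false)))
        (lat (γ + (l + 1) • I.ex (π, true)))).toReal := by
  have hB := Geo2_stable (l := l) (lat := lat) (fun a => I.ex (a.1, true)) (fun _ _ => le_rfl) γ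
  have h0 := Geo2_acyclic Λ (Cx.triv S (Fin Φ.r) Φ.dg) (Cx.Null_triv _ _)
    (fun a : Fin Φ.r × Bool => a.1) (Geo2_triv _ _) _ hB
    fun J J' h => congrArg (fun t => lat (γ + t))
      (Finset.sum_congr rfl fun k _ => congrArg (fun π => I.ex (π, true)) (h k))
  have h1 := Cx.psi_box_sub Λ hp hev hl (Cx.triv S (Fin Φ.r) Φ.dg) _ _
    (Geo2_stable I.ex (I.lat_le hs hc) γ) hB
    (fun J => (Geo2_rel I hs hc Λ hfin Finset.univ J γ).1)
    (fun J => (Geo2_rel I hs hc Λ hfin Finset.univ J γ).2) (h0 ▸ ENNReal.zero_ne_top)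
  rw [(Geo2_main I hs hc Λ hfin hl γ).2, h1, EDG.psi_eq_zero_of_h Λ hl h0, zero_add]
  congr 1
  refine (Fintype.sum_prod_type (α₁ := Fin Φ.r) (α₂ := Bool) _).trans
    (Finset.sum_congr rfl fun π _ => ?_)
  rw [Fintype.sum_bool]
  simp only [Finset.sum_const, Finset.card_univ, Fintype.card_fin]
  rw [Λ.rel_of_le le_rfl, ENNReal.toReal_zero, mul_zero, zero_add]
  rfl

end Vale.Agent.P177
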