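import Vale.Agent.P177.Geo
import Vale.Agent.P177.Eqf2

/-! Auxiliary lemmas for the Adams operation on saturated lattices. -/

namespace Vale.Agent.P177

open Matrix

universe u

section
variable {R : Type u} [CommRing R] (Λ : Len R) {N : Type u} [AddCommGroup N] [Module R N] {l : ℕ}

theorem Geo2_range {m : ℕ} (hl : IsUnit (m : R)) {X Y Z : EDG R m} (φ : EDG.Hom X Y)
    (ψ : EDG.Hom Y Z) (hf : Function.Injective (ψ.f ∘ₗ φ.f)) :
    ∃ hL : Z.Stable (LinearMap.range (ψ.f ∘ₗ φ.f)),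
      X.toDG.h Λ = (Z.sub _ hL).toDG.h Λ ∧ X.psi Λ = (Z.sub _ hL).psi Λ := by
  have hd : ∀ x, (ψ.f ∘ₗ φ.f) (X.d x) = Z.d ((ψ.f ∘ₗ φ.f) x) := fun x =>
    (congrArg ψ.f (φ.d x)).trans (ψ.d _)
  have hp : ∀ i x, (ψ.f ∘ₗ φ.f) (X.pr i x) = Z.pr i ((ψ.f ∘ₗ φ.f) x) := fun i x =>
    (congrArg ψ.f (φ.pr i x)).trans (ψ.pr i _)
  have hτ : ∀ x, (ψ.f ∘ₗ φ.f) (X.τ x) = Z.τ ((ψ.f ∘ₗ φ.f) x) := fun x =>
    (congrArg ψ.f (φ.τ x)).trans (ψ.τ _)
  have hL : Z.Stable (LinearMap.range (ψ.f ∘ₗ φ.f)) :=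
    ⟨⟨fun _ ⟨x, hx⟩ => ⟨X.d x, hx ▸ hd x⟩, fun i _ ⟨x, hx⟩ => ⟨X.pr i x, hx ▸ hp i x⟩⟩,
      fun _ ⟨x, hx⟩ => ⟨X.τ x, hx ▸ hτ x⟩⟩
  let θ : EDG.Hom X (Z.sub _ hL) :=
    ⟨⟨(ψ.f ∘ₗ φ.f).rangeRestrict, fun x => Subtype.ext (hd x), fun i x => Subtype.ext (hp i x)⟩,
      fun x => Subtype.ext (hτ x)⟩
  have hq : θ.toHom.QIso := DG.Hom.qIso_of_bijective _
    ⟨fun x y h => hf (congrArg Subtype.val h), (ψ.f ∘ₗ φ.f).surjective_rangeRestrict⟩
  exact ⟨hL, DG.h_congr Λ (hq.hl_eq Λ), EDG.psi_congr Λ hl θ hq⟩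

theorem Geo2_gr (hl : IsUnit ((l + 1 : ℕ) : R)) (G : Cx R) (pat : G.ι → ℕ)
    (h : ∀ a b, G.d a b ≠ 0 → pat a = pat b) (L : Submodule R ((Fin (l + 1) → G.ι) → N))
    (hL : (G.onPow l N).Stable L) (A : (Fin (l + 1) → G.ι) → Submodule R N)
    (hA : (G.onPow l N).Stable (Cx.box A))
    (hub : ∀ x ∈ L, ∀ J, (∀ J', ∑ k, pat (J k) < ∑ k, pat (J' k) → x J' = 0) → x J ∈ A J)
    (hlb : ∀ J, ∀ y ∈ A J, ∃ x ∈ L, x J = y ∧
      ∀ J', J' ≠ J → ∑ k, pat (J k) ≤ ∑ k, pat (J' k) → x J' = 0)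
    (hfin : ((G.onPow l N).sub _ hA).toDG.h Λ ≠ ⊤) :
    ((G.onPow l N).sub L hL).toDG.h Λ ≠ ⊤ ∧
      ((G.onPow l N).sub L hL).psi Λ = ((G.onPow l N).sub _ hA).psi Λ := by
  have key : ∀ (d' : Matrix G.ι G.ι R) (dd' : d' * d' = 0)
      (hdeg' : ∀ a b, d' a b ≠ 0 → G.deg b = G.deg a + 1), d' = G.d →
      ∃ hA' : ((Cx.mk G.ι G.deg d' dd' hdeg').onPow l N).Stable (Cx.box A),
        (((Cx.mk G.ι G.deg d' dd' hdeg').onPow l N).sub _ hA').toDG.h Λ ≠ ⊤ ∧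
        (((Cx.mk G.ι G.deg d' dd' hdeg').onPow l N).sub _ hA').psi Λ =
          ((G.onPow l N).sub _ hA).psi Λ := by
    intro d' dd' hdeg' e
    subst e
    exact ⟨hA, hfin, rfl⟩
  have h' : ∀ a b, G.d a b ≠ 0 → pat a ≤ pat b := fun a b hab => (h a b hab).le
  obtain ⟨hA', h1, h2⟩ := key (G.gr pat h').d (G.gr pat h').dd (G.gr pat h').hdeg (by
    ext a b
    show (if pat a = pat b then G.d a b else 0) = G.d a b
    split_ifs with e
    · rfl
    · by_contra hn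
      exact e (h a b (Ne.symm hn)))
  obtain ⟨h3, h4⟩ := Cx.psi_eq_gr Λ hl G pat h' L hL A hA' hub hlb h1
  exact ⟨h3, h4.trans h2⟩

theorem Geo2_cls {ι κ : Type} [Fintype ι] [DecidableEq ι] (d H : Matrix ι ι R) (cls : ι → κ)
    (hd : ∀ a b, d a b ≠ 0 → cls a = cls b) (h : d * H + H * d = 1) :
    ∃ H' : Matrix ι ι R, d * H' + H' * d = 1 ∧ ∀ a b, H' a b ≠ 0 → cls a = cls b := by
  classical
  refine ⟨Matrix.of fun a b => if cls a = cls b then H a b else 0, ?_, fun a b hn => ?_⟩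
  · ext x y
    rcases eq_or_ne (cls x) (cls y) with hxy | hxy
    · rw [← h]
      simp only [Matrix.add_apply, Matrix.mul_apply, Matrix.of_apply]
      congr 1 <;> refine Finset.sum_congr rfl fun b _ => ?_
      · by_cases h0 : d x b = 0
        · rw [h0, zero_mul, zero_mul]
        · rw [if_pos (by rw [← hd x b h0, hxy])]
      · by_cases h0 : d b y = 0
        · rw [h0, mul_zero, mul_zero]
        · rw [if_pos (by rw [hd b y h0, hxy])]
    · have h1 : x ≠ y := fun e => hxy (e ▸ rfl)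
      simp only [Matrix.add_apply, Matrix.mul_apply, Matrix.of_apply, Matrix.one_apply_ne h1]
      rw [Finset.sum_eq_zero, Finset.sum_eq_zero, add_zero]
      · intro b _
        by_cases h0 : d b y = 0
        · rw [h0, mul_zero]
        · rw [if_neg (by rw [hd b y h0]; exact hxy), zero_mul]
      · intro b _
        by_cases h0 : d x b = 0
        · rw [h0, zero_mul]
        · rw [if_neg (by rw [← hd x b h0]; exact hxy), mul_zero]
  · by_contra h1
    exact hn (if_neg h1)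

theorem Geo2_box {ι κ : Type} [Fintype ι] [DecidableEq ι] (d H : Matrix ι ι R) (cls : ι → κ)
    (hd : ∀ a b, d a b ≠ 0 → cls a = cls b) (h : d * H + H * d = (1 : R) • 1)
    (B : ι → Submodule R N) (hB : ∀ a b, cls a = cls b → B a = B b) (x : ι → N)
    (hx : ∀ a, x a ∈ B a) (h0 : mact d N x = 0) :
    ∃ y : ι → N, (∀ a, y a ∈ B a) ∧ mact d N y = x := by
  rw [one_smul] at h
  obtain ⟨H', h1, h2⟩ := Geo2_cls d H cls hd h
  refine ⟨mact H' N x, fun a => ?_, ?_⟩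
  · rw [mact_apply]
    refine Submodule.sum_mem _ fun b _ => ?_
    by_cases h0 : H' a b = 0
    · rw [h0, zero_smul]
      exact Submodule.zero_mem _
    · rw [hB a b (h2 a b h0)]
      exact Submodule.smul_mem _ _ (hx b)
  · have e := mact_smul_one (1 : R) (N := N) x
    rw [one_smul, one_smul, ← h1, mact_add, mact_mul, mact_mul, h0, map_zero, add_zero] at e
    exact e

theorem Geo2_pow_d (G : Cx R) {κ : Type} (pat : G.ι → κ)
    (h : ∀ a b, G.d a b ≠ 0 → pat a = pat b) (J J' : Fin (l + 1) → G.ι)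
    (hn : (∑ k, if ∀ j, j ≠ k → J j = J' j then
      (-1) ^ (∑ j ∈ Finset.Iio k, G.deg (J j)) * G.d (J k) (J' k) else 0) ≠ 0) :
    (fun k => pat (J k)) = fun k => pat (J' k) := by
  obtain ⟨k, _, hk⟩ := Finset.exists_ne_zero_of_sum_ne_zero hn
  split_ifs at hk with e
  · funext j
    by_cases hj : j = k
    · subst hj
      exact h _ _ (right_ne_zero_of_mul hk)
    · rw [e j hj]
  · exact absurd rfl hk

theorem Geo2_acyclic (G : Cx R) (hG : G.Null = ⊤) {κ : Type} (pat : G.ι → κ)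
    (h : ∀ a b, G.d a b ≠ 0 → pat a = pat b) (B : (Fin (l + 1) → G.ι) → Submodule R N)
    (hB : (G.onPow l N).Stable (Cx.box B))
    (hp : ∀ J J', (∀ k, pat (J k) = pat (J' k)) → B J = B J') :
    ((G.onPow l N).sub _ hB).toDG.h Λ = 0 := by
  obtain ⟨H, hH⟩ := G.Null_le_pow l (hG ▸ Submodule.mem_top : (1 : R) ∈ G.Null)
  refine DG.Acyclic.h_eq_zero Λ fun x hx => ?_
  obtain ⟨y, h1, h2⟩ := Geo2_box (G.pow l).d H
    (fun J : Fin (l + 1) → G.ι => fun k => pat (J k)) (fun J J' hn => Geo2_pow_d G pat h J J' hn)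
    hH B (fun J J' e => hp J J' fun k => congrFun e k) x.1 (fun J => x.2 J trivial)
    (congrArg Subtype.val hx)
  exact ⟨⟨y, fun J _ => h1 J⟩, Subtype.ext h2⟩

theorem Geo2_prod_le {κ : Type} [Fintype κ] (J : κ → Ideal R) (Q : Ideal R)
    (h : ∀ η : κ → R, (∀ k, η k ∈ J k) → ∏ k, η k ∈ Q) : ∏ k, J k ≤ Q := by
  have e : ∏ k, J k = ∏ k, Ideal.span (J k : Set R) :=
    Finset.prod_congr rfl fun k _ => (Ideal.span_eq _).symm
  rw [e, Ideal.prod_span, Ideal.span_le]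
  intro g hg
  obtain ⟨η, h1, rfl⟩ := (Set.mem_fintype_prod _ _).1 hg
  exact h η h1

theorem Geo2_kron {ι κ : Type} [Fintype ι] [Fintype κ] (A : Matrix ι κ R)
    (u : Fin (l + 1) → ι → R) (y : (Fin (l + 1) → κ) → N) :
    ∑ J, (∏ k, u k (J k)) • mact (kron A l) N y J = ∑ K, (∏ k, (u k ᵥ* A) (K k)) • y K := by
  classical
  simp only [mact_apply, Finset.smul_sum, smul_smul]
  rw [Finset.sum_comm]
  refine Finset.sum_congr rfl fun K _ => ?_
  rw [← Finset.sum_smul]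
  congr 1
  simp only [kron, vecMul, dotProduct, ← Finset.prod_mul_distrib]
  exact (Fintype.prod_sum fun k a => u k a * A a (K k)).symm

theorem Geo2_kron' {ι κ : Type} [Fintype κ] (A : Matrix ι κ R)
    (w : Fin (l + 1) → κ → R) (y : N) (J : Fin (l + 1) → ι) :
    mact (kron A l) N (fun K => (∏ k, w k (K k)) • y) J = (∏ k, (A *ᵥ w k) (J k)) • y := by
  classical
  simp only [mact_apply, smul_smul]
  rw [← Finset.sum_smul]
  congr 1
  simp only [kron, mulVec, dotProduct, ← Finset.prod_mul_distrib]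
  exact (Fintype.prod_sum fun k a => A (J k) a * w k a).symm

theorem Geo2_lt {κ α : Type} [Fintype κ] (pat : α → ℕ) {J J' : κ → α} (hne : J' ≠ J)
    (h : ∀ k, J' k = J k ∨ pat (J k) < pat (J' k)) : ∑ k, pat (J k) < ∑ k, pat (J' k) := by
  obtain ⟨k, hk⟩ := Function.ne_iff.1 hne
  refine Finset.sum_lt_sum (fun j _ => ?_) ⟨k, Finset.mem_univ k, (h k).resolve_left hk⟩
  rcases h j with e | e
  · rw [e]
  · exact e.le

end

variable {S : Type u} [CommRing S] {s : Type} [Fintype s] [DecidableEq s] {P : s → Ideal S}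
  {N : Type u} [AddCommGroup N] [Module S N] {lat : (s → ℕ) → Submodule S N}

theorem Geo2_mpow_sum {κ : Type} (T : Finset κ) (β : κ → s → ℕ) :
    mpow P (∑ k ∈ T, β k) = ∏ k ∈ T, mpow P (β k) := by
  classical
  induction T using Finset.induction_on with
  | empty => simp [mpow]
  | insert k T hk ih => rw [Finset.sum_insert hk, Finset.prod_insert hk, mpow_add, ih]

theorem Geo2_smul_mem (hs : Sat P lat) {κ : Type} [Fintype κ] (β : κ → s → ℕ) (g : κ → S)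
    (hg : ∀ k, g k ∈ mpow P (β k)) {γ : s → ℕ} {y : N} (hy : y ∈ lat γ) :
    (∏ k, g k) • y ∈ lat (γ + ∑ k, β k) := by
  rw [hs.add, Geo2_mpow_sum]
  exact Submodule.smul_mem_smul (Ideal.prod_mem_prod fun k _ => hg k) hy

end Vale.Agent.P177
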