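import Vale.Agent.P177.DG

/-! Cones of multiplications on the level of complexes. -/

namespace Vale.Agent.P177

open scoped ENNReal

universe u

namespace DG

variable {R : Type u} [CommRing R]

/-- shifted projections. -/
def kosSh (X : DG R) : ℕ → X.M →ₗ[R] X.M
  | 0 => 0
  | i + 1 => X.pr i

theorem kos_d_pr (X : DG R) (i : ℕ) (x : X.M) : X.d (X.pr i x) = X.kosSh i (X.d x) := by
  cases i
  exacts [X.d_zero x, X.d_succ _ x]

theorem kos_sh_sh (X : DG R) (i j : ℕ) (x : X.M) :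
    X.kosSh i (X.kosSh j x) = if i = j then X.kosSh i x else 0 := by
  cases i <;> cases j <;> simp [kosSh, X.pr_pr]

theorem kos_d_sh (X : DG R) (i : ℕ) (x : X.M) :
    X.d (X.kosSh (i + 1) x) = X.kosSh i (X.d x) := X.kos_d_pr i x

theorem kos_bd (X : DG R) : ∃ L, ∀ L', L ≤ L' → ∀ x, ∑ i ∈ Finset.range L', X.pr i x = x ∧
    ∑ i ∈ Finset.range (L' + 1), X.kosSh i x = x := by
  obtain ⟨L, hL⟩ := X.bd
  have key : ∀ L', L ≤ L' → ∀ x, ∑ i ∈ Finset.range L', X.pr i x = x := fun L' h x => by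
    refine Eq.trans (Finset.sum_subset (Finset.range_mono h) fun i _ hi => ?_).symm (hL x)
    rw [← hL x, map_sum]
    exact Finset.sum_eq_zero fun j hj => by rw [X.pr_pr, if_neg (by rintro rfl; exact hi hj)]
  refine ⟨L, fun L' h x => ⟨key L' h x, ?_⟩⟩
  rw [Finset.sum_range_succ']
  exact (add_zero _).trans (key L' h x)

/-- the shift. -/
def kosShift (X : DG R) : DG R where
  M := X.M
  d := -X.d
  pr := X.kosSh
  dd x := by simp [X.dd]
  pr_pr := X.kos_sh_sh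
  bd := X.kos_bd.elim fun L h => ⟨L + 1, fun x => (h L le_rfl x).2⟩
  d_zero x := by simp [kosSh]
  d_succ i x := by simp [X.kos_d_sh]

/-- the direct sum. -/
def kosProd (X Y : DG R) : DG R where
  M := X.M × Y.M
  d := X.d.prodMap Y.d
  pr i := (X.pr i).prodMap (Y.pr i)
  dd x := Prod.ext (X.dd _) (Y.dd _)
  pr_pr i j x := by
    split_ifs with h <;> exact Prod.ext (by simp [X.pr_pr, h]) (by simp [Y.pr_pr, h])
  bd := by
    obtain ⟨L, h⟩ := X.kos_bd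
    obtain ⟨L', h'⟩ := Y.kos_bd
    exact ⟨max L L', fun x => Prod.ext
      ((Prod.fst_sum).trans (h _ (le_max_left _ _) _).1)
      ((Prod.snd_sum).trans (h' _ (le_max_right _ _) _).1)⟩
  d_zero x := Prod.ext (X.d_zero _) (Y.d_zero _)
  d_succ i x := Prod.ext (X.d_succ _ _) (Y.d_succ _ _)

/-- the cone of multiplication by `a`. -/
def cone (X : DG R) (a : R) : DG R where
  M := X.M × X.M
  d := (X.d ∘ₗ LinearMap.fst R _ _ + a • LinearMap.snd R _ _).prod (-X.d ∘ₗ LinearMap.snd R _ _)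
  pr i := (X.pr i).prodMap (X.kosSh i)
  dd x := Prod.ext (by simp [X.dd]) (by simp [X.dd])
  pr_pr i j x := by
    split_ifs with h <;> exact Prod.ext (by simp [X.pr_pr, h]) (by simp [X.kos_sh_sh, h])
  bd := X.kos_bd.elim fun L h => ⟨L + 1, fun x => Prod.ext
    ((Prod.fst_sum).trans (h _ (Nat.le_succ L) _).1) ((Prod.snd_sum).trans (h _ le_rfl _).2)⟩
  d_zero x := Prod.ext (by simp [X.d_zero, kosSh]) (by simp [kosSh])
  d_succ i x := Prod.ext (by simp [X.d_succ, kosSh]) (by simp [X.kos_d_sh])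

theorem cone_d (X : DG R) (a : R) (x y : X.M) :
    (X.cone a).d (x, y) = (X.d x + a • y, -X.d y) := rfl

theorem cone_pr (X : DG R) (a : R) (i : ℕ) (x y : X.M) :
    (X.cone a).pr i (x, y) = (X.pr i x, X.kosSh i y) := rfl

/-- iterated cones. -/
def coneL (X : DG R) : List R → DG R
  | [] => X
  | a :: as => (X.coneL as).cone a

variable {X Y W : DG R}

theorem kos_mem_Z {i : ℕ} {x : X.M} : x ∈ X.Z i ↔ X.d x = 0 ∧ X.pr i x = x :=
  and_congr_right fun _ => ⟨fun ⟨y, h⟩ => by rw [← h, X.pr_pr, if_pos rfl], fun h => ⟨x, h⟩⟩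

theorem kos_pr_mem_Z (i : ℕ) {x : X.M} (h : X.d x = 0) : X.pr i x ∈ X.Z i :=
  ⟨show X.d _ = 0 by rw [X.kos_d_pr, h, map_zero], x, rfl⟩

theorem Hom.kos_sh (φ : Hom X Y) (i : ℕ) (x : X.M) : φ.f (X.kosSh i x) = Y.kosSh i (φ.f x) := by
  cases i
  exacts [map_zero _, φ.pr _ x]

/-- there is a quasi-isomorphism. -/
def QE (X Y : DG R) : Prop := ∃ φ : Hom X Y, φ.QIso

theorem QE.refl (X : DG R) : QE X X :=
  ⟨⟨LinearMap.id, fun _ => rfl, fun _ _ => rfl⟩, Hom.qIso_of_bijective _ Function.bijective_id⟩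

theorem QE.trans (h : QE X Y) (h' : QE Y W) : QE X W := by
  obtain ⟨φ, hφ⟩ := h
  obtain ⟨ψ, hψ⟩ := h'
  refine ⟨⟨ψ.f ∘ₗ φ.f, fun x => by simp [φ.d, ψ.d], fun i x => by simp [φ.pr, ψ.pr]⟩,
    fun x h1 h2 => hφ.inj x h1 (hψ.inj _ (by rw [← φ.d, h1, map_zero]) h2), fun w hw => ?_⟩
  obtain ⟨y, h1, u, h2⟩ := hψ.surj w hw
  obtain ⟨x, h3, v, h4⟩ := hφ.surj y h1
  refine ⟨x, h3, u + ψ.f v, ?_⟩
  rw [map_add, ← ψ.d, h2, h4, map_sub]
  exact sub_add_sub_cancel' _ _ _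

theorem QE.hl (h : QE X Y) (Λ : Len R) (i : ℕ) : X.hl Λ i = Y.hl Λ i :=
  h.elim fun _ h => h.hl_eq Λ i

theorem QE.h (h : QE X Y) (Λ : Len R) : X.h Λ = Y.h Λ := h_congr Λ (h.hl Λ)

theorem QE.chi (h : QE X Y) (Λ : Len R) : X.chi Λ = Y.chi Λ := chi_congr Λ (h.hl Λ)

theorem QE.killsH (h : QE X Y) (c : R) (i : ℕ) : X.KillsH c i ↔ Y.KillsH c i :=
  h.elim fun _ h => h.killsH c i

theorem QE.cone (h : QE X Y) (a : R) : QE (X.cone a) (Y.cone a) := by
  obtain ⟨φ, hφ⟩ := h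
  refine ⟨⟨φ.f.prodMap φ.f, fun (x, y) => ?_, fun i (x, y) => Prod.ext (φ.pr _ _) (φ.kos_sh _ _)⟩,
    ?_, ?_⟩
  · exact Prod.ext (show φ.f (X.d x + a • y) = Y.d (φ.f x) + a • φ.f y by simp [φ.d])
      (show φ.f (-X.d y) = -Y.d (φ.f y) by simp [φ.d])
  · rintro ⟨x, y⟩ h ⟨⟨u, v⟩, e⟩
    obtain ⟨h1, h2⟩ : X.d x + a • y = 0 ∧ -X.d y = 0 := Prod.ext_iff.1 h
    obtain ⟨e1, e2⟩ : Y.d u + a • v = φ.f x ∧ -Y.d v = φ.f y := Prod.ext_iff.1 e
    obtain ⟨w, rfl⟩ := hφ.inj y (neg_eq_zero.1 h2) ⟨-v, by rw [map_neg, e2]⟩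
    obtain ⟨t, t1, s, t2⟩ := hφ.surj (v + φ.f w) (by rw [map_add, ← φ.d, ← e2, add_neg_cancel])
    obtain ⟨z, hz⟩ := hφ.inj (x + a • w - a • t) (by simp [t1, h1]) ⟨u - a • s, by
      simp only [map_sub, map_add, map_smul, t2, ← e1]; module⟩
    exact ⟨(z, t - w), Prod.ext (show X.d z + a • (t - w) = x by rw [hz]; module)
      (show -X.d (t - w) = X.d w by simp [t1])⟩
  · rintro ⟨u, v⟩ h
    obtain ⟨h1, h2⟩ : Y.d u + a • v = 0 ∧ -Y.d v = 0 := Prod.ext_iff.1 h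
    obtain ⟨y, y1, s, y2⟩ := hφ.surj v (neg_eq_zero.1 h2)
    obtain ⟨x, hx⟩ := hφ.inj (a • y) (by simp [y1]) ⟨a • s - u, by
      rw [map_sub, map_smul, map_smul, y2, eq_neg_of_add_eq_zero_left h1]; module⟩
    obtain ⟨t, t1, r, t2⟩ := hφ.surj (a • s - u - φ.f x) (by
      rw [map_sub, map_sub, ← φ.d, hx, map_smul, map_smul, y2, eq_neg_of_add_eq_zero_left h1]
      module)
    exact ⟨(-x - t, y), Prod.ext (show X.d (-x - t) + a • y = 0 by simp [hx, t1])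
      (show -X.d y = 0 by simp [y1]), (-r, -s), Prod.ext
      (show Y.d (-r) + a • -s = φ.f (-x - t) - u by rw [map_neg, t2, map_sub, map_neg]; module)
      (show -Y.d (-s) = φ.f y - v by simp [y2])⟩

theorem kos_swap (X : DG R) (a b : R) : QE ((X.cone a).cone b) ((X.cone b).cone a) := by
  let f : (X.M × X.M) × (X.M × X.M) →ₗ[R] (X.M × X.M) × (X.M × X.M) :=
    ((LinearMap.fst R _ _).prodMap (LinearMap.fst R _ _)).prod
      ((LinearMap.snd R _ _).prodMap (-LinearMap.snd R _ _))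
  have hf : Function.Involutive f := fun ((w, x), (y, z)) => by simp [f]
  refine ⟨⟨f, fun ((w, x), (y, z)) => ?_, fun i ((w, x), (y, z)) => ?_⟩,
    Hom.qIso_of_bijective _ hf.bijective⟩
  · show ((X.d w + a • x + b • y, -(X.d y + a • z)), (-X.d x + b • z, - - -X.d z)) =
      ((X.d w + b • y + a • x, -X.d y + a • -z), (-(X.d x + b • -z), - -X.d (-z)))
    simp [add_right_comm, add_comm, add_left_comm]
  · cases i
    · show ((X.pr 0 w, (0 : X.M)), ((0 : X.M), -(0 : X.M))) = ((X.pr 0 w, 0), (0, 0))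
      simp
    · exact Prod.ext rfl (Prod.ext rfl (map_neg (X.kosSh _) z).symm)

theorem kos_perm (X : DG R) {as bs : List R} (h : as.Perm bs) : QE (X.coneL as) (X.coneL bs) := by
  induction h with
  | nil => exact QE.refl _
  | cons a _ ih => exact ih.cone a
  | swap a b l => exact kos_swap _ _ _
  | trans _ _ h1 h2 => exact h1.trans h2

variable (Λ : Len R)

theorem kos_le_of_inj (φ : Hom X Y) (i : ℕ)
    (h : ∀ x ∈ X.Z i, φ.f x ∈ LinearMap.range Y.d → x ∈ LinearMap.range X.d) :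
    X.hl Λ i ≤ Y.hl Λ i := by
  have h1 : X.Z i ⊓ (Y.B i).comap φ.f ≤ X.B i := fun x hx => ⟨h x hx.1 hx.2.1, hx.1.2⟩
  refine (Λ.rel_mono le_rfl h1).trans ?_
  rw [Λ.rel_inf, ← Λ.rel_map_comap]
  refine Λ.rel_mono ?_ le_rfl
  rintro _ ⟨x, hx, rfl⟩
  rw [SetLike.mem_coe, kos_mem_Z] at hx
  exact kos_mem_Z.2 ⟨by rw [← φ.d, hx.1, map_zero], by rw [← φ.pr, hx.2]⟩

theorem kos_zero_le (φ : Hom X Y) (h : Function.Surjective φ.f) : Y.hl Λ 0 ≤ X.hl Λ 0 := by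
  refine le_trans (Λ.rel_mono ?_ ?_) (Λ.rel_map_le φ.f (X.Z 0) (X.B 0))
  · rintro _ ⟨-, y, rfl⟩
    obtain ⟨x, rfl⟩ := h y
    exact ⟨X.pr 0 x, ⟨X.d_zero x, x, rfl⟩, φ.pr 0 x⟩
  · rintro _ ⟨x, ⟨⟨y, h1⟩, z, h2⟩, rfl⟩
    exact ⟨⟨φ.f y, by rw [← φ.d, h1]⟩, φ.f z, by rw [← φ.pr, h2]⟩

/-- the inclusion in the cone. -/
def coneInl (X : DG R) (a : R) : Hom X (X.cone a) :=
  ⟨LinearMap.inl R _ _, fun x => Prod.ext (show X.d x = X.d x + a • 0 by simp)
    (show 0 = -X.d 0 by simp), fun i x => Prod.ext rfl (map_zero (X.kosSh i)).symm⟩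

theorem kos_hl_le_cone {a : R} {i : ℕ} (h : X.KillsH a i) : X.hl Λ i ≤ (X.cone a).hl Λ i := by
  refine kos_le_of_inj Λ (X.coneInl a) i ?_
  rintro x hx ⟨⟨u, v⟩, e⟩
  obtain ⟨e1, e2⟩ : X.d u + a • v = x ∧ -X.d v = 0 := Prod.ext_iff.1 e
  rw [← (kos_mem_Z.1 hx).2, ← e1, map_add, map_smul, ← X.d_succ]
  exact add_mem ⟨_, rfl⟩ (h _ (kos_pr_mem_Z i (neg_eq_zero.1 e2)))

theorem kos_h_cone_le (X : DG R) (a : R) : (X.cone a).h Λ ≤ 2 * X.h Λ := by
  have := h_le_add Λ (X.coneInl a) (X'' := X.kosShift)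
    ⟨LinearMap.snd R X.M X.M, fun _ => rfl, fun _ _ => rfl⟩ LinearMap.inl_injective
    (Function.Exact.inl_snd (R := R) (M := X.M) (N := X.M)) Prod.snd_surjective
  have e : X.kosShift.h Λ = X.h Λ := by
    show Λ.rel (LinearMap.ker (-X.d)) (LinearMap.range (-X.d)) = _
    rw [LinearMap.ker_neg, LinearMap.range_neg, h]
  rwa [e, ← two_mul] at this

theorem kos_mul (X : DG R) (a b : R) : ∃ (P : DG R) (f : Hom (X.cone a) P) (g : Hom P (X.cone b)),
    Function.Injective f.f ∧ Function.Exact f.f g.f ∧ Function.Surjective g.f ∧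
      QE P (X.cone (a * b)) := by
  let p : X.M × X.M →ₗ[R] X.M := LinearMap.fst R _ _
  let q : X.M × X.M →ₗ[R] X.M := LinearMap.snd R _ _
  refine ⟨(X.cone (a * b)).kosProd (X.cone 1),
    ⟨((b • p).prod q).prod (p.prod (a • q)), fun (x, y) => ?_, fun i (x, y) => ?_⟩,
    ⟨(p.coprod (-b • p)).prod ((a • q).coprod (-q)), fun ((s, t), (u, w)) => ?_,
      fun i ((s, t), (u, w)) => ?_⟩, ?_, ?_, ?_,
    ⟨LinearMap.fst R _ _, fun _ => rfl, fun _ _ => rfl⟩,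
    Hom.qIso_of_surjective _ LinearMap.fst_surjective ?_⟩
  · show ((b • (X.d x + a • y), -X.d y), (X.d x + a • y, a • -X.d y)) =
      ((X.d (b • x) + (a * b) • y, -X.d y), (X.d x + (1 : R) • a • y, -X.d (a • y)))
    simp [smul_smul, mul_comm]
  · show ((b • X.pr i x, X.kosSh i y), (X.pr i x, a • X.kosSh i y)) =
      ((X.pr i (b • x), X.kosSh i y), (X.pr i x, X.kosSh i (a • y)))
    simp
  · show (X.d s + (a * b) • t + -b • (X.d u + (1 : R) • w), a • -X.d t + - -X.d w) =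
      (X.d (s + -b • u) + b • (a • t + -w), -X.d (a • t + -w))
    simp only [map_add, map_smul, map_neg]
    exact Prod.ext (by module) (by module)
  · show (X.pr i s + -b • X.pr i u, a • X.kosSh i t + -X.kosSh i w) =
      (X.pr i (s + -b • u), X.kosSh i (a • t + -w))
    simp
  · rintro ⟨x, y⟩ ⟨x', y'⟩ h
    have h' : ((b • x, y), (x, a • y)) = ((b • x', y'), (x', a • y')) := h
    exact Prod.ext (congrArg (·.2.1) h') (congrArg (·.1.2) h')
  · rintro ⟨⟨s, t⟩, u, w⟩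
    constructor
    · intro h
      obtain ⟨h1, h2⟩ : s + -b • u = 0 ∧ a • t + -w = 0 := Prod.ext_iff.1 h
      exact ⟨(u, t), Prod.ext (Prod.ext (show b • u = s by linear_combination (norm := module) -h1)
        rfl) (Prod.ext rfl (show a • t = w by linear_combination (norm := module) h2))⟩
    · rintro ⟨⟨x, y⟩, h⟩
      rw [← h]
      show (b • x + -b • x, a • y + -(a • y)) = (0, 0)
      simp
  · rintro ⟨x, y⟩
    refine ⟨((x, 0), (0, -y)), ?_⟩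
    show (x + -b • (0 : X.M), a • (0 : X.M) + - -y) = (x, y)
    simp
  · rintro ⟨s, u, w⟩ (rfl : s = 0) h
    have h1 : X.d u + (1 : R) • w = 0 := congrArg (·.2.1) h
    exact ⟨(0, 0, u), rfl, Prod.ext (map_zero (X.cone (a * b)).d)
      (Prod.ext (show X.d 0 + (1 : R) • u = u by simp)
        (show -X.d u = w by linear_combination (norm := module) -h1))⟩

theorem kos_killsH_succ {a c c' : R} {i : ℕ} (h : X.KillsH c (i + 1)) (h' : X.KillsH c' i) :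
    (X.cone a).KillsH (c * c') (i + 1) := by
  rintro ⟨x, y⟩ hx
  obtain ⟨h1, h2⟩ := kos_mem_Z.1 hx
  obtain ⟨h3, h4⟩ : X.d x + a • y = 0 ∧ -X.d y = 0 := Prod.ext_iff.1 h1
  obtain ⟨h5, h6⟩ : X.pr (i + 1) x = x ∧ X.pr i y = y := Prod.ext_iff.1 h2
  obtain ⟨w, hw⟩ := h' y (kos_mem_Z.2 ⟨neg_eq_zero.1 h4, h6⟩)
  have h7 : X.d (X.pr (i + 1) w) = c' • y := by rw [X.d_succ, hw, map_smul, h6]
  obtain ⟨z, hz⟩ := h (c' • x + a • X.pr (i + 1) w) (kos_mem_Z.2 ⟨by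
    rw [map_add, map_smul, map_smul, h7, smul_comm a, ← smul_add, h3, smul_zero], by
    rw [map_add, map_smul, map_smul, h5, X.pr_pr, if_pos rfl]⟩)
  exact ⟨(z, -c • X.pr (i + 1) w), Prod.ext
    (show X.d z + a • -c • X.pr (i + 1) w = (c * c') • x by rw [hz]; module)
    (show -X.d (-c • X.pr (i + 1) w) = (c * c') • y by rw [map_smul, h7]; module)⟩

theorem kos_killsH_of_succ {a c : R} {i : ℕ} (ha : X.KillsH a i)
    (h : (X.cone a).KillsH c (i + 1)) : X.KillsH c i := by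
  intro y hy
  obtain ⟨w, hw⟩ := ha y hy
  obtain ⟨h1, h2⟩ := kos_mem_Z.1 hy
  obtain ⟨⟨u, v⟩, e⟩ := h (-X.pr (i + 1) w, y) (kos_mem_Z.2 ⟨Prod.ext
    (show X.d (-X.pr (i + 1) w) + a • y = 0 by
      rw [map_neg, X.d_succ, hw, map_smul, h2, neg_add_cancel])
    (show -X.d y = 0 by rw [h1, neg_zero]), Prod.ext
    (show X.pr (i + 1) (-X.pr (i + 1) w) = -X.pr (i + 1) w by rw [map_neg, X.pr_pr, if_pos rfl])
    h2⟩)
  exact ⟨-v, (map_neg _ _).trans (congrArg Prod.snd e)⟩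

theorem kos_h_coneL (e : X.M ≃ₗ[R] Y.M) (he : ∀ x, e (X.d x) = Y.d (e x)) (as : List R) :
    (X.coneL as).h Λ = (Y.coneL as).h Λ := by
  obtain ⟨e, he⟩ : ∃ e : (X.coneL as).M ≃ₗ[R] (Y.coneL as).M,
      ∀ x, e ((X.coneL as).d x) = (Y.coneL as).d (e x) := by
    induction as with
    | nil => exact ⟨e, he⟩
    | cons a as ih =>
      obtain ⟨e, he⟩ := ih
      exact ⟨e.prodCongr e, fun (x, y) => Prod.ext
        (show e ((X.coneL as).d x + a • y) = (Y.coneL as).d (e x) + a • e y by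
          rw [map_add, map_smul, he])
        (show e (-(X.coneL as).d y) = -(Y.coneL as).d (e y) by rw [map_neg, he])⟩
  rw [h, h, ← Λ.rel_map_of_injective e.toLinearMap e.injective]
  congr 1
  · ext y
    obtain ⟨x, rfl⟩ := e.surjective y
    simp [← he]
  · ext y
    exact ⟨fun ⟨_, ⟨x, h1⟩, h2⟩ => ⟨e x, by rw [← he, h1]; exact h2⟩,
      fun ⟨x, h⟩ => ⟨_, ⟨e.symm x, rfl⟩, by rw [← h]; exact (he _).trans (by simp)⟩⟩

end DG

end Vale.Agent.P177
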