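import Vale.Agent.P177.Cx2
import Vale.Agent.P177.KosAux

/-! Koszul complexes: regular sequences, amplification. -/

namespace Vale.Agent.P177

open scoped ENNReal
open RingTheory.Sequence

universe u

namespace Cx

variable {R : Type u} [CommRing R] (Λ : Len R) {N : Type u} [AddCommGroup N] [Module R N]

theorem kosQE (F : Cx R) (a : R) : DG.QE ((F.kos a).on N) ((F.on N).cone a) := by
  refine ⟨⟨(LinearEquiv.sumArrowLequivProdArrow F.ι F.ι R N).toLinearMap, fun x => ?_,
    fun i x => ?_⟩, DG.Hom.qIso_of_bijective _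
      (LinearEquiv.sumArrowLequivProdArrow F.ι F.ι R N).bijective⟩
  · refine Prod.ext (funext fun b => ?_) (funext fun b => ?_)
    · show ∑ c : F.ι ⊕ F.ι, Matrix.fromBlocks F.d (a • 1) 0 (-F.d) (.inl b) c • x c =
        ∑ c, F.d b c • x (.inl c) + a • x (.inr b)
      simp [Fintype.sum_sum_type, Matrix.one_apply]
    · show ∑ c : F.ι ⊕ F.ι, Matrix.fromBlocks F.d (a • 1) 0 (-F.d) (.inr b) c • x c =
        -∑ c, F.d b c • x (.inr c)
      simp [Fintype.sum_sum_type]
  · refine Prod.ext rfl (funext fun b => ?_)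
    rcases i with _ | i
    · show (if F.deg b + 1 = 0 then x (.inr b) else 0) = 0
      simp
    · show (if F.deg b + 1 = i + 1 then x (.inr b) else 0) = if F.deg b = i then x (.inr b) else 0
      simp

theorem kosLQE (F : Cx R) (as : List R) : DG.QE ((F.kosL as).on N) ((F.on N).coneL as) := by
  induction as with
  | nil => exact DG.QE.refl _
  | cons a as ih => exact ((F.kosL as).kosQE a).trans (ih.cone a)

theorem hl_kosL_perm (F : Cx R) {as bs : List R} (h : as.Perm bs) (i : ℕ) :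
    ((F.kosL as).on N).hl Λ i = ((F.kosL bs).on N).hl Λ i :=
  (((F.kosLQE as).trans (DG.kos_perm _ h)).hl Λ i).trans ((F.kosLQE bs).hl Λ i).symm

theorem killsH_kosL_perm (F : Cx R) {as bs : List R} (h : as.Perm bs) (c : R) (i : ℕ) :
    ((F.kosL as).on N).KillsH c i ↔ ((F.kosL bs).on N).KillsH c i :=
  (((F.kosLQE as).trans (DG.kos_perm _ h)).killsH c i).trans ((F.kosLQE bs).killsH c i).symm

theorem kos_onMap_surj (F : Cx R) {N' : Type u} [AddCommGroup N'] [Module R N']
    (g : N →ₗ[R] N') (hg : Function.Surjective g) : Function.Surjective (F.onMap g).f :=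
  hg.comp_left

theorem kos_onQE (F : Cx R) {N' : Type u} [AddCommGroup N'] [Module R N'] (e : N ≃ₗ[R] N') :
    DG.QE (F.on N) (F.on N') :=
  ⟨F.onMap e.toLinearMap, DG.Hom.qIso_of_bijective _ e.bijective.comp_left⟩

/-- reduction of coefficients. -/
def kosMk (F : Cx R) (N : Type u) [AddCommGroup N] [Module R N] (a : R) :
    DG.Hom (F.on N) (F.on (QuotSMulTop a N)) := F.onMap (Submodule.mkQ _)

theorem kosMk_surj (F : Cx R) (a : R) : Function.Surjective (F.kosMk N a).f :=
  F.kos_onMap_surj _ (Submodule.mkQ_surjective _)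

theorem kos_quot_eq_zero (F : Cx R) (a : R) (x : (F.on N).M) :
    (F.kosMk N a).f x = 0 ↔ ∃ w, a • w = x := by
  constructor
  · intro h
    have : ∀ b, ∃ w : N, a • w = x b := fun b => by
      obtain ⟨w, -, hw⟩ := (Submodule.mem_smul_pointwise_iff_exists _ _ _).1
        ((Submodule.Quotient.mk_eq_zero _).1 (congrFun h b))
      exact ⟨w, hw⟩
    choose w hw using this
    exact ⟨w, funext hw⟩
  · rintro ⟨w, rfl⟩
    exact funext fun b => (Submodule.Quotient.mk_eq_zero _).2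
      (Submodule.smul_mem_pointwise_smul _ _ _ trivial)

/-- from the cone to the quotient. -/
def kosQuot (F : Cx R) (N : Type u) [AddCommGroup N] [Module R N] (a : R) :
    DG.Hom ((F.on N).cone a) (F.on (QuotSMulTop a N)) where
  f := (F.kosMk N a).f ∘ₗ LinearMap.fst R (F.on N).M (F.on N).M
  d := fun (x, y) => by
    show (F.kosMk N a).f ((F.on N).d x + a • y) = (F.on _).d ((F.kosMk N a).f x)
    rw [map_add, (F.kos_quot_eq_zero a (a • y)).2 ⟨_, rfl⟩, add_zero, DG.Hom.d]
  pr i := fun (x, _) => (F.kosMk N a).pr i x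

theorem kosQuot_surj (F : Cx R) (a : R) : Function.Surjective (F.kosQuot N a).f :=
  fun y => (F.kosMk_surj a y).elim fun x h => ⟨(x, 0), h⟩

theorem kosQuot_qIso (F : Cx R) {a : R} (h : IsSMulRegular N a) : (F.kosQuot N a).QIso := by
  refine DG.Hom.qIso_of_surjective _ (F.kosQuot_surj a) ?_
  rintro ⟨x, y⟩ h1 h2
  obtain ⟨w, rfl⟩ := (F.kos_quot_eq_zero a x).1 h1
  have h3 : (F.on N).d (a • w) + a • y = 0 := congrArg Prod.fst h2
  rw [map_smul, ← smul_add] at h3
  have h4 : (F.on N).d w + y = 0 := funext fun b => h.right_eq_zero_of_smul (congrFun h3 b)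
  exact ⟨(0, w), map_zero (F.kosMk N a).f, Prod.ext
    (show (F.on N).d 0 + a • w = a • w by rw [map_zero, zero_add]) (neg_eq_of_add_eq_zero_right h4)⟩

theorem kosQuot_hl (F : Cx R) (a : R) :
    ((F.on N).cone a).hl Λ 0 = (F.on (QuotSMulTop a N)).hl Λ 0 := by
  refine le_antisymm (DG.kos_le_of_inj Λ (F.kosQuot N a) 0 ?_)
    (DG.kos_zero_le Λ _ (F.kosQuot_surj a))
  rintro ⟨x, y⟩ hx ⟨u, hu⟩
  obtain ⟨u, rfl⟩ := F.kosMk_surj a u
  obtain ⟨w, hw⟩ := (F.kos_quot_eq_zero a (x - (F.on N).d u)).1 (by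
    rw [map_sub, DG.Hom.d, hu]
    exact sub_self ((F.kosMk N a).f x))
  obtain ⟨h1, h2⟩ : (F.on N).pr 0 x = x ∧ 0 = y := Prod.ext_iff.1 (DG.kos_mem_Z.1 hx).2
  refine ⟨((F.on N).pr 1 u, (F.on N).pr 0 w), Prod.ext ?_ ?_⟩
  · show (F.on N).d ((F.on N).pr (0 + 1) u) + a • (F.on N).pr 0 w = x
    rw [DG.d_succ, ← map_smul, hw, ← map_add, add_sub_cancel, h1]
  · show -(F.on N).d ((F.on N).pr 0 w) = y
    rw [DG.d_zero, neg_zero, h2]

theorem exists_qIso_kosL (F : Cx R) {as : List R} (h : IsWeaklyRegular N as) :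
    ∃ φ : DG.Hom ((F.kosL as).on N) (F.on (N ⧸ Ideal.ofList as • (⊤ : Submodule R N))),
      φ.QIso := by
  induction as generalizing N with
  | nil => exact F.kos_onQE (Submodule.quotEquivOfEqBot _ (by simp)).symm
  | cons a as ih =>
    rw [isWeaklyRegular_cons_iff] at h
    exact (((F.kosL as).kosQE a).trans ⟨_, (F.kosL as).kosQuot_qIso h.1⟩).trans (DG.QE.trans
      (ih h.2) (F.kos_onQE (Submodule.quotOfListConsSMulTopEquivQuotSMulTopInner N a as).symm))

theorem hl_kosL_of_reg (F : Cx R) {as : List R} (h : IsWeaklyRegular N as) (i : ℕ) :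
    ((F.kosL as).on N).hl Λ i =
      (F.on (N ⧸ Ideal.ofList as • (⊤ : Submodule R N))).hl Λ i :=
  DG.QE.hl (F.exists_qIso_kosL h) Λ i

theorem hl_kosL_zero (F : Cx R) (as : List R) : ((F.kosL as).on N).hl Λ 0 =
    (F.on (N ⧸ Ideal.ofList as • (⊤ : Submodule R N))).hl Λ 0 := by
  induction as generalizing N with
  | nil => exact (F.kos_onQE (Submodule.quotEquivOfEqBot _ (by simp)).symm).hl Λ 0
  | cons a as ih =>
    exact ((((F.kosL as).kosQE a).hl Λ 0).trans ((F.kosL as).kosQuot_hl Λ a)).trans (ih.trans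
      ((F.kos_onQE (Submodule.quotOfListConsSMulTopEquivQuotSMulTopInner N a as).symm).hl Λ 0))

theorem hl_zero_le_of_surjective (F : Cx R) {N' : Type u} [AddCommGroup N'] [Module R N']
    (g : N →ₗ[R] N') (hg : Function.Surjective g) :
    (F.on N').hl Λ 0 ≤ (F.on N).hl Λ 0 :=
  DG.kos_zero_le Λ (F.onMap g) (F.kos_onMap_surj g hg)

theorem kos_hl_le_quot (F : Cx R) {I : Ideal R} (h : I ≤ F.Null ⊔ Module.annihilator R N) :
    (F.on N).hl Λ 0 ≤ (F.on (N ⧸ I • (⊤ : Submodule R N))).hl Λ 0 := by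
  refine DG.kos_le_of_inj Λ (F.onMap (Submodule.mkQ _)) 0 ?_
  rintro x hx ⟨u, hu⟩
  obtain ⟨u, rfl⟩ := F.kos_onMap_surj _ (Submodule.mkQ_surjective _) u
  have key : ∀ v : F.ι → N, (∀ b, v b ∈ I • (⊤ : Submodule R N)) →
      (F.on N).pr 0 v ∈ LinearMap.range (F.on N).d := fun v hv => by
    have h1 : ∀ b, I • (⊤ : Submodule R N) ≤ (LinearMap.range (F.on N).d).comap
        ((F.on N).pr 0 ∘ₗ LinearMap.single R (fun _ => N) b) := fun b =>
      Submodule.smul_le.2 fun r hr n _ => by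
        rw [Submodule.mem_comap, map_smul]
        exact killsH_of_mem (h hr) 0 _ ⟨(F.on N).d_zero _, _, rfl⟩
    have h2 : v ∈ (LinearMap.range (F.on N).d).comap ((F.on N).pr 0) := by
      rw [← Finset.univ_sum_single v]
      exact sum_mem fun b _ => h1 b (hv b)
    exact h2
  have h2 : (F.onMap (Submodule.mkQ (I • (⊤ : Submodule R N)))).f (x - (F.on N).d u) = 0 := by
    rw [map_sub, DG.Hom.d, hu, sub_self]
  have h3 := key (x - (F.on N).d u) fun b => (Submodule.Quotient.mk_eq_zero _).1 (congrFun h2 b)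
  rw [← (DG.kos_mem_Z.1 hx).2, ← sub_add_cancel x ((F.on N).d u), map_add, ← DG.d_succ]
  exact add_mem h3 ⟨_, rfl⟩

/-- the degree zero homology only depends on the ideal modulo null-homotopic elements. -/
theorem hl_kosL_zero_le (F : Cx R) {as bs : List R}
    (h : Ideal.ofList as ≤ Ideal.ofList bs ⊔ F.Null ⊔ Module.annihilator R N) :
    ((F.kosL bs).on N).hl Λ 0 ≤ ((F.kosL as).on N).hl Λ 0 := by
  rw [hl_kosL_zero, hl_kosL_zero]
  refine (F.kos_hl_le_quot Λ (I := Ideal.ofList as) (h.trans (sup_le (sup_le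
    (le_sup_of_le_right fun r hr => ?_) le_sup_left) (le_sup_of_le_right fun r hr => ?_)))).trans
    (F.hl_zero_le_of_surjective Λ (Submodule.mapQ _ _ (Submodule.mkQ _)
      (Submodule.smul_top_le_comap_smul_top _ _)) fun y => ?_)
  · refine Module.mem_annihilator.2 fun m => ?_
    obtain ⟨m, rfl⟩ := Submodule.mkQ_surjective _ m
    exact (Submodule.Quotient.mk_eq_zero _).2 (Submodule.smul_mem_smul hr trivial)
  · refine Module.mem_annihilator.2 fun m => ?_
    obtain ⟨m, rfl⟩ := Submodule.mkQ_surjective _ m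
    rw [← map_smul, Module.mem_annihilator.1 hr, map_zero]
  · obtain ⟨y, rfl⟩ := Submodule.mkQ_surjective _ y
    obtain ⟨y, rfl⟩ := Submodule.mkQ_surjective _ y
    exact ⟨Submodule.mkQ _ y, rfl⟩

theorem hl_le_hl_kos (F : Cx R) {a : R} {i : ℕ} (h : (F.on N).KillsH a i) :
    (F.on N).hl Λ i ≤ ((F.kos a).on N).hl Λ i :=
  (DG.kos_hl_le_cone Λ h).trans_eq ((F.kosQE a).hl Λ i).symm

theorem h_le_h_kos (F : Cx R) {a : R} (h : ∀ i, (F.on N).KillsH a i) :
    (F.on N).h Λ ≤ ((F.kos a).on N).h Λ := by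
  obtain ⟨L, hL⟩ := (F.on N).exists_bound
  obtain ⟨L', hL'⟩ := ((F.kos a).on N).exists_bound
  rw [DG.h_eq_sum Λ (L := max L L') fun i hi => hL i (le_of_max_le_left hi),
    DG.h_eq_sum Λ (L := max L L') fun i hi => hL' i (le_of_max_le_right hi)]
  exact Finset.sum_le_sum fun i _ => F.hl_le_hl_kos Λ (h i)

theorem h_kos_le (F : Cx R) (a : R) : ((F.kos a).on N).h Λ ≤ 2 * (F.on N).h Λ :=
  ((F.kosQE a).h Λ).trans_le (DG.kos_h_cone_le Λ _ a)

theorem h_kos_mul_le (F : Cx R) (a b : R) :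
    ((F.kos (a * b)).on N).h Λ ≤ ((F.kos a).on N).h Λ + ((F.kos b).on N).h Λ := by
  obtain ⟨P, f, g, h1, h2, h3, h4⟩ := (F.on N).kos_mul a b
  rw [(F.kosQE _).h, (F.kosQE _).h, (F.kosQE _).h, ← h4.h]
  exact DG.h_le_add Λ f g h1 h2 h3

theorem chi_kos_mul (F : Cx R) (a b : R) (ha : ((F.kos a).on N).h Λ ≠ ⊤)
    (hb : ((F.kos b).on N).h Λ ≠ ⊤) :
    ((F.kos (a * b)).on N).chi Λ = ((F.kos a).on N).chi Λ + ((F.kos b).on N).chi Λ := by
  obtain ⟨P, f, g, h1, h2, h3, h4⟩ := (F.on N).kos_mul a b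
  rw [(F.kosQE _).h] at ha hb
  rw [(F.kosQE _).chi, (F.kosQE _).chi, (F.kosQE _).chi, ← h4.chi]
  exact DG.chi_add Λ f g h1 h2 h3 ha hb

theorem IsExt.kosL {C' C C'' : Cx R} (h : IsExt C' C C'') (as : List R) :
    IsExt (C'.kosL as) (C.kosL as) (C''.kosL as) := by
  induction as with
  | nil => exact h
  | cons a as ih =>
    obtain ⟨e, h1, h2, h3, h4, h5⟩ := ih
    refine ⟨(Equiv.sumSumSumComm _ _ _ _).trans (e.sumCongr e), ?_, ?_, ?_, ?_, ?_⟩
    · rintro (b | b)
      exacts [h1 b, congrArg (· + 1) (h1 b)]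
    · rintro (b | b)
      exacts [h2 b, congrArg (· + 1) (h2 b)]
    · rintro (b | b) (c | c)
      exacts [h3 b c, congrArg (a * ·) (if_congr (x := (1 : R)) (y := 0)
        (e.injective.eq_iff.trans Sum.inl_injective.eq_iff) rfl rfl), rfl, congrArg (- ·) (h3 b c)]
    · rintro (b | b) (c | c)
      exacts [h4 b c, congrArg (a * ·) (if_congr (x := (1 : R)) (y := 0)
        (e.injective.eq_iff.trans Sum.inr_injective.eq_iff) rfl rfl), rfl, congrArg (- ·) (h4 b c)]
    · rintro (b | b) (c | c)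
      exacts [h5 b c, (congrArg (a * ·) (if_neg (t := (1 : R)) (e := 0)
        (e.injective.ne Sum.inr_ne_inl))).trans (mul_zero a), rfl, neg_eq_zero.2 (h5 b c)]

theorem h_kosL_le_card (F : Cx R) (as : List R) :
    ((F.kosL as).on N).h Λ ≤ Fintype.card F.ι * (((pt R).kosL as).on N).h Λ := by
  induction hn : Fintype.card F.ι generalizing F with
  | zero =>
    haveI := Fintype.card_eq_zero_iff.1 hn
    rw [h_on_of_null Λ _ (top_le_iff.1 fun a _ => F.le_Null_kosL as
      (Submodule.mem_sup_left ⟨0, Subsingleton.elim _ _⟩))]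
    exact zero_le
  | succ n ih =>
    haveI := (Fintype.card_pos_iff (α := F.ι)).1 (by omega)
    obtain ⟨k, hk⟩ := Finite.exists_max F.deg
    have h0 : ∀ b, F.d k b = 0 := fun b => by
      by_contra h
      have := F.hdeg _ _ h
      have := hk b
      omega
    let C' : Cx R :=
      { ι := {b // b ≠ k}
        deg := fun b => F.deg b
        d := F.d.submatrix (↑) (↑)
        dd := by
          ext b c
          have := congrFun (congrFun F.dd b) c
          rwa [Matrix.mul_apply, Fintype.sum_eq_add_sum_subtype_ne _ k, h0, mul_zero,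
            zero_add] at this
        hdeg := fun b c => F.hdeg b c }
    let C'' : Cx R :=
      { ι := Unit
        deg := fun _ => F.deg k
        d := 0
        dd := by simp
        hdeg := fun _ _ h => absurd rfl h }
    have hE : IsExt C' F C'' := ⟨(Equiv.optionEquivSumPUnit _).symm.trans (Equiv.optionSubtypeNe k),
      fun _ => rfl, fun _ => rfl, fun _ _ => rfl, fun _ _ => h0 _, fun _ _ => h0 _⟩
    refine ((hE.kosL as).h_le Λ).trans ?_
    rw [Nat.cast_succ, add_one_mul]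
    refine add_le_add (ih C' ?_) (le_of_eq ?_)
    · show Fintype.card {b // ¬ b = k} = n
      rw [Fintype.card_subtype_compl, hn, Fintype.card_unique, Nat.add_sub_cancel]
    · rw [(C''.kosLQE as).h, ((pt R).kosLQE as).h]
      exact DG.kos_h_coneL Λ (LinearEquiv.refl R (Unit → N)) (fun _ => rfl) as

theorem killsH_kos_succ (F : Cx R) (a : R) {c c' : R} {i : ℕ} (h : (F.on N).KillsH c (i + 1))
    (h' : (F.on N).KillsH c' i) : ((F.kos a).on N).KillsH (c * c') (i + 1) :=
  ((F.kosQE a).killsH _ _).2 (DG.kos_killsH_succ h h')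

theorem killsH_of_kos_succ (F : Cx R) {a c : R} {i : ℕ} (ha : (F.on N).KillsH a i)
    (h : ((F.kos a).on N).KillsH c (i + 1)) : (F.on N).KillsH c i :=
  DG.kos_killsH_of_succ ha (((F.kosQE a).killsH _ _).1 h)

end Cx

end Vale.Agent.P177
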