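import Vale.Agent.P177.MRees

/-! Finiteness of multigraded Rees algebras. -/

namespace Vale.Agent.P177

universe u

variable {S : Type u} [CommRing S] {s : Type} [Fintype s] [DecidableEq s]

open MvPolynomial

theorem MReesAR_coeff_mul (P : s → Ideal S) (C : (s →₀ ℕ) → Ideal S)
    (hC : ∀ α β : s →₀ ℕ, mpow P α * C β ≤ C (α + β)) {f g : MvPolynomial s S}
    (hf : ∀ δ : s →₀ ℕ, f.coeff δ ∈ mpow P δ) (hg : ∀ δ, g.coeff δ ∈ C δ) (δ : s →₀ ℕ) :
    (f * g).coeff δ ∈ C δ := by
  rw [coeff_mul]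
  refine Ideal.sum_mem _ fun x hx => ?_
  rw [← Finset.HasAntidiagonal.mem_antidiagonal.1 hx]
  exact hC _ _ (Ideal.mul_mem_mul (hf _) (hg _))

theorem MReesAR_add (P : s → Ideal S) (α β : s →₀ ℕ) :
    mpow P ⇑(α + β) = mpow P α * mpow P β := mpow_add P α β

theorem MReesAR_mono {C : (s →₀ ℕ) → Ideal S} {δ : s →₀ ℕ} {y : S} (hy : y ∈ C δ)
    (ε : s →₀ ℕ) : (monomial δ y).coeff ε ∈ C ε := by
  rw [coeff_monomial]
  split_ifs with h
  · exact h ▸ hy
  · exact zero_mem _

/-- the multigraded Rees algebra. -/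
def MReesAR_R (P : s → Ideal S) : Subalgebra S (MvPolynomial s S) where
  carrier := {f | ∀ δ : s →₀ ℕ, f.coeff δ ∈ mpow P δ}
  mul_mem' hf hg := MReesAR_coeff_mul P (fun δ => mpow P δ)
    (fun α β => (MReesAR_add P α β).ge) hf hg
  add_mem' hf hg δ := by
    rw [coeff_add]
    exact add_mem (hf δ) (hg δ)
  algebraMap_mem' r := MReesAR_mono (C := fun δ => mpow P δ) (δ := 0) (by
    show r ∈ mpow P 0
    rw [MRees_zero, Ideal.one_eq_top]
    trivial)

/-- a homogeneous ideal of the Rees algebra. -/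
def MReesAR_I (P : s → Ideal S) (C : (s →₀ ℕ) → Ideal S)
    (hC : ∀ α β : s →₀ ℕ, mpow P α * C β ≤ C (α + β)) : Ideal (MReesAR_R P) where
  carrier := {f | ∀ δ : s →₀ ℕ, f.1.coeff δ ∈ C δ}
  add_mem' hf hg δ := by
    rw [Subalgebra.coe_add, coeff_add]
    exact add_mem (hf δ) (hg δ)
  zero_mem' δ := zero_mem _
  smul_mem' c f hf := MReesAR_coeff_mul P C hC c.2 hf

theorem MReesAR_of_map (P : s → Ideal S) (J : Ideal S) {f : MReesAR_R P}
    (hf : f ∈ J.map (algebraMap S (MReesAR_R P))) (δ : s →₀ ℕ) : f.1.coeff δ ∈ J * mpow P δ := by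
  have h : J.map (algebraMap S (MReesAR_R P)) ≤ MReesAR_I P (fun δ => J * mpow P δ)
      fun α β => by rw [MReesAR_add, mul_left_comm] := by
    refine Ideal.map_le_iff_le_comap.2 fun r hr => ?_
    refine MReesAR_mono (C := fun δ => J * mpow P δ) (δ := 0) ?_
    show r ∈ J * mpow P 0
    rwa [MRees_zero, mul_one]
  exact h hf δ

theorem MReesAR_to_map (P : s → Ideal S) (J : Ideal S) (δ : s →₀ ℕ) {y : S}
    (hy : y ∈ J * mpow P δ) : ∃ f ∈ J.map (algebraMap S (MReesAR_R P)), f.1 = monomial δ y := by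
  refine Submodule.mul_induction_on hy (fun a ha z hz => ?_) ?_
  · refine ⟨algebraMap S _ a * ⟨monomial δ z, MReesAR_mono (C := fun δ => mpow P δ) hz⟩,
      Ideal.mul_mem_right _ _ (Ideal.mem_map_of_mem _ ha), ?_⟩
    show C a * monomial δ z = _
    rw [C_mul_monomial]
  · rintro x y ⟨f, hf, h1⟩ ⟨g, hg, h2⟩
    exact ⟨f + g, add_mem hf hg, by rw [Subalgebra.coe_add, h1, h2, map_add]⟩

theorem MReesAR_noeth [IsNoetherianRing S] (P : s → Ideal S) :
    IsNoetherianRing (MReesAR_R P) := by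
  classical
  choose G hG using fun j => (IsNoetherian.noetherian (P j) : (P j).FG)
  refine isNoetherianRing_of_fg ⟨Finset.univ.biUnion fun j =>
    (G j).image fun g => monomial (Finsupp.single j 1) g, le_antisymm ?_ ?_⟩
  · refine Algebra.adjoin_le fun f hf => ?_
    simp only [Finset.coe_biUnion, Finset.coe_univ, Set.mem_univ, Set.iUnion_true,
      Finset.coe_image, Set.mem_iUnion, Set.mem_image] at hf
    obtain ⟨j, g, hg, rfl⟩ := hf
    refine MReesAR_mono (C := fun δ => mpow P δ) ?_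
    show g ∈ mpow P ⇑(Finsupp.single j 1)
    rw [Finsupp.single_eq_pi_single, mpow_single, pow_one, ← hG j]
    exact Submodule.subset_span hg
  · set A := Algebra.adjoin S (↑(Finset.univ.biUnion fun j =>
      (G j).image fun g => monomial (Finsupp.single j 1) g) : Set (MvPolynomial s S)) with hA
    have h1 : ∀ j, ∀ g ∈ P j, monomial (Finsupp.single j 1) g ∈ A := by
      intro j g hg
      rw [← hG j] at hg
      induction hg using Submodule.span_induction with
      | mem x hx =>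
        refine Algebra.subset_adjoin ?_
        simp only [Finset.coe_biUnion, Finset.coe_univ, Set.mem_univ, Set.iUnion_true,
          Finset.coe_image, Set.mem_iUnion, Set.mem_image]
        exact ⟨j, x, hx, rfl⟩
      | zero => rw [map_zero]; exact zero_mem _
      | add x y _ _ hx hy => rw [map_add]; exact add_mem hx hy
      | smul r x _ hx => rw [map_smul]; exact A.smul_mem hx r
    have h2 : ∀ γ : s → ℕ, ∀ y ∈ mpow P γ, monomial (Finsupp.equivFunOnFinite.symm γ) y ∈ A := by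
      intro γ
      induction γ using MRees_ind with
      | zero =>
        intro y _
        rw [show Finsupp.equivFunOnFinite.symm (0 : s → ℕ) = 0 from Finsupp.ext fun _ => rfl]
        exact A.algebraMap_mem y
      | succ γ j ih =>
        intro y hy
        rw [mpow_add, mpow_single, pow_one] at hy
        refine Submodule.mul_induction_on hy (fun a ha z hz => ?_) fun x y hx hy => ?_
        · have e : Finsupp.equivFunOnFinite.symm (γ + Pi.single j 1) =
              Finsupp.equivFunOnFinite.symm γ + Finsupp.single j 1 := by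
            ext i
            simp [Finsupp.single_eq_pi_single]
          rw [e, ← monomial_mul]
          exact mul_mem (ih a ha) (h1 j z hz)
        · rw [map_add]
          exact add_mem hx hy
    intro f hf
    rw [f.as_sum]
    refine sum_mem fun δ _ => ?_
    have h3 := h2 δ _ (hf δ)
    rwa [Finsupp.equivFunOnFinite_symm_coe] at h3

theorem MReesAR_ar [IsNoetherianRing S] (P : s → Ideal S) (q J : Ideal S) : ∃ c : ℕ,
    ∀ (δ : s → ℕ) (m : ℕ), ∀ x ∈ J * mpow P δ, x ∈ q ^ (m + c) * mpow P δ →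
      x ∈ q ^ m * J * mpow P δ := by
  have := MReesAR_noeth P
  obtain ⟨c, hc⟩ := Ideal.exists_pow_inf_eq_pow_smul (q.map (algebraMap S (MReesAR_R P)))
    (J.map (algebraMap S (MReesAR_R P)))
  refine ⟨c, fun δ m x h1 h2 => ?_⟩
  obtain ⟨f, hf, e1⟩ := MReesAR_to_map P J (Finsupp.equivFunOnFinite.symm δ) h1
  obtain ⟨g, hg, e2⟩ := MReesAR_to_map P _ (Finsupp.equivFunOnFinite.symm δ) h2
  obtain rfl : f = g := Subtype.ext (e1.trans e2.symm)
  have h3 : f ∈ (q.map (algebraMap S (MReesAR_R P))) ^ (m + c) • (⊤ : Ideal (MReesAR_R P)) ⊓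
      J.map (algebraMap S (MReesAR_R P)) := by
    rw [smul_eq_mul, Ideal.mul_top, ← Ideal.map_pow]
    exact ⟨hg, hf⟩
  rw [hc _ (Nat.le_add_left c m), Nat.add_sub_cancel] at h3
  have h4 := (smul_mono_right _ inf_le_right : _ ≤ _ • J.map (algebraMap S (MReesAR_R P))) h3
  rw [smul_eq_mul, ← Ideal.map_pow, ← Ideal.map_mul] at h4
  have h5 := MReesAR_of_map P _ h4 (Finsupp.equivFunOnFinite.symm δ)
  rwa [e1, coeff_monomial, if_pos rfl] at h5

theorem MReesAR_cancel [IsDomain S] {a x : S} (ha : a ≠ 0) {K : Ideal S}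
    (h : a * x ∈ Ideal.span {a} * K) : x ∈ K := by
  obtain ⟨z, hz, e⟩ := Ideal.mem_span_singleton_mul.1 h
  exact mul_left_cancel₀ ha e ▸ hz

theorem MReesAR_sub (P : s → Ideal S) (j : s) {δ : s →₀ ℕ} (h : 0 < δ j) :
    mpow P δ = mpow P ⇑(δ - Finsupp.single j 1 : s →₀ ℕ) * P j := by
  conv_lhs => rw [← tsub_add_cancel_of_le (Finsupp.single_le_iff.2 h : Finsupp.single j 1 ≤ δ)]
  rw [MReesAR_add, Finsupp.single_eq_pi_single, mpow_single, pow_one]

/-- the family of ideals used for saturation. -/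
noncomputable def MReesAR_C (P : s → Ideal S) (j : s) (a : S) (b : ℕ) (δ : s →₀ ℕ) : Ideal S :=
  Ideal.span {a} * if b < δ j then mpow P ⇑(δ - Finsupp.single j 1 : s →₀ ℕ) else
    (mpow P δ).colon (P j)

theorem MReesAR_le_colon (P : s → Ideal S) (j : s) {δ : s →₀ ℕ} (h : 0 < δ j) :
    mpow P ⇑(δ - Finsupp.single j 1 : s →₀ ℕ) ≤ (mpow P δ).colon (P j) := fun x hx =>
  Submodule.mem_colon.2 fun g hg => by
    rw [MReesAR_sub P j h]
    exact Ideal.mul_mem_mul hx hg

theorem MReesAR_C_mul (P : s → Ideal S) (j : s) (a : S) (b : ℕ) (α β : s →₀ ℕ) :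
    mpow P α * MReesAR_C P j a b β ≤ MReesAR_C P j a b (α + β) := by
  unfold MReesAR_C
  rw [mul_left_comm]
  refine Ideal.mul_mono_right ?_
  have e : (α + β) j = α j + β j := rfl
  split_ifs with h1 h2 h2
  · rw [← MReesAR_add, add_tsub_assoc_of_le (Finsupp.single_le_iff.2 (by omega))]
  · omega
  · rw [MReesAR_sub P j (δ := α) (by omega), mul_assoc, ← tsub_add_eq_add_tsub
      (Finsupp.single_le_iff.2 (show 1 ≤ α j by omega)), MReesAR_add]
    refine Ideal.mul_mono_right (Ideal.mul_le.2 fun g hg x hx => ?_)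
    rw [mul_comm]
    exact Submodule.mem_colon.1 hx g hg
  · refine Ideal.mul_le.2 fun y hy x hx => Submodule.mem_colon.2 fun g hg => ?_
    rw [MReesAR_add, smul_eq_mul, mul_assoc]
    exact Ideal.mul_mem_mul hy (Submodule.mem_colon.1 hx g hg)

theorem MReesAR_sat [IsNoetherianRing S] [IsDomain S] (P : s → Ideal S) (j : s) (hP : P j ≠ ⊥) :
    ∃ b : ℕ, ∀ (γ : s → ℕ) (x : S), b ≤ γ j →
      (∀ g ∈ P j, g * x ∈ mpow P (γ + Pi.single j 1)) → x ∈ mpow P γ := by
  have := MReesAR_noeth P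
  obtain ⟨a, ha, h0⟩ := Submodule.exists_mem_ne_zero_of_ne_bot hP
  let T : ℕ →o Ideal (MReesAR_R P) :=
    ⟨fun b => MReesAR_I P (MReesAR_C P j a b) (MReesAR_C_mul P j a b), fun b b' hb f hf δ => by
      refine Ideal.mul_mono_right ?_ (hf δ)
      split_ifs with h1 h2 h2
      · exact le_rfl
      · exact MReesAR_le_colon P j (by omega)
      · omega
      · exact le_rfl⟩
  obtain ⟨b, hb⟩ := monotone_stabilizes_iff_noetherian.2 inferInstance T
  refine ⟨b, fun γ x hγ hx => ?_⟩
  let δ : s →₀ ℕ := Finsupp.equivFunOnFinite.symm γ + Finsupp.single j 1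
  have e1 : (δ : s → ℕ) = γ + Pi.single j 1 := by
    funext i
    simp [δ, Finsupp.single_eq_pi_single]
  have e2 : δ j = γ j + 1 := by rw [e1, Pi.add_apply, Pi.single_eq_same]
  have h1 : (⟨monomial δ (a * x), MReesAR_mono (C := fun δ => mpow P δ) (e1 ▸ hx a ha)⟩ :
      MReesAR_R P) ∈ T (δ j) := by
    refine MReesAR_mono (C := MReesAR_C P j a (δ j)) ?_
    refine Ideal.mul_mem_mul (Ideal.mem_span_singleton_self a) ?_
    rw [if_neg (lt_irrefl _), e1]
    exact Submodule.mem_colon.2 fun g hg => by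
      rw [smul_eq_mul, mul_comm]
      exact hx g hg
  rw [← hb _ (by omega)] at h1
  have h2 := h1 δ
  simp only [coeff_monomial, if_true, MReesAR_C] at h2
  rw [if_pos (by omega), add_tsub_cancel_right] at h2
  exact MReesAR_cancel h0 h2

variable [IsNoetherianRing S] [IsDomain S] (P : s → Ideal S)

theorem exists_sat (hP : ∀ j, P j ≠ ⊥) :
    ∃ b₀ : ℕ, ∀ b, b₀ ≤ b → Sat (N := S) P fun β => mpow P ((fun _ => b) + β) := by
  choose b hb using fun j => MReesAR_sat P j (hP j)
  refine ⟨Finset.univ.sup b, fun c hc => ⟨fun β j => ?_, fun β j x hx => hb j _ x ?_ ?_⟩⟩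
  · rw [← add_assoc, mpow_add, mpow_single, pow_one, smul_eq_mul, mul_comm]
  · exact le_add_right ((Finset.le_sup (Finset.mem_univ j)).trans hc)
  · rw [add_assoc]
    exact hx

/-- Artin-Rees in the multigraded Rees algebra. -/
theorem exists_ar_colon (q : Ideal S) {g : S} (hg : g ≠ 0) : ∃ c : ℕ, ∀ (δ : s → ℕ) (i : ℕ),
    ∀ x ∈ mpow P δ, g * x ∈ q ^ (i + c) * mpow P δ → x ∈ q ^ i * mpow P δ := by
  obtain ⟨c, hc⟩ := MReesAR_ar P q (Ideal.span {g})
  refine ⟨c, fun δ i x h1 h2 => MReesAR_cancel hg ?_⟩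
  rw [← mul_assoc, mul_comm (Ideal.span {g})]
  exact hc δ i _ (Ideal.mul_mem_mul (Ideal.mem_span_singleton_self g) h1) h2

theorem exists_ar_inf (q : Ideal S) : ∃ κ : ℕ, ∀ (δ : s → ℕ) (j : ℕ),
    mpow P δ ⊓ q ^ (κ * ∑ i, δ i + κ + j) ≤ q ^ j * mpow P δ := by
  choose c hc using fun j => MReesAR_ar P q (P j)
  refine ⟨Finset.univ.sup c, fun δ => ?_⟩
  induction δ using MRees_ind with
  | zero =>
    intro j x hx
    rw [MRees_zero, mul_one]
    exact Ideal.pow_le_pow_right (Nat.le_add_left _ _) hx.2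
  | succ γ i ih =>
    intro j x hx
    have e : mpow P (γ + Pi.single i 1) = P i * mpow P γ := by
      rw [mpow_add, mpow_single, pow_one, mul_comm]
    have h1 : c i ≤ Finset.univ.sup c := Finset.le_sup (Finset.mem_univ i)
    rw [e] at hx ⊢
    rw [← mul_assoc]
    have h2 : x ∈ mpow P γ := (Ideal.mul_le_inf (I := P i) (J := mpow P γ) hx.1).2
    refine hc i γ j x hx.1 (ih (j + c i) ⟨h2, Ideal.pow_le_pow_right ?_ hx.2⟩)
    simp only [Pi.add_apply, Finset.sum_add_distrib, Finset.sum_pi_single', Finset.mem_univ,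
      if_true, mul_add, mul_one]
    omega

end Vale.Agent.P177
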