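import Vale.Agent.P177.Res
import Vale.Agent.P177.Reg
import Vale.Agent.P202.MxEt

/-! Noether normalisation and almost regular parameters. -/

namespace Vale.Agent.P177

open IsLocalRing RingTheory.Sequence Vale.Agent.P202

universe u

/-- a coefficient ring: a field or a complete `p`-ring. -/
def IsCoeff (V : Type u) [CommRing V] [IsLocalRing V] : Prop :=
  IsField V ∨ ∃ p : ℕ, p.Prime ∧ IsPRing p V

theorem IsCoeff.ps_complete {V : Type u} [CommRing V] [IsLocalRing V] (h : IsCoeff V) (d : ℕ) :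
    IsNoetherianRing V ∧ IsAdicComplete (maximalIdeal (PS V d)) (PS V d) := by
  rcases h with h | ⟨p, -, h⟩
  · let := h.toField
    refine ⟨inferInstance, ?_⟩
    rw [← varIdeal_eq_maximalIdeal]
    exact inferInstanceAs
      (IsAdicComplete (Ideal.span (Set.range MvPowerSeries.X) : Ideal (PS V d)) (PS V d))
  · exact ⟨h.isNoetherianRing, h.ps_complete d⟩

theorem ys_ofFn {α : Type u} (w : List α) {n : ℕ} (h : w.length = n) :
    ∃ x : Fin n → α, List.ofFn x = w := by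
  subst h
  exact ⟨w.get, List.ofFn_get w⟩

theorem ys_span {R : Type u} [CommRing R] {n : ℕ} (x : Fin n → R) :
    Ideal.ofList (List.ofFn x) = Ideal.span (Set.range x) := by
  refine congrArg Ideal.span (Set.ext fun a => ?_)
  simp [List.mem_ofFn]

theorem ys_killsH_map {R R' : Type u} [CommRing R] [CommRing R'] (φ : R →+* R') (F : Cx R)
    {N : Type u} [AddCommGroup N] [Module R N] [Module R' N]
    (h : ∀ (r : R) (x : N), r • x = φ r • x) (c : R) (i : ℕ) :
    ((F.map φ).on N).KillsH (φ c) i ↔ (F.on N).KillsH c i := by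
  have hd : ∀ x : F.ι → N, ((F.map φ).on N).d x = (F.on N).d x := fun x => funext fun a =>
    Finset.sum_congr rfl fun b _ => (h (F.d a b) (x b)).symm
  have hs : ∀ x : F.ι → N, φ c • x = c • x := fun x => funext fun a => (h c (x a)).symm
  constructor
  · intro k x hx
    obtain ⟨h1, h2⟩ := DG.mem_Z.1 hx
    obtain ⟨y, hy⟩ := k x (DG.mem_Z.2 ⟨(hd x).trans h1, h2⟩)
    exact ⟨y, (hd y).symm.trans (hy.trans (hs x))⟩
  · intro k x hx
    obtain ⟨h1, h2⟩ := DG.mem_Z.1 hx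
    obtain ⟨y, hy⟩ := k x (DG.mem_Z.2 ⟨(hd x).symm.trans h1, h2⟩)
    exact ⟨y, (hd y).trans (hy.trans (hs x).symm)⟩

theorem ys_exact {R Y : Type u} [CommRing R] [AddCommGroup Y] [Module R Y] {F : Cx R}
    (h : F.IsRes Y) {i : ℕ} (hi : 0 < i) {x : (F.on R).M} (hx : x ∈ (F.on R).Z i) :
    x ∈ LinearMap.range (F.on R).d := by
  obtain ⟨ε, -, h1, -, h2⟩ := h
  obtain ⟨k1, k2⟩ := DG.mem_Z.1 hx
  refine h2 x k1 ?_
  rw [← h1, ← k2, (F.on R).pr_pr, if_neg hi.ne]
  exact map_zero ε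

theorem ys_kill {R Y N : Type u} [CommRing R] [AddCommGroup Y] [Module R Y] [AddCommGroup N]
    [Module R N] {F : Cx R} (h : F.IsRes Y) {ρ : ℕ} {v : Fin ρ → N} (hv : LinearIndependent R v)
    {g : R} (hg : ∀ x : N, g • x ∈ Submodule.span R (Set.range v)) {i : ℕ} (hi : 0 < i) :
    (F.on N).KillsH g i := by
  intro x hx
  let τ : N →ₗ[R] (Fin ρ →₀ R) :=
    hv.repr ∘ₗ LinearMap.codRestrict _ (LinearMap.lsmul R N g) hg
  have hτ : ∀ y : N, ∑ j, τ y j • v j = g • y := fun y => by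
    have := hv.linearCombination_repr ⟨g • y, hg y⟩
    rw [Finsupp.linearCombination_apply, Finsupp.sum_fintype _ _ (by simp)] at this
    exact this
  have e : g • x = ∑ j, (F.onMap (LinearMap.toSpanSingleton R N (v j))).f
      ((F.onMap (Finsupp.lapply j ∘ₗ τ)).f x) := by
    funext a
    refine (hτ (x a)).symm.trans ?_
    exact (Finset.sum_apply a Finset.univ fun j => (F.onMap
      (LinearMap.toSpanSingleton R N (v j))).f ((F.onMap (Finsupp.lapply j ∘ₗ τ)).f x)).symm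
  rw [e]
  exact Submodule.sum_mem _ fun j _ =>
    DG.Hom.map_range _ (ys_exact h hi (DG.Hom.map_Z _ hx))

variable {T : Type u} [CommRing T] [IsLocalRing T] [IsNoetherianRing T] [IsDomain T]
  [IsAdicComplete (maximalIdeal T) T]

omit [IsAdicComplete (maximalIdeal T) T] in
theorem ys_inj {A : Type u} [CommRing A] [IsLocalRing A] {z : List A} (hA : RegL A z)
    (ψ : A →+* T) (hfin : ψ.Finite) :
    dimNat T ≤ z.length ∧ (z.length ≤ dimNat T → Function.Injective ψ) := by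
  have := hA.noeth
  have := hA.isDomain
  have h1 := dimNat_eq_of_finite ψ hfin
  have h2 : dimNat (A ⧸ (⊥ : Ideal A)) = z.length := dimNat_quot_bot.trans hA.dimNat_eq
  refine ⟨by rw [← h1, ← h2]; exact dimNat_quot_mono bot_le, fun hl => ?_⟩
  rw [RingHom.injective_iff_ker_eq_bot]
  by_contra hk
  have h3 := dimNat_quot_lt (P := (⊥ : Ideal A)) (bot_lt_iff_ne_bot.2 hk) (RingHom.ker_ne_top ψ)
  omega

theorem exists_norm_field {k : Type u} [Field k] (c : k →+* T)
    (hres : ∀ t : T, ∃ a, t - c a ∈ maximalIdeal T) :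
    ∃ ψ : PS k (dimNat T) →+* T, ψ.Finite ∧ Function.Injective ψ ∧
      ∀ a, ψ (MvPowerSeries.C a) = c a := by
  let := c.toAlgebra
  have hT : IsCL k T := ⟨inferInstance, IsNoetherian.noetherian _, hres⟩
  obtain ⟨w, hw, hs⟩ := exists_sop (⊥ : Ideal T) bot_ne_top
  obtain ⟨x, rfl⟩ := ys_ofFn w (hw.trans dimNat_quot_bot)
  obtain ⟨ψ, -, h2, -⟩ := hT.exists_psMap x fun i => hs.mem _ (List.mem_ofFn.2 ⟨i, rfl⟩)
  have h3 := hs.rad
  rw [bot_sup_eq, ys_span] at h3
  have hfin := h2 (Ideal.exists_pow_le_of_le_radical_of_fg h3 hT.fg)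
  exact ⟨ψ.toRingHom, hfin, (ys_inj (regL_ps_field k _) _ hfin).2 (by simp),
    fun a => ψ.commutes a⟩

theorem exists_norm_pRing {p : ℕ} {V : Type u} [CommRing V] [IsLocalRing V] (h : IsPRing p V)
    (c : V →+* T) (hres : ∀ t : T, ∃ a, t - c a ∈ maximalIdeal T) (hp : (p : T) ∈ maximalIdeal T)
    (hp0 : (p : T) ≠ 0) : ∃ (n : ℕ) (ψ : PS V n →+* T), dimNat T = n + 1 ∧ ψ.Finite ∧
      Function.Injective ψ ∧ ∀ a, ψ (MvPowerSeries.C a) = c a := by
  have h0 : 0 < dimNat (T ⧸ (⊥ : Ideal T)) := Nat.pos_of_ne_zero fun e => by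
    rw [dimNat_quot_eq_zero_iff] at e
    exact hp0 (by rwa [← e] at hp)
  obtain ⟨w, hw, hs⟩ := exists_sop_sup h0 (c := (p : T)) hp0
  obtain ⟨x, hx⟩ := ys_ofFn w rfl
  generalize w.length = n at *
  subst hx
  have hfg : (maximalIdeal T).FG := IsNoetherian.noetherian _
  obtain ⟨ψ, h1, -, h2, -⟩ := h.exists_psMap hfg c hres hp x
    fun i => hs.mem _ (List.mem_ofFn.2 ⟨i, rfl⟩)
  have h3 := hs.rad
  rw [bot_sup_eq, ys_span] at h3
  have hfin := h2 (Ideal.exists_pow_le_of_le_radical_of_fg h3 hfg)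
  obtain ⟨k1, k2⟩ := ys_inj (regL_ps_pRing h n) ψ hfin
  rw [List.length_cons, List.length_ofFn] at k1 k2
  rw [dimNat_quot_bot] at hw
  exact ⟨n, ψ, by omega, hfin, k2 (by omega), h1⟩

omit [IsAdicComplete (maximalIdeal T) T] in
/-- finite extensions of regular rings are almost Cohen-Macaulay. -/
theorem RegL.exists_kill {A : Type u} [CommRing A] [IsLocalRing A] {z : List A} (hA : RegL A z)
    (ψ : A →+* T) (hfin : ψ.Finite) (hinj : Function.Injective ψ) : ∃ c : T, c ≠ 0 ∧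
      ∀ M i : ℕ, 1 ≤ M → 0 < i → (((Cx.pt T).kosL ((z.map ψ).map (· ^ M))).on T).KillsH c i := by
  have := hA.isDomain
  let := ψ.toAlgebra
  have : Module.Finite A T := hfin
  obtain ⟨ρ, v, g, -, hg, hv, hs⟩ := exists_free_part_base A A T hinj
  refine ⟨ψ g, fun e => hg (hinj (e.trans (map_zero ψ).symm)), fun M i hM hi => ?_⟩
  have h1 := ys_kill (Cx.isRes_kosL (isWeaklyRegular_pow hA.reg hM)) hv hs hi
  have h2 := (ys_killsH_map ψ _ (N := T) (fun r x => Algebra.smul_def r x) g i).2 h1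
  rw [Cx.map_kosL, Cx.map_pt, List.map_map] at h2
  rw [List.map_map]
  have e : ((fun a : T => a ^ M) ∘ ψ) = ψ ∘ fun a : A => a ^ M :=
    funext fun a => (map_pow ψ a M).symm
  rw [e]
  exact h2

end Vale.Agent.P177
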