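import Vale.Agent.P177.ModelDef
import Vale.Agent.P177.YSide
import Vale.Agent.P177.Rho

/-! Existence of models. -/

namespace Vale.Agent.P177

open IsLocalRing Vale.Agent.P202 RingTheory.Sequence

universe u

theorem model_ofList_ofFn {S : Type*} [CommRing S] {m : ℕ} (x : Fin m → S) :
    Ideal.ofList (List.ofFn x) = Ideal.span (Set.range x) := by
  unfold Ideal.ofList
  congr 1
  ext a
  simp [List.mem_ofFn']

theorem model_sup {S : Type*} [CommRing S] (a : S) {g : S} {I : Ideal S} (hg : g ∈ I) :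
    Ideal.span {a - g} ⊔ I = Ideal.span {a} ⊔ I := by
  refine le_antisymm (sup_le ?_ le_sup_right) (sup_le ?_ le_sup_right)
  · rw [Ideal.span_singleton_le_iff_mem]
    exact sub_mem (Ideal.mem_sup_left (Ideal.mem_span_singleton_self _)) (Ideal.mem_sup_right hg)
  · rw [Ideal.span_singleton_le_iff_mem]
    simpa using add_mem (Ideal.mem_sup_left (Ideal.mem_span_singleton_self (a - g)))
      (Ideal.mem_sup_right hg)

/-- a quotient of a regular ring by a member of a regular system of parameters. -/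
theorem RegL.model_quot {S : Type u} [CommRing S] [IsLocalRing S] {x : List S} (h : RegL S x)
    {f : S} {w : List S} (hw : Ideal.ofList (f :: w) = maximalIdeal S)
    (hl : w.length + 1 = x.length) :
    (Ideal.span {f}).IsPrime ∧ dimNat (S ⧸ Ideal.span {f}) = w.length := by
  have := h.noeth
  have hf : Ideal.span {f} ≤ maximalIdeal S := by
    rw [← hw, Ideal.ofList_cons]
    exact le_sup_left
  have := Ideal.Quotient.nontrivial_iff.2 (ne_top_of_le_ne_top (maximalIdeal.isMaximal S).ne_top hf)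
  have : IsLocalRing (S ⧸ Ideal.span {f}) :=
    IsLocalRing.of_surjective' _ Ideal.Quotient.mk_surjective
  have h1 : IsWeaklyRegular S ([f] ++ w) := h.isWeaklyRegular
    ⟨fun a ha => hw ▸ Ideal.subset_span ha, by
      rw [bot_sup_eq, List.singleton_append, hw]
      exact Ideal.le_radical⟩ hl
  have h2 : RegL (S ⧸ Ideal.span {f}) (w.map (algebraMap S _)) := by
    refine ⟨inferInstance, ?_, (isWeaklyRegular_map_algebraMap_iff _ _ _).2
      (((Submodule.quotEquivOfEq _ _ ?_).isWeaklyRegular_congr w).1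
        ((isWeaklyRegular_append_iff _ _ _).1 h1).2)⟩
    · rw [← map_maximalIdeal_of_surjective (algebraMap S _) Ideal.Quotient.mk_surjective, ← hw,
        Ideal.ofList_cons, Ideal.map_sup, Ideal.map_ofList, Ideal.Quotient.algebraMap_eq,
        Ideal.map_quotient_self, bot_sup_eq]
    · rw [Ideal.ofList_singleton, smul_eq_mul, Ideal.mul_top]
  exact ⟨(Ideal.Quotient.isDomain_iff_prime _).1 h2.isDomain, by
    rw [h2.dimNat_eq, List.length_map]⟩

theorem model_charZero {p : ℕ} [Fact p.Prime] {V : Type*} [CommRing V] [IsLocalRing V]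
    (h : IsPRing p V) : CharZero V := by
  have := h.isDomain
  have hp : p.Prime := Fact.out
  rcases CharP.char_is_prime_or_zero V (ringChar V) with h1 | h1
  · exfalso
    by_cases e : ringChar V = p
    · exact one_ne_zero (h.reg 1 (by rw [← e, ringChar.Nat.cast_ringChar, zero_mul]))
    · have h2 := ((Nat.coprime_primes h1 hp).2 e).cast (R := V)
      rw [ringChar.Nat.cast_ringChar, isCoprime_zero_left] at h2
      exact (h.max ▸ Ideal.mem_span_singleton_self _ : (p : V) ∈ maximalIdeal V) h2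
  · have : CharP V 0 := h1 ▸ ringChar.charP V
    exact CharP.charP_to_charZero V

variable {p : ℕ} [Fact p.Prime]

theorem RegL.exists_isHyp {R : Type u} [CommRing R] [IsLocalRing R] {x : List R} (hR : RegL R x)
    [IsAdicComplete (maximalIdeal R) R] [CharP (ResidueField R) p]
    [PerfectRing (ResidueField R) p] :
    ∃ φ : PS (WittVector p (ResidueField R)) x.length →+* R, IsHyp p φ := by
  have := hR.noeth
  have := hR.isDomain
  have hW := isPRing_witt p (ResidueField R)
  have := hW.isNoetherianRing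
  have hp : (p : R) ∈ maximalIdeal R := by
    rw [← residue_eq_zero_iff, map_natCast, CharP.cast_eq_zero]
  obtain ⟨c, hc⟩ := hW.exists_lift (residue R) residue_surjective
    (fun b hb => by simpa [ker_residue] using hb 1) hp WittVector.constantCoeff
  have hres : ∀ t : R, ∃ v, t - c v ∈ maximalIdeal R := fun t => by
    obtain ⟨v, hv⟩ := witt_constantCoeff_surjective p (ResidueField R) (residue R t)
    exact ⟨v, by rw [← residue_eq_zero_iff, map_sub, ← hv, ← hc, RingHom.comp_apply, sub_self]⟩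
  have hx : Ideal.span (Set.range x.get) = maximalIdeal R := by
    rw [← model_ofList_ofFn, List.ofFn_get, hR.span]
  obtain ⟨φ, -, hX, -, hs⟩ := hW.exists_psMap (IsNoetherian.noetherian _) c hres hp x.get
    fun i => hx ▸ Ideal.subset_span ⟨i, rfl⟩
  have hs := hs (by rw [hx, sup_eq_right, Ideal.span_singleton_le_iff_mem]; exact hp)
  have h1 : (Ideal.span (Set.range MvPowerSeries.X)).map φ = maximalIdeal R := by
    rw [Ideal.map_span, ← Set.range_comp, ← hx]
    exact congrArg (fun y => Ideal.span (Set.range y)) (funext hX)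
  obtain ⟨g, hg, hg'⟩ := (Ideal.mem_map_iff_of_surjective φ hs).1 (h1 ▸ hp)
  refine ⟨φ, hW, hs, ⟨g, hg, ?_⟩, by simpa only [hX, List.ofFn_get] using hR⟩
  obtain ⟨h2, h3⟩ := (regL_ps_pRing hW x.length).model_quot (f := p - g)
    (w := List.ofFn MvPowerSeries.X) (by
      rw [← hW.span_pX, mxps_span_pX, Ideal.ofList_cons, model_ofList_ofFn, model_sup _ hg])
    (by rw [List.length_cons])
  refine (eq_of_le_of_not_lt ?_ fun h => ?_).symm
  · rw [Ideal.span_singleton_le_iff_mem, RingHom.mem_ker, map_sub, hg', map_natCast, sub_self]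
  · have h4 := dimNat_quot_lt h (RingHom.ker_ne_top φ)
    rw [h3, dimNat_eq_of_finite φ (RingHom.Finite.of_surjective φ hs), hR.dimNat_eq,
      List.length_ofFn] at h4
    exact lt_irrefl _ h4

theorem IsHyp.model_quot {V R : Type u} [CommRing V] [IsLocalRing V] [CommRing R] [IsLocalRing R]
    {d : ℕ} {φ : PS V d →+* R} (hφ : IsHyp p φ) (P : Ideal R) [IsLocalRing (R ⧸ P)] :
    IsAdicComplete (maximalIdeal (R ⧸ P)) (R ⧸ P) ∧ (p : R ⧸ P) ∈ maximalIdeal (R ⧸ P) ∧
      ∀ t : R ⧸ P, ∃ a, t - Ideal.Quotient.mk P (φ (MvPowerSeries.C a)) ∈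
        maximalIdeal (R ⧸ P) := by
  have := hφ.pr.isNoetherianRing
  have := hφ.pr.ps_complete d
  have hs : Function.Surjective ((Ideal.Quotient.mk P).comp φ) :=
    Ideal.Quotient.mk_surjective.comp hφ.surj
  have hm := map_maximalIdeal_of_surjective _ hs
  refine ⟨?_, ?_, fun t => ?_⟩
  · let _ := ((Ideal.Quotient.mk P).comp φ).toAlgebra
    have : Module.Finite (PS V d) (R ⧸ P) := RingHom.Finite.of_surjective _ hs
    exact isAdicComplete_of_finite_local (A := PS V d)
  · rw [← hm, ← map_natCast ((Ideal.Quotient.mk P).comp φ)]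
    refine Ideal.mem_map_of_mem _ ?_
    rw [mxps_mem_max, map_natCast, hφ.pr.max]
    exact Ideal.mem_span_singleton_self _
  · obtain ⟨s, rfl⟩ := hs t
    obtain ⟨v, hv⟩ := ps_residue d s
    refine ⟨v, ?_⟩
    rw [← hm]
    have := Ideal.mem_map_of_mem ((Ideal.Quotient.mk P).comp φ) hv
    rwa [map_sub] at this

variable {k R : Type u} [Field k] [CharP k p] [PerfectRing k p] [CommRing R] [IsLocalRing R] {d : ℕ}
  {φ : PS (WittVector p k) d →+* R} (hφ : IsHyp p φ) (P : Ideal R) [P.IsPrime]
include hφ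

theorem IsHyp.exists_model_mixed (hp : (p : R) ∉ P) :
    ∃ (n : ℕ) (_ : IsLocalRing (R ⧸ P)) (_ : Algebra (PS (WittVector p k) n) (R ⧸ P))
      (ρ : PS (WittVector p k) (n + 1) →+* PS (WittVector p k) n) (z : List (PS (WittVector p k) n))
      (D : EtData (PS (WittVector p k) n) (R ⧸ P)),
      IsRho p ρ ∧ IsModel φ (Ideal.Quotient.mk P) ρ z ∧ D.G ≠ 0 := by
  have := hφ.reg.noeth
  have : IsLocalRing (R ⧸ P) := IsLocalRing.of_surjective' _ Ideal.Quotient.mk_surjective
  obtain ⟨_, h1, h2⟩ := hφ.model_quot P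
  obtain ⟨n, ψ, -, hf, hi, hC⟩ := exists_norm_pRing hφ.pr
    (((Ideal.Quotient.mk P).comp φ).comp MvPowerSeries.C) h2 h1
    fun h => hp (Ideal.Quotient.eq_zero_iff_mem.1 (by rw [map_natCast, h]))
  obtain ⟨ρ, hρ⟩ := exists_isRho hφ.pr n
  let _ := ψ.toAlgebra
  have : Module.Finite (PS (WittVector p k) n) (R ⧸ P) := hf
  have := (regL_ps_pRing hφ.pr n).isDomain
  have := model_charZero hφ.pr
  have : CharZero (PS (WittVector p k) n) :=
    charZero_of_injective_ringHom (f := MvPowerSeries.C) MvPowerSeries.C_injective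
  obtain ⟨D, hD⟩ := exists_etData (PS (WittVector p k) n) (R ⧸ P) hi
  refine ⟨n, inferInstance, inferInstance, ρ, _, D, hρ, ⟨regL_ps_pRing hφ.pr n, by simp, hρ.surj,
    ⟨_, hρ.ker⟩, ?_, inferInstance, hf, hi, h2,
    RingHom.Finite.of_surjective _ Ideal.Quotient.mk_surjective, fun v => ?_⟩, hD⟩
  · rw [hρ.map_zero]
    exact Nat.cast_ne_zero.2 (Fact.out : p.Prime).ne_zero
  · rw [hρ.map_C]
    exact hC v

end Vale.Agent.P177
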