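import Vale.Agent.P202.MxEt

/-! Separable models. -/

namespace Vale.Agent.P177

open Polynomial Vale.Agent.P202 Vale.Agent.P202.EtAux IntermediateField nonZeroDivisors

theorem modelP_of_field (A R K L : Type*) [CommRing A] [IsDomain A] [CommRing R]
    [IsDomain R] [Algebra A R] [Module.Finite A R] [FaithfulSMul A R] [Field K]
    [Field L] [Algebra A K] [IsFractionRing A K] [Algebra R L] [IsFractionRing R L] [Algebra K L]
    [Algebra A L] [IsScalarTower A K L] [IsScalarTower A R L] [Algebra.IsSeparable K L] :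
    ∃ D : EtData A R, D.G ≠ 0 := by
  have : FiniteDimensional K L := .of_isLocalization A R A⁰
  have iK := IsFractionRing.injective A K
  have iL := IsFractionRing.injective R L
  have ev : ∀ (r : R) (f : A[X]), algebraMap R L (aeval r f) =
      aeval (algebraMap R L r) (f.map (algebraMap A K)) := fun r f => by
    rw [aeval_map_algebraMap, aeval_algebraMap_apply]
  obtain ⟨α, hα⟩ := Field.exists_primitive_element K L
  obtain ⟨⟨θ₀, _, a, ha, rfl⟩, e⟩ := IsLocalization.surj (Algebra.algebraMapSubmonoid R A⁰) α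
  have h0 : K⟮algebraMap R L θ₀⟯ = ⊤ := by
    have := prim_smul hα ((map_ne_zero_iff _ iK).2 (nonZeroDivisors.ne_zero ha))
    rwa [algebraMap_smul, Algebra.smul_def, IsScalarTower.algebraMap_apply A R L, mul_comm,
      e] at this
  obtain ⟨b, p, hb, hp⟩ := clear (A := A) K (minpoly K (algebraMap R L θ₀))
  have hb' := (map_ne_zero_iff _ iK).2 hb
  have hp0 : p ≠ 0 := by
    rintro rfl
    exact mul_ne_zero (C_ne_zero.2 hb') (minpoly.ne_zero (.of_finite K _))
      (hp.symm.trans (Polynomial.map_zero _))
  set θ := algebraMap A R p.leadingCoeff * θ₀ with hθ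
  have h1 : K⟮algebraMap R L θ⟯ = ⊤ := by
    have := prim_smul h0 ((map_ne_zero_iff _ iK).2 (leadingCoeff_ne_zero.2 hp0))
    rwa [algebraMap_smul, Algebra.smul_def, IsScalarTower.algebraMap_apply A R L, ← map_mul] at this
  have hr : aeval θ p.integralNormalization = 0 := integralNormalization_aeval_eq_zero
    (iL (by rw [ev, hp, map_mul, minpoly.aeval, mul_zero, map_zero]))
    ((injective_iff_map_eq_zero _).1 (FaithfulSMul.algebraMap_injective A R))
  have hm := monic_integralNormalization hp0
  have hP : p.integralNormalization.map (algebraMap A K) = minpoly K (algebraMap R L θ) := by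
    refine eq_of_monic_of_dvd_of_natDegree_le (minpoly.monic (.of_finite K _)) (hm.map _)
      (minpoly.dvd _ _ (by rw [← ev, hr, map_zero])) ?_
    rw [(Field.primitive_element_iff_minpoly_natDegree_eq K _).1 h1, hm.natDegree_map,
      natDegree_integralNormalization, ← natDegree_map_eq_of_injective iK, hp, natDegree_C_mul hb',
      (Field.primitive_element_iff_minpoly_natDegree_eq K _).1 h0]
  obtain ⟨u, v, huv⟩ := Algebra.IsSeparable.isSeparable K (algebraMap R L θ)
  obtain ⟨b₁, u', hb₁, hu⟩ := clear (A := A) K u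
  obtain ⟨b₂, v', hb₂, hv⟩ := clear (A := A) K v
  obtain ⟨c, hc, hc'⟩ := Submodule.annihilator_top_inter_nonZeroDivisors (R := A)
    (M := R ⧸ LinearMap.range (aeval (R := A) θ).toLinearMap) fun x => by
      obtain ⟨τ, rfl⟩ := Submodule.mkQ_surjective _ x
      obtain ⟨f, hf⟩ : algebraMap R L τ ∈ (aeval (R := K) (algebraMap R L θ)).range := by
        rw [← Algebra.adjoin_singleton_eq_range_aeval,
          ← adjoin_simple_toSubalgebra_of_isAlgebraic (.of_finite K _), h1]
        trivial
      obtain ⟨b, g, hb, hg⟩ := clear (A := A) K f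
      refine ⟨⟨b, mem_nonZeroDivisors_of_ne_zero hb⟩, (Submodule.Quotient.mk_eq_zero _).2
        ⟨g, iL ?_⟩⟩
      show algebraMap R L (aeval θ g) = algebraMap R L (b • τ)
      rw [ev, hg, map_mul (aeval _), aeval_C, Algebra.smul_def, map_mul _ _ τ,
        ← IsScalarTower.algebraMap_apply, ← IsScalarTower.algebraMap_apply, ← hf]
      rfl
  refine ⟨⟨_, hm, θ, b₁ * b₂ * c, C (b₂ * c) * u', C (b₁ * c) * v', map_injective _ iK ?_, hr,
    fun f hf => (map_dvd_map _ iK hm).1 (hP ▸ minpoly.dvd _ _ (by rw [← ev, hf, map_zero])),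
    fun τ => ?_⟩, mul_ne_zero (mul_ne_zero hb₁ hb₂) (nonZeroDivisors.ne_zero hc')⟩
  · simp only [Polynomial.map_add, Polynomial.map_mul, map_C, ← derivative_map, hP, hu, hv, map_mul]
    linear_combination C (algebraMap A K b₁) * C (algebraMap A K b₂) * C (algebraMap A K c) * huv
  · obtain ⟨f, hf⟩ := (Submodule.Quotient.mk_eq_zero _).1
      (Submodule.mem_annihilator.1 hc (Submodule.Quotient.mk τ) trivial)
    refine ⟨C (b₁ * b₂) * f, ?_⟩
    rw [map_mul, aeval_C, mul_smul, ← Algebra.smul_def]
    exact congrArg _ hf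

theorem modelP_sep (p : ℕ) [Fact p.Prime] (A C : Type*) [CommRing A] [IsDomain A]
    [IsNoetherianRing A] [CommRing C] [IsDomain C] [CharP C p] [Algebra A C] [Module.Finite A C]
    [FaithfulSMul A C] : ∃ (T : Subalgebra A C) (e : ℕ) (D : EtData A T), D.G ≠ 0 ∧
      (∀ t, t ^ p ^ e ∈ T) ∧ ∀ t ∈ T, ∀ u, t * u = 1 → u ∈ T := by
  let F := FractionRing A
  let E := FractionRing C
  let _ : Algebra F E := FractionRing.liftAlgebra A E
  have := FractionRing.isScalarTower_liftAlgebra A E
  have hfd : FiniteDimensional F E := inferInstance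
  let L := separableClosure F E
  have : IsScalarTower A L E := IsScalarTower.of_algebraMap_eq fun _ => rfl
  have hE : CharP E p := inferInstance
  have hL : CharP L p := (algebraMap L E).charP (algebraMap L E).injective p
  let T : Subalgebra A C := (L.toSubalgebra.restrictScalars A).comap (IsScalarTower.toAlgHom A C E)
  have hT : ∀ t, t ∈ T ↔ algebraMap C E t ∈ L := fun t => Iff.rfl
  let _ : Algebra T L := (((algebraMap C E).comp T.val.toRingHom).codRestrict L
    fun t => (hT t).1 t.2).toAlgebra
  have : IsScalarTower A T L := IsScalarTower.of_algebraMap_eq fun a =>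
    Subtype.ext (IsScalarTower.algebraMap_apply A C E a)
  have : FaithfulSMul T L := (faithfulSMul_iff_algebraMap_injective _ _).2 fun x y h =>
    Subtype.ext (IsFractionRing.injective C E (congrArg Subtype.val h))
  have : FaithfulSMul A T := (faithfulSMul_iff_algebraMap_injective _ _).2 fun x y h =>
    FaithfulSMul.algebraMap_injective A C (congrArg Subtype.val h)
  have : Module.Finite A T := Module.Finite.of_injective T.val.toLinearMap Subtype.val_injective
  have : IsFractionRing T L := IsFractionRing.of_field _ _ fun x => by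
    obtain ⟨⟨t, _, a, ha, rfl⟩, h⟩ := IsLocalization.surj (Algebra.algebraMapSubmonoid C A⁰) (x : E)
    have h1 : t ∈ T := by
      rw [hT, ← h]
      exact mul_mem x.2 ((hT _).1 (T.algebraMap_mem a))
    refine ⟨⟨t, h1⟩, algebraMap A T a, (eq_div_iff ?_).2 (Subtype.ext h)⟩
    rw [map_ne_zero_iff _ (FaithfulSMul.algebraMap_injective T L),
      map_ne_zero_iff _ (FaithfulSMul.algebraMap_injective A T)]
    exact nonZeroDivisors.ne_zero ha
  obtain ⟨D, hD⟩ := modelP_of_field A T F L
  refine ⟨T, IsPurelyInseparable.exponent L E, D, hD, fun t => ?_, fun t ht u hu => ?_⟩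
  · rw [hT, map_pow, ← IsPurelyInseparable.algebraMap_iterateFrobenius L p le_rfl]
    exact Subtype.prop _
  · rw [hT, eq_inv_of_mul_eq_one_right (a := algebraMap C E t) (b := algebraMap C E u)
      (by rw [← map_mul, hu, map_one])]
    exact inv_mem ((hT t).1 ht)

theorem modelP_transport {A A' T : Type*} [CommRing A] [CommRing A'] [CommRing T] [Algebra A T]
    [Algebra A' T] (e : A' ≃+* A) (h : ∀ a, algebraMap A' T a = algebraMap A T (e a))
    (D : EtData A T) : ∃ D' : EtData A' T, D'.G = e.symm D.G := by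
  have ev : ∀ f : A'[X], aeval D.θ f = aeval D.θ (f.map (e : A' →+* A)) := fun f => by
    rw [aeval_def, aeval_def, eval₂_map]
    exact congrArg (fun g => eval₂ g D.θ f) (RingHom.ext h)
  have mm : ∀ f : A[X], (f.map (e.symm : A →+* A')).map (e : A' →+* A) = f := fun f => by
    rw [Polynomial.map_map, RingEquiv.comp_symm, Polynomial.map_id]
  have mm' : ∀ f : A'[X], (f.map (e : A' →+* A)).map (e.symm : A →+* A') = f := fun f => by
    rw [Polynomial.map_map, RingEquiv.symm_comp, Polynomial.map_id]
  refine ⟨⟨D.P.map e.symm, D.monic.map _, D.θ, e.symm D.G, D.a.map e.symm, D.b.map e.symm, ?_, ?_,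
    fun f hf => ?_, fun τ => ?_⟩, rfl⟩
  · simpa only [Polynomial.map_add, Polynomial.map_mul, map_C, ← derivative_map,
      RingHom.coe_coe] using congrArg (Polynomial.map (e.symm : A →+* A')) D.bezout
  · rw [ev, mm, D.root]
  · rw [← mm' f]
    exact Polynomial.map_dvd _ (D.indep _ (ev f ▸ hf))
  · obtain ⟨f, hf⟩ := D.span τ
    exact ⟨f.map e.symm, by rw [ev, mm, hf, Algebra.smul_def, Algebra.smul_def, h,
      RingEquiv.apply_symm_apply]⟩

theorem modelP_finite {A B C : Type*} [CommRing A] [IsNoetherianRing A] [CommRing B] [CommRing C]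
    (f : A →+* B) (g : B →+* C) (hg : Function.Injective g) (h : (g.comp f).Finite) :
    f.Finite := by
  algebraize [f, g, g.comp f]
  exact Module.Finite.of_injective (IsScalarTower.toAlgHom A B C).toLinearMap hg

theorem modelP_local {C : Type*} [CommRing C] [IsLocalRing C] (T : Subring C)
    (h : ∀ t ∈ T, ∀ u, t * u = 1 → u ∈ T) : ∃ _ : IsLocalRing T, IsLocalHom T.subtype := by
  have h1 : IsLocalHom T.subtype := ⟨fun t ht => by
    obtain ⟨u, hu⟩ := ht.exists_right_inv
    exact IsUnit.of_mul_eq_one ⟨u, h t t.2 u hu⟩ (Subtype.ext hu)⟩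
  exact ⟨T.subtype.domain_isLocalRing, h1⟩

end Vale.Agent.P177
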