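import Vale.Agent.P177.ModelDef
import Vale.Agent.P177.YSide
import Vale.Agent.P177.Model
import Vale.Agent.P177.ModelPAux
import Vale.Agent.P202.FrobRankAux

/-! Models in characteristic `p`. -/

namespace Vale.Agent.P177

open IsLocalRing Vale.Agent.P202

universe u

theorem modelP_finite_of_gen {A B ι : Type*} [CommRing A] [CommRing B] [Fintype ι] (φ : A →+* B)
    (t : ι → B) (h : ∀ b, ∃ c : ι → A, ∑ i, φ (c i) * t i = b) : φ.Finite := by
  let _ := φ.toAlgebra
  exact Module.Finite.of_surjective (Fintype.linearCombination A t) h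

variable {p : ℕ} [Fact p.Prime]

theorem modelP_frob {k C : Type u} [Field k] [CharP k p] [PerfectRing k p] [CommRing C] [CharP C p]
    {m : ℕ} (f : PS k m →+* C) (hf : f.Finite) (e : ℕ) : (iterateFrobenius C p e).Finite := by
  have := PerfectRing.toPerfectField k p
  have : CharP (PS k m) p := charP_of_injective_ringHom (f := MvPowerSeries.C)
    MvPowerSeries.C_injective p
  have h1 : (iterateFrobenius (PS k m) p e).Finite := modelP_finite_of_gen _
    (fun α : Fin m → Fin (p ^ e) => MvPowerSeries.monomial (expo α) (1 : k))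
    (exists_sum_pow_mul p e)
  refine RingHom.Finite.of_comp_finite (f := f) ?_
  rw [show (iterateFrobenius C p e).comp f = f.comp (iterateFrobenius (PS k m) p e) from
    RingHom.ext fun x => (map_pow f x _).symm]
  exact hf.comp h1

theorem modelP_aut (k : Type u) [Field k] [CharP k p] [PerfectRing k p] (m e : ℕ) :
    ∃ F : PS k m ≃+* PS k m, ∀ a, F (MvPowerSeries.C a) = MvPowerSeries.C (a ^ p ^ e) := by
  let σ := iterateFrobeniusEquiv k p e
  refine ⟨RingEquiv.ofRingHom (MvPowerSeries.map σ) (MvPowerSeries.map σ.symm) ?_ ?_, fun a => ?_⟩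
  · rw [← MvPowerSeries.map_comp, RingEquiv.comp_symm, MvPowerSeries.map_id]
  · rw [← MvPowerSeries.map_comp, RingEquiv.symm_comp, MvPowerSeries.map_id]
  · exact MvPowerSeries.map_C (σ : k →+* k) a

variable {k R : Type u} [Field k] [CharP k p] [PerfectRing k p] [CommRing R] [IsLocalRing R] {d : ℕ}
  {φ : PS (WittVector p k) d →+* R} (hφ : IsHyp p φ) (P : Ideal R) [P.IsPrime]
include hφ

theorem IsHyp.exists_model_charP (hp : (p : R) ∈ P) (hP : 0 < dimNat (R ⧸ P)) :
    ∃ (n : ℕ) (T : Type u) (_ : CommRing T) (_ : IsLocalRing T) (_ : Algebra (PS k (n + 1)) T)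
      (ψ : R →+* T) (z : List (PS k (n + 1))) (D : EtData (PS k (n + 1)) T),
      RingHom.ker ψ = P ∧ IsModel φ ψ (MvPowerSeries.map (σ := Fin (n + 1))
        (WittVector.constantCoeff : WittVector p k →+* k)) z ∧ D.G ≠ 0 := by
  have := hφ.reg.noeth
  have : IsLocalRing (R ⧸ P) := IsLocalRing.of_surjective' _ Ideal.Quotient.mk_surjective
  obtain ⟨_, -, h2⟩ := hφ.model_quot P
  have hp0 : (p : R ⧸ P) = 0 := by
    rw [← map_natCast (Ideal.Quotient.mk P), Ideal.Quotient.eq_zero_iff_mem]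
    exact hp
  have : CharP (R ⧸ P) p := (CharP.charP_iff_prime_eq_zero Fact.out).2 hp0
  have hs := witt_constantCoeff_surjective p k
  obtain ⟨c, hc⟩ : ∃ c : k →+* R ⧸ P, ∀ v, c (WittVector.constantCoeff v) =
      Ideal.Quotient.mk P (φ (MvPowerSeries.C v)) :=
    ⟨_, RingHom.liftOfSurjective_comp_apply _ hs
      ⟨((Ideal.Quotient.mk P).comp φ).comp MvPowerSeries.C, fun v hv => by
        obtain ⟨w, rfl⟩ := (witt_constantCoeff_eq_zero_iff p k v).1 hv
        rw [RingHom.mem_ker, map_mul, map_natCast, hp0, zero_mul]⟩⟩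
  have hres : ∀ t, ∃ a, t - c a ∈ maximalIdeal (R ⧸ P) := fun t =>
    (h2 t).elim fun v hv => ⟨_, hc v ▸ hv⟩
  obtain ⟨n, hn⟩ := Nat.exists_eq_succ_of_ne_zero hP.ne'
  have h3 := exists_norm_field c hres
  rw [hn] at h3
  obtain ⟨f, hf, hi, hC⟩ : ∃ f : PS k (n + 1) →+* R ⧸ P, f.Finite ∧ Function.Injective f ∧
    ∀ a, f (MvPowerSeries.C a) = c a := h3
  have hA := regL_ps_field k (n + 1)
  have := hA.isDomain
  let _ := f.toAlgebra
  have : Module.Finite (PS k (n + 1)) (R ⧸ P) := hf
  have := (faithfulSMul_iff_algebraMap_injective (PS k (n + 1)) (R ⧸ P)).2 hi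
  obtain ⟨T, e, D, hD, hq, hu⟩ := modelP_sep p (PS k (n + 1)) (R ⧸ P)
  obtain ⟨hT, hl⟩ := modelP_local T.toSubring hu
  obtain ⟨F, hF⟩ := modelP_aut (p := p) k (n + 1) e
  let g : PS k (n + 1) →+* T := (algebraMap (PS k (n + 1)) T).comp F
  obtain ⟨D', hD'⟩ := @modelP_transport _ _ T _ _ _ _ g.toAlgebra F (fun _ => rfl) D
  let ψ : R →+* T := ((iterateFrobenius (R ⧸ P) p e).comp (Ideal.Quotient.mk P)).codRestrict T
    fun r => hq _
  have hψ : ∀ v, ψ (φ (MvPowerSeries.C v)) =
      g (MvPowerSeries.C (WittVector.constantCoeff v)) := fun v => Subtype.ext (by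
    change Ideal.Quotient.mk P (φ (MvPowerSeries.C v)) ^ p ^ e = f (F _)
    rw [hF, hC, map_pow, hc])
  have hg : g.Finite := (modelP_finite _ T.val.toRingHom Subtype.val_injective hf).comp
    (RingHom.Finite.of_surjective _ F.surjective)
  refine ⟨n, T, inferInstance, hT, g.toAlgebra, ψ, _, D', ?_, @IsModel.mk _ _ _ _ _ _ _ _ _ _ hT
    g.toAlgebra _ _ _ _ _ _ hA (by simp) (ps_map_surjective _ hs _)
    ⟨MvPowerSeries.C (p : WittVector p k), Ideal.ext fun x => ?_⟩ ?_ inferInstance hg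
    (fun x y h => F.injective (hi (congrArg Subtype.val h))) (fun t => ?_)
    (modelP_finite ψ T.val.toRingHom Subtype.val_injective ((modelP_frob f hf e).comp
      (RingHom.Finite.of_surjective _ Ideal.Quotient.mk_surjective))) fun v => ?_, ?_⟩
  · ext r
    rw [RingHom.mem_ker, Subtype.ext_iff, ← Ideal.Quotient.eq_zero_iff_mem]
    exact pow_eq_zero_iff (pow_ne_zero e (Fact.out : p.Prime).ne_zero)
  · rw [RingHom.mem_ker, ker_ps_map _ _ (witt_constantCoeff_eq_zero_iff p k),
      Ideal.mem_span_singleton]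
  · rw [MvPowerSeries.map_X]
    exact fun h => one_ne_zero ((MvPowerSeries.coeff_index_single_self_X (R := k)
      (0 : Fin (n + 1))).symm.trans
      (by rw [h, map_zero]))
  · obtain ⟨a, ha⟩ := hres t
    obtain ⟨b, rfl⟩ := (bijective_iterateFrobenius k p e).2 a
    obtain ⟨v, rfl⟩ := hs b
    refine ⟨v, fun h => ha ?_⟩
    have h1 := h.map T.val
    rw [hψ, map_sub] at h1
    rw [iterateFrobenius_def, ← hC, ← hF]
    exact h1
  · rw [MvPowerSeries.map_C]
    exact (hψ v).symm
  · rw [hD', map_ne_zero_iff _ F.symm.injective]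
    exact hD

end Vale.Agent.P177
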