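import Vale.Agent.P177.Pow

/-! Invariants of tensor powers. -/

namespace Vale.Agent.P177

universe u

theorem powInv_ne {R : Type u} [CommRing R] {ι κ μ : Type} [Fintype κ] {A : Matrix ι κ R}
    {B : Matrix κ μ R} {a : ι} {c : μ} (h : (A * B) a c ≠ 0) : ∃ b, A a b ≠ 0 ∧ B b c ≠ 0 := by
  rw [Matrix.mul_apply] at h
  obtain ⟨b, -, hb⟩ := Finset.exists_ne_zero_of_sum_ne_zero h
  exact ⟨b, left_ne_zero_of_mul hb, right_ne_zero_of_mul hb⟩

theorem powInv_split {R : Type u} [CommRing R] [IsLocalRing R] {ι : Type} [Fintype ι]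
    [DecidableEq ι] (e : Matrix ι ι R) (he : e * e = e) :
    ∃ (n : ℕ) (α : Matrix ι (Fin n) R) (β : Matrix (Fin n) ι R), β * α = 1 ∧ α * β = e := by
  let f := Matrix.toLin' e
  have h1 : f.rangeRestrict ∘ₗ (LinearMap.range f).subtype = LinearMap.id := by
    ext ⟨_, x, rfl⟩ : 1
    refine Subtype.ext ?_
    change f (f x) = f x
    rw [← LinearMap.comp_apply, ← Matrix.toLin'_mul, he]
  have : Module.Projective R (LinearMap.range f) := Module.Projective.of_split _ _ h1
  have : Module.Free R (LinearMap.range f) := Module.free_of_flat_of_isLocalRing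
  let b := Module.finBasis R (LinearMap.range f)
  refine ⟨_, LinearMap.toMatrix' ((LinearMap.range f).subtype ∘ₗ b.equivFun.symm.toLinearMap),
    LinearMap.toMatrix' (b.equivFun.toLinearMap ∘ₗ f.rangeRestrict), ?_, ?_⟩
  · rw [← LinearMap.toMatrix'_comp, ← LinearMap.toMatrix'_id]
    refine congrArg _ (LinearMap.ext fun x => ?_)
    exact (congrArg b.equivFun (LinearMap.congr_fun h1 _)).trans (b.equivFun.apply_symm_apply x)
  · rw [← LinearMap.toMatrix'_comp, ← LinearMap.toMatrix'_toLin' e]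
    refine congrArg _ (LinearMap.ext fun x => ?_)
    exact congrArg Subtype.val (b.equivFun.symm_apply_apply (f.rangeRestrict x))

theorem powInv_gsplit {R : Type u} [CommRing R] [IsLocalRing R] {ι : Type} [Fintype ι]
    [DecidableEq ι] (dg : ι → ℕ) (e : Matrix ι ι R) (he : e * e = e)
    (hdeg : ∀ a b, e a b ≠ 0 → dg a = dg b) (i : ℕ) :
    ∃ (n : ℕ) (α : Matrix ι (Fin n) R) (β : Matrix (Fin n) ι R), β * α = 1 ∧
      (∀ a b, (α * β) a b = if dg a = i then e a b else 0) ∧ (∀ a b, α a b ≠ 0 → dg a = i) ∧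
      ∀ a b, β a b ≠ 0 → dg b = i := by
  let e' : Matrix ι ι R := Matrix.of fun a b => if dg a = i then e a b else 0
  have h0 : ∀ a b, e' a b ≠ 0 → dg a = i ∧ dg b = i := fun a b h => by
    by_cases ha : dg a = i
    · exact ⟨ha, (hdeg a b fun h' => h ((if_pos ha).trans h')).symm.trans ha⟩
    · exact absurd (if_neg ha) h
  obtain ⟨n, α, β, h1, h2⟩ := powInv_split e' (by
    ext a c
    simp only [Matrix.mul_apply, e', Matrix.of_apply]
    split_ifs with ha
    · rw [← congrFun (congrFun he a) c, Matrix.mul_apply]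
      refine Finset.sum_congr rfl fun b _ => ?_
      by_cases hb : e a b = 0
      · rw [hb, zero_mul, zero_mul]
      · rw [if_pos ((hdeg a b hb).symm.trans ha)]
    · simp)
  refine ⟨n, α, β, h1, fun a b => by rw [h2]; rfl, fun a b h => ?_, fun a b h => ?_⟩
  · rw [← Matrix.mul_one α, ← h1, ← Matrix.mul_assoc, h2] at h
    obtain ⟨c, hc, -⟩ := powInv_ne h
    exact (h0 _ _ hc).1
  · rw [← Matrix.one_mul β, ← h1, Matrix.mul_assoc, h2] at h
    obtain ⟨c, -, hc⟩ := powInv_ne h
    exact (h0 _ _ hc).2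

namespace Cx

variable {R : Type u} [CommRing R] {l : ℕ}

/-- the image of an idempotent over a local ring. -/
theorem exists_image [IsLocalRing R] (F : Cx R) (e : Matrix F.ι F.ι R) (he : e * e = e)
    (hd : e * F.d = F.d * e) (hdeg : ∀ a b, e a b ≠ 0 → F.deg a = F.deg b) :
    ∃ (G : Cx R) (α : Matrix F.ι G.ι R) (β : Matrix G.ι F.ι R), β * α = 1 ∧ α * β = e ∧
      α * G.d = F.d * α ∧ β * F.d = G.d * β ∧ (∀ a b, α a b ≠ 0 → F.deg a = G.deg b) ∧
      ∀ a b, β a b ≠ 0 → G.deg a = F.deg b := by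
  choose n α β h1 h2 h3 h4 using powInv_gsplit F.deg e he hdeg
  let L := Finset.univ.sup F.deg + 1
  have hL : ∀ a, F.deg a < L := fun a => Nat.lt_succ_of_le (Finset.le_sup (Finset.mem_univ a))
  let A : Matrix F.ι (Σ i : Fin L, Fin (n i)) R := Matrix.of fun a b => α b.1 a b.2
  let B : Matrix (Σ i : Fin L, Fin (n i)) F.ι R := Matrix.of fun a b => β a.1 a.2 b
  have k1 : B * A = 1 := by
    ext ⟨i, a⟩ ⟨j, b⟩
    rcases eq_or_ne i j with rfl | hij
    · refine (congrFun (congrFun (h1 i) a) b).trans ?_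
      simp [Matrix.one_apply]
    · rw [Matrix.one_apply_ne fun h => hij (congrArg Sigma.fst h)]
      by_contra h
      obtain ⟨c, c1, c2⟩ := powInv_ne h
      exact hij (Fin.ext ((h4 _ _ _ c1).symm.trans (h3 _ _ _ c2)))
  have k2 : A * B = e := by
    ext a b
    rw [Matrix.mul_apply, Fintype.sum_sigma]
    refine (Finset.sum_congr rfl fun (i : Fin L) _ => h2 i a b).trans ?_
    rw [Finset.sum_eq_single ⟨_, hL a⟩ (fun i _ hi => if_neg fun h => hi (Fin.ext h.symm))
      (by simp), if_pos rfl]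
  have k3 : e * A = A := by rw [← k2, Matrix.mul_assoc, k1, Matrix.mul_one]
  have k4 : B * e = B := by rw [← k2, ← Matrix.mul_assoc, k1, Matrix.one_mul]
  have k5 : A * (B * F.d * A) = F.d * A := by
    rw [← Matrix.mul_assoc, ← Matrix.mul_assoc, k2, hd, Matrix.mul_assoc, k3]
  refine ⟨Cx.mk (Σ i : Fin L, Fin (n i)) (fun b => (b.1 : ℕ)) (B * F.d * A) ?_ fun a b h => ?_,
    A, B, k1, k2, k5, ?_, fun a b h => h3 b.1 a b.2 h, fun a b h => (h4 a.1 a.2 b h).symm⟩
  · rw [Matrix.mul_assoc, k5, Matrix.mul_assoc, ← Matrix.mul_assoc F.d, F.dd, Matrix.zero_mul,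
      Matrix.mul_zero]
  · obtain ⟨c, c1, c2⟩ := powInv_ne h
    obtain ⟨c', c3, c4⟩ := powInv_ne c1
    rw [← h3 _ _ _ c2, F.hdeg _ _ c4, h4 _ _ _ c3]
  · change B * F.d = B * F.d * A * B
    rw [Matrix.mul_assoc, k2, Matrix.mul_assoc, ← hd, ← Matrix.mul_assoc, k4]

theorem powInv_psi (F G : Cx R) (α : Matrix (F.pow l).ι G.ι R) (β : Matrix G.ι (F.pow l).ι R)
    (B : Matrix (F.pow l).ι (F.pow l).ι R) (h1 : β * α = 1) (h2 : α * β + B = 1 + B * F.rot l)
    (h3 : F.rot l * α = α) (h4 : α * G.d = (F.pow l).d * α)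
    (h5 : ∀ a b, α a b ≠ 0 → (F.pow l).deg a = G.deg b) (Λ : Len R) (L : Type u) [AddCommGroup L]
    [Module R L] :
    F.psi Λ l L = ((l + 1 : ℕ) : ℝ) * (G.on L).chi Λ - ((F.pow l).on L).chi Λ := by
  have one : ∀ {ι : Type} [Fintype ι] [DecidableEq ι] (x : ι → L),
      mact (1 : Matrix ι ι R) L x = x := fun x => by
    rw [← one_smul R (1 : Matrix _ _ R), mact_smul_one, one_smul]
  let f : DG.Hom (G.on L) (F.onPow l L).inv :=
    ⟨LinearMap.codRestrict _ (mact α L) fun x => (F.onPow l L).mem_inv.2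
      ((mact_mul _ α x).symm.trans (congrArg (fun M => mact M L x) h3)),
      fun x => Subtype.ext ((onHom α h4 h5 L).d x), fun i x => Subtype.ext ((onHom α h4 h5 L).pr i x)⟩
  have hf : Function.Bijective f.f := by
    refine ⟨fun (x y : G.ι → L) h => ?_, fun y => ⟨mact β L y.1, Subtype.ext ?_⟩⟩
    · have : mact β L (mact α L x) = mact β L (mact α L y) := congrArg (fun z => mact β L z.1) h
      rwa [← mact_mul, ← mact_mul, h1, one, one] at this
    · have k : ∀ z : (F.pow l).ι → L, mact (F.rot l) L z = z → mact α L (mact β L z) = z := by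
        intro z k2
        have k := congrArg (fun M => mact M L z) h2
        simpa only [mact_add, mact_mul, one, k2, add_left_inj] using k
      exact k _ ((F.onPow l L).mem_inv.1 y.2)
  rw [DG.chi_congr Λ ((f.qIso_of_bijective hf).hl_eq Λ)]
  rfl

/-- the invariants are a finite free complex. -/
theorem exists_inv [IsLocalRing R] (hl : IsUnit ((l + 1 : ℕ) : R)) (F : Cx R) :
    ∃ G : Cx R, F.Null ≤ G.Null ∧ ∀ (R' : Type u) [CommRing R'] (φ : R →+* R') (Λ' : Len R')
      (L : Type u) [AddCommGroup L] [Module R' L],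
      (F.map φ).psi Λ' l L = ((l + 1 : ℕ) : ℝ) * ((G.map φ).on L).chi Λ' -
        (((F.pow l).map φ).on L).chi Λ' := by
  obtain ⟨c, hc⟩ := hl.exists_left_inv
  set τ := F.rot l with hτ
  let e : Matrix (F.pow l).ι (F.pow l).ι R := c • ∑ k ∈ Finset.range (l + 1), τ ^ k
  have e1 : τ * e = e := by
    have := mul_geom_sum τ (l + 1)
    rw [F.rot_pow, sub_self, sub_mul, one_mul, sub_eq_zero] at this
    rw [Matrix.mul_smul, this]
  have e2 : ∀ k, τ ^ k * e = e := fun k => by
    induction k with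
    | zero => rw [pow_zero, one_mul]
    | succ k ih => rw [pow_succ, mul_assoc, e1, ih]
  have e0 : ∀ M : Matrix (F.pow l).ι (F.pow l).ι R,
      c • ∑ _k ∈ Finset.range (l + 1), M = M := fun M => by
    rw [Finset.sum_const, Finset.card_range, ← Nat.cast_smul_eq_nsmul R, smul_smul, hc, one_smul]
  have e3 : e * e = e := by
    nth_rewrite 1 [show e = c • _ from rfl]
    simp only [Matrix.smul_mul, Finset.sum_mul, e2, e0]
  have e4 : e * (F.pow l).d = (F.pow l).d * e :=
    (Commute.sum_left _ _ _ fun k _ => Commute.pow_left (F.rot_mul_d l) k).smul_left c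
  have e5 : ∀ k a b, (τ ^ k) a b ≠ 0 → (F.pow l).deg a = (F.pow l).deg b := fun k => by
    induction k with
    | zero => exact fun a b h => by_contra fun hn => h (Matrix.one_apply_ne fun e => hn (e ▸ rfl))
    | succ k ih =>
      intro a b h
      obtain ⟨c, c1, c2⟩ := powInv_ne (pow_succ τ k ▸ h)
      exact (ih _ _ c1).trans (F.rot_deg l _ _ c2)
  obtain ⟨G, α, β, h1, h2, h3, h4, h5, -⟩ := (F.pow l).exists_image e e3 e4 fun a b h => by
    have h' := right_ne_zero_of_mul h
    rw [Matrix.sum_apply] at h'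
    obtain ⟨k, -, hk⟩ := Finset.exists_ne_zero_of_sum_ne_zero h'
    exact e5 k a b hk
  obtain ⟨B, hB⟩ : ∃ B, α * β + B = 1 + B * τ := by
    refine ⟨c • ∑ k ∈ Finset.range (l + 1), ∑ j ∈ Finset.range k, τ ^ j, ?_⟩
    rw [h2, ← sub_eq_iff_eq_add', add_sub_right_comm, ← eq_sub_iff_add_eq, ← mul_sub_one,
      Matrix.smul_mul, Finset.sum_mul]
    simp only [geom_sum_mul, Finset.sum_sub_distrib, smul_sub, e0]
    rfl
  have h6 : τ * α = α := by
    rw [← Matrix.mul_one α, ← h1, ← Matrix.mul_assoc α, h2, ← Matrix.mul_assoc, e1]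
  refine ⟨G, fun a ha => ?_, fun R' _ φ Λ' L _ _ => ?_⟩
  · obtain ⟨H, hH⟩ := F.Null_le_pow l ha
    refine ⟨β * H * α, ?_⟩
    rw [Matrix.mul_assoc _ α, h3, ← Matrix.mul_assoc, ← Matrix.mul_assoc, ← h4,
      ← Matrix.mul_assoc _ _ α, ← Matrix.add_mul, Matrix.mul_assoc β, Matrix.mul_assoc β,
      ← Matrix.mul_add, hH, Matrix.mul_smul, Matrix.smul_mul, Matrix.mul_one, h1]
  · have k1 : (F.map φ).rot l = τ.map φ := by
      ext (J J' : Fin (l + 1) → F.ι)
      refine Eq.symm (?_ : φ (if J' = J ∘ finRotate (l + 1) then _ else 0) = _)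
      rw [apply_ite φ, _root_.map_pow, map_neg, map_one, map_zero]
      rfl
    have k2 : ((F.map φ).pow l).d = (F.pow l).d.map φ := by
      ext (J J' : Fin (l + 1) → F.ι)
      change ∑ k : Fin (l + 1), _ = φ (∑ k : Fin (l + 1), _)
      rw [_root_.map_sum]
      refine Finset.sum_congr rfl fun k _ => ?_
      rw [apply_ite φ, map_mul, _root_.map_pow, map_neg, map_one, map_zero]
      rfl
    rw [F.map_pow]
    refine powInv_psi (F.map φ) (G.map φ) (α.map φ) (β.map φ) (B.map φ) ?_ ?_ ?_ ?_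
      (fun a b h => h5 a b fun h' => h ((congrArg φ h').trans φ.map_zero)) Λ' L
    · exact Matrix.map_mul.symm.trans ((congrArg (Matrix.map · φ) h1).trans
        (Matrix.map_one _ φ.map_zero φ.map_one))
    · have := congrArg φ.mapMatrix hB
      rw [map_add, map_add, map_mul, map_one] at this
      rw [k1]
      exact (congrArg (· + B.map φ) Matrix.map_mul.symm).trans this
    · rw [k1]
      exact Matrix.map_mul.symm.trans (congrArg (Matrix.map · φ) h6)
    · rw [k2]
      exact Matrix.map_mul.symm.trans ((congrArg (Matrix.map · φ) h3).trans Matrix.map_mul)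

end Cx

end Vale.Agent.P177
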