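import Vale.Agent.P177.Pure0
import Vale.Agent.P177.PowInv
import Vale.Agent.P177.Dev
import Vale.Agent.P177.Reg

/-! The eigenvalue of the cyclic Adams operation. -/

namespace Vale.Agent.P177

open scoped ENNReal
open IsLocalRing RingTheory.Sequence Vale.Agent.P202

universe u

variable {R : Type u} [CommRing R] {l : ℕ}

theorem Pure_map_rad {R' : Type u} [CommRing R'] (φ : R →+* R') {a : Ideal R} {F : Cx R}
    (h : a ≤ F.Null.radical) : a.map φ ≤ (F.map φ).Null.radical :=
  (Ideal.map_mono h).trans ((Ideal.map_radical_le φ).trans (Ideal.radical_mono (F.map_Null_le φ)))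

theorem addFun_psi (hp : (l + 1).Prime) {R' : Type u} [CommRing R'] (hl : IsUnit ((l + 1 : ℕ) : R'))
    (φ : R →+* R') (Λ : Len R') (N : Type u) [AddCommGroup N] [Module R' N] (a : Ideal R)
    (h : Thick Λ N (a.map φ)) : AddFun a fun F => (F.map φ).psi Λ l N := by
  refine ⟨fun F hF => Cx.psi_of_null Λ hl _ ?_, fun C' C C'' hC h' h'' => ?_⟩
  · exact top_le_iff.1 ((Ideal.map_top φ).ge.trans (hF ▸ F.map_Null_le φ))
  · refine (hC.map φ).psi_add hp hl Λ (h _ (le_trans ?_ (Ideal.radical_mono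
      (le_sup_left.trans' (Cx.Null_le_pow _ l)))))
    rw [Cx.Null_sum, Ideal.radical_inf]
    exact le_inf (Pure_map_rad φ h') (Pure_map_rad φ h'')

section Loc

variable (Q : Ideal R) [Q.IsPrime]

theorem Pure_null {Q' : Ideal R} (h : ¬ Q' ≤ Q) {G : Cx R} (hG : G.IsRes (R ⧸ Q')) :
    (G.map (algebraMap R (Localization.AtPrime Q))).Null = ⊤ := by
  obtain ⟨s, h1, h2⟩ := SetLike.not_le_iff_exists.1 h
  exact Ideal.eq_top_of_isUnit_mem _ (G.map_Null_le _ (Ideal.mem_map_of_mem _ (hG.le_Null_quot h1)))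
    (IsLocalization.map_units (Localization.AtPrime Q) (⟨s, h2⟩ : Q.primeCompl))

theorem Pure_chi_one {G : Cx R} (hG : G.IsRes (R ⧸ Q)) :
    ((G.map (algebraMap R (Localization.AtPrime Q))).on (Localization.AtPrime Q)).chi
      (Len.len _) = 1 := by
  have : Module.Flat R (Localization.AtPrime Q) := IsLocalization.flat _ Q.primeCompl
  have h1 := hG.map_flat (Localization.AtPrime Q)
  rw [Localization.AtPrime.map_eq_maximalIdeal] at h1
  obtain ⟨ψ, hψ⟩ := h1.exists_qIso []
  refine (DG.chi_congr _ (hψ.hl_eq (Len.len _))).trans ((Cx.chi_pt _).trans ?_)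
  have h2 : IsSimpleModule (Localization.AtPrime Q)
      (Localization.AtPrime Q ⧸ maximalIdeal (Localization.AtPrime Q)) :=
    isSimpleModule_iff_isCoatom.2 (Ideal.isMaximal_def.1 inferInstance)
  show ((Module.length _ _ : ℕ∞) : ℝ≥0∞).toReal = 1
  rw [Module.length_eq_one]
  simp

omit [Q.IsPrime] in
theorem Pure_ann : Q ≤ (Module.annihilator R (R ⧸ Q)).radical :=
  Ideal.annihilator_quotient.ge.trans Ideal.le_radical

variable [IsLocalRing R] {x : List R}

/-- the eigenvalue at the generic point. -/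
theorem Pure_loc (hR : RegL R x) (hp : (l + 1).Prime) (hl : IsUnit ((l + 1 : ℕ) : R)) (F : Cx R)
    (hF : Q ≤ F.Null.radical) :
    (F.map (algebraMap R (Localization.AtPrime Q))).psi (Len.len _) l (Localization.AtPrime Q) =
      l * ((l + 1 : ℕ) : ℝ) ^ (x.length - dimNat (R ⧸ Q)) *
        ((F.map (algebraMap R (Localization.AtPrime Q))).on (Localization.AtPrime Q)).chi
          (Len.len _) := by
  have := hR.noeth
  have : Module.Flat R (Localization.AtPrime Q) := IsLocalization.flat _ Q.primeCompl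
  have hl' : IsUnit ((l + 1 : ℕ) : Localization.AtPrime Q) :=
    map_natCast (algebraMap R (Localization.AtPrime Q)) (l + 1) ▸ hl.map _
  obtain ⟨y, y1, y2, y3, s, hs, n, hn⟩ := hR.exists_seq Q
  have hy : Ideal.ofList y ≤ Q := Ideal.span_le.2 y2
  have hm : maximalIdeal (Localization.AtPrime Q) ≤
      ((Ideal.ofList y).map (algebraMap R (Localization.AtPrime Q))).radical := by
    have h1 := Ideal.map_mono (f := algebraMap R (Localization.AtPrime Q)) hn
    rw [Ideal.map_mul, Ideal.map_pow, Localization.AtPrime.map_eq_maximalIdeal, Ideal.map_span,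
      Set.image_singleton, Ideal.span_singleton_eq_top.2
        (IsLocalization.map_units (Localization.AtPrime Q) (⟨s, hs⟩ : Q.primeCompl)),
      Ideal.top_mul] at h1
    exact fun z hz => ⟨n, h1 (Ideal.pow_mem_pow hz n)⟩
  have hth := thick_of_finite (Localization.AtPrime Q) _
    (hm.trans (Ideal.radical_mono le_sup_left))
  have a1 := addFun_psi hp hl' _ _ _ _ hth
  have a2 := addFun_chi _ _ _ _ hth
  obtain ⟨F₀, h₀, -⟩ := hR.exists_res (R ⧸ Q)
  have key := (a1.sub_mul a2 ((F₀.map (algebraMap R (Localization.AtPrime Q))).psi (Len.len _) l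
      (Localization.AtPrime Q))).eq_zero hR fun Q' hQ' h1 G hG => by
    by_cases h2 : Q' ≤ Q
    · have h3 : Q ≤ Q' := by
        rcases hQ'.mul_le.1 (hn.trans h1) with h | h
        · exact absurd (h2 (h (Ideal.mem_span_singleton_self s))) hs
        · exact hQ'.le_of_pow_le h
      obtain rfl := le_antisymm h2 h3
      rw [Pure_chi_one _ hG, mul_one, sub_eq_zero]
      exact a1.res_eq (hy.trans (Pure_ann _)) hG h₀
    · rw [Cx.psi_of_null _ hl' _ (Pure_null Q h2 hG),
        DG.chi_eq_zero_of_h _ (Cx.h_on_of_null _ _ (Pure_null Q h2 hG)), mul_zero, sub_zero]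
  have k1 := key F (hy.trans hF)
  have k2 := key ((Cx.pt R).kosL y)
    ((le_sup_right.trans (Cx.le_Null_kosL _ y)).trans Ideal.le_radical)
  have hreg : IsWeaklyRegular (Localization.AtPrime Q)
      (y.map (algebraMap R (Localization.AtPrime Q))) := y3.of_flat
  have e : Ideal.ofList (y.map (algebraMap R (Localization.AtPrime Q))) •
      (⊤ : Submodule (Localization.AtPrime Q) (Localization.AtPrime Q)) =
      (Ideal.ofList y).map (algebraMap R (Localization.AtPrime Q)) := by
    rw [Ideal.map_ofList, smul_eq_mul, Ideal.mul_top]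
  have hfin : (Len.len (Localization.AtPrime Q)).val (Localization.AtPrime Q ⧸
      Ideal.ofList (y.map (algebraMap R (Localization.AtPrime Q))) •
        (⊤ : Submodule (Localization.AtPrime Q) (Localization.AtPrime Q))) ≠ ⊤ := by
    rw [e]
    exact ENat.toENNReal_ne_top.2 (length_quot_ne_top hm)
  have hne : (Len.len (Localization.AtPrime Q)).val (Localization.AtPrime Q ⧸
      Ideal.ofList (y.map (algebraMap R (Localization.AtPrime Q))) •
        (⊤ : Submodule (Localization.AtPrime Q) (Localization.AtPrime Q))) ≠ 0 := by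
    rw [e]
    intro h
    have h1 := Submodule.Quotient.subsingleton_iff.1
      (Module.length_eq_zero_iff.1 (ENat.toENNReal_eq_zero.1 h))
    have h2 := Ideal.map_mono (f := algebraMap R (Localization.AtPrime Q)) hy
    rw [h1, Localization.AtPrime.map_eq_maximalIdeal] at h2
    exact (maximalIdeal.isMaximal _).ne_top (top_le_iff.1 h2)
  rw [Cx.map_kosL, Cx.map_pt, Cx.psi_kosL hp hl' _ _ hreg hfin,
    DG.chi_congr _ ((Cx.pt _).hl_kosL_of_reg (Len.len _) hreg), Cx.chi_pt, sub_eq_zero,
    List.length_map] at k2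
  have k3 := mul_right_cancel₀ (ENNReal.toReal_ne_zero.2 ⟨hne, hfin⟩) k2
  rw [← k3, sub_eq_zero] at k1
  rw [k1, ← y1, Nat.add_sub_cancel]

end Loc

/-- purity of complexes supported on a prime. -/
theorem psi_eq_of_pure [IsLocalRing R] {x : List R} (hR : RegL R x) (Q : Ideal R) [Q.IsPrime]
    (hp : (l + 1).Prime) (hl : IsUnit ((l + 1 : ℕ) : R)) {R' : Type u} [CommRing R'] (φ : R →+* R')
    (Λ : Len R') (N : Type u) [AddCommGroup N] [Module R' N] (hth : Thick Λ N (Q.map φ))
    (hv : ∀ Q' : Ideal R, Q'.IsPrime → Q < Q' → ∀ F : Cx R, F.IsRes (R ⧸ Q') →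
      ((F.map φ).on N).chi Λ = 0) (F : Cx R) (hF : Q ≤ F.Null.radical) :
    (F.map φ).psi Λ l N =
      l * ((l + 1 : ℕ) : ℝ) ^ (x.length - dimNat (R ⧸ Q)) * ((F.map φ).on N).chi Λ := by
  have := hR.noeth
  have hl' : IsUnit ((l + 1 : ℕ) : R') := map_natCast φ (l + 1) ▸ hl.map _
  have hthQ := thick_of_finite (Localization.AtPrime Q)
    (Q.map (algebraMap R (Localization.AtPrime Q))) (Localization.AtPrime.map_eq_maximalIdeal.ge.trans
      (le_sup_left.trans Ideal.le_radical))
  have a1 := addFun_chi φ Λ N Q hth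
  have a2 := addFun_chi _ _ _ _ hthQ
  obtain ⟨F₀, h₀, -⟩ := hR.exists_res (R ⧸ Q)
  have key := (a1.sub_mul a2 (((F₀.map φ).on N).chi Λ)).eq_zero hR fun Q' hQ' h1 G hG => by
    rcases h1.eq_or_lt with rfl | h2
    · rw [Pure_chi_one _ hG, mul_one, sub_eq_zero]
      exact a1.res_eq (Pure_ann _) hG h₀
    · rw [hv Q' hQ' h2 G hG,
        DG.chi_eq_zero_of_h _ (Cx.h_on_of_null _ _ (Pure_null Q h2.not_ge hG)), mul_zero, sub_zero]
  obtain ⟨G, g1, g2⟩ := F.exists_inv hl
  have k1 := key F hF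
  have k2 := key G (hF.trans (Ideal.radical_mono g1))
  have k3 := key (F.pow l) (hF.trans (Ideal.radical_mono (F.Null_le_pow l)))
  have k4 := Pure_loc Q hR hp hl F hF
  rw [g2] at k4 ⊢
  rw [sub_eq_zero] at k1 k2 k3
  rw [k1, k2, k3]
  linear_combination ((F₀.map φ).on N).chi Λ * k4

end Vale.Agent.P177
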