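import Vale.Agent.P177.Cx
import Vale.Agent.P202.Defs

/-! The vanishing and positivity statements. -/

namespace Vale.Agent.P177

open IsLocalRing Vale.Agent.P202

universe u

/-- vanishing for supports whose dimensions add up to less than `n`. -/
def VanLt (R : Type u) [CommRing R] [IsLocalRing R] (n : ℕ) : Prop :=
  ∀ a b : Ideal R, maximalIdeal R ≤ (a ⊔ b).radical → dimNat (R ⧸ a) + dimNat (R ⧸ b) < n →
    ∀ F : Cx R, a ≤ F.Null.radical → ∀ (M : Type u) [AddCommGroup M] [Module R M]
      [Module.Finite R M], b ≤ (Module.annihilator R M).radical → (F.on M).chi (Len.len R) = 0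

/-- positivity for primes. -/
def PosP (R : Type u) [CommRing R] [IsLocalRing R] (d : ℕ) : Prop :=
  ∀ P Q : Ideal R, P.IsPrime → Q.IsPrime → maximalIdeal R ≤ (Q ⊔ P).radical →
    dimNat (R ⧸ Q) + dimNat (R ⧸ P) = d → ∀ F : Cx R, F.IsRes (R ⧸ Q) →
      0 < (F.on (R ⧸ P)).chi (Len.len R)

end Vale.Agent.P177
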