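import Vale.Agent.P177.Top
import Vale.Agent.P177.Pure
import Vale.Agent.P177.Geo2
import Vale.Agent.P177.VanDef

/-! The Euler characteristic splits over the embeddings. -/

namespace Vale.Agent.P177

open IsLocalRing Vale.Agent.P202

universe u

section Aux

variable {R S : Type u} [CommRing R] [CommRing S]

theorem sv_supp (φ : R →+* S) {Q : Ideal R} {F : Cx R} (hF : Q ≤ F.Null.radical) :
    Q.map φ ≤ (F.map φ).Null.radical :=
  (Ideal.map_mono hF).trans ((Ideal.map_radical_le _).trans (Ideal.radical_mono (F.map_Null_le φ)))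

theorem sv_fin {φ : R →+* S} {Λ : Len S} {N : Type u} [AddCommGroup N] [Module S N] {Q : Ideal R}
    (h : Thick Λ N (Q.map φ)) {F : Cx R} (hF : Q ≤ F.Null.radical) :
    ((F.map φ).on N).h Λ ≠ ⊤ :=
  h _ ((sv_supp φ hF).trans (Ideal.radical_mono le_sup_left))

theorem sv_ideal {Λ : Len S} (G : Cx S) (J : Ideal S) (h1 : (G.on J).h Λ ≠ ⊤)
    (h2 : (G.on (S ⧸ J)).h Λ ≠ ⊤) (h3 : (G.on (S ⧸ J)).chi Λ = 0) :
    (G.on J).chi Λ = (G.on S).chi Λ := by
  rw [Cx.chi_on_add Λ G J.subtype J.mkQ J.injective_subtype (LinearMap.exact_subtype_mkQ J)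
    J.mkQ_surjective h1 h2, h3, add_zero]

theorem sv_remove {φ : R →+* S} {Λ : Len S} {N : Type u} [AddCommGroup N] [Module S N]
    {Q : Ideal R} (h : Thick Λ N (Q.map φ)) {K F G : Cx R} (hK : Q ≤ K.Null.radical)
    (hF : Q ≤ F.Null.radical) (hG : G.Null = ⊤) (h0 : ((K.map φ).on N).chi Λ = 0) :
    ((((K.sum F).sum G).map φ).on N).chi Λ = ((F.map φ).on N).chi Λ := by
  have ha := addFun_chi φ Λ N Q h
  have h1 := ha.ext _ _ _ (Cx.isExt_sum (K.sum F) G)
    (by rw [Cx.Null_sum, Ideal.radical_inf]; exact le_inf hK hF) (by rw [hG, Ideal.radical_top]; exact le_top)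
  have h2 := ha.ext _ _ _ (Cx.isExt_sum K F) hK hF
  have h3 := ha.null G hG
  rw [h1, h2, h3, h0, zero_add, add_zero]

theorem sv_thick [IsLocalRing R] {x : List R} (hR : RegL R x) {φ : R →+* S} (Λ : Len S)
    {N : Type u} [AddCommGroup N] [Module S N] {Q : Ideal R}
    (hQ : (maximalIdeal R).map φ ≤ (Q.map φ).radical)
    (h : ((((Cx.pt R).kosL x).map φ).on N).h Λ ≠ ⊤) : Thick Λ N (Q.map φ) := by
  rw [Cx.map_kosL, Cx.map_pt] at h
  refine thick_of_kosL Λ _ _ (fun z hz => ?_) h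
  obtain ⟨a, ha, rfl⟩ := List.mem_map.1 hz
  exact Ideal.radical_mono le_sup_left
    (hQ (Ideal.mem_map_of_mem _ (hR.span ▸ Ideal.subset_span ha)))

theorem sv_unit [IsLocalRing R] {p l : ℕ} (hp : p.Prime) (hpR : (p : R) ∈ maximalIdeal R)
    (hl : l.Prime) (hlt : p < l) : IsUnit (l : R) := by
  by_contra hn
  have h1 : IsCoprime (p : R) (l : R) :=
    Nat.Coprime.cast ((Nat.coprime_primes hp hl).2 hlt.ne)
  obtain ⟨a, b, e⟩ := h1
  exact (maximalIdeal.isMaximal R).ne_top ((Ideal.eq_top_iff_one _).2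
    (e ▸ Ideal.add_mem _ (Ideal.mul_mem_left _ _ hpR) (Ideal.mul_mem_left _ _ hn)))

/-- the Adams operation computed in two ways. -/
theorem sv_side [IsLocalRing R] {x : List R} (hR : RegL R x) (Q : Ideal R) [Q.IsPrime] {l : ℕ}
    (hp : (l + 1).Prime) (hev : Even l) (hl : IsUnit ((l + 1 : ℕ) : R)) (φ : R →+* S) (Λ : Len S)
    {F : Cx R} (hF : Q ≤ F.Null.radical) {Φ : Flag (F.map φ)} {s : Type} [Fintype s]
    [DecidableEq s] {P : s → Ideal S} (I : Φ.In P) {lat : (s → ℕ) → Ideal S}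
    (hs : Sat (N := S) P lat) (hc : IsSMulRegular S Φ.c)
    (hfin : ∀ γ π, Λ.rel (lat (γ + I.ex (π, false))) (lat (γ + I.ex (π, true))) ≠ ⊤)
    (hth : Thick Λ (lat (0 + (l + 1) • I.one)) (Q.map φ))
    (heq : ∀ F' : Cx R, Q ≤ F'.Null.radical →
      ((F'.map φ).on (lat (0 + (l + 1) • I.one))).chi Λ = ((F'.map φ).on S).chi Λ)
    (hv : ∀ Q' : Ideal R, Q'.IsPrime → Q < Q' → ∀ F' : Cx R, Q' ≤ F'.Null.radical →
      ((F'.map φ).on S).chi Λ = 0) :
    ((l + 1 : ℕ) : ℝ) ^ (x.length - dimNat (R ⧸ Q)) * ((F.map φ).on S).chi Λ =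
      ∑ π, (-1 : ℝ) ^ Φ.dg π * (Λ.rel (lat (0 + (l + 1) • I.ex (π, false)))
        (lat (0 + (l + 1) • I.ex (π, true)))).toReal := by
  have h1 := psi_eq_of_pure hR Q hp hl φ Λ _ hth (fun Q' h1 h2 F' h3 => by
    have h4 : Q' ≤ F'.Null.radical := h3.le_Null_quot.trans Ideal.le_radical
    rw [heq F' (h2.le.trans h4), hv Q' h1 h2 F' h4]) F hF
  have h2 := I.psi_eq hs hc Λ hfin hp hev (by simpa using hl.map φ) 0
  have h0 : (l : ℝ) ≠ 0 := by
    have := hp.two_le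
    exact Nat.cast_ne_zero.2 (by omega)
  rw [h1, heq F hF, mul_assoc] at h2
  exact mul_left_cancel₀ h0 h2

variable [IsLocalRing R] [IsLocalRing S] {ψ : R →+* S}

theorem sv_local (hψ : ψ.Finite) : IsLocalHom ψ := by
  have h := Ideal.isMaximal_comap_of_isIntegral_of_isMaximal' ψ hψ.to_isIntegral (maximalIdeal S)
  refine ⟨fun a ha => ?_⟩
  by_contra hn
  have : a ∈ (maximalIdeal S).comap ψ := by
    rw [eq_maximalIdeal h]
    exact hn
  exact this ha

theorem sv_rad (hψ : ψ.Finite) {Q : Ideal R}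
    (hQ : maximalIdeal R ≤ (Q ⊔ RingHom.ker ψ).radical) : maximalIdeal S ≤ (Q.map ψ).radical := by
  rw [Ideal.radical_eq_sInf]
  refine le_sInf fun J hJ => ?_
  have := hJ.2
  have h1 : maximalIdeal R ≤ J.comap ψ := hQ.trans (Ideal.IsPrime.radical_le_iff inferInstance |>.2
    (sup_le (Ideal.map_le_iff_le_comap.1 hJ.1) (Ideal.ker_le_comap ψ)))
  have h2 : (J.comap ψ).IsMaximal := by
    rw [← (maximalIdeal.isMaximal R).eq_of_le (Ideal.IsPrime.ne_top inferInstance) h1]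
    infer_instance
  exact (eq_maximalIdeal
    (Ideal.isMaximal_of_isIntegral_of_isMaximal_comap' ψ hψ.to_isIntegral J h2)).ge

theorem sv_van {n : ℕ} (hvan : VanLt R n) (hψ : ψ.Finite)
    (hres : ∀ t : S, ∃ a, t - ψ a ∈ maximalIdeal S) {a b : Ideal R}
    (hab : maximalIdeal R ≤ (a ⊔ b).radical) (hd : dimNat (R ⧸ a) + dimNat (R ⧸ b) < n)
    {F : Cx R} (hF : a ≤ F.Null.radical) (M : Type u) [AddCommGroup M] [Module S M]
    [Module.Finite S M] (hb : ∀ r ∈ b, ψ r ∈ (Module.annihilator S M).radical) :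
    ((F.map ψ).on M).chi (Len.len S) = 0 := by
  have := sv_local hψ
  have hfin : Module.Finite R (Res ψ M) := by
    let _ := ψ.toAlgebra
    have : Module.Finite R S := hψ
    let _ : Module R M := Module.compHom M ψ
    have : IsScalarTower R S M := ⟨fun r t m => mul_smul (ψ r) t m⟩
    exact Module.Finite.trans S M
  rw [← hvan a b hab hd F hF (Res ψ M) fun r hr => ?_, ← Len.len_res ψ hres]
  · exact DG.chi_congr _ fun i =>
      Cx.hl_map (Len.len R) ψ F (N := Res ψ M) (L := M) (AddEquiv.refl _) (fun _ _ => rfl) i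
  · obtain ⟨k, hk⟩ := hb r hr
    refine ⟨k, Module.mem_annihilator.2 fun m => ?_⟩
    rw [← map_pow] at hk
    exact Module.mem_annihilator.1 hk m

end Aux

theorem sv_limit {D C : ℝ} {p : ℕ} (h : ∀ l : ℕ, (l + 1).Prime → Even l → p < l + 1 →
    ((l + 1 : ℕ) : ℝ) * |D| ≤ C) : D = 0 := by
  by_contra hD
  obtain ⟨N, hN⟩ := exists_nat_gt (C / |D|)
  obtain ⟨q, hq, hp⟩ := Nat.exists_infinite_primes (N + p + 3)
  obtain ⟨l, rfl⟩ : ∃ l, q = l + 1 := ⟨q - 1, by omega⟩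
  have h1 := h l hp (by
    have := hp.odd_of_ne_two (by omega)
    exact Nat.not_odd_iff_even.1 (Nat.odd_add_one.1 this)) (by omega)
  rw [div_lt_iff₀ (abs_pos.2 hD)] at hN
  have h2 : (N : ℝ) ≤ (l + 1 : ℕ) := Nat.cast_le.2 (by omega)
  nlinarith [abs_nonneg D]

theorem TopData.sv_thickB {p : ℕ} {A T B : Type u} [CommRing A] [IsLocalRing A] [CommRing T]
    [IsLocalRing T] [Algebra A T] [CommRing B] [Algebra A B] {z : List A} {ϖ : A} {D : EtData A T}
    {Λ : Len B} {σ : Fin D.P.natDegree → T →ₐ[A] B} (h : TopData p z ϖ D Λ σ) {J : Ideal B}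
    (hJ : (maximalIdeal A).map (algebraMap A B) ≤ J.radical) : Thick Λ B J := by
  have := h.flat
  refine thick_of_kosL Λ J (z.map (algebraMap A B)) (fun w hw => ?_) ?_
  · obtain ⟨a, ha, rfl⟩ := List.mem_map.1 hw
    exact Ideal.radical_mono le_sup_left
      (hJ (Ideal.mem_map_of_mem _ (h.reg.span ▸ Ideal.subset_span ha)))
  · rw [DG.h_congr Λ (Cx.hl_kosL_of_reg Λ _ (h.reg.reg.of_flat (S := B))), Cx.h_pt,
      ← Ideal.map_ofList, h.reg.span, Λ.congr (Submodule.quotEquivOfEq _ _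
        ((Ideal.smul_eq_mul _ _).trans (Ideal.mul_top _))), h.one]
    exact ENNReal.one_ne_top

theorem TopData.chi_eq_sum {p : ℕ} {A T B : Type u} [CommRing A] [IsLocalRing A] [CommRing T]
    [IsLocalRing T] [Algebra A T] [CommRing B] [Algebra A B] {z : List A} {ϖ : A} {D : EtData A T}
    {Λ : Len B} {σ : Fin D.P.natDegree → T →ₐ[A] B} (hp : p.Prime) (h : TopData p z ϖ D Λ σ)
    {R : Type u} [CommRing R] [IsLocalRing R] {x : List R} (hR : RegL R x)
    (hvan : VanLt R x.length) (hpR : (p : R) ∈ maximalIdeal R) (ψ : R →+* T) (hψ : ψ.Finite)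
    (hres : ∀ t : T, ∃ a, t - ψ a ∈ maximalIdeal T) (Q : Ideal R) [Q.IsPrime]
    (hQ : maximalIdeal R ≤ (Q ⊔ RingHom.ker ψ).radical) (hQ0 : 0 < dimNat (R ⧸ Q))
    (hd : dimNat (R ⧸ Q) + z.length = x.length)
    (hB : ∀ i, ∀ Q' : Ideal R, Q'.IsPrime → Q < Q' → ∀ F : Cx R, Q' ≤ F.Null.radical →
      ((F.map ((σ i : T →+* B).comp ψ)).on B).chi Λ = 0)
    (hS : ∀ (i) (s : Type) [Fintype s] [DecidableEq s] (P : s → Ideal T), (∀ j, (P j).FG) →
      (∀ j, algebraMap A T ϖ ∈ (P j).radical) → ∃ (b : ℕ) (N : (s → ℕ) → Ideal B),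
        SysB p (fun j => (P j).map (σ i)) (algebraMap A B ϖ) b N ∧ ∀ β,
          ((((Cx.pt R).kosL x).map ((σ i : T →+* B).comp ψ)).on (B ⧸ N β)).h Λ ≠ ⊤ →
          ∀ F : Cx R, Q ≤ F.Null.radical →
            ((F.map ((σ i : T →+* B).comp ψ)).on (B ⧸ N β)).chi Λ = 0)
    (F : Cx R) (hF : Q ≤ F.Null.radical) :
    ((F.map ψ).on T).chi (Len.len T) = ∑ i, ((F.map ((σ i : T →+* B).comp ψ)).on B).chi Λ := by
  have := hR.noeth
  have := h.noeth
  have := h.dom
  have := h.isLocalHom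
  have := h.reg.isDomain
  have hloc := sv_local hψ
  have hQm : Q < maximalIdeal R := lt_of_le_of_ne (le_maximalIdeal Ideal.IsPrime.ne_top')
    fun e => hQ0.ne' (dimNat_quot_eq_zero_iff.2 e)
  have hK : maximalIdeal R ≤ ((Cx.pt R).kosL x).Null.radical :=
    hR.span.ge.trans (le_sup_right.trans (((Cx.pt R).le_Null_kosL x).trans Ideal.le_radical))
  have hF1 : Q ≤ (((Cx.pt R).kosL x).sum F).Null.radical := by
    rw [Cx.Null_sum, Ideal.radical_inf]
    exact le_inf (hQm.le.trans hK) hF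
  have hrad : maximalIdeal T ≤ (Q.map ψ).radical := sv_rad hψ hQ
  have hϖ : algebraMap A T ϖ ≠ 0 := fun e => h.ϖ_ne (h.inj (e.trans (map_zero _).symm))
  have hqm : (maximalIdeal A).map (algebraMap A T) ≤ maximalIdeal T :=
    map_maximalIdeal_le _
  have hϖq : algebraMap A T ϖ ∈ (maximalIdeal A).map (algebraMap A T) :=
    Ideal.mem_map_of_mem _ h.ϖ_mem
  have hnull : ∀ G : Cx R, Q ≤ G.Null.radical → maximalIdeal T ≤ (G.map ψ).Null.radical :=
    fun G hG => hrad.trans (Ideal.radical_le_radical_iff.2 (sv_supp ψ hG))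
  obtain ⟨m, dg, Φ, s, _, _, P, I, j₀, C, hj₀, hc, hP⟩ :=
    exists_flag_family ψ _ hϖ (hnull _ hF1 (hqm hϖq)) (Ideal.le_radical hϖq)
  have hF2 : Q ≤ ((((Cx.pt R).kosL x).sum F).sum (Cx.triv R (Fin m) dg)).Null.radical := by
    rw [Cx.Null_sum, Cx.Null_triv, inf_top_eq]
    exact hF1
  let F₂ := (((Cx.pt R).kosL x).sum F).sum (Cx.triv R (Fin m) dg)
  have hF₂ : F₂ = (((Cx.pt R).kosL x).sum F).sum (Cx.triv R (Fin m) dg) := rfl
  choose bi N hN hN' using fun i => hS i s P (fun j => IsNoetherian.noetherian _) hP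
  obtain ⟨b₀, hb₀⟩ := exists_sat P fun j e => hϖ (by
    obtain ⟨k, hk⟩ := hP j
    rw [e] at hk
    exact eq_zero_of_pow_eq_zero hk)
  set b := max b₀ (Finset.univ.sup bi) with hb
  have hNb := fun i => (hN i).mono (b' := b)
    (le_max_of_le_right (Finset.le_sup (Finset.mem_univ i)))
  have hsT := hb₀ b (le_max_left _ _)
  obtain ⟨κ, hκ⟩ := Ideal.exists_pow_le_of_le_radical_of_fg (hqm.trans (hnull F₂ hF2))
    (IsNoetherian.noetherian _)
  have hcT : IsSMulRegular T Φ.c := fun y y' e =>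
    mul_left_cancel₀ (hc ▸ pow_ne_zero C hϖ) e
  have hcB : ∀ i, IsSMulRegular B (Φ.map (σ i : T →+* B)).c := fun i y y' e => by
    refine sub_eq_zero.1 (h.reg_of_ne (pow_ne_zero C h.ϖ_ne) _ ?_)
    have e' : σ i Φ.c * y = σ i Φ.c * y' := e
    rw [hc, ← map_pow, AlgHom.commutes] at e'
    rw [mul_sub, e', sub_self]
  have hmB : ∀ i, ((maximalIdeal A).map (algebraMap A T)).map (σ i : T →+* B) =
      (maximalIdeal A).map (algebraMap A B) := fun i => by
    rw [Ideal.map_map, AlgHom.comp_algebraMap]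
  have hκB : ∀ i, (maximalIdeal A).map (algebraMap A B) ^ κ ≤
      ((F₂.map ψ).map (σ i : T →+* B)).Null := fun i => by
    rw [← hmB i, ← Ideal.map_pow]
    exact (Ideal.map_mono hκ).trans (Cx.map_Null_le _ _)
  have hdim : dimNat (R ⧸ RingHom.ker ψ) = z.length :=
    (dimNat_eq_of_finite ψ hψ).trans h.dimNat_eq
  have hvT : ∀ a : Ideal R, Q < a → a ≠ ⊤ → ∀ G : Cx R, a ≤ G.Null.radical →
      ((G.map ψ).on T).chi (Len.len T) = 0 := fun a h1 h2 G hG =>
    sv_van hvan hψ hres (hQ.trans (Ideal.radical_mono (sup_le_sup_right h1.le _)))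
      (by have := dimNat_quot_lt h1 h2; omega) hG T fun r hr => by
        rw [(RingHom.mem_ker).1 hr]
        exact Ideal.zero_mem _
  have hquot : ∀ J : Ideal T, algebraMap A T ϖ ∈ J.radical → ∀ G : Cx R, Q ≤ G.Null.radical →
      ((G.map ψ).on (T ⧸ J)).chi (Len.len T) = 0 := by
    intro J hJ G hG
    have hlt : RingHom.ker ψ < (Ideal.span {algebraMap A T ϖ}).comap ψ := by
      let _ := ψ.toAlgebra
      exact Ideal.comap_lt_comap_of_integral_mem_sdiff (I := ⊥) bot_le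
        ⟨Ideal.mem_span_singleton_self _, hϖ⟩ (hψ.to_isIntegral _)
    have := RingHom.ker_isPrime ψ
    have h1 := dimNat_quot_lt hlt (Ideal.comap_ne_top _ fun e =>
      (maximalIdeal.isMaximal T).ne_top (top_le_iff.1 (e.ge.trans
        ((Ideal.span_singleton_le_iff_mem _).2 (hqm hϖq)))))
    refine sv_van hvan hψ hres (hQ.trans (Ideal.radical_mono (sup_le_sup_left hlt.le _)))
      (by omega) hG _ fun r hr => ?_
    rw [Ideal.annihilator_quotient]
    exact (Ideal.span_singleton_le_iff_mem _).2 hJ hr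
  have hthT : ∀ (M : Type u) [AddCommGroup M] [Module T M] [Module.Finite T M],
      Thick (Len.len T) M (Q.map ψ) := fun M _ _ _ =>
    thick_of_finite M _ (hrad.trans (Ideal.radical_mono le_sup_left))
  have hradB : ∀ i, (maximalIdeal T).map (σ i : T →+* B) ≤
      (Q.map ((σ i : T →+* B).comp ψ)).radical := fun i => by
    rw [← Ideal.map_map]
    exact (Ideal.map_mono hrad).trans (Ideal.map_radical_le _)
  have hthB : ∀ i, Thick Λ B (Q.map ((σ i : T →+* B).comp ψ)) := fun i =>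
    h.sv_thickB ((hmB i).ge.trans ((Ideal.map_mono hqm).trans (hradB i)))
  have hmR : ∀ i, (maximalIdeal R).map ((σ i : T →+* B).comp ψ) ≤
      (Q.map ((σ i : T →+* B).comp ψ)).radical := fun i => by
    rw [← Ideal.map_map]
    exact (Ideal.map_mono (map_maximalIdeal_le ψ)).trans (hradB i)
  obtain ⟨C₀, hC₀⟩ := Vale.Agent.P177.exists_rel_le P (hj₀ ▸ h.max_le)
  have hfT : ∀ γ π, (Len.len T).rel (mpow P ((fun _ => b) + (γ + I.ex (π, false))))
      (mpow P ((fun _ => b) + (γ + I.ex (π, true)))) ≠ ⊤ := fun γ π =>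
    ne_top_of_le_ne_top (ENNReal.natCast_ne_top _) (((Len.len T).rel_mono le_rfl
      (Ideal.mul_le.2 fun a ha y hy => I.smul_mem hsT hcT γ π (hκ (hj₀ ▸ ha)) y hy)).trans
        (hC₀ _ κ))
  have hfB : ∀ i γ π, Λ.rel (N i ((fun _ => b) + (γ + I.ex (π, false))))
      (N i ((fun _ => b) + (γ + I.ex (π, true)))) ≠ ⊤ := fun i γ π => by
    obtain ⟨C₁, hC₁⟩ := TopData.exists_rel_le hp h P hP j₀ hj₀ i (hNb i)
    exact ne_top_of_le_ne_top (ENNReal.natCast_ne_top _) ((Λ.rel_mono le_rfl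
      (Ideal.mul_le.2 fun a ha y hy => (I.map (σ i : T →+* B)).smul_mem (hNb i).toSat (hcB i) γ π
        (hκB i ha) y hy)).trans (hC₁ _ κ))
  obtain ⟨C₂, hC₂⟩ := h.exists_abs_le hp P hP j₀ hj₀ hNb
  rw [← sub_eq_zero]
  refine sv_limit (p := p) (C := ∑ π, C₂ * ((∑ j, I.ex (π, false) j + κ + 2 : ℕ) : ℝ) ^ z.length)
    fun l hl hev hlt => ?_
  have hu := sv_unit hp hpR hl hlt
  have hn : x.length - dimNat (R ⧸ Q) = z.length := by omega
  have eT := sv_side hR Q hl hev hu ψ (Len.len T) hF2 I hsT hcT hfT (hthT _) (fun G hG => by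
    obtain ⟨L, hL⟩ := top_pow_mem P hP ((fun _ => b) + (0 + (l + 1) • I.one))
    exact sv_ideal _ _ (sv_fin (hthT _) hG) (sv_fin (hthT _) hG) (hquot _ ⟨L, hL⟩ G hG))
    fun Q' h1 h2 => hvT Q' h2 h1.ne_top
  rw [sv_remove (hthT T) (hQm.le.trans hK) hF (Cx.Null_triv _ _)
    (hvT _ hQm (maximalIdeal.isMaximal R).ne_top _ hK), hn] at eT
  have eB : ∀ i, ((l + 1 : ℕ) : ℝ) ^ z.length * ((F.map ((σ i : T →+* B).comp ψ)).on B).chi Λ =
      ∑ π, (-1 : ℝ) ^ Φ.dg π * (Λ.rel (N i ((fun _ => b) + (0 + (l + 1) • I.ex (π, false))))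
        (N i ((fun _ => b) + (0 + (l + 1) • I.ex (π, true))))).toReal := by
    intro i
    have h1 := (I.map (σ i : T →+* B)).h_ne_top (hNb i).toSat (hcB i) Λ (hfB i) (l • I.one)
    have h2 : ((F₂.map ((σ i : T →+* B).comp ψ)).on
        (N i ((fun _ => b) + (0 + (l + 1) • I.one)))).h Λ ≠ ⊤ := by
      rw [zero_add, succ_nsmul]
      exact h1
    rw [hF₂, Cx.map_sum, Cx.map_sum, Cx.h_sum, Cx.h_sum] at h2
    have h3 := (ENNReal.add_ne_top.1 (ENNReal.add_ne_top.1 h2).1).1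
    have h4 := ne_top_of_le_ne_top (ENNReal.add_ne_top.2 ⟨h3, sv_fin (hthB i) (hQm.le.trans hK)⟩)
      (Cx.h_on_right_le Λ _ _ _ (Submodule.injective_subtype _) (LinearMap.exact_subtype_mkQ _)
        (Submodule.mkQ_surjective _))
    have h5 := sv_thick hR Λ (hmR i) h3
    have h6 := sv_side hR Q hl hev hu ((σ i : T →+* B).comp ψ) Λ hF2 (I.map (σ i : T →+* B))
      (hNb i).toSat (hcB i) (hfB i) h5 (fun G hG => sv_ideal _ _ (sv_fin h5 hG)
        (sv_fin (sv_thick hR Λ (hmR i) h4) hG) (hN' i _ h4 G hG)) (hB i)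
    rwa [sv_remove (hthB i) (hQm.le.trans hK) hF (Cx.Null_triv _ _)
      (hB i _ inferInstance hQm _ hK), hn] at h6
  have hpos : (0 : ℝ) < ((l + 1 : ℕ) : ℝ) ^ z.length := by positivity
  refine le_of_mul_le_mul_left ?_ hpos
  rw [mul_left_comm, ← abs_of_pos hpos, ← abs_mul, abs_of_pos hpos, mul_sub, eT, Finset.mul_sum,
    Finset.sum_congr rfl fun i _ => eB i, Finset.sum_comm, ← Finset.sum_sub_distrib,
    Finset.mul_sum]
  refine (mul_le_mul_of_nonneg_left (Finset.abs_sum_le_sum_abs _ _) (Nat.cast_nonneg _)).trans ?_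
  rw [Finset.mul_sum]
  refine Finset.sum_le_sum fun π _ => ?_
  rw [← Finset.mul_sum, ← mul_sub, abs_mul, abs_pow, abs_neg, abs_one, one_pow, one_mul]
  refine (hC₂ _ _ (κ * (l + 1)) (l + 1) (I.lat_le_smul hsT hcT 0 π _) ?_
    (fun i => (I.map (σ i : T →+* B)).lat_le_smul (hNb i).toSat (hcB i) 0 π _) fun i => ?_).trans ?_
  · rw [pow_mul, hj₀]
    exact I.pow_smul_le hsT hcT 0 π _ hκ
  · rw [pow_mul]
    exact (I.map (σ i : T →+* B)).pow_smul_le (hNb i).toSat (hcB i) 0 π _ (hκB i)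
  · rw [mul_left_comm, ← mul_pow]
    refine mul_le_mul_of_nonneg_left (pow_le_pow_left₀ (Nat.cast_nonneg _) ?_ _) (Nat.cast_nonneg _)
    rw [← Nat.cast_mul, Nat.cast_le]
    simp only [zero_add, Pi.smul_apply, smul_eq_mul, ← Finset.mul_sum]
    nlinarith

end Vale.Agent.P177
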