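import Vale.Agent.P177.Cx2
import Vale.Agent.P177.ResAux

/-! Comparison with the derived functor of the tensor product. -/

namespace Vale.Agent.P177

open scoped ENNReal
open CategoryTheory

universe u

section
variable {R : Type u} [CommRing R]

/-- the differential between homogeneous components. -/
def Tor_d (X : DG R) (i j : ℕ) : LinearMap.range (X.pr i) →ₗ[R] LinearMap.range (X.pr j) :=
  (X.pr j).rangeRestrict ∘ₗ X.d ∘ₗ (LinearMap.range (X.pr i)).subtype

theorem Tor_d_pr (X : DG R) (i j : ℕ) (x : X.M) :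
    X.pr j (X.d (X.pr i x)) = if j + 1 = i then X.pr j (X.d x) else 0 := by
  cases i with
  | zero => rw [X.d_zero, map_zero, if_neg j.succ_ne_zero]
  | succ i => simp only [X.d_succ, X.pr_pr, Nat.add_right_cancel_iff]

/-- the chain complex of homogeneous components. -/
def Tor_cx (X : DG R) : ChainComplex (ModuleCat.{u} R) ℕ where
  X i := ModuleCat.of R (LinearMap.range (X.pr i))
  d i j := ModuleCat.ofHom (Tor_d X i j)
  shape i j h := ModuleCat.hom_ext (LinearMap.ext fun ⟨_, x, rfl⟩ => Subtype.ext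
    ((Tor_d_pr X i j x).trans (if_neg h)))
  d_comp_d' i j k _ _ := ModuleCat.hom_ext (LinearMap.ext fun x => Subtype.ext
    ((Tor_d_pr X j k (X.d x.1)).trans (by rw [X.dd, map_zero, ite_self]; rfl)))

theorem Tor_cyc (X : DG R) (i : ℕ) {x : X.M} (h : X.pr i x = x)
    (h0 : X.pr (i - 1) (X.d x) = 0) : X.d x = 0 := by
  rw [← h]
  cases i with
  | zero => exact X.d_zero x
  | succ i => exact (X.d_succ i x).trans h0

theorem Tor_lift (X : DG R) (i : ℕ) (x : LinearMap.range (X.pr i))
    (h : x.1 ∈ LinearMap.range X.d) : ∃ y, Tor_d X (i + 1) i y = x := by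
  obtain ⟨y, hy⟩ := h
  refine ⟨(X.pr (i + 1)).rangeRestrict y, Subtype.ext ((Tor_d_pr X _ i y).trans ?_)⟩
  rw [if_pos rfl, hy]
  exact DG.mem_range_pr.1 x.2

/-- the projective resolution attached to an augmented complex. -/
noncomputable def Tor_res (X : DG R) {N : Type u} [AddCommGroup N] [Module R N] (ε : X.M →ₗ[R] N)
    (hp : Module.Projective R X.M) (h1 : Function.Surjective ε) (h2 : ∀ x, ε (X.pr 0 x) = ε x)
    (h3 : ∀ x, ε (X.d x) = 0) (h4 : ∀ x, X.d x = 0 → ε x = 0 → x ∈ LinearMap.range X.d) :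
    ProjectiveResolution (ModuleCat.of R N) where
  complex := Tor_cx X
  projective i := by
    have : Module.Projective R (LinearMap.range (X.pr i)) :=
      Module.Projective.of_split (LinearMap.range (X.pr i)).subtype (X.pr i).rangeRestrict
        (LinearMap.ext fun x => Subtype.ext (DG.mem_range_pr.1 x.2))
    exact inferInstanceAs (Projective (ModuleCat.of R (LinearMap.range (X.pr i))))
  π := (ChainComplex.toSingle₀Equiv _ _).symm
    ⟨ModuleCat.ofHom (ε ∘ₗ (LinearMap.range (X.pr 0)).subtype),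
      ModuleCat.hom_ext (LinearMap.ext fun _ => (h2 _).trans (h3 _))⟩
  quasiIso := ⟨fun n => by
    cases n with
    | zero =>
      rw [ChainComplex.quasiIsoAt₀_iff, ShortComplex.quasiIso_iff_of_zeros' _
        ((Tor_cx X).shape 0 0 (by simp)) rfl rfl]
      let S : ShortComplex (ModuleCat.{u} R) := ShortComplex.moduleCatMk (Tor_d X 1 0)
        (ε ∘ₗ (LinearMap.range (X.pr 0)).subtype) (LinearMap.ext fun _ => (h2 _).trans (h3 _))
      refine (ShortComplex.exact_and_epi_g_iff_of_iso (S₂ := S) ?_).2 ⟨?_, ?_⟩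
      · exact ShortComplex.isoMk (Iso.refl _) (Iso.refl _) (Iso.refl _)
          ((Category.id_comp _).trans (Category.comp_id _).symm)
          ((Category.id_comp _).trans ((Category.comp_id _).trans
            (ChainComplex.toSingle₀Equiv_symm_apply_f_zero (C := Tor_cx X) (X := ModuleCat.of R N)
              (ModuleCat.ofHom (ε ∘ₗ (LinearMap.range (X.pr 0)).subtype)) _)).symm)
      · refine S.moduleCat_exact_iff.2 fun x hx => Tor_lift X 0 x (h4 _ ?_ hx)
        exact (congrArg X.d (DG.mem_range_pr.1 x.2).symm).trans (X.d_zero _)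
      · refine (ModuleCat.epi_iff_surjective _).2 fun y => ?_
        obtain ⟨x, rfl⟩ := h1 y
        exact ⟨(X.pr 0).rangeRestrict x, h2 x⟩
    | succ n =>
      rw [quasiIsoAt_iff_exactAt' _ _ (ChainComplex.exactAt_succ_single_obj _ n),
        HomologicalComplex.exactAt_iff' _ (n + 2) (n + 1) n (by simp) (by simp)]
      refine (ShortComplex.moduleCat_exact_iff _).2 fun x hx => Tor_lift X (n + 1) x (h4 _ ?_ ?_)
      · exact Tor_cyc X (n + 1) (DG.mem_range_pr.1 x.2) (congrArg Subtype.val hx)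
      · rw [← DG.mem_range_pr.1 x.2, ← h2, X.pr_pr, if_neg n.succ_ne_zero.symm, map_zero]⟩

theorem Tor_hl (Λ : Len R) {M : Type u} [AddCommGroup M] [Module R M] {X X' : DG R}
    (E : ResAux_BC M X X') (i : ℕ) :
    Λ.rel (LinearMap.ker ((Tor_d X i (i - 1)).lTensor M))
      (LinearMap.range ((Tor_d X (i + 1) i).lTensor M)) = X'.hl Λ i := by
  let θ : ∀ j, TensorProduct R M (LinearMap.range (X.pr j)) →ₗ[R] X'.M := fun j =>
    E.e.toLinearMap ∘ₗ (LinearMap.range (X.pr j)).subtype.lTensor M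
  have hθ : ∀ j t, θ j t = E.e ((LinearMap.range (X.pr j)).subtype.lTensor M t) := fun _ _ => rfl
  have h1 : ∀ j, Function.Injective (θ j) := fun j => E.e.injective.comp
    (Function.LeftInverse.injective (g := (X.pr j).rangeRestrict.lTensor M) fun t => by
      rw [← LinearMap.lTensor_comp_apply, show (X.pr j).rangeRestrict ∘ₗ
        (LinearMap.range (X.pr j)).subtype = LinearMap.id from
          LinearMap.ext fun x => Subtype.ext (DG.mem_range_pr.1 x.2), LinearMap.lTensor_id,
        LinearMap.id_apply])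
  have h2 : ∀ j y, ∃ t, θ j t = X'.pr j y := fun j y => by
    obtain ⟨t, rfl⟩ := E.e.surjective y
    refine ⟨(X.pr j).rangeRestrict.lTensor M t, ?_⟩
    rw [hθ, ← LinearMap.lTensor_comp_apply, ← E.pr]
    rfl
  have h3 : ∀ j k t, θ k ((Tor_d X j k).lTensor M t) = X'.pr k (X'.d (θ j t)) := fun j k t => by
    rw [hθ, hθ, ← E.d, ← E.pr, ← LinearMap.lTensor_comp_apply, ← LinearMap.lTensor_comp_apply,
      ← LinearMap.lTensor_comp_apply]
    rfl
  have h4 : ∀ j t, X'.pr j (θ j t) = θ j t := fun j t => by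
    rw [hθ, ← E.pr, ← LinearMap.lTensor_comp_apply, show X.pr j ∘ₗ
      (LinearMap.range (X.pr j)).subtype = (LinearMap.range (X.pr j)).subtype from
        LinearMap.ext fun x => DG.mem_range_pr.1 x.2]
  rw [DG.hl_eq]
  refine DGAux_eq Λ (θ i) (fun t ht => DG.mem_Z.2 ⟨Tor_cyc X' i (h4 i t) ?_, h4 i t⟩)
    (fun y hy => ?_) fun t _ => ⟨?_, ?_⟩
  · rw [← h3, LinearMap.mem_ker.1 ht, map_zero]
  · obtain ⟨t, ht⟩ := h2 i y
    rw [(DG.mem_Z.1 hy).2] at ht
    refine ⟨t, h1 _ ?_, by rw [ht, sub_self]; exact zero_mem _⟩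
    rw [h3, ht, (DG.mem_Z.1 hy).1, map_zero, map_zero]
  · rintro ⟨y, hy⟩
    obtain ⟨s, hs⟩ := h2 (i + 1) y
    refine ⟨s, h1 _ ?_⟩
    rw [h3, hs, Tor_d_pr, if_pos rfl, hy, h4]
  · rintro ⟨s, rfl⟩
    rw [h3]
    exact DG.pr_mem_range ⟨_, rfl⟩ i

end

theorem length_Tor_eq {R : Type u} [CommRing R] (M N : Type u) [AddCommGroup M] [Module R M]
    [AddCommGroup N] [Module R N] (F : Cx R) (hF : F.IsRes N) (i : ℕ) :
    (Module.length R (((Tor (ModuleCat.{u} R) i).obj (ModuleCat.of R M)).obj (ModuleCat.of R N)) :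
      ℝ≥0∞) = (F.on M).hl (Len.len R) i := by
  obtain ⟨ε, h1, h2, h3, h4⟩ := hF
  let P := Tor_res (F.on R) ε (inferInstanceAs (Module.Projective R (F.ι → R))) h1 h2 h3 h4
  let K := (((MonoidalCategory.tensoringLeft (ModuleCat.{u} R)).obj
    (ModuleCat.of R M)).mapHomologicalComplex _).obj (Tor_cx (F.on R))
  have e := (P.isoLeftDerivedObj ((MonoidalCategory.tensoringLeft (ModuleCat.{u} R)).obj
    (ModuleCat.of R M)) i) ≪≫ K.homologyIsoSc' (i + 1) i (i - 1) (ChainComplex.prev ℕ i)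
      (by cases i <;> simp) ≪≫ (K.sc' (i + 1) i (i - 1)).moduleCatHomologyIso
  refine Eq.trans ((Len.len R).congr e.toLinearEquiv) (Eq.trans ?_ (Tor_hl (Len.len R)
    (ResAux_on (L := M) F (TensorProduct.AlgebraTensorModule.rid R R M)) i))
  rw [Len.rel_eq_quot]
  exact (Len.len R).congr (Submodule.quotEquivOfEq _ _ (LinearMap.range_codRestrict _ _ _))

end Vale.Agent.P177
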