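import Vale.Agent.P177.PlusBasic
import Vale.Agent.P177.Len2

/-! Almost flatness of the absolute integral closure. -/

namespace Vale.Agent.P177

open scoped ENNReal
open IsLocalRing Vale.Agent.P202

universe u

variable {p : ℕ} [Fact p.Prime] {k : Type u} [Field k] [CharP k p] [PerfectRing k p] {D : ℕ}
  {E : Type u} [CommRing E] [CharP E p] [PerfectRing E p] [Algebra (PS k D) E]

theorem PlusAF_frob_colon (I : Ideal (PS k D)) {a : PS k D} (ha : ∀ y, a * y ∈ I → y ∈ I) (e : ℕ)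
    {n : ℕ} (g γ : Fin n → PS k D) (hg : ∀ i, g i ∈ I) {β : PS k D}
    (h : a ^ p ^ e * β = ∑ i, g i ^ p ^ e * γ i) :
    ∃ c : (Fin D → Fin (p ^ e)) → PS k D, (∀ α, c α ∈ I) ∧
      ∑ α, c α ^ p ^ e * MvPowerSeries.monomial (expo α) (1 : k) = β := by
  have := PerfectRing.toPerfectField k p
  obtain ⟨c, hc⟩ := exists_sum_pow_mul p e β
  choose u hu using fun i => exists_sum_pow_mul p e (γ i)
  refine ⟨c, fun α => ha _ ?_, hc⟩
  have h2 := sum_pow_mul_eq_zero p e (fun α => a * c α - ∑ i, g i * u i α) (by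
    simp only [sub_pow_char_pow, sum_pow_char_pow, mul_pow, sub_mul, Finset.sum_sub_distrib,
      Finset.sum_mul, mul_assoc]
    rw [← Finset.mul_sum, hc, h, Finset.sum_comm]
    simp only [← Finset.mul_sum, hu, sub_self]) α
  rw [sub_eq_zero.1 h2]
  exact I.sum_mem fun i _ => I.mul_mem_right _ (hg i)

theorem IsPlus.almost_colon (h : IsPlus (PS k D) E) (I : Ideal (PS k D)) {a : PS k D}
    (ha : ∀ y, a * y ∈ I → y ∈ I) {b : E}
    (hb : algebraMap (PS k D) E a * b ∈ I.map (algebraMap (PS k D) E)) :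
    ∃ Δ : E, Δ ≠ 0 ∧ ∀ e : ℕ, rt p e Δ * b ∈ I.map (algebraMap (PS k D) E) := by
  obtain ⟨n, c, g', hg'⟩ := Submodule.mem_span_set'.1 hb
  choose g hg hgg using fun i => (g' i).2
  have hfin : Module.Finite (PS k D) (Algebra.adjoin (PS k D) (insert b (Set.range c))) :=
    Algebra.finite_adjoin_of_finite_of_isIntegral ((Set.finite_range c).insert b)
      fun x _ => h.int.isIntegral x
  have : IsDomain (PS k D) := NoZeroDivisors.to_isDomain _
  obtain ⟨v, Δ, hv, hΔ, hspan⟩ :=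
    exists_free_part (PS k D) (Algebra.adjoin (PS k D) (insert b (Set.range c)))
  refine ⟨algebraMap _ E Δ, fun h0 => hΔ (h.inj (h0.trans (map_zero _).symm)), fun e => ?_⟩
  let b' : Algebra.adjoin (PS k D) (insert b (Set.range c)) :=
    ⟨b, Algebra.subset_adjoin (Set.mem_insert _ _)⟩
  let c' : Fin n → Algebra.adjoin (PS k D) (insert b (Set.range c)) := fun i =>
    ⟨c i, Algebra.subset_adjoin (Set.mem_insert_of_mem _ ⟨i, rfl⟩)⟩
  have h1 : a • b' = ∑ i, g i • c' i := Subtype.ext (by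
    rw [AddSubmonoidClass.coe_finsetSum]
    change a • b = ∑ i, g i • c i
    rw [Algebra.smul_def, ← hg']
    exact Finset.sum_congr rfl fun i _ => by rw [smul_eq_mul, Algebra.smul_def, hgg, mul_comm])
  have h2 : a ^ p ^ e • b' ^ p ^ e = ∑ i, g i ^ p ^ e • c' i ^ p ^ e := by
    have : ExpChar (Algebra.adjoin (PS k D) (insert b (Set.range c))) p :=
      (Algebra.adjoin (PS k D) (insert b (Set.range c))).val.toRingHom.expChar
        Subtype.val_injective p
    rw [← smul_pow, h1, sum_pow_char_pow]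
    simp only [smul_pow]
  obtain ⟨β, hβ⟩ := (Submodule.mem_span_range_iff_exists_fun _).1 (hspan (b' ^ p ^ e))
  choose γ hγ using fun i => (Submodule.mem_span_range_iff_exists_fun _).1 (hspan (c' i ^ p ^ e))
  have h3 := Fintype.linearIndependent_iff.1 hv
    (fun j => a ^ p ^ e * β j - ∑ i, g i ^ p ^ e * γ i j) (by
      simp only [sub_smul, Finset.sum_sub_distrib, Finset.sum_smul, mul_smul]
      rw [← Finset.smul_sum, hβ, Finset.sum_comm, smul_comm, h2, Finset.smul_sum]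
      simp only [← Finset.smul_sum, hγ, smul_comm Δ, sub_self])
  choose t ht htt using fun j => PlusAF_frob_colon I ha e g (fun i => γ i j) hg
    (sub_eq_zero.1 (h3 j))
  have h4 : rt p e (algebraMap _ E Δ) * b = ∑ j, ∑ α, algebraMap _ E (t j α) *
      rt p e (algebraMap _ E (MvPowerSeries.monomial (expo α) (1 : k)) * v j) := by
    refine w4_pow_p_pow_inj (p := p) e ?_
    have h5 : algebraMap _ E Δ * b ^ p ^ e = ∑ j, algebraMap _ E (β j) * v j := by
      have := congrArg Subtype.val hβ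
      rw [AddSubmonoidClass.coe_finsetSum] at this
      simp only [← Algebra.smul_def]
      exact this.symm
    simp only [mul_pow, rt_pow, sum_pow_char_pow, h5, ← htt, map_sum, map_mul, map_pow,
      Finset.sum_mul, mul_assoc]
  rw [h4]
  exact Ideal.sum_mem _ fun j _ => Ideal.sum_mem _ fun α _ =>
    Ideal.mul_mem_right _ _ (Ideal.mem_map_of_mem _ (ht j α))

variable {Λ : Len E}

omit [CharP k p] [PerfectRing k p] in
theorem PlusAF_fg : (maximalIdeal (PS k D)).FG :=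
  varIdeal_eq_maximalIdeal (K := k) (d := D) ▸ Submodule.fg_span (Set.finite_range _)

theorem PlusAF_anti {R : Type u} [CommRing R] (Λ : Len R) {I J : Ideal R} (h : I ≤ J) :
    Λ.val (R ⧸ J) ≤ Λ.val (R ⧸ I) := by
  rw [← Λ.rel_top, ← Λ.rel_top]
  exact Λ.rel_mono le_rfl h

theorem PlusLen.ne_top (hΛ : PlusLen p D (PS k D) E Λ) {J : Ideal E}
    (hJ : mE (PS k D) E ≤ J.radical) : Λ.val (E ⧸ J) ≠ ⊤ := by
  obtain ⟨n, hn⟩ := Ideal.exists_pow_le_of_le_radical_of_fg hJ (PlusAF_fg.map _)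
  have h1 : (maximalIdeal (PS k D) ^ (n + 1)).map (algebraMap (PS k D) E) ≤ J := by
    rw [Ideal.map_pow]
    exact (Ideal.pow_le_pow_right n.le_succ).trans hn
  refine ne_top_of_le_ne_top ?_ ((PlusAF_anti Λ h1).trans (hΛ.le _ ?_))
  · exact ENat.toENNReal_ne_top.2 (P202.length_quot_ne_top PlusAF_fg (n + 1) _
      (smul_top_ideal _).le)
  · rw [Ideal.radical_pow _ n.succ_ne_zero]
    exact Ideal.le_radical

omit [CharP k p] [PerfectRing k p] [PerfectRing E p] in
theorem PlusAF_frob (hΛ : PlusLen p D (PS k D) E Λ) (e : ℕ) {J : Ideal E}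
    (hJ : mE (PS k D) E ≤ J.radical) :
    Λ.val (E ⧸ J.map (iterateFrobenius E p e)) = ((p : ℝ≥0∞) ^ e) ^ D * Λ.val (E ⧸ J) := by
  induction e with
  | zero => rw [iterateFrobenius_zero, Ideal.map_id, pow_zero, one_pow, one_mul]
  | succ e ih =>
    rw [add_comm, iterateFrobenius_add, iterateFrobenius_one, ← Ideal.map_map, hΛ.frob, ih,
      pow_add, pow_one, mul_pow, mul_assoc]
    intro x hx
    obtain ⟨n, hn⟩ := hJ hx
    exact ⟨n * p ^ e, by rw [pow_mul]; exact Ideal.mem_map_of_mem (iterateFrobenius E p e) hn⟩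

omit [CharP k p] [PerfectRing k p] in
theorem PlusAF_mE {E : Type u} [CommRing E] [Algebra (PS k D) E] : mE (PS k D) E =
    Ideal.span (Set.range fun j => algebraMap (PS k D) E (MvPowerSeries.X j)) := by
  rw [mE, ← varIdeal_eq_maximalIdeal, varIdeal, Ideal.map_span, ← Set.range_comp]
  rfl

theorem PlusLen.small_root (hΛ : PlusLen p D (PS k D) E Λ) (h : IsPlus (PS k D) E) {c : E}
    (hc : c ≠ 0) (N : ℕ) (ε : ℝ≥0∞) (hε : 0 < ε) : ∃ e₀ : ℕ, ∀ e, e₀ ≤ e →
      Λ.val (E ⧸ (Ideal.span {rt p e c} ⊔ mE (PS k D) E ^ N)) ≤ ε := by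
  have := h.dom
  rcases eq_or_ne ε ⊤ with rfl | hε'
  · exact ⟨0, fun _ _ => le_top⟩
  rcases Nat.eq_zero_or_pos N with rfl | hN
  · refine ⟨0, fun e _ => ?_⟩
    rw [pow_zero, Ideal.one_eq_top, sup_top_eq, Λ.zero _ inferInstance]
    exact bot_le
  obtain ⟨a, ha, ha0⟩ := (Submodule.ne_bot_iff _).1 (Ideal.comap_ne_bot_of_integral_mem hc
    (Ideal.mem_span_singleton_self c) (h.int.isIntegral c))
  obtain ⟨d, hd⟩ := Ideal.mem_span_singleton'.1 (Ideal.mem_comap.1 ha)
  obtain ⟨γ, hγ⟩ := exists_notMem_varIdeal_pow ha0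
  rw [varIdeal_eq_maximalIdeal] at hγ
  obtain ⟨b, hb, hb'⟩ := gr_small (M := PS k D) MvPowerSeries.X
    (varIdeal_eq_maximalIdeal (K := k) (d := D)) a γ hγ
  have hN' : (0 : ℝ) < (N : ℝ) ^ D := by positivity
  obtain ⟨e₀, he₀⟩ := Filter.eventually_atTop.1 (hb' (ε.toReal / (N : ℝ) ^ D)
    (div_pos (ENNReal.toReal_pos hε.ne' hε') hN'))
  refine ⟨e₀, fun e he => ?_⟩
  have hp : 1 < p := (Fact.out : p.Prime).one_lt
  have h1 := he₀ (N * p ^ e) (he.trans ((Nat.lt_pow_self hp).le.trans (Nat.le_mul_of_pos_left _ hN)))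
  rw [Nat.cast_mul, mul_pow, ← mul_assoc, div_mul_cancel₀ _ hN'.ne'] at h1
  have h2 : (b (N * p ^ e) : ℝ≥0∞) ≤ ((p : ℝ≥0∞) ^ e) ^ D * ε := by
    rw [← ENNReal.ofReal_natCast, ← ENNReal.ofReal_toReal hε', ← ENNReal.ofReal_natCast,
      ← ENNReal.ofReal_pow (by positivity), ← ENNReal.ofReal_pow (by positivity),
      ← ENNReal.ofReal_mul (by positivity)]
    exact ENNReal.ofReal_le_ofReal (by rwa [Nat.cast_pow, mul_comm ε.toReal] at h1)
  let J : Ideal E := Ideal.span {rt p e (algebraMap (PS k D) E a)} ⊔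
    (powIdeal MvPowerSeries.X N).map (algebraMap (PS k D) E)
  have hrad : ∀ n, n ≠ 0 → maximalIdeal (PS k D) ≤ (powIdeal MvPowerSeries.X n).radical :=
    fun n hn => by
      rw [← varIdeal_eq_maximalIdeal]
      exact Ideal.span_le.2 (by rintro _ ⟨i, rfl⟩; exact ⟨n, Ideal.subset_span ⟨i, rfl⟩⟩)
  have hJ : J ≤ Ideal.span {rt p e c} ⊔ mE (PS k D) E ^ N := by
    refine sup_le_sup ?_ ?_
    · rw [← hd, w4_rt_mul]
      exact Ideal.span_singleton_le_span_singleton.2 (dvd_mul_left _ _)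
    · rw [mE, ← Ideal.map_pow, ← varIdeal_eq_maximalIdeal]
      exact Ideal.map_mono (powIdeal_le_span_pow _ _)
  have hJ' : J.map (iterateFrobenius E p e) =
      (Ideal.span {a} ⊔ powIdeal MvPowerSeries.X (N * p ^ e)).map (algebraMap (PS k D) E) := by
    simp only [J, Ideal.map_sup, powIdeal, Ideal.map_span, Set.image_singleton, ← Set.range_comp,
      Function.comp_def, iterateFrobenius_def, rt_pow, map_pow, ← pow_mul, mul_comm N]
  have h3 := PlusAF_frob hΛ e (J := J) ((Ideal.map_mono (hrad N hN.ne')).trans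
    ((Ideal.map_radical_le _).trans (Ideal.radical_mono le_sup_right)))
  refine (PlusAF_anti Λ hJ).trans ((ENNReal.mul_le_mul_iff_right
    (a := ((p : ℝ≥0∞) ^ e) ^ D) (by simp [(Fact.out : p.Prime).ne_zero]) (by simp)).1 ?_)
  rw [← h3, hJ']
  refine (hΛ.le _ ((hrad _ (by positivity)).trans (Ideal.radical_mono le_sup_right))).trans
    (le_trans ?_ h2)
  have h4 := hb (N * p ^ e)
  rw [smul_top_ideal] at h4
  exact_mod_cast h4

theorem PlusAF_step (hΛ : PlusLen p D (PS k D) E Λ) (h : IsPlus (PS k D) E)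
    (I : Ideal (PS k D)) {a : PS k D} (ha : ∀ y, a * y ∈ I → y ∈ I)
    (hI : maximalIdeal (PS k D) ≤ (I ⊔ Ideal.span {a}).radical) {f g : E}
    (hf : f * g ∣ algebraMap (PS k D) E a) :
    Λ.val (E ⧸ (Ideal.span {f} ⊔ I.map (algebraMap (PS k D) E))) +
      Λ.val (E ⧸ (Ideal.span {g} ⊔ I.map (algebraMap (PS k D) E))) ≤
      Λ.val (E ⧸ (Ideal.span {f * g} ⊔ I.map (algebraMap (PS k D) E))) := by
  obtain ⟨N, hN⟩ := Ideal.exists_pow_le_of_le_radical_of_fg hI PlusAF_fg
  set I' := I.map (algebraMap (PS k D) E) with hI'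
  have hN' : mE (PS k D) E ^ N ≤ Ideal.span {g} ⊔ I' := by
    rw [mE, ← Ideal.map_pow]
    refine (Ideal.map_mono hN).trans ?_
    rw [Ideal.map_sup, sup_comm, Ideal.map_span, Set.image_singleton]
    exact sup_le_sup_right (Ideal.span_singleton_le_span_singleton.2
      ((dvd_mul_left g f).trans hf)) _
  have h1 : Ideal.span {f * g} ⊔ I' ≤ Ideal.span {f} ⊔ I' :=
    sup_le_sup_right (Ideal.span_singleton_le_span_singleton.2 (dvd_mul_right f g)) _
  rw [← Λ.rel_top (Ideal.span {f * g} ⊔ I'), Λ.rel_add le_top h1, Λ.rel_top]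
  refine add_le_add le_rfl (le_trans ?_ (Λ.rel_mono le_sup_left le_rfl))
  have h2 : Ideal.span {f} = (⊤ : Submodule E E).map (LinearMap.lsmul E E f) := by
    rw [← Len2_span_smul, smul_top_ideal]
  rw [h2, Λ.rel_map_comap, ← Λ.rel_top]
  refine (Λ.rel_le_add _ (Submodule.comap (LinearMap.lsmul E E f) (Ideal.span {f * g} ⊔ I'))
    _).trans ?_
  rw [Λ.rel_eq_zero_of_small _ (Ideal.span {g} ⊔ I') fun x hx ε hε => ?_, add_zero]
  obtain ⟨_, h3, y, hy, hxy⟩ := Submodule.mem_sup.1 (Submodule.mem_comap.1 hx)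
  obtain ⟨t, rfl⟩ := Ideal.mem_span_singleton'.1 h3
  obtain ⟨r, hr⟩ := hf
  obtain ⟨Δ, hΔ, hΔ'⟩ := h.almost_colon (p := p) I ha (b := x - t * g) (by
    have : algebraMap (PS k D) E a * (x - t * g) = g * r * y := by
      rw [hr, eq_sub_of_add_eq' hxy, LinearMap.lsmul_apply, smul_eq_mul]
      ring
    exact this ▸ Ideal.mul_mem_left _ _ hy)
  obtain ⟨e, he⟩ := hΛ.small_root h hΔ N ε hε
  refine ⟨_, fun z hz => ?_, he e le_rfl⟩
  obtain ⟨_, h4, z', hz', rfl⟩ := Submodule.mem_sup.1 hz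
  obtain ⟨s, rfl⟩ := Ideal.mem_span_singleton'.1 h4
  have h5 : (s * rt p e Δ + z') • x =
      s * rt p e Δ * t * g + s * (rt p e Δ * (x - t * g)) + z' * x := by
    rw [smul_eq_mul]
    ring
  rw [h5]
  exact add_mem (Submodule.add_mem_sup (Ideal.mul_mem_left _ _ (Ideal.mem_span_singleton_self g))
    (Ideal.mul_mem_left _ _ (hΔ' e))) (Ideal.mul_mem_right _ _ (hN' hz'))

/-- additivity along a factorisation of a parameter. -/
theorem PlusLen.sum_le (hΛ : PlusLen p D (PS k D) E Λ) (h : IsPlus (PS k D) E)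
    (I : Ideal (PS k D)) {a : PS k D} (ha : ∀ y, a * y ∈ I → y ∈ I)
    (hI : maximalIdeal (PS k D) ≤ (I ⊔ Ideal.span {a}).radical) {κ : Type*} [Fintype κ] (f : κ → E)
    (hf : ∏ i, f i = algebraMap (PS k D) E a) :
    ∑ i, Λ.val (E ⧸ (Ideal.span {f i} ⊔ I.map (algebraMap (PS k D) E))) ≤
      Module.length (PS k D) (PS k D ⧸ (I ⊔ Ideal.span {a})) := by
  classical
  have key : ∀ s : Finset κ,
      ∑ i ∈ s, Λ.val (E ⧸ (Ideal.span {f i} ⊔ I.map (algebraMap (PS k D) E))) ≤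
        Λ.val (E ⧸ (Ideal.span {∏ i ∈ s, f i} ⊔ I.map (algebraMap (PS k D) E))) := by
    intro s
    induction s using Finset.induction_on with
    | empty => exact bot_le
    | insert i s hi ih =>
      rw [Finset.sum_insert hi, Finset.prod_insert hi]
      refine (add_le_add le_rfl ih).trans (PlusAF_step hΛ h I ha hI ?_)
      rw [← Finset.prod_insert hi, ← hf]
      exact Finset.prod_dvd_prod_of_subset _ _ _ (Finset.subset_univ _)
  refine (key Finset.univ).trans (le_trans (PlusAF_anti Λ ?_) (hΛ.le _ hI))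
  rw [hf, Ideal.map_sup, sup_comm, Ideal.map_span, Set.image_singleton]

theorem PlusLen.le_root (hΛ : PlusLen p D (PS k D) E Λ) (e : ℕ) :
    1 ≤ ((p : ℝ≥0∞) ^ e) ^ D * Λ.val (E ⧸ Ideal.span
      (Set.range fun j => rt p e (algebraMap (PS k D) E (MvPowerSeries.X j)))) := by
  rw [← PlusAF_frob hΛ e, ← hΛ.one, PlusAF_mE]
  · refine PlusAF_anti Λ ?_
    rw [Ideal.map_span, ← Set.range_comp]
    simp only [Function.comp_def, iterateFrobenius_def, rt_pow, le_refl]
  · rw [PlusAF_mE]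
    refine Ideal.span_le.2 ?_
    rintro _ ⟨j, rfl⟩
    refine Ideal.le_radical ?_
    have := Ideal.pow_mem_of_mem (Ideal.span (Set.range fun j =>
      rt p e (algebraMap (PS k D) E (MvPowerSeries.X j)))) (Ideal.subset_span ⟨j, rfl⟩) _
      (pow_pos (Fact.out : p.Prime).pos e)
    rwa [rt_pow] at this

end Vale.Agent.P177
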