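import Vale.Agent.P177.PlusGalAux

/-! Conjugates. -/

namespace Vale.Agent.P177

open scoped ENNReal
open IsLocalRing Vale.Agent.P202

universe u

variable {p : ℕ} [Fact p.Prime] {k : Type u} [Field k] [CharP k p] [IsAlgClosed k] {D : ℕ}
  {E : Type u} [CommRing E] [CharP E p] [PerfectRing E p] [Algebra (PS k D) E]

theorem IsPlus.exists_orbit (h : IsPlus (PS k D) E) (S : Finset E) :
    ∃ H : Subgroup (E ≃ₐ[PS k D] E), H.Normal ∧ H.FiniteIndex ∧ ∀ g ∈ H, ∀ x ∈ S, g x = x := by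
  classical
  have := h.dom
  have fin : ∀ x : E, (MulAction.stabilizer (E ≃ₐ[PS k D] E) x).FiniteIndex := by
    intro x
    obtain ⟨P, hP, hx⟩ := h.int.isIntegral x
    have hm := hP.map (algebraMap (PS k D) E)
    refine ⟨?_⟩
    rw [MulAction.index_stabilizer]
    refine Set.ncard_ne_zero_of_mem (MulAction.mem_orbit_self x)
      (((P.map (algebraMap (PS k D) E)).roots.toFinset.finite_toSet).subset ?_)
    rintro _ ⟨g, rfl⟩
    rw [Finset.mem_coe, Multiset.mem_toFinset, Polynomial.mem_roots hm.ne_zero,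
      Polynomial.IsRoot.def, Polynomial.eval_map_algebraMap]
    change Polynomial.aeval (g x) P = 0
    rw [Polynomial.aeval_algHom_apply, Polynomial.aeval_def, hx, map_zero]
  have f2 : (⨅ x ∈ S, MulAction.stabilizer (E ≃ₐ[PS k D] E) x).FiniteIndex :=
    Subgroup.finiteIndex_iInf' _ fun x _ => fin x
  refine ⟨(⨅ x ∈ S, MulAction.stabilizer (E ≃ₐ[PS k D] E) x).normalCore, inferInstance,
    inferInstance, fun g hg x hx => ?_⟩
  have := Subgroup.normalCore_le _ hg
  simp only [Subgroup.mem_iInf] at this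
  exact this x hx

theorem IsPlus.exists_pow_mem (h : IsPlus (PS k D) E) {y : E} (hy : ∀ g : E ≃ₐ[PS k D] E, g y = y) :
    ∃ (e : ℕ) (a : PS k D), y ^ p ^ e = algebraMap (PS k D) E a := by
  have := h.dom
  have : IsDomain (PS k D) := h.inj.isDomain _
  have := isIntegrallyClosed_ps p k D
  obtain ⟨s, e1, e2, e3⟩ := plusGal_prod h y
  have hs : s = Multiset.replicate s.card y := Multiset.eq_replicate.2 ⟨rfl, fun z hz => by
    obtain ⟨g, rfl⟩ := e3 z hz
    exact hy g⟩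
  have hpos : s.card ≠ 0 := by
    rw [e2]; exact (minpoly.natDegree_pos (h.int.isIntegral y)).ne'
  obtain ⟨e, m, hm, hr⟩ := Nat.exists_eq_pow_mul_and_not_dvd hpos p (Fact.out : p.Prime).ne_one
  have hm0 : m ≠ 0 := by rintro rfl; exact hm (dvd_zero p)
  have hq : 0 < p ^ e := pow_pos (Fact.out : p.Prime).pos e
  rw [hs, Multiset.map_replicate, Multiset.prod_replicate, hr, pow_mul, sub_pow_char_pow,
    ← Polynomial.C_pow] at e1
  have e4 : (Polynomial.X ^ p ^ e - Polynomial.C (y ^ p ^ e)) ^ m =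
      Polynomial.expand E (p ^ e) ((Polynomial.X + Polynomial.C (-y ^ p ^ e)) ^ m) := by
    simp [sub_eq_add_neg]
  have e5 := congrArg (fun Q => Polynomial.coeff Q ((m - 1) * p ^ e)) (e1.trans e4)
  simp only [Polynomial.coeff_map, Polynomial.coeff_expand_mul hq,
    Polynomial.coeff_X_add_C_pow] at e5
  rw [Nat.sub_sub_self (Nat.one_le_iff_ne_zero.2 hm0), pow_one,
    Nat.choose_symm (Nat.one_le_iff_ne_zero.2 hm0), Nat.choose_one_right] at e5
  have hk : (m : k) ≠ 0 := fun h0 => hm ((CharP.cast_eq_zero_iff k p m).1 h0)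
  have hu : (m : PS k D) * algebraMap k (PS k D) (m : k)⁻¹ = 1 := by
    rw [← map_natCast (algebraMap k (PS k D)), ← map_mul, mul_inv_cancel₀ hk, map_one]
  have hu' := congrArg (algebraMap (PS k D) E) hu
  rw [map_mul, map_natCast, map_one] at hu'
  refine ⟨e, -((minpoly (PS k D) y).coeff ((m - 1) * p ^ e) * algebraMap k (PS k D) (m : k)⁻¹), ?_⟩
  rw [map_neg, map_mul, e5]
  linear_combination (-y ^ p ^ e) * hu'

/-- elements all of whose conjugates have large value. -/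
theorem IsOrd.mem_root {v : E → ℝ≥0∞} (hv : IsOrd (PS k D) v) (h : IsPlus (PS k D) E) (e : ℕ)
    {t : ℝ≥0∞} (ht : (D : ℝ≥0∞) < t * (p : ℝ≥0∞) ^ e) {x : E}
    (hx : ∀ g : E ≃ₐ[PS k D] E, t ≤ v (g x)) :
    x ∈ Ideal.span (Set.range fun j => rt p e (algebraMap (PS k D) E (MvPowerSeries.X j))) := by
  have := h.dom
  have : IsDomain (PS k D) := h.inj.isDomain _
  have := isIntegrallyClosed_ps p k D
  have hp : 1 < p := (Fact.out : p.Prime).one_lt
  obtain ⟨f, hf⟩ : ∃ f : ℕ, ((D * p ^ f + 1 : ℕ) : ℝ≥0∞) ≤ (p ^ (e + f) : ℕ) * t := by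
    obtain ⟨r, hr0, hr⟩ := ENNReal.lt_iff_exists_add_pos_lt.1 ht
    obtain ⟨f, hf⟩ := exists_nat_ge r⁻¹
    have h1 : (1 : NNReal) ≤ r * (p ^ f : ℕ) := by
      have h2 : (f : NNReal) ≤ (p ^ f : ℕ) := by exact_mod_cast (Nat.lt_pow_self hp).le
      calc (1 : NNReal) = r * r⁻¹ := (mul_inv_cancel₀ hr0.ne').symm
        _ ≤ _ := mul_le_mul_right (hf.trans h2) r
    have h3 : (1 : ℝ≥0∞) ≤ r * (p ^ f : ℕ) := by exact_mod_cast h1
    refine ⟨f, ?_⟩
    calc ((D * p ^ f + 1 : ℕ) : ℝ≥0∞) = D * (p ^ f : ℕ) + 1 := by push_cast; rfl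
      _ ≤ D * (p ^ f : ℕ) + r * (p ^ f : ℕ) := add_le_add_right h3 _
      _ = (D + r) * (p ^ f : ℕ) := (add_mul _ _ _).symm
      _ ≤ t * (p : ℝ≥0∞) ^ e * (p ^ f : ℕ) := mul_le_mul_left hr.le _
      _ = _ := by push_cast; ring
  obtain ⟨s, e1, e2, e3⟩ := plusGal_prod h (x ^ p ^ (e + f))
  have hs : ∀ y ∈ s, ((D * p ^ f + 1 : ℕ) : ℝ≥0∞) ≤ v y := by
    intro y hy
    obtain ⟨g, rfl⟩ := e3 y hy
    rw [map_pow]
    exact hf.trans (hv.plusGal_pow (hx g) _)
  have hint : IsIntegral (PS k D) (x ^ p ^ (e + f)) := h.int.isIntegral _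
  have hm := (minpoly.monic hint).map (algebraMap (PS k D) E)
  have hd := (minpoly.monic hint).natDegree_map (algebraMap (PS k D) E)
  set r := (minpoly (PS k D) (x ^ p ^ (e + f))).natDegree with hr
  have key := plusGal_pow_mem (mE (PS k D) E ^ (D * p ^ f + 1)) hm
    (x := x ^ p ^ (e + f)) (by rw [Polynomial.eval_map_algebraMap, minpoly.aeval]) (fun j => by
      have c := hv.plusGal_coeff s hs j
      rw [← e1, e2, Polynomial.coeff_map, hv.ord] at c
      rw [hd, Polynomial.coeff_map, ← pow_mul, mul_comm, ← Ideal.map_pow]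
      exact Ideal.mem_map_of_mem _ c) (p ^ (r * (D * p ^ f + 1)))
  set g := r * (D * p ^ f + 1) with hg
  have hgp : g < p ^ g := Nat.lt_pow_self hp
  have hmE : mE (PS k D) E = Ideal.span (Set.range fun j : Fin D =>
      algebraMap (PS k D) E (MvPowerSeries.X j)) := by
    unfold mE
    rw [← varIdeal_eq_maximalIdeal, varIdeal, Ideal.map_span, ← Set.range_comp]
    rfl
  have hle : D * p ^ (f + g) + 1 ≤ (D * p ^ f + 1) * (p ^ g - r) := by
    have hr' : r ≤ p ^ g := le_trans (Nat.le_mul_of_pos_right r (Nat.succ_pos _)) hgp.le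
    rw [Nat.mul_sub, pow_add, ← mul_assoc, add_mul, mul_comm (D * p ^ f + 1) r, ← hg]
    omega
  rw [hd, ← pow_mul, ← pow_mul, ← pow_add, hmE] at key
  have k2 := span_pow_le_powIdeal _ _ (Ideal.pow_le_pow_right hle key)
  have k3 := Ideal.mem_map_of_mem (iterateFrobeniusEquiv E p (e + f + g)).symm k2
  change rt p (e + f + g) _ ∈ _ at k3
  rw [w4_rt_of_pow, powIdeal, Ideal.map_span, ← Set.range_comp] at k3
  refine le_of_eq (congrArg (fun F => Ideal.span (Set.range F)) (funext fun j => ?_)) k3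
  change rt p (e + f + g) _ = _
  rw [add_assoc, ← w4_rt_rt, w4_rt_of_pow]

end Vale.Agent.P177
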