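import Vale.Agent.P177.PlusVal
import Vale.Agent.P177.PlusGal
import Vale.Agent.P177.PlusAF

/-! Elements of small colength. -/

namespace Vale.Agent.P177

open scoped ENNReal
open IsLocalRing Vale.Agent.P202

universe u

theorem Len.plusAP_insert {R X : Type u} [CommRing R] [AddCommGroup X] [Module R X] (Λ : Len R)
    (P Q : Submodule R X) : Λ.rel ⊤ (Q ⊓ P) = Λ.rel ⊤ P + Λ.rel P Q := by
  rw [inf_comm, Λ.rel_add le_top (inf_le_left : P ⊓ Q ≤ P), Λ.rel_inf]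

/-- Shearer's inequality for a finite family of submodules. -/
theorem Len.shearer {R X : Type u} [CommRing R] [AddCommGroup X] [Module R X] (Λ : Len R)
    {κ μ : Type*} [Fintype κ] [Fintype μ] [DecidableEq κ] (b : κ → Submodule R X)
    (C : μ → Finset κ) (m : ℕ) (hC : ∀ i, m ≤ (Finset.univ.filter fun j => i ∈ C j).card) :
    m * Λ.val (X ⧸ ⨅ i, b i) ≤ ∑ j, Λ.val (X ⧸ ⨅ i ∈ C j, b i) := by
  have key : ∀ T : Finset κ, m * Λ.rel ⊤ (⨅ i ∈ T, b i) ≤ ∑ j, Λ.rel ⊤ (⨅ i ∈ C j ∩ T, b i) := by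
    intro T
    induction T using Finset.induction_on with
    | empty => simp [Λ.rel_of_le]
    | insert a T _ ih =>
      have h1 : ∀ j, Λ.rel ⊤ (⨅ i ∈ C j ∩ T, b i) +
          (if a ∈ C j then Λ.rel (⨅ i ∈ T, b i) (b a) else 0) ≤
          Λ.rel ⊤ (⨅ i ∈ C j ∩ insert a T, b i) := by
        intro j
        by_cases ha : a ∈ C j
        · rw [if_pos ha, Finset.inter_insert_of_mem ha, Finset.iInf_insert, Λ.plusAP_insert]
          refine add_le_add le_rfl (Λ.rel_mono ?_ le_rfl)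
          exact biInf_mono fun i hi => (Finset.mem_inter.1 hi).2
        · rw [if_neg ha, Finset.inter_insert_of_notMem ha, add_zero]
      refine le_trans ?_ (Finset.sum_le_sum fun j _ => h1 j)
      rw [Finset.iInf_insert, Λ.plusAP_insert, mul_add, Finset.sum_add_distrib,
        ← Finset.sum_filter, Finset.sum_const, nsmul_eq_mul]
      exact add_le_add ih (mul_le_mul_left (Nat.cast_le.2 (hC a)) _)
  have h2 := key Finset.univ
  simp only [Finset.inter_univ, Finset.mem_univ, iInf_pos, Λ.rel_top] at h2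
  exact h2

section Ord

variable {A E : Type u} [CommRing A] [IsLocalRing A] [CommRing E] [Algebra A E] {v : E → ℝ≥0∞}

theorem IsOrd.plusAP_one (hv : IsOrd A v) : v 1 = 0 := by
  obtain ⟨n, hn⟩ := hv.int 1 one_ne_zero
  rw [map_one] at hn
  have h := hv.mul 1 1
  rw [mul_one] at h
  have h1 : v 1 ≠ ⊤ := by rw [hn]; exact ENNReal.natCast_ne_top n
  exact ((ENNReal.add_right_inj h1).1 ((add_zero _).trans h)).symm

theorem IsOrd.plusAP_zero (hv : IsOrd A v) : v 0 = ⊤ := by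
  by_contra h
  obtain ⟨n, hn⟩ := ENNReal.exists_nat_gt h
  have := (hv.ord 0 n).2 (Submodule.zero_mem _)
  rw [map_zero] at this
  exact absurd hn (not_lt.2 this)

theorem IsOrd.plusAP_prod (hv : IsOrd A v) {κ : Type*} (s : Finset κ) (f : κ → E) :
    v (∏ i ∈ s, f i) = ∑ i ∈ s, v (f i) := by
  classical
  induction s using Finset.induction_on with
  | empty => simpa using hv.plusAP_one
  | insert a s ha ih => rw [Finset.prod_insert ha, Finset.sum_insert ha, hv.mul, ih]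

/-- elements of value at least `t`. -/
def IsOrd.plusAPGe (hv : IsOrd A v) (t : ℝ≥0∞) : Ideal E where
  carrier := {x | t ≤ v x}
  add_mem' := fun {x y} hx hy => (le_min hx hy).trans (hv.add x y)
  zero_mem' := by
    show t ≤ v 0
    rw [hv.plusAP_zero]; exact le_top
  smul_mem' := fun c x hx => by
    show t ≤ v (c * x)
    rw [hv.mul]; exact le_add_left hx

/-- elements of value more than `t`. -/
def IsOrd.plusAPGt (hv : IsOrd A v) (t : ℝ≥0∞) (ht : t ≠ ⊤) : Ideal E where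
  carrier := {x | t < v x}
  add_mem' := fun {x y} hx hy => (lt_min hx hy).trans_le (hv.add x y)
  zero_mem' := by
    show t < v 0
    rw [hv.plusAP_zero]; exact ht.lt_top
  smul_mem' := fun c x hx => by
    show t < v (c * x)
    rw [hv.mul]; exact lt_of_lt_of_le hx le_add_self

/-- a generic combination has small value at finitely many conjugates. -/
theorem IsOrd.plusAP_generic (hv : IsOrd A v) {k : Type u} [Field k] [Infinite k] (ι : k →+* A)
    {Γ : Type*} [Finite Γ] (g : Γ → E ≃ₐ[A] E) (τ : Γ → ℝ≥0∞) (hτ : ∀ γ, τ γ ≠ ⊤) (S : Finset E)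
    (hS : ∀ γ, ∃ s ∈ S, v (g γ s) ≤ τ γ) :
    ∃ c : S → k, ∀ γ, v (g γ (∑ s : S, algebraMap A E (ι (c s)) * s)) ≤ τ γ := by
  classical
  let V : Γ → Submodule k (S → k) := fun γ =>
    { carrier := {c | g γ (∑ s : S, algebraMap A E (ι (c s)) * s) ∈ hv.plusAPGt (τ γ) (hτ γ)}
      add_mem' := fun {c c'} hc hc' => by
        have := (hv.plusAPGt (τ γ) (hτ γ)).add_mem hc hc'
        rw [← map_add, ← Finset.sum_add_distrib] at this
        simpa [add_mul] using this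
      zero_mem' := by simp
      smul_mem' := fun a c hc => by
        have := (hv.plusAPGt (τ γ) (hτ γ)).mul_mem_left (g γ (algebraMap A E (ι a))) hc
        rw [← map_mul, Finset.mul_sum] at this
        simpa [mul_assoc] using this }
  have hV : ∀ γ, V γ ≠ ⊤ := by
    intro γ htop
    obtain ⟨s, hs, hsv⟩ := hS γ
    have h1 : (Pi.single ⟨s, hs⟩ 1 : S → k) ∈ V γ := htop ▸ Submodule.mem_top
    have h2 : ∑ s' : S, algebraMap A E (ι ((Pi.single ⟨s, hs⟩ 1 : S → k) s')) * s' = s := by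
      rw [Finset.sum_eq_single ⟨s, hs⟩]
      · simp
      · intro b _ hb; simp [Pi.single_eq_of_ne hb]
      · simp
    have h3 : τ γ < v (g γ (∑ s' : S, algebraMap A E
        (ι ((Pi.single ⟨s, hs⟩ 1 : S → k) s')) * s')) := h1
    rw [h2] at h3
    exact absurd h3 (not_lt.2 hsv)
  obtain ⟨c, hc⟩ := Submodule.exists_forall_notMem_of_forall_ne_top V hV
  exact ⟨c, fun γ => not_lt.1 (hc γ)⟩

theorem plusAP_out (H : Subgroup (E ≃ₐ[A] E)) (g : E ≃ₐ[A] E) {x : E} (hx : ∀ η ∈ H, η x = x) :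
    (g : (E ≃ₐ[A] E) ⧸ H).out x = g x := by
  obtain ⟨η, hη⟩ := QuotientGroup.mk_out_eq_mul H g
  rw [hη, AlgEquiv.mul_apply, hx η η.2]

theorem plusAP_map_map (g : E ≃ₐ[A] E) (I : Ideal A) :
    (I.map (algebraMap A E)).map g = I.map (algebraMap A E) := by
  have h : I.map (algebraMap A E) = Ideal.span (algebraMap A E '' I) := rfl
  rw [h, Ideal.map_span, Set.image_image]
  simp only [AlgEquiv.commutes]

end Ord

section Main

variable {p : ℕ} [Fact p.Prime] {k : Type u} [Field k] [CharP k p] [IsAlgClosed k]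
  {D : ℕ} {E : Type u} [CommRing E] [CharP E p] [PerfectRing E p]
  [Algebra (PS k D) E] {Λ : Len E} {v : E → ℝ≥0∞}

/-- few conjugates of an ideal of small colength have large value. -/
theorem PlusLen.plusAP_count (hΛ : PlusLen p D (PS k D) E Λ) (h : IsPlus (PS k D) E)
    (hv : IsOrd (PS k D) v) (e : ℕ) {t : ℝ≥0∞} (ht : (D : ℝ≥0∞) < t * (p : ℝ≥0∞) ^ e)
    (S : Finset E) (hS : mE (PS k D) E ≤ (Ideal.span (S : Set E)).radical)
    (H : Subgroup (E ≃ₐ[PS k D] E)) [H.Normal] [Fintype ((E ≃ₐ[PS k D] E) ⧸ H)]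
    (hH : ∀ g ∈ H, ∀ x ∈ S, g x = x) (T : Finset ((E ≃ₐ[PS k D] E) ⧸ H))
    (hT : ∀ γ ∈ T, ∀ s ∈ S, t ≤ v (γ.out s)) :
    (T.card : ℝ≥0∞) ≤ ((p : ℝ≥0∞) ^ e) ^ D *
      (Fintype.card ((E ≃ₐ[PS k D] E) ⧸ H) * Λ.val (E ⧸ Ideal.span (S : Set E))) := by
  classical
  let b : (E ≃ₐ[PS k D] E) ⧸ H → Ideal E := fun γ =>
    ⨅ (g : E ≃ₐ[PS k D] E) (_ : (g : (E ≃ₐ[PS k D] E) ⧸ H) = γ), (hv.plusAPGe t).comap g
  have hb : ∀ γ x, x ∈ b γ ↔ ∀ g : E ≃ₐ[PS k D] E, (g : (E ≃ₐ[PS k D] E) ⧸ H) = γ →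
      t ≤ v (g x) := by
    intro γ x
    simp only [b, Submodule.mem_iInf]
    rfl
  let C : (E ≃ₐ[PS k D] E) ⧸ H → Finset ((E ≃ₐ[PS k D] E) ⧸ H) := fun j =>
    Finset.univ.filter fun i => i * j ∈ T
  have hC : ∀ i, T.card ≤ (Finset.univ.filter fun j => i ∈ C j).card := by
    intro i
    refine Finset.card_le_card_of_injOn (fun γ => i⁻¹ * γ) (fun γ hγ => ?_)
      fun a _ c _ hac => mul_left_cancel hac
    simpa [C] using hγ
  have h1 := Λ.shearer b C T.card hC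
  have h2 : ∀ j, Λ.val (E ⧸ ⨅ i ∈ C j, b i) ≤ Λ.val (E ⧸ Ideal.span (S : Set E)) := by
    intro j
    rw [← hΛ.inv j.out _ hS, ← Λ.rel_top, ← Λ.rel_top]
    refine Λ.rel_mono le_rfl ?_
    rw [Ideal.map_span, Ideal.span_le]
    rintro _ ⟨s, hs, rfl⟩
    simp only [SetLike.mem_coe, Submodule.mem_iInf]
    intro i hi
    rw [hb]
    rintro g rfl
    have h3 := hT _ (Finset.mem_filter.1 hi).2 s hs
    have h4 : (g : (E ≃ₐ[PS k D] E) ⧸ H) * j = ((g * j.out : E ≃ₐ[PS k D] E) : _ ⧸ H) := by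
      rw [QuotientGroup.mk_mul, QuotientGroup.out_eq']
    rwa [h4, plusAP_out H _ fun η hη => hH η hη s hs, AlgEquiv.mul_apply] at h3
  have h3 : Λ.val (E ⧸ Ideal.span (Set.range fun j =>
      rt p e (algebraMap (PS k D) E (MvPowerSeries.X j)))) ≤ Λ.val (E ⧸ ⨅ i, b i) := by
    rw [← Λ.rel_top, ← Λ.rel_top]
    refine Λ.rel_mono le_rfl fun x hx => hv.mem_root h e ht fun g => ?_
    exact (hb _ x).1 ((Submodule.mem_iInf _).1 hx g) g rfl
  calc (T.card : ℝ≥0∞) = T.card * 1 := (mul_one _).symm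
    _ ≤ T.card * (((p : ℝ≥0∞) ^ e) ^ D * Λ.val (E ⧸ ⨅ i, b i)) :=
        mul_le_mul_right ((hΛ.le_root e).trans (mul_le_mul_right h3 _)) _
    _ = ((p : ℝ≥0∞) ^ e) ^ D * (T.card * Λ.val (E ⧸ ⨅ i, b i)) := mul_left_comm _ _ _
    _ ≤ _ := by
        refine mul_le_mul_right (h1.trans ((Finset.sum_le_sum fun j _ => h2 j).trans ?_)) _
        rw [Finset.sum_const, Finset.card_univ, nsmul_eq_mul]

/-- an element whose conjugates have small average value has small colength. -/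
theorem PlusLen.plusAP_elem (hD : 0 < D) (hΛ : PlusLen p D (PS k D) E Λ) (h : IsPlus (PS k D) E)
    (hv : IsOrd (PS k D) v) (N : ℕ) (H : Subgroup (E ≃ₐ[PS k D] E)) [H.Normal]
    [Fintype ((E ≃ₐ[PS k D] E) ⧸ H)] {f : E} (hf : ∀ η ∈ H, η f = f) {B : ℝ≥0∞} (hB : B ≠ ⊤)
    (hsum : ∑ γ : (E ≃ₐ[PS k D] E) ⧸ H, v (γ.out f) ≤
      Fintype.card ((E ≃ₐ[PS k D] E) ⧸ H) * B) :
    Λ.val (E ⧸ (Ideal.span {f} ⊔ mE (PS k D) E ^ N)) ≤ B * (N : ℝ≥0∞) ^ (D - 1) := by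
  classical
  have hy : ∀ g : E ≃ₐ[PS k D] E, g (∏ γ : (E ≃ₐ[PS k D] E) ⧸ H, γ.out f) =
      ∏ γ : (E ≃ₐ[PS k D] E) ⧸ H, γ.out f := by
    intro g
    rw [map_prod, ← Equiv.prod_comp (Equiv.mulLeft (g : (E ≃ₐ[PS k D] E) ⧸ H))
      fun γ : (E ≃ₐ[PS k D] E) ⧸ H => γ.out f]
    refine Finset.prod_congr rfl fun j _ => ?_
    have h4 : (g : (E ≃ₐ[PS k D] E) ⧸ H) * j = ((g * j.out : E ≃ₐ[PS k D] E) : _ ⧸ H) := by
      rw [QuotientGroup.mk_mul, QuotientGroup.out_eq']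
    show g (j.out f) = ((g : (E ≃ₐ[PS k D] E) ⧸ H) * j).out f
    rw [h4, plusAP_out H _ hf, AlgEquiv.mul_apply]
  obtain ⟨e, a, ha⟩ := h.exists_pow_mem (p := p) hy
  have hq : 0 < p ^ e := pow_pos (Fact.out : p.Prime).pos e
  have hprod : ∏ i : ((E ≃ₐ[PS k D] E) ⧸ H) × Fin (p ^ e), i.1.out f =
      algebraMap (PS k D) E a := by
    rw [← ha, Fintype.prod_prod_type, ← Finset.prod_pow]
    simp
  set c : ℝ≥0∞ := (Fintype.card (((E ≃ₐ[PS k D] E) ⧸ H) × Fin (p ^ e)) : ℝ≥0∞) with hc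
  have hc0 : c ≠ 0 := by
    haveI : Nonempty (Fin (p ^ e)) := ⟨⟨0, hq⟩⟩
    rw [hc]
    exact Nat.cast_ne_zero.2 Fintype.card_ne_zero
  have hct : c ≠ ⊤ := ENNReal.natCast_ne_top _
  have hva : v (algebraMap (PS k D) E a) ≤ c * B := by
    rw [← hprod, hv.plusAP_prod, Fintype.sum_prod_type_right, hc, Fintype.card_prod,
      Fintype.card_fin, Nat.cast_mul, mul_comm (Nat.cast _) (Nat.cast (p ^ e)), mul_assoc]
    refine (Finset.sum_le_sum fun _ _ => hsum).trans ?_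
    rw [Finset.sum_const, Finset.card_univ, Fintype.card_fin, nsmul_eq_mul]
  have ha0 : a ≠ 0 := by
    rintro rfl
    rw [map_zero, hv.plusAP_zero] at hva
    exact ENNReal.mul_ne_top hct hB (top_le_iff.1 hva)
  obtain ⟨n, hn⟩ := hv.int a ha0
  have han : a ∉ maximalIdeal (PS k D) ^ (n + 1) := by
    rw [← hv.ord, hn, Nat.cast_le]
    omega
  obtain ⟨I, hI1, hI2, hI3, hI4⟩ := exists_lin_forms hD han N
  have h1 := hΛ.sum_le h I hI2 hI3 _ hprod
  have hrad : mE (PS k D) E ≤ (Ideal.span {f} ⊔ I.map (algebraMap (PS k D) E)).radical := by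
    refine (Ideal.map_mono hI3).trans ((Ideal.map_radical_le _).trans (Ideal.radical_mono ?_))
    rw [Ideal.map_sup, Ideal.map_span, Set.image_singleton]
    refine sup_le le_sup_right (le_sup_of_le_left ?_)
    rw [Ideal.span_singleton_le_span_singleton, ← hprod]
    have h5 := Finset.dvd_prod_of_mem
      (fun i : ((E ≃ₐ[PS k D] E) ⧸ H) × Fin (p ^ e) => i.1.out f)
      (Finset.mem_univ (((1 : E ≃ₐ[PS k D] E) : _ ⧸ H), ⟨0, hq⟩))
    rwa [plusAP_out H _ hf, AlgEquiv.one_apply] at h5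
  have h2 : ∀ g : E ≃ₐ[PS k D] E,
      Λ.val (E ⧸ (Ideal.span {g f} ⊔ I.map (algebraMap (PS k D) E))) =
      Λ.val (E ⧸ (Ideal.span {f} ⊔ I.map (algebraMap (PS k D) E))) := by
    intro g
    rw [← hΛ.inv g _ hrad, Ideal.map_sup, Ideal.map_span, Set.image_singleton, plusAP_map_map]
  simp only [h2] at h1
  rw [Finset.sum_const, Finset.card_univ, nsmul_eq_mul, ← hc] at h1
  have h3 : ((Module.length (PS k D) (PS k D ⧸ (I ⊔ Ideal.span {a})) : ℕ∞) : ℝ≥0∞) ≤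
      c * (B * (N : ℝ≥0∞) ^ (D - 1)) := by
    refine (ENat.toENNReal_le.2 hI4).trans ?_
    rw [ENat.toENNReal_coe, Nat.cast_mul, Nat.cast_pow, ← mul_assoc, ← hn]
    exact mul_le_mul_left hva _
  refine le_trans ?_ ((ENNReal.mul_le_mul_iff_right hc0 hct).1 (h1.trans h3))
  rw [← Λ.rel_top, ← Λ.rel_top]
  refine Λ.rel_mono le_rfl (sup_le_sup_left ?_ _)
  rw [← Ideal.map_pow]
  exact Ideal.map_mono hI1

end Main

theorem PlusLen.apPt {p : ℕ} [Fact p.Prime] {k : Type u} [Field k] [CharP k p] [IsAlgClosed k]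
    {D : ℕ} (hD : 0 < D) {E : Type u} [CommRing E] [CharP E p] [PerfectRing E p]
    [Algebra (PS k D) E] {Λ : Len E} (hΛ : PlusLen p D (PS k D) E Λ) (h : IsPlus (PS k D) E) :
    APpt Λ (mE (PS k D) E) := by
  classical
  obtain ⟨v, hv⟩ := IsPlus.exists_isOrd h hD
  intro N ε hε
  have hX : (MvPowerSeries.X ⟨0, hD⟩ : PS k D) ∈ maximalIdeal (PS k D) := by
    rw [mem_maximalIdeal, mem_nonunits_iff, MvPowerSeries.isUnit_iff_constantCoeff]
    simp
  have hX0 : (MvPowerSeries.X ⟨0, hD⟩ : PS k D) ≠ 0 := by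
    intro h0
    have := congrArg (MvPowerSeries.coeff (Finsupp.single (⟨0, hD⟩ : Fin D) 1)) h0
    simp at this
  obtain ⟨N', hN'⟩ := hv.int _ (pow_ne_zero N hX0)
  have hz : algebraMap (PS k D) E (MvPowerSeries.X ⟨0, hD⟩ ^ N) ∈ mE (PS k D) E ^ N := by
    rw [map_pow]
    exact Ideal.pow_mem_pow (Ideal.mem_map_of_mem _ hX) N
  obtain ⟨t, ht0, ht⟩ := ENNReal.exists_nnreal_pos_mul_lt (a := 2 * (N : ℝ≥0∞) ^ (D - 1))
    (by finiteness) hε.ne'
  have ht0' : (t : ℝ≥0∞) ≠ 0 := by simpa using ht0.ne'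
  obtain ⟨e, he⟩ : ∃ e : ℕ, (D : ℝ≥0∞) < t * (p : ℝ≥0∞) ^ e := by
    obtain ⟨e, he⟩ := ENNReal.exists_nat_mul_gt ht0' (ENNReal.natCast_ne_top D)
    refine ⟨e, he.trans_le ?_⟩
    rw [mul_comm, ← Nat.cast_pow]
    exact mul_le_mul_right (Nat.cast_le.2 (Nat.lt_pow_self (Fact.out : p.Prime).one_lt).le) _
  obtain ⟨δ, hδ0, hδ⟩ := ENNReal.exists_nnreal_pos_mul_lt
    (a := (N' : ℝ≥0∞) * ((p : ℝ≥0∞) ^ e) ^ D * 2) (by finiteness) ht0'
  have hδ0' : (0 : ℝ≥0∞) < δ := by simpa using hδ0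
  refine ⟨δ, hδ0', fun J hJ hJδ => ?_⟩
  have hmr : mE (PS k D) E ≤ (mE (PS k D) E ^ N).radical := fun x hx =>
    ⟨N, Ideal.pow_mem_pow hx N⟩
  obtain ⟨A', hA1, hA2, hA3⟩ := Λ.exists_fg_rel_le J (mE (PS k D) E ^ N)
    (ne_top_of_le_ne_top (hΛ.ne_top hmr) ((Λ.rel_mono le_top le_rfl).trans_eq (Λ.rel_top _)))
    δ hδ0'
  have hfg : (A' ⊔ mE (PS k D) E ^ N).FG :=
    hA2.sup (Ideal.FG.pow (Ideal.FG.map (IsNoetherian.noetherian _) _))
  obtain ⟨S, hS⟩ := hfg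
  have hS' : Ideal.span (S : Set E) = A' ⊔ mE (PS k D) E ^ N := hS
  have hSJ : Ideal.span (S : Set E) ≤ J := hS' ▸ sup_le hA1 hJ
  have hSm : mE (PS k D) E ^ N ≤ Ideal.span (S : Set E) := hS' ▸ le_sup_right
  have hSδ : Λ.val (E ⧸ Ideal.span (S : Set E)) ≤ 2 * δ := by
    rw [← Λ.rel_top, Λ.rel_add le_top hSJ, Λ.rel_top, two_mul, hS']
    exact add_le_add hJδ hA3
  obtain ⟨H, hHn, hHf, hH⟩ := h.exists_orbit S
  haveI : Fintype ((E ≃ₐ[PS k D] E) ⧸ H) := Fintype.ofFinite _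
  let T : Finset ((E ≃ₐ[PS k D] E) ⧸ H) :=
    Finset.univ.filter fun γ => ∀ s ∈ S, (t : ℝ≥0∞) ≤ v (γ.out s)
  have hT := hΛ.plusAP_count h hv e he S (hmr.trans (Ideal.radical_mono hSm)) H hH T
    fun γ hγ => (Finset.mem_filter.1 hγ).2
  obtain ⟨c, hc⟩ := hv.plusAP_generic (algebraMap k (PS k D))
    (fun γ : (E ≃ₐ[PS k D] E) ⧸ H => γ.out) (fun γ => if γ ∈ T then (N' : ℝ≥0∞) else t)
    (fun γ => by split_ifs <;> simp) S fun γ => by
      by_cases hγ : γ ∈ T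
      · rw [if_pos hγ]
        by_contra hcon
        push Not at hcon
        have h1 : Ideal.span (S : Set E) ≤
            (hv.plusAPGt N' (ENNReal.natCast_ne_top N')).comap γ.out :=
          Ideal.span_le.2 fun s hs => hcon s hs
        have h2 : (N' : ℝ≥0∞) < v (γ.out (algebraMap (PS k D) E (MvPowerSeries.X ⟨0, hD⟩ ^ N))) :=
          h1 (hSm hz)
        rw [AlgEquiv.commutes, hN'] at h2
        exact lt_irrefl _ h2
      · rw [if_neg hγ]
        by_contra hcon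
        push Not at hcon
        exact hγ (Finset.mem_filter.2 ⟨Finset.mem_univ _, fun s hs => (hcon s hs).le⟩)
  refine ⟨∑ s : S, algebraMap (PS k D) E (algebraMap k (PS k D) (c s)) * s,
    hSJ (Ideal.sum_mem _ fun s _ => Ideal.mul_mem_left _ _ (Ideal.subset_span s.2)), ?_⟩
  refine (hΛ.plusAP_elem hD h hv N H (B := 2 * t) (fun η hη => ?_) (by finiteness) ?_).trans ?_
  · rw [map_sum]
    refine Finset.sum_congr rfl fun s _ => ?_
    rw [map_mul, AlgEquiv.commutes, hH η hη s s.2]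
  · refine (Finset.sum_le_sum (g := fun γ => (t : ℝ≥0∞) + if γ ∈ T then (N' : ℝ≥0∞) else 0)
      fun γ _ => (hc γ).trans ?_).trans ?_
    · split_ifs <;> simp
    · rw [Finset.sum_add_distrib, Finset.sum_const, Finset.card_univ, nsmul_eq_mul,
        Finset.sum_ite_mem, Finset.univ_inter, Finset.sum_const, nsmul_eq_mul, two_mul, mul_add]
      refine add_le_add le_rfl ((mul_le_mul_left (hT.trans (mul_le_mul_right
        (mul_le_mul_right hSδ _) _)) _).trans ?_)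
      refine le_trans (le_of_eq ?_) (mul_le_mul_right hδ.le _)
      ring
  · refine le_trans (le_of_eq ?_) ht.le
    ring

end Vale.Agent.P177
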