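import Vale.Agent.P177.PlusLenAux2

/-! Normalised length on an integral extension of a perfect normal domain. -/

namespace Vale.Agent.P177

open scoped ENNReal
open Vale.Agent.P202

universe u

theorem PlusLen_fun {B T T' : Type u} [CommRing B] [IsDomain B] [CommRing T] [IsDomain T]
    [CommRing T'] [Algebra B T] [Algebra T T'] [Algebra B T'] [IsScalarTower B T T']
    (hinj : Function.Injective (algebraMap B T')) (hint : ∀ x : T, IsIntegral B x) {s : ℕ}
    {u : Fin s → T'} {c : B} (h1 : c ≠ 0) (h2 : LinearIndependent T u)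
    (h3 : ∀ x, algebraMap B T c • x ∈ Submodule.span T (Set.range u)) :
    ∃ (l : T' →ₗ[T] T) (c : B), c ≠ 0 ∧ l 1 = algebraMap B T c := by
  obtain ⟨φ, h4, -⟩ := PlusLen_coord h2 h3
  obtain ⟨i, hi⟩ : ∃ i, φ 1 i ≠ 0 := by
    by_contra h
    push Not at h
    have h5 := h4 1
    simp only [h, zero_smul, Finset.sum_const_zero] at h5
    rw [Algebra.smul_def, mul_one, ← IsScalarTower.algebraMap_apply] at h5
    exact h1 (hinj (h5.symm.trans (map_zero _).symm))
  obtain ⟨c', h8, t, h9⟩ := (hint (φ 1 i)).isAlgebraic.exists_nonzero_dvd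
    (mem_nonZeroDivisors_of_ne_zero hi)
  exact ⟨t • (LinearMap.proj i).comp φ, c', h8, (mul_comm _ _).trans h9.symm⟩

variable {p : ℕ} [Fact p.Prime] {B E : Type u} [CommRing B] [CommRing E] [CharP E p] [Algebra B E]

theorem plR_map (σ : E →+* E) (τ : B → B) (h : ∀ b, σ (algebraMap B E b) = algebraMap B E (τ b))
    {a a' : Finset E} (ha : ∀ x ∈ a', σ x ∈ a) {x : E} (hx : x ∈ plR p B a') :
    σ x ∈ plR p B a := by
  obtain ⟨e, hx⟩ := hx
  refine ⟨e, ?_⟩
  rw [← map_pow]
  generalize x ^ p ^ e = y at hx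
  induction hx using Algebra.adjoin_induction with
  | mem y hy => exact Algebra.subset_adjoin (ha y hy)
  | algebraMap b => rw [h]; exact Subalgebra.algebraMap_mem _ _
  | add y z _ _ h1 h2 => rw [map_add]; exact add_mem h1 h2
  | mul y z _ _ h1 h2 => rw [map_mul]; exact mul_mem h1 h2

theorem plR_twist (lam : Len B) (m : Ideal B) (σ : E ≃+* E) (τ : B ≃+* B)
    (h : ∀ b, σ (algebraMap B E b) = algebraMap B E (τ b)) {κ : ℝ≥0∞}
    (hκ : ∀ (Y : Type u) [AddCommGroup Y] [Module B Y],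
      (∀ y : Y, ∀ z ∈ m, ∃ n : ℕ, z ^ n • y = 0) → lam.val Y = κ * (lam.res (τ : B →+* B)).val Y)
    (a : Finset E) (J : Ideal E) (hJ : m.map (algebraMap B E) ≤ (J.map σ).radical) :
    Module.finrank B (plR p B (a.map σ.toEquiv.toEmbedding)) = Module.finrank B (plR p B a) ∧
    (lam.res (algebraMap B (plR p B (a.map σ.toEquiv.toEmbedding)))).val
      (plR p B (a.map σ.toEquiv.toEmbedding) ⧸
        (J.map σ).comap (plR p B (a.map σ.toEquiv.toEmbedding)).subtype) =
      κ * (lam.res (algebraMap B (plR p B a))).val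
        (plR p B a ⧸ J.comap (plR p B a).subtype) := by
  set a' := a.map σ.toEquiv.toEmbedding with ha'
  have h' : ∀ b, σ.symm (algebraMap B E b) = algebraMap B E (τ.symm b) := fun b => by
    rw [σ.symm_apply_eq, h, τ.apply_symm_apply]
  let ε : plR p B a ≃+* plR p B a' :=
    { toFun := fun x => ⟨σ x, plR_map (σ : E →+* E) τ h
        (fun y hy => Finset.mem_map_of_mem _ hy) x.2⟩
      invFun := fun x => ⟨σ.symm x, plR_map (σ.symm : E →+* E) τ.symm h'
        (fun y hy => Finset.mem_map_equiv.1 hy) x.2⟩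
      left_inv := fun x => Subtype.ext (σ.symm_apply_apply _)
      right_inv := fun x => Subtype.ext (σ.apply_symm_apply _)
      map_mul' := fun x y => Subtype.ext (map_mul σ _ _)
      map_add' := fun x y => Subtype.ext (map_add σ _ _) }
  have hε : ∀ (b : B) (x : plR p B a), ε (b • x) = τ b • ε x := fun b x => by
    rw [Algebra.smul_def, Algebra.smul_def, map_mul]
    exact congrArg (· * ε x) (Subtype.ext (h b))
  refine ⟨congrArg Cardinal.toNat
    (rank_eq_of_equiv_equiv τ ε.toAddEquiv τ.bijective hε).symm, ?_⟩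
  have hJ' : (J.map σ).comap (plR p B a').subtype =
      (J.comap (plR p B a).subtype).map (ε : plR p B a →+* plR p B a') := by
    rw [Ideal.map_comap_of_equiv ε]
    ext x
    exact Ideal.mem_map_of_equiv σ x.1 |>.trans ⟨fun ⟨y, hy, e⟩ => by
      change σ.symm x.1 ∈ J
      rwa [← e, σ.symm_apply_apply], fun hx => ⟨_, hx, σ.apply_symm_apply _⟩⟩
  rw [lam.res_val _ _ fun r y => (algebraMap_smul _ r y).symm,
    lam.res_val _ _ fun r y => (algebraMap_smul _ r y).symm, hκ, lam.res_val_of_equiv _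
      (Ideal.quotientEquiv _ _ ε hJ').toAddEquiv]
  · intro r x
    obtain ⟨x, rfl⟩ := Ideal.Quotient.mk_surjective x
    exact congrArg (Ideal.Quotient.mk _) (hε r x)
  · intro y z hz
    obtain ⟨y, rfl⟩ := Ideal.Quotient.mk_surjective y
    obtain ⟨n, hn⟩ := hJ (Ideal.mem_map_of_mem _ hz)
    refine ⟨n, Ideal.Quotient.eq_zero_iff_mem.2 ?_⟩
    beta_reduce
    rw [Algebra.smul_def, map_pow]
    exact Ideal.mul_mem_right _ _ hn

variable [IsDomain B] [IsIntegrallyClosed B] [CharP B p] [PerfectRing B p] [IsDomain E]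
  [PerfectRing E p] [FaithfulSMul B E] [Algebra.IsIntegral B E] {lam : Len B} {m : Ideal B}

theorem plR_up (hs : PlSmall p lam m) (hm : m.FG) (a : Finset E) (J : Ideal (plR p B a))
    (I : Ideal B) (hI : I ≤ J.comap (algebraMap B _)) (hI' : m ≤ I.radical) :
    (lam.res (algebraMap B (plR p B a))).val (plR p B a ⧸ J) ≤
      Module.finrank B (plR p B a) * lam.val (B ⧸ I) := by
  obtain ⟨v, c, h1, -, h3⟩ := plR_basis p B a
  rw [lam.res_val _ _ fun r y => (algebraMap_smul _ r y).symm]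
  refine hs.upper (T := B) h1 h3 (Submodule.mapQ I J (algebraMap B _).toSemilinearMap hI) ?_ ?_
  · refine eq_top_iff.2 fun y _ => ?_
    obtain ⟨y, rfl⟩ := Ideal.Quotient.mk_surjective y
    have h4 : Ideal.Quotient.mk J y = y • Submodule.mapQ I J (algebraMap B _).toSemilinearMap hI
        (Submodule.Quotient.mk 1) :=
      congrArg (Ideal.Quotient.mk J) (show y = y * algebraMap B _ 1 by rw [map_one, mul_one])
    rw [h4]
    exact Submodule.smul_mem _ _ (Submodule.subset_span ⟨_, rfl⟩)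
  · obtain ⟨k, hk⟩ := Ideal.exists_pow_le_of_le_radical_of_fg hI' hm
    intro y
    obtain ⟨y, rfl⟩ := Ideal.Quotient.mk_surjective y
    refine ⟨k, fun c hc => Ideal.Quotient.eq_zero_iff_mem.2 ?_⟩
    beta_reduce
    rw [Algebra.smul_def]
    exact J.mul_mem_right _ (hI (hk hc))

theorem plR_hmono {zs : List B} (hs : PlSmall p lam (Ideal.ofList zs)) {a b : Finset E}
    (hab : a ≤ b) (X Y : Type u) [AddCommGroup X] [Module (plR p B a) X]
    [AddCommGroup Y] [Module (plR p B b) Y] (θ : X →ₛₗ[Subring.inclusion (plR_mono p B hab)] Y)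
    (hθ : Submodule.span (plR p B b) (Set.range θ) = ⊤)
    (hX : ∀ x : X, ∀ z ∈ zs, ∃ n : ℕ, algebraMap B (plR p B a) z ^ n • x = 0) :
    (Module.finrank B (plR p B b) : ℝ≥0∞)⁻¹ * (lam.res (algebraMap B (plR p B b))).val Y ≤
      (Module.finrank B (plR p B a) : ℝ≥0∞)⁻¹ * (lam.res (algebraMap B (plR p B a))).val X := by
  let := (Subring.inclusion (plR_mono p B hab)).toAlgebra
  have : IsScalarTower B (plR p B a) (plR p B b) := IsScalarTower.of_algebraMap_eq fun x => rfl
  let : Module B X := Module.compHom X (algebraMap B (plR p B a))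
  let : Module B Y := Module.compHom Y (algebraMap B (plR p B b))
  have : IsScalarTower B (plR p B a) X := IsScalarTower.of_compHom B _ X
  have : IsScalarTower B (plR p B b) Y := IsScalarTower.of_compHom B _ Y
  obtain ⟨s, u, c, h1, -, h3, h4⟩ := plR_rel p B (a := a) (b := b)
  have h5 : lam.val Y ≤ s * lam.val X := by
    refine hs.upper h1 h3 θ hθ (PlusLen_tors fun y z hz => ?_)
    have hy : y ∈ Submodule.span (plR p B b) (Set.range θ) := hθ ▸ Submodule.mem_top
    induction hy using Submodule.span_induction with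
    | mem y hy =>
      obtain ⟨x, rfl⟩ := hy
      obtain ⟨n, hn⟩ := hX x z hz
      refine ⟨n, ?_⟩
      have h6 := congrArg θ hn
      rw [map_smulₛₗ, map_zero, map_pow] at h6
      rw [← algebraMap_smul (plR p B b), map_pow]
      exact h6
    | zero => exact ⟨0, smul_zero _⟩
    | add y y' _ _ h h' =>
      obtain ⟨n, hn⟩ := h
      obtain ⟨n', hn'⟩ := h'
      refine ⟨n + n', ?_⟩
      rw [smul_add, pow_add, mul_smul _ _ y', hn', mul_comm, mul_smul, hn, smul_zero, smul_zero,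
        add_zero]
    | smul t y _ h => exact h.imp fun n hn => by rw [smul_comm, hn, smul_zero]
  rw [lam.res_val _ Y fun _ _ => rfl, lam.res_val _ X fun _ _ => rfl]
  refine (mul_le_mul_right h5 _).trans ?_
  rw [← mul_assoc]
  refine mul_le_mul_left ?_ _
  have ha : (Module.finrank B (plR p B a) : ℝ≥0∞) ≠ 0 := Nat.cast_ne_zero.2 (plR_rank_ne p B a)
  have hb : (Module.finrank B (plR p B b) : ℝ≥0∞) ≠ 0 := Nat.cast_ne_zero.2 (plR_rank_ne p B b)
  rw [ENNReal.inv_mul_le_iff hb (ENNReal.natCast_ne_top _), ← div_eq_mul_inv,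
    ENNReal.le_div_iff_mul_le (Or.inl ha) (Or.inl (ENNReal.natCast_ne_top _))]
  exact_mod_cast h4

omit [PerfectRing E p] in
theorem plR_fun {a b : Finset E} [Algebra (plR p B a) (plR p B b)]
    [IsScalarTower B (plR p B a) (plR p B b)] :
    ∃ (l : plR p B b →ₗ[plR p B a] plR p B a) (c : B), c ≠ 0 ∧ l 1 = algebraMap B _ c := by
  obtain ⟨s, u, c, h1, h2, h3, -⟩ := plR_rel p B (a := a) (b := b)
  exact PlusLen_fun (plR_inj p B b) (plR_int p B a) h1 h2 h3

theorem plR_pure (a : Finset E) (x : plR p B a) (hx : (x : E) ∈ m.map (algebraMap B E)) :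
    ∃ c : B, c ≠ 0 ∧ ∀ e, rt p e c • x ∈ (m • ⊤ : Submodule B (plR p B a)) := by
  classical
  obtain ⟨n, y, g, hg⟩ := Submodule.mem_span_set'.1 hx
  choose z hz hz' using fun i => (g i).2
  let b := a ∪ Finset.univ.image y
  have hab : a ≤ b := Finset.subset_union_left
  let := (Subring.inclusion (plR_mono p B hab)).toAlgebra
  have : IsScalarTower B (plR p B a) (plR p B b) := IsScalarTower.of_algebraMap_eq fun x => rfl
  obtain ⟨l, c, hc, hl⟩ := plR_fun (p := p) (B := B) (a := a) (b := b)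
  let y' : Fin n → plR p B b := fun i => ⟨y i, plPerf_of_mem p B (Algebra.subset_adjoin
    (Finset.mem_union_right _ (Finset.mem_image_of_mem _ (Finset.mem_univ i))))⟩
  refine ⟨c, hc, fun e => ?_⟩
  have h1 : (x ^ p ^ e) • (1 : plR p B b) =
      ∑ i, algebraMap B (plR p B a) (z i) ^ p ^ e • y' i ^ p ^ e := by
    refine Subtype.ext ?_
    have h2 := congrArg (iterateFrobenius E p e) hg
    rw [map_sum] at h2
    rw [AddSubmonoidClass.coe_finsetSum]
    refine ((mul_one _).trans h2.symm).trans (Finset.sum_congr rfl fun i _ => ?_)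
    rw [iterateFrobenius_def, smul_eq_mul, mul_pow, mul_comm, ← hz']
    rfl
  have h2 := congrArg l h1
  rw [map_smul, hl, map_sum, smul_eq_mul, mul_comm, ← Algebra.smul_def] at h2
  have h3 := congrArg (rt p e) h2
  rw [PlusLen_rt_smul, w4_rt_of_pow] at h3
  rw [h3, show rt p e (∑ i, _) = _ from map_sum (iterateFrobeniusEquiv _ p e).symm _ _]
  refine Submodule.sum_mem _ fun i _ => ?_
  change rt p e _ ∈ _
  rw [map_smul, smul_eq_mul, w4_rt_mul, w4_rt_of_pow, ← Algebra.smul_def]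
  exact Submodule.smul_mem_smul (hz i) Submodule.mem_top

theorem plR_low (hs : PlSmall p lam m) (a : Finset E) :
    Module.finrank B (plR p B a) * lam.val (B ⧸ m) ≤ (lam.res (algebraMap B (plR p B a))).val
      (plR p B a ⧸ (m.map (algebraMap B E)).comap (plR p B a).subtype) := by
  obtain ⟨v, c, h1, h2, h3⟩ := plR_basis p B a
  rw [lam.res_val _ _ fun r y => (algebraMap_smul _ r y).symm]
  refine (hs.lower h1 h2 h3).trans ?_
  rw [← lam.rel_top, ← lam.congr (Submodule.Quotient.restrictScalarsEquiv B _), ← lam.rel_top]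
  refine (lam.rel_le_add _ (Submodule.restrictScalars B
    ((m.map (algebraMap B E)).comap (plR p B a).subtype)) _).trans (le_of_eq ?_)
  rw [lam.rel_eq_zero_of_small _ (m • ⊤) fun x hx ε hε => ?_, add_zero]
  obtain ⟨d, hd, h4⟩ := plR_pure a x hx
  obtain ⟨e, he⟩ := hs d hd 1 ε hε
  refine ⟨_, fun t ht => ?_, he e le_rfl⟩
  obtain ⟨y, hy, z, hz, rfl⟩ := Submodule.mem_sup.1 ht
  obtain ⟨t, rfl⟩ := Ideal.mem_span_singleton'.1 hy
  rw [add_smul, mul_smul]
  exact add_mem (Submodule.smul_mem _ _ (h4 e))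
    (Submodule.smul_mem_smul (pow_one m ▸ hz) Submodule.mem_top)

theorem PlusLen_main (E : Type u) [CommRing E] [CharP E p] [Algebra B E] [IsDomain E]
    [PerfectRing E p] [FaithfulSMul B E] [Algebra.IsIntegral B E] {zs : List B}
    (hm : m = Ideal.ofList zs) (hs : PlSmall p lam m) (hfin : ∀ N : ℕ, lam.val (B ⧸ m ^ N) ≠ ⊤) :
    ∃ Λ : Len E, (∀ I : Ideal B, m ≤ I.radical →
      Λ.val (E ⧸ I.map (algebraMap B E)) ≤ lam.val (B ⧸ I)) ∧
      lam.val (B ⧸ m) ≤ Λ.val (E ⧸ m.map (algebraMap B E)) ∧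
      ∀ (σ : E ≃+* E) (τ : B ≃+* B) (κ : ℝ≥0∞), κ ≠ 0 → κ ≠ ⊤ →
        (∀ b, σ (algebraMap B E b) = algebraMap B E (τ b)) →
        (∀ (Y : Type u) [AddCommGroup Y] [Module B Y], (∀ y : Y, ∀ z ∈ m, ∃ n : ℕ, z ^ n • y = 0) →
          lam.val Y = κ * (lam.res (τ : B →+* B)).val Y) →
        ∀ J : Ideal E, m.map (algebraMap B E) ≤ J.radical →
          m.map (algebraMap B E) ≤ (J.map σ).radical →
          Λ.val (E ⧸ J.map σ) = κ * Λ.val (E ⧸ J) := by
  have hr : ∀ a : Finset E, (Module.finrank B (plR p B a) : ℝ≥0∞) ≠ 0 := fun a =>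
    Nat.cast_ne_zero.2 (plR_rank_ne p B a)
  have hfg : m.FG := hm ▸ Submodule.fg_span (List.finite_toSet zs)
  choose Λ hΛ using fun a : Finset E => (lam.res (algebraMap B (plR p B a))).exists_smul
    (Module.finrank B (plR p B a) : ℝ≥0∞)⁻¹ (ENNReal.inv_ne_top.2 (hr a))
  have up : ∀ (a : Finset E) (J : Ideal (plR p B a)) (I : Ideal B),
      I ≤ J.comap (algebraMap B _) → m ≤ I.radical → (Λ a).val (plR p B a ⧸ J) ≤ lam.val (B ⧸ I) :=
    fun a J I h1 h2 => by
      rw [hΛ, ENNReal.inv_mul_le_iff (hr a) (ENNReal.natCast_ne_top _)]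
      exact plR_up hs hfg a J I h1 h2
  obtain ⟨Λ', h'⟩ := Len.exists_directed (plR p B) (plR_mono p B) (fun x => ⟨_, plR_self p B x⟩) Λ
    (zs.map (algebraMap B E)) (fun a z hz => by
      obtain ⟨z, -, rfl⟩ := List.mem_map.1 hz
      exact (algebraMap B (plR p B a) z).2) (fun a J hJ => by
      have h1 : m ≤ (J.comap (algebraMap B _)).radical := by
        rw [hm, ← Ideal.comap_radical]
        exact Ideal.span_le.2 fun z hz => hJ _ (List.mem_map_of_mem (f := algebraMap B E) hz)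
      obtain ⟨k, hk⟩ := Ideal.exists_pow_le_of_le_radical_of_fg h1 hfg
      exact ne_top_of_le_ne_top (hfin (k + 1)) (up a J _
        ((Ideal.pow_le_pow_right k.le_succ).trans hk)
        (Ideal.le_radical.trans (Ideal.radical_pow _ k.succ_ne_zero).ge)))
    fun a b hab X Y _ _ _ _ θ hθ hX => by
      rw [hΛ, hΛ]
      exact plR_hmono (hm ▸ hs) hab X Y θ hθ fun x z hz =>
        hX x _ (List.mem_map_of_mem (f := algebraMap B E) hz)
  have h'' : ∀ J : Ideal E, m.map (algebraMap B E) ≤ J.radical →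
      Λ'.val (E ⧸ J) = ⨅ a, (Λ a).val (plR p B a ⧸ J.comap (plR p B a).subtype) :=
    fun J hJ => h' J fun z hz => by
      obtain ⟨z, hz', rfl⟩ := List.mem_map.1 hz
      exact hJ (Ideal.mem_map_of_mem _ (hm ▸ Ideal.subset_span (s := {r | r ∈ zs}) hz'))
  refine ⟨Λ', fun I hI => ?_, ?_, fun σ τ κ h0 h1 h2 h3 J h4 h5 => ?_⟩
  · rw [h'' _ ((Ideal.map_mono hI).trans (Ideal.map_radical_le _))]
    exact (iInf_le _ ∅).trans (up _ _ I (fun x hx => Ideal.mem_map_of_mem (algebraMap B E) hx) hI)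
  · rw [h'' _ Ideal.le_radical]
    refine le_iInf fun a => ?_
    rw [hΛ, ← ENNReal.mul_le_mul_iff_right (hr a) (ENNReal.natCast_ne_top _), ← mul_assoc,
      ENNReal.mul_inv_cancel (hr a) (ENNReal.natCast_ne_top _), one_mul]
    exact plR_low hs a
  · rw [h'' _ h5, h'' _ h4, ENNReal.mul_iInf_of_ne h0 h1, ← σ.toEquiv.finsetCongr.iInf_comp]
    refine iInf_congr fun a => ?_
    obtain ⟨k1, k2⟩ := plR_twist (p := p) lam m σ τ h2 h3 a J h5
    rw [hΛ, hΛ, mul_left_comm, ← k2, ← k1]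
    rfl

end Vale.Agent.P177
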