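import Vale.Agent.P177.PerfLen
import Vale.Agent.P177.PlusLenAux3

/-! Normalised length on the absolute integral closure. -/

namespace Vale.Agent.P177

open scoped ENNReal
open IsLocalRing Vale.Agent.P202

universe u

theorem PlusLen_of (p D : ℕ) [Fact p.Prime] (A B E : Type u) [CommRing A] [IsLocalRing A]
    [IsNoetherianRing A] [CommRing B] [IsDomain B] [IsIntegrallyClosed B] [CharP B p]
    [PerfectRing B p] [CommRing E] [IsDomain E] [CharP E p] [PerfectRing E p] [Algebra A B]
    [Algebra B E] [Algebra A E] [IsScalarTower A B E] [FaithfulSMul B E] [Algebra.IsIntegral B E]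
    (hpow : ∀ x : B, ∃ (e : ℕ) (a : A), x ^ p ^ e = algebraMap A B a) (lam : Len B)
    (h1 : ∀ I : Ideal A, maximalIdeal A ≤ I.radical →
      lam.val (B ⧸ I.map (algebraMap A B)) = Module.length A (A ⧸ I))
    (h2 : ∀ J : Ideal B, mE A B ≤ J.radical →
      lam.val (B ⧸ J.map (frobenius B p)) = (p : ℝ≥0∞) ^ D * lam.val (B ⧸ J))
    (h3 : PlSmall p lam (mE A B)) : ∃ Λ : Len E, PlusLen p D A E Λ := by
  have hfg : (mE A B).FG := Ideal.FG.map (IsNoetherian.noetherian _) _
  have hone : lam.val (B ⧸ mE A B) = 1 := by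
    have : IsSimpleModule A (A ⧸ maximalIdeal A) :=
      isSimpleModule_iff_isCoatom.2 (Ideal.isMaximal_def.1 inferInstance)
    rw [h1 _ Ideal.le_radical, Module.length_eq_one]
    exact ENat.toENNReal_one
  have hmm : ∀ I : Ideal A, (I.map (algebraMap A B)).map (algebraMap B E) =
      I.map (algebraMap A E) := fun I => by
    rw [Ideal.map_map, ← IsScalarTower.algebraMap_eq]
  obtain ⟨s, hs⟩ := hfg
  obtain ⟨Λ, k1, k2, k3⟩ := PlusLen_main E (zs := s.toList) (m := mE A B)
    (hs.symm.trans (congrArg Ideal.span (Set.ext fun x => Finset.mem_toList.symm))) h3 fun N => by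
      have h4 := lam.rel_ideal_pow_ne_top (mE A B) ⟨s, hs⟩ N (⊤ : Submodule B B)
      rw [lam.rel_top, lam.rel_top, smul_eq_mul, smul_eq_mul, Ideal.mul_top, Ideal.mul_top,
        hone] at h4
      exact h4 ENNReal.one_ne_top
  rw [hmm] at k2 k3
  have hp : (p : ℝ≥0∞) ^ D ≠ ⊤ := ENNReal.pow_ne_top (ENNReal.natCast_ne_top p)
  have hfr : ∀ {R : Type u} [CommRing R] [CharP R p] (I J : Ideal R), I ≤ J.radical →
      I ≤ (J.map (frobenius R p)).radical := fun I J h x hx => by
    obtain ⟨n, hn⟩ := h hx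
    exact ⟨n * p, pow_mul x n p ▸ Ideal.mem_map_of_mem (frobenius _ p) hn⟩
  have hle : ∀ I : Ideal A, maximalIdeal A ≤ I.radical →
      Λ.val (E ⧸ I.map (algebraMap A E)) ≤ Module.length A (A ⧸ I) := fun I hI => by
    rw [← hmm, ← h1 I hI]
    exact k1 _ ((Ideal.map_mono hI).trans (Ideal.map_radical_le _))
  refine ⟨Λ, le_antisymm ?_ (hone ▸ k2), hle, fun g J hJ => ?_, fun J hJ => ?_⟩
  · rw [← hone, h1 _ Ideal.le_radical]
    exact hle _ Ideal.le_radical
  · refine (k3 g.toRingEquiv (RingEquiv.refl B) 1 one_ne_zero ENNReal.one_ne_top (fun b => ?_)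
      (fun Y _ _ _ => ?_) J hJ ?_).trans (one_mul _)
    · obtain ⟨e, a, ha⟩ := hpow b
      refine w4_pow_p_pow_inj (p := p) e ?_
      rw [← map_pow, RingEquiv.refl_apply, ← map_pow, ha, ← IsScalarTower.algebraMap_apply]
      exact g.commutes a
    · rw [one_mul]
      exact (lam.res_id Y).symm
    · refine Ideal.map_le_iff_le_comap.2 fun x hx => ?_
      obtain ⟨n, hn⟩ := hJ (Ideal.mem_map_of_mem _ hx)
      refine ⟨n, ?_⟩
      have h4 := Ideal.mem_map_of_mem g.toRingEquiv hn
      rw [map_pow] at h4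
      exact g.commutes x ▸ h4
  · refine k3 (frobeniusEquiv E p) (frobeniusEquiv B p) _
      (pow_ne_zero _ (Nat.cast_ne_zero.2 (Fact.out : p.Prime).ne_zero)) hp
      (fun b => (map_pow _ _ _).symm) (fun Y _ _ hY => ?_) J hJ (hfr _ _ hJ)
    obtain ⟨lam', h4⟩ := (lam.res (frobeniusEquiv B p : B →+* B)).exists_smul _ hp
    rw [← h4]
    refine lam.val_eq_of_quot lam' _ (fun I hI => ?_) Y hY
    have h5 : (I.comap (frobenius B p)).map (frobenius B p) = I :=
      Ideal.map_comap_of_surjective _ (frobeniusEquiv B p).surjective I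
    rw [h4, lam.res_quot (frobeniusEquiv B p : B →+* B) (frobeniusEquiv B p).surjective]
    refine Eq.trans (by rw [h5]) (h2 (I.comap (frobenius B p)) fun x hx => ?_)
    obtain ⟨n, hn⟩ := hI hx
    exact ⟨n, I.pow_mem_of_mem hn p (Fact.out : p.Prime).pos⟩

theorem IsPlus.exists_plusLen (p : ℕ) [Fact p.Prime] (k : Type u) [Field k] [CharP k p]
    [PerfectRing k p] (D : ℕ) (E : Type u) [CommRing E] [CharP E p] [Algebra (PS k D) E]
    (h : IsPlus (PS k D) E) : ∃ Λ : Len E, PlusLen p D (PS k D) E Λ := by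
  have := h.dom
  have := h.int
  have := perfectRing_of_splits p h.splits
  have hinj : Function.Injective (algebraMap (PS k D) (plPerf p (PS k D) (⊥ : Subalgebra _ E))) :=
    fun _ _ e => h.inj (congrArg Subtype.val e)
  have hpow : ∀ x : plPerf p (PS k D) (⊥ : Subalgebra _ E), ∃ (e : ℕ) (a : PS k D),
      x ^ p ^ e = algebraMap _ _ a := fun ⟨x, e, a, ha⟩ => ⟨e, a, Subtype.ext ha.symm⟩
  have := perf_isIntegrallyClosed p k D _ hinj hpow
  have : Algebra.IsIntegral (plPerf p (PS k D) (⊥ : Subalgebra _ E)) E :=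
    Algebra.IsIntegral.tower_top (R := PS k D)
  obtain ⟨lam, h1, h2, h3⟩ := exists_perfLen p k D _ hinj hpow
  exact PlusLen_of p D (PS k D) _ E hpow lam h1 h2 h3

end Vale.Agent.P177
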