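import Vale.Agent.P177.PlusDef
import Vale.Agent.P177.LenCons
import Vale.Agent.P177.Len2

/-! Length functions on ultrapowers. -/

namespace Vale.Agent.P177

open scoped ENNReal
open Filter

universe u

/-- the ultrapower. -/
abbrev UP (E : Type u) : Type u := Germ (hyperfilter ℕ : Filter ℕ) E

namespace Ultra

/-- limit along the ultrafilter. -/
noncomputable def ul (f : ℕ → ℝ≥0∞) : ℝ≥0∞ := (Ultrafilter.map f (hyperfilter ℕ)).lim

theorem tendsto_ul (f : ℕ → ℝ≥0∞) : Tendsto f (hyperfilter ℕ) (nhds (ul f)) :=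
  (Ultrafilter.map f (hyperfilter ℕ)).le_nhds_lim

theorem ul_mono {f g : ℕ → ℝ≥0∞} (h : ∀ᶠ n in (hyperfilter ℕ : Filter ℕ), f n ≤ g n) :
    ul f ≤ ul g :=
  le_of_tendsto_of_tendsto (tendsto_ul f) (tendsto_ul g) h

theorem ul_add (f g : ℕ → ℝ≥0∞) : ul (fun n => f n + g n) = ul f + ul g :=
  tendsto_nhds_unique (tendsto_ul _) ((tendsto_ul f).add (tendsto_ul g))

theorem ul_const (c : ℝ≥0∞) : ul (fun _ => c) = c :=
  tendsto_nhds_unique (tendsto_ul _) tendsto_const_nhds

variable {E : Type u} [CommRing E]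

/-- the class of a sequence. -/
noncomputable def gm : (ℕ → E) →+* UP E := Germ.coeRingHom _

theorem gm_surj (x : UP E) : ∃ a : ℕ → E, gm a = x := Germ.inductionOn x fun a => ⟨a, rfl⟩

theorem gm_eq {a b : ℕ → E} : gm a = gm b ↔ ∀ᶠ n in (hyperfilter ℕ : Filter ℕ), a n = b n :=
  Germ.coe_eq

variable {X X' : Type u} [AddCommGroup X] [Module (UP E) X] [AddCommGroup X'] [Module (UP E) X']
  {ι κ : Type} [Fintype ι] [Fintype κ]

/-- linear combination with coefficients given by sequences. -/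
noncomputable def ev (x : ι → X) (a : ℕ → ι → E) : X := ∑ i, gm (fun n => a n i) • x i

theorem ev_congr (x : ι → X) {a b : ℕ → ι → E}
    (h : ∀ᶠ n in (hyperfilter ℕ : Filter ℕ), a n = b n) : ev x a = ev x b := by
  refine Finset.sum_congr rfl fun i _ => ?_
  rw [gm_eq.2 (h.mono fun n hn => congrFun hn i)]

theorem ev_map (f : X →ₗ[UP E] X') (x : ι → X) (a : ℕ → ι → E) : ev (f ∘ x) a = f (ev x a) := by
  simp [ev]

theorem ev_lin (y : κ → X) (w : ℕ → ι → κ → E) (a : ℕ → ι → E) :
    ev (fun i => ev y fun n => w n i) a =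
      ev y fun n => Fintype.linearCombination E (w n) (a n) := by
  simp only [ev, Finset.smul_sum, smul_smul, ← map_mul]
  rw [Finset.sum_comm]
  refine Finset.sum_congr rfl fun j _ => ?_
  rw [← Finset.sum_smul, ← map_sum]
  congr 2
  funext n
  simp [Fintype.linearCombination_apply]

theorem exists_ev (y : κ → X) {z : X} (hz : z ∈ Submodule.span (UP E) (Set.range y)) :
    ∃ a : ℕ → κ → E, ev y a = z := by
  obtain ⟨c, rfl⟩ := (Submodule.mem_span_range_iff_exists_fun _).1 hz
  choose a ha using fun j => gm_surj (c j)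
  exact ⟨fun n j => a j n, Finset.sum_congr rfl fun j _ => by rw [← ha j]⟩

/-- the ultraproduct of the `W n` consists of relations. -/
def Adm (x : ι → X) (W : ℕ → Submodule E (ι → E)) : Prop :=
  ∀ a : ℕ → ι → E, (∀ᶠ n in (hyperfilter ℕ : Filter ℕ), a n ∈ W n) → ev x a = 0

variable (Λ : Len E)

/-- the size of the span of a finite family. -/
noncomputable def col (x : ι → X) : ℝ≥0∞ :=
  ⨅ W : {W : ℕ → Submodule E (ι → E) // Adm x W}, ul fun n => Λ.rel ⊤ (W.1 n)

theorem col_le {x : ι → X} {W : ℕ → Submodule E (ι → E)} (h : Adm x W) :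
    col Λ x ≤ ul fun n => Λ.rel ⊤ (W n) :=
  iInf_le (fun W : {W : ℕ → Submodule E (ι → E) // Adm x W} => ul fun n => Λ.rel ⊤ (W.1 n)) ⟨W, h⟩

theorem col_le_of_span (x : ι → X) (y : κ → X)
    (h : ∀ i, x i ∈ Submodule.span (UP E) (Set.range y)) : col Λ x ≤ col Λ y := by
  choose w hw using fun i => exists_ev y (h i)
  refine le_iInf fun W => ?_
  have hadm : Adm x fun n => (W.1 n).comap (Fintype.linearCombination E fun i => w i n) := by
    intro a ha
    have := ev_lin y (fun n i => w i n) a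
    rw [show (fun i => ev y fun n => w i n) = x from funext hw] at this
    rw [this]
    exact W.2 _ ha
  refine (col_le Λ hadm).trans (ul_mono (Eventually.of_forall fun n => ?_))
  rw [← Λ.rel_map_comap]
  exact Λ.rel_mono le_top le_rfl

theorem col_comp (f : X →ₗ[UP E] X') (hf : Function.Injective f) (x : ι → X) :
    col Λ x ≤ col Λ (f ∘ x) := by
  refine le_iInf fun W => col_le Λ fun a ha => hf ?_
  rw [← ev_map, W.2 a ha, map_zero]

theorem col_comp_le (f : X →ₗ[UP E] X') (x : ι → X) : col Λ (f ∘ x) ≤ col Λ x := by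
  refine le_iInf fun W => col_le Λ fun a ha => ?_
  rw [ev_map, W.2 a ha, map_zero]

/-- the size of a module. -/
noncomputable def sz (X : Type u) [AddCommGroup X] [Module (UP E) X] : ℝ≥0∞ :=
  ⨆ x : Σ r : ℕ, Fin r → X, col Λ x.2

theorem col_le_sz (x : ι → X) : col Λ x ≤ sz Λ X := by
  refine (col_le_of_span Λ x (x ∘ (Fintype.equivFin ι).symm) fun i => ?_).trans
    (le_iSup (fun x : Σ r : ℕ, Fin r → X => col Λ x.2) ⟨_, _⟩)
  exact Submodule.subset_span ⟨Fintype.equivFin ι i, by simp⟩

theorem sz_le {c : ℝ≥0∞} (h : ∀ (r : ℕ) (x : Fin r → X), col Λ x ≤ c) : sz Λ X ≤ c :=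
  iSup_le fun x => h x.1 x.2

variable {X'' : Type u} [AddCommGroup X''] [Module (UP E) X'']

theorem add_le (f : X' →ₗ[UP E] X) (g : X →ₗ[UP E] X'') (hf : Function.Injective f)
    (hfg : Function.Exact f g) (hg : Function.Surjective g) : sz Λ X' + sz Λ X'' ≤ sz Λ X := by
  have : Nonempty (Σ r : ℕ, Fin r → X') := ⟨⟨0, Fin.elim0⟩⟩
  have : Nonempty (Σ r : ℕ, Fin r → X'') := ⟨⟨0, Fin.elim0⟩⟩
  refine ENNReal.iSup_add_iSup_le ?_
  rintro ⟨r', x'⟩ ⟨r'', x''⟩
  choose y hy using fun j => hg (x'' j)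
  refine le_trans ?_ (col_le_sz Λ (Sum.elim (f ∘ x') y))
  refine le_iInf fun W => ?_
  let i : (Fin r' → E) →ₗ[E] (Fin r' ⊕ Fin r'' → E) :=
    { toFun := fun a => Sum.elim a 0
      map_add' := fun a b => by funext k; cases k <;> simp
      map_smul' := fun a b => by funext k; cases k <;> simp }
  let π : (Fin r' ⊕ Fin r'' → E) →ₗ[E] (Fin r'' → E) := LinearMap.funLeft E E Sum.inr
  have h1 : Adm x' fun n => (W.1 n).comap i := by
    intro a ha
    have := W.2 (fun n => i (a n)) ha
    apply hf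
    rw [← ev_map, map_zero, ← this]
    simp only [ev, Fintype.sum_sum_type, Sum.elim_inl, Sum.elim_inr]
    have h0 : ∀ k : Fin r'', gm (fun n => i (a n) (Sum.inr k)) = 0 := fun k => map_zero gm
    simp only [h0, zero_smul, Finset.sum_const_zero, add_zero]
    rfl
  have h2 : Adm x'' fun n => (W.1 n).map π := by
    intro a ha
    classical
    have hb : ∀ n, ∃ b, a n ∈ (W.1 n).map π → b ∈ W.1 n ∧ π b = a n := fun n => by
      by_cases hn : a n ∈ (W.1 n).map π
      · obtain ⟨b, hb, hb'⟩ := hn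
        exact ⟨b, fun _ => ⟨hb, hb'⟩⟩
      · exact ⟨0, fun h => absurd h hn⟩
    choose b hb using hb
    have := congrArg g (W.2 b (ha.mono fun n hn => (hb n hn).1))
    rw [← ev_congr x'' (ha.mono fun n hn => (hb n hn).2), ← map_zero g, ← this, ← ev_map]
    simp only [ev, Fintype.sum_sum_type, Function.comp_apply, Sum.elim_inl, Sum.elim_inr, hy,
      hfg.apply_apply_eq_zero, smul_zero, Finset.sum_const_zero, zero_add]
    rfl
  refine (add_le_add (col_le Λ h1) (col_le Λ h2)).trans ?_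
  rw [← ul_add]
  refine ul_mono (Eventually.of_forall fun n => ?_)
  have hπ : Submodule.map π ⊤ = ⊤ := by
    rw [Submodule.map_top, LinearMap.range_eq_top]
    exact fun a => ⟨Sum.elim 0 a, rfl⟩
  have hπ' : Submodule.map π (Submodule.map i ⊤ ⊔ W.1 n) = Submodule.map π (W.1 n) := by
    rw [Submodule.map_sup, sup_eq_right]
    rintro _ ⟨_, ⟨a, -, rfl⟩, rfl⟩
    exact (show π (i a) = 0 from rfl) ▸ zero_mem _
  rw [Λ.rel_add (A := ⊤) (B := Submodule.map i ⊤ ⊔ W.1 n) (C := W.1 n) le_top le_sup_right,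
    Λ.rel_sup, Λ.rel_map_comap, add_comm]
  refine add_le_add ?_ le_rfl
  have := Λ.rel_map_le π ⊤ (Submodule.map i ⊤ ⊔ W.1 n)
  rwa [hπ, hπ'] at this

/-- constant sequences. -/
noncomputable def cst : E →+* UP E := gm.comp (Pi.constRingHom ℕ E)

theorem le_add {m : Ideal E} (hm : m.FG) (h : APgen Λ m) (f : X' →ₗ[UP E] X)
    (g : X →ₗ[UP E] X'') (hfg : Function.Exact f g) (hX : Tors (m.map cst) X) :
    sz Λ X ≤ sz Λ X' + sz Λ X'' := by
  classical
  refine sz_le Λ fun r y => ?_
  refine le_trans ?_ (add_le_add le_rfl (col_le_sz Λ (g ∘ y)))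
  rw [col, col, ENNReal.add_iInf]
  refine le_iInf fun W => ?_
  refine ENNReal.le_of_forall_pos_le_add fun ε hε _ => ?_
  choose Nn hN using fun i => hX (y i)
  let N := Finset.univ.sup Nn
  obtain ⟨s, hs⟩ := h N r ε (by exact_mod_cast hε)
  let L : Submodule E (Fin r → E) := m ^ N • ⊤
  obtain ⟨t, ℓ, hℓ⟩ := Submodule.fg_iff_exists_fin_generating_family.1
    (Submodule.FG.smul (hm.pow (n := N)) (Module.Finite.fg_top (R := E) (M := Fin r → E)))
  choose w hw hw' using fun n => hs (W.1 n) L le_rfl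
  let ω : ℕ → Fin s ⊕ Fin t → Fin r → E := fun n => Sum.elim (w n) ℓ
  have hω : ∀ j, ∃ x', f x' = ev y fun n => ω n j := by
    rintro (j | j)
    · refine (hfg _).1 ?_
      rw [← ev_map]
      exact W.2 _ (Eventually.of_forall fun n => hw n j)
    · refine ⟨0, ?_⟩
      rw [map_zero, eq_comm]
      refine Finset.sum_eq_zero fun i _ => hN i _ ?_
      have h1 : ℓ j ∈ m ^ N • (⊤ : Submodule E (Fin r → E)) :=
        hℓ ▸ Submodule.subset_span ⟨j, rfl⟩
      have h2 : ℓ j i ∈ m ^ N := by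
        refine Submodule.smul_induction_on (p := fun v => v i ∈ m ^ N) h1 ?_ ?_
        · exact fun a ha v _ => Ideal.mul_mem_right _ _ ha
        · exact fun v v' hv hv' => add_mem hv hv'
      rw [← Ideal.map_pow]
      exact Ideal.mem_map_of_mem cst
        (Ideal.pow_le_pow_right (Finset.le_sup (f := Nn) (Finset.mem_univ i)) h2)
  choose x' hx' using hω
  have key : col Λ y ≤ (ul fun n => Λ.rel ⊤ (W.1 n)) + ε + col Λ x' := by
    rw [col.eq_def Λ x', ENNReal.add_iInf]
    refine le_iInf fun U => ?_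
    have hadm : Adm y fun n => (U.1 n).map (Fintype.linearCombination E (ω n)) := by
      intro a ha
      have hb : ∀ n, ∃ b, a n ∈ (U.1 n).map (Fintype.linearCombination E (ω n)) →
          b ∈ U.1 n ∧ Fintype.linearCombination E (ω n) b = a n := fun n => by
        by_cases hn : a n ∈ (U.1 n).map (Fintype.linearCombination E (ω n))
        · obtain ⟨b, hb, hb'⟩ := hn
          exact ⟨b, fun _ => ⟨hb, hb'⟩⟩
        · exact ⟨0, fun h => absurd h hn⟩
      choose b hb using hb
      rw [← ev_congr y (ha.mono fun n hn => (hb n hn).2), ← ev_lin,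
        show (fun i => ev y fun n => ω n i) = f ∘ x' from funext fun j => (hx' j).symm, ev_map,
        U.2 b (ha.mono fun n hn => (hb n hn).1), map_zero]
    refine (col_le Λ hadm).trans ?_
    rw [← ul_const (ε : ℝ≥0∞), ← ul_add, ← ul_add]
    refine ul_mono (Eventually.of_forall fun n => ?_)
    have hr : Submodule.map (Fintype.linearCombination E (ω n)) ⊤ =
        Submodule.span E (Set.range (w n)) ⊔ L := by
      rw [Submodule.map_top, Fintype.range_linearCombination, Set.Sum.elim_range,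
        Submodule.span_union, hℓ]
    refine (Λ.rel_le_add ⊤ (Submodule.span E (Set.range (w n)) ⊔ L) _).trans (add_le_add ?_ ?_)
    · exact (Λ.rel_le_add ⊤ (W.1 n) _).trans (add_le_add le_rfl (hw' n))
    · rw [← hr]
      exact Λ.rel_map_le _ _ _
  refine key.trans ?_
  rw [add_comm, ← add_assoc]
  exact add_le_add (add_le_add (col_le_sz Λ x') le_rfl) le_rfl

theorem mem_span_iff {s : ℕ} (g : Fin s → ℕ → E) (a : ℕ → E) :
    gm a ∈ Ideal.span (Set.range fun i => gm (g i)) ↔
      ∀ᶠ n in (hyperfilter ℕ : Filter ℕ), a n ∈ Ideal.span (Set.range fun i => g i n) := by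
  constructor
  · intro h
    obtain ⟨c, hc⟩ := (Submodule.mem_span_range_iff_exists_fun _).1 h
    choose b hb using fun j => gm_surj (c j)
    simp only [← hb, smul_eq_mul, ← map_mul, ← map_sum] at hc
    refine (gm_eq.1 hc).mono fun n hn => ?_
    rw [← hn, Finset.sum_apply]
    exact Ideal.sum_mem _ fun i _ => Ideal.mul_mem_left _ _ (Ideal.subset_span ⟨i, rfl⟩)
  · intro h
    have hb : ∀ n, ∃ b : Fin s → E, a n ∈ Ideal.span (Set.range fun i => g i n) →
        ∑ i, b i * g i n = a n := fun n => by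
      by_cases hn : a n ∈ Ideal.span (Set.range fun i => g i n)
      · obtain ⟨b, hb⟩ := (Submodule.mem_span_range_iff_exists_fun _).1 hn
        exact ⟨b, fun _ => hb⟩
      · exact ⟨0, fun h => absurd h hn⟩
    choose b hb using hb
    have : gm a = ∑ i, gm (fun n => b n i) * gm (g i) := by
      simp only [← map_mul, ← map_sum]
      refine gm_eq.2 (h.mono fun n hn => ?_)
      rw [← hb n hn, Finset.sum_apply]
      rfl
    rw [this]
    exact Ideal.sum_mem _ fun i _ => Ideal.mul_mem_left _ _ (Ideal.subset_span ⟨i, rfl⟩)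

theorem sz_quot {s : ℕ} (g : Fin s → ℕ → E) :
    sz Λ (UP E ⧸ Ideal.span (Set.range fun i => gm (g i))) =
      ul fun n => Λ.val (E ⧸ Ideal.span (Set.range fun i => g i n)) := by
  set J := Ideal.span (Set.range fun i => gm (g i))
  let o : Unit → UP E ⧸ J := fun _ => Ideal.Quotient.mk J 1
  let e : (Unit → E) →ₗ[E] E := LinearMap.proj ()
  have he : Submodule.map e ⊤ = ⊤ := by
    rw [Submodule.map_top, LinearMap.range_eq_top]
    exact fun a => ⟨fun _ => a, rfl⟩
  have hev : ∀ a : ℕ → Unit → E, ev o a = 0 ↔ ∀ᶠ n in (hyperfilter ℕ : Filter ℕ),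
      a n () ∈ Ideal.span (Set.range fun i => g i n) := fun a => by
    rw [← mem_span_iff, ← Ideal.Quotient.eq_zero_iff_mem]
    simp only [ev, Finset.univ_unique, Finset.sum_singleton, o]
    rw [show gm (fun n => a n default) • Ideal.Quotient.mk J 1 =
      Ideal.Quotient.mk J (gm (fun n => a n ()) * 1) from rfl, mul_one]
  have hval : ∀ n, Λ.rel ⊤ (Submodule.comap e (Ideal.span (Set.range fun i => g i n))) =
      Λ.val (E ⧸ Ideal.span (Set.range fun i => g i n)) := fun n => by
    rw [← Λ.rel_map_comap, he, Λ.rel_top]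
  refine le_antisymm (sz_le Λ fun r x => ?_) (le_trans ?_ (col_le_sz Λ o))
  · refine (col_le_of_span Λ x o fun i => ?_).trans ?_
    · obtain ⟨c, hc⟩ := Ideal.Quotient.mk_surjective (x i)
      rw [← hc, ← mul_one c]
      exact Submodule.smul_mem _ c (Submodule.subset_span (s := Set.range o) ⟨(), rfl⟩)
    · simp only [← hval]
      exact col_le Λ fun a ha => (hev a).2 ha
  · refine le_iInf fun W => ul_mono ?_
    have : ∀ᶠ n in (hyperfilter ℕ : Filter ℕ),
        W.1 n ≤ Submodule.comap e (Ideal.span (Set.range fun i => g i n)) := by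
      by_contra hc
      rw [← Ultrafilter.eventually_not] at hc
      have hb : ∀ n, ∃ b, ¬ W.1 n ≤ Submodule.comap e (Ideal.span (Set.range fun i => g i n)) →
          b ∈ W.1 n ∧ b () ∉ Ideal.span (Set.range fun i => g i n) := fun n => by
        by_cases hn : W.1 n ≤ Submodule.comap e (Ideal.span (Set.range fun i => g i n))
        · exact ⟨0, fun h => absurd hn h⟩
        · obtain ⟨b, hb, hb'⟩ := SetLike.not_le_iff_exists.1 hn
          exact ⟨b, fun _ => ⟨hb, hb'⟩⟩
      choose b hb using hb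
      have h1 := (hev b).1 (W.2 b (hc.mono fun n hn => (hb n hn).1))
      obtain ⟨n, hn, hn'⟩ := (hc.and h1).exists
      exact (hb n hn).2 hn'
    refine this.mono fun n hn => ?_
    rw [← hval]
    exact Λ.rel_mono le_rfl hn

end Ultra

open Ultra in
theorem APgen.exists_ultra {E : Type u} [CommRing E] {Λ : Len E} {m : Ideal E} (hm : m.FG)
    (hfin : Λ.val (E ⧸ m) ≠ ⊤) (h : APgen Λ m) : ∃ Λ' : Len (UP E),
      ∀ (s N : ℕ) (g : Fin s → ℕ → E),
        (∀ᶠ n in (hyperfilter ℕ : Filter ℕ), m ^ N ≤ Ideal.span (Set.range fun i => g i n)) →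
        Tendsto (fun n => Λ.val (E ⧸ Ideal.span (Set.range fun i => g i n))) (hyperfilter ℕ)
          (nhds (Λ'.val (UP E ⧸ Ideal.span (Set.range fun i => (g i : UP E))))) := by
  have _ := hfin
  obtain ⟨Λ', hΛ'⟩ := Len.exists_of_tors (m.map (cst (E := E))) (hm.map _)
    (fun X _ _ => sz Λ X)
    (fun X' X X'' _ _ _ _ _ _ f g hf hfg hg hX =>
      le_antisymm (le_add Λ hm h f g hfg hX) (add_le Λ f g hf hfg hg))
    (fun X _ _ hX => le_antisymm (sz_le Λ fun r x =>
      (col_le Λ (W := fun _ => ⊤) fun _ _ => Subsingleton.elim _ _).trans (by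
        simp only [Λ.rel_of_le le_rfl, ul_const, le_refl])) zero_le)
    (fun X _ _ c _ hc => sz_le Λ fun r x => by
      let x' : Fin r → Submodule.span (UP E) (Set.range x) := fun i =>
        ⟨x i, Submodule.subset_span ⟨i, rfl⟩⟩
      exact (col_comp_le Λ (Submodule.subtype _) x').trans ((col_le_sz Λ x').trans
        (hc _ (Submodule.fg_span (Set.finite_range x)))))
  refine ⟨Λ', fun s N g hg => ?_⟩
  have ht : Tors (m.map (cst (E := E))) (UP E ⧸ Ideal.span (Set.range fun i => gm (g i))) := by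
    intro x
    refine ⟨N, fun a ha => ?_⟩
    obtain ⟨c, rfl⟩ := Ideal.Quotient.mk_surjective x
    have : (m.map (cst (E := E))) ^ N ≤ Ideal.span (Set.range fun i => gm (g i)) := by
      rw [← Ideal.map_pow, Ideal.map_le_iff_le_comap]
      exact fun b hb => (mem_span_iff g fun _ => b).2 (hg.mono fun n hn => hn hb)
    exact Ideal.Quotient.eq_zero_iff_mem.2 (Ideal.mul_mem_right c _ (this ha))
  have := (hΛ' _ ht).trans (sz_quot Λ g)
  exact this ▸ tendsto_ul _

end Vale.Agent.P177
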