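import Vale.Agent.P177.UltDef
import Vale.Agent.P177.Ultra
import Vale.Agent.P177.APGen
import Vale.Agent.P177.PlusAP
import Vale.Agent.P177.PlusLen

/-! The ultrapower of the absolute integral closure. -/

namespace Vale.Agent.P177

open Vale.Agent.P202

universe u

section aux

open Filter Ultra Polynomial
open scoped ENNReal

variable {E : Type u} [CommRing E]

theorem UltA_choose {α : Type*} [Nonempty α] {P : ℕ → α → Prop}
    (h : ∀ᶠ n in (hyperfilter ℕ : Filter ℕ), ∃ a, P n a) :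
    ∃ a : ℕ → α, ∀ᶠ n in (hyperfilter ℕ : Filter ℕ), P n (a n) := by
  have hb : ∀ n, ∃ b, (∃ a, P n a) → P n b := fun n => by
    by_cases hn : ∃ a, P n a
    · obtain ⟨b, hb⟩ := hn
      exact ⟨b, fun _ => hb⟩
    · exact ⟨Classical.arbitrary α, fun h => absurd h hn⟩
  choose b hb using hb
  exact ⟨b, h.mono fun n hn => hb n hn⟩

theorem UltA_eval (G : MvPolynomial ℕ (ℕ → E)) (y : ℕ → ℕ → E) :
    MvPolynomial.eval (fun j => gm (y j)) (MvPolynomial.map gm G) = 0 ↔
      ∀ᶠ n in (hyperfilter ℕ : Filter ℕ), MvPolynomial.eval (fun j => y j n)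
        (MvPolynomial.map (Pi.evalRingHom (fun _ => E) n) G) = 0 := by
  have h1 := MvPolynomial.map_eval (gm (E := E)) y G
  have h2 : ∀ n, MvPolynomial.eval (fun j => y j n)
      (MvPolynomial.map (Pi.evalRingHom (fun _ => E) n) G) = MvPolynomial.eval y G n := fun n =>
    (MvPolynomial.map_eval (Pi.evalRingHom (fun _ => E) n) y G).symm
  simp only [h2]
  rw [show (fun j => gm (y j)) = gm ∘ y from rfl, ← h1, ← map_zero (gm (E := E)), gm_eq]
  rfl

theorem UltA_cst_inj : Function.Injective (cst (E := E)) := fun a b h => by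
  obtain ⟨n, hn⟩ := (gm_eq.1 h).exists
  exact hn

theorem UltA_isDomain [IsDomain E] : IsDomain (UP E) := by
  have : NoZeroDivisors (UP E) := ⟨fun {x y} h => by
    obtain ⟨a, rfl⟩ := gm_surj x
    obtain ⟨b, rfl⟩ := gm_surj y
    rw [← map_mul, ← map_zero (gm (E := E)), gm_eq] at h
    rw [← map_zero (gm (E := E)), gm_eq, gm_eq, ← Ultrafilter.eventually_or]
    exact h.mono fun n hn => mul_eq_zero.1 hn⟩
  exact NoZeroDivisors.to_isDomain _

theorem UltA_root [Nontrivial E] (hs : ∀ P : E[X], P.Monic → P.Splits) (P : (UP E)[X])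
    (hP : P.Monic) (hd : P.natDegree ≠ 0) : ∃ r, P.eval r = 0 := by
  obtain ⟨Q, hQ, hQd, hQm⟩ := lifts_and_natDegree_eq_and_monic
    (f := gm (E := E)) ((mem_lifts P).2 (map_surjective (gm (E := E)) gm_surj P)) hP
  have h : ∀ n, ∃ r, (Q.map (Pi.evalRingHom (fun _ => E) n)).eval r = 0 := fun n => by
    refine (hs _ (hQm.map _)).exists_eval_eq_zero fun h0 => hd ?_
    rw [← hQd, ← hQm.natDegree_map (Pi.evalRingHom (fun _ => E) n)]
    exact natDegree_eq_zero_iff_degree_le_zero.2 h0.le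
  choose r hr using h
  refine ⟨gm r, ?_⟩
  rw [← hQ, eval_map, eval₂_at_apply, ← map_zero (gm (E := E))]
  congr 1
  funext n
  have := hr n
  rw [eval_map, show r n = Pi.evalRingHom (fun _ => E) n r from rfl, eval₂_at_apply] at this
  exact this

theorem UltA_splits [IsDomain E] (hs : ∀ P : E[X], P.Monic → P.Splits) (P : (UP E)[X])
    (hP : P.Monic) : P.Splits := by
  have := UltA_isDomain (E := E)
  induction hn : P.natDegree generalizing P with
  | zero =>
    rw [hP.natDegree_eq_zero.1 hn]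
    exact Splits.one
  | succ d ih =>
    obtain ⟨r, hr⟩ := UltA_root hs P hP (by omega)
    have h := mul_divByMonic_eq_iff_isRoot.2 hr
    rw [← h]
    refine (Splits.X_sub_C r).mul (ih _ ((monic_X_sub_C r).of_mul_monic_left (by rwa [h])) ?_)
    rw [natDegree_divByMonic _ (monic_X_sub_C r), natDegree_X_sub_C, hn]
    rfl

theorem UltA_span {s : ℕ} (t : Fin s → E) :
    Ideal.span (Set.range fun i => gm (fun _ => t i)) = (Ideal.span (Set.range t)).map cst := by
  rw [Ideal.map_span, ← Set.range_comp]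
  rfl

theorem UltA_mem {J : Ideal E} (hJ : J.FG) (a : ℕ → E) :
    gm a ∈ J.map cst ↔ ∀ᶠ n in (hyperfilter ℕ : Filter ℕ), a n ∈ J := by
  obtain ⟨s, t, rfl⟩ := Submodule.fg_iff_exists_fin_generating_family.1 hJ
  have := mem_span_iff (fun i _ => t i) a
  rwa [UltA_span] at this

theorem UltA_tendsto {Λ : Len E} {m : Ideal E} (hm : m.FG) {Λ' : Len (UP E)}
    (h : ∀ (s N : ℕ) (g : Fin s → ℕ → E),
        (∀ᶠ n in (hyperfilter ℕ : Filter ℕ), m ^ N ≤ Ideal.span (Set.range fun i => g i n)) →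
        Tendsto (fun n => Λ.val (E ⧸ Ideal.span (Set.range fun i => g i n))) (hyperfilter ℕ)
          (nhds (Λ'.val (UP E ⧸ Ideal.span (Set.range fun i => (g i : UP E)))))) (δ : ℕ → E) :
    Tendsto (fun n => Λ.val (E ⧸ (Ideal.span {δ n} ⊔ m))) (hyperfilter ℕ)
      (nhds (Λ'.val (UP E ⧸ (Ideal.span {gm δ} ⊔ m.map cst)))) := by
  obtain ⟨s, t, rfl⟩ := Submodule.fg_iff_exists_fin_generating_family.1 hm
  let g : Fin (s + 1) → ℕ → E := Fin.cons δ fun i _ => t i
  have h1 : ∀ n, Ideal.span (Set.range fun i => g i n) =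
      Ideal.span {δ n} ⊔ Ideal.span (Set.range t) := fun n => by
    rw [Fin.range_fin_succ, Set.insert_eq, Ideal.span_union]
    rfl
  have h2 : Ideal.span (Set.range fun i => (g i : UP E)) =
      Ideal.span {gm δ} ⊔ (Ideal.span (Set.range t)).map cst := by
    rw [Fin.range_fin_succ, Set.insert_eq, Ideal.span_union, ← UltA_span]
    rfl
  have := h (s + 1) 1 g (Eventually.of_forall fun n => by
    rw [h1, pow_one]
    exact le_sup_right)
  rw [h2] at this
  exact this.congr fun n => by rw [h1]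

end aux

open Filter Ultra in
theorem satur_up (E : Type u) [CommRing E] : Satur (UP E) := by
  classical
  intro F hF
  choose G hG using fun i => MvPolynomial.map_surjective (gm (E := E)) gm_surj (F i)
  let P : ℕ → ℕ → Prop := fun n N => ∃ x : ℕ → E, ∀ i < N,
    MvPolynomial.eval x (MvPolynomial.map (Pi.evalRingHom (fun _ => E) n) (G i)) = 0
  have h1 : ∀ N, ∀ᶠ n in (hyperfilter ℕ : Filter ℕ), P n N := fun N => by
    obtain ⟨x, hx⟩ := hF N
    choose y hy using fun j => gm_surj (x j)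
    obtain rfl : (fun j => gm (y j)) = x := funext hy
    have : ∀ i ∈ Finset.range N, ∀ᶠ n in (hyperfilter ℕ : Filter ℕ), MvPolynomial.eval
        (fun j => y j n) (MvPolynomial.map (Pi.evalRingHom (fun _ => E) n) (G i)) = 0 :=
      fun i hi => (UltA_eval (G i) y).1 (hG i ▸ hx i (Finset.mem_range.1 hi))
    refine ((Filter.eventually_all_finset _).2 this).mono fun n hn => ?_
    exact ⟨_, fun i hi => hn i (Finset.mem_range.2 hi)⟩
  have h2 : ∀ n, P n (Nat.findGreatest (P n) n) := fun n =>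
    Nat.findGreatest_spec (m := 0) (Nat.zero_le n) ⟨0, fun i hi => absurd hi (Nat.not_lt_zero i)⟩
  choose z hz using h2
  refine ⟨fun j => gm fun n => z n j, fun i => ?_⟩
  rw [← hG i, UltA_eval]
  have h3 : ∀ᶠ n in (hyperfilter ℕ : Filter ℕ), i + 1 ≤ n :=
    Nat.hyperfilter_le_atTop (eventually_ge_atTop (i + 1))
  exact (h3.and (h1 (i + 1))).mono fun n hn => hz n i (Nat.le_findGreatest hn.1 hn.2)

open Filter Ultra IsLocalRing in
theorem exists_preUlt (p : ℕ) [Fact p.Prime] (k : Type u) [Field k] [CharP k p] [IsAlgClosed k]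
    (n : ℕ) : Nonempty (PreUlt p (PS k (n + 1))) := by
  have hA := regL_ps_field k (n + 1)
  have := hA.isDomain
  have := hA.noeth
  have : CharP (PS k (n + 1)) p :=
    charP_of_injective_algebraMap (algebraMap k (PS k (n + 1))).injective p
  obtain ⟨E, _, _, hE⟩ := exists_isPlus (PS k (n + 1))
  have := hE.dom
  have := hE.charP p
  have := perfectRing_of_splits p hE.splits
  obtain ⟨Λ, hΛ⟩ := hE.exists_plusLen p k (n + 1) E
  have fg : ∀ I : Ideal (PS k (n + 1)), (I.map (algebraMap (PS k (n + 1)) E)).FG := fun I =>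
    Ideal.FG.map (IsNoetherian.noetherian I) _
  have hfin : Λ.val (E ⧸ mE (PS k (n + 1)) E) ≠ ⊤ := by
    rw [hΛ.one]
    exact ENNReal.one_ne_top
  obtain ⟨Λ', hΛ'⟩ := (APpt.apGen Λ k ((algebraMap (PS k (n + 1)) E).comp MvPowerSeries.C) (fg _)
    hfin (hΛ.apPt (Nat.succ_pos n) hE)).exists_ultra (fg _) hfin
  have hT := UltA_tendsto (fg _) hΛ'
  have := UltA_isDomain (E := E)
  have : CharP (UP E) p := charP_of_injective_ringHom UltA_cst_inj p
  have := perfectRing_of_splits p (UltA_splits hE.splits)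
  let alg : Algebra (PS k (n + 1)) (UP E) :=
    ((cst (E := E)).comp (algebraMap (PS k (n + 1)) E)).toAlgebra
  have hmap : ∀ I : Ideal (PS k (n + 1)), I.map (algebraMap (PS k (n + 1)) (UP E)) =
      (I.map (algebraMap (PS k (n + 1)) E)).map cst := fun I => (Ideal.map_map _ _).symm
  refine ⟨⟨UP E, UltA_cst_inj.comp hE.inj, UltA_splits hE.splits, fun x hx => ?_, satur_up E, Λ',
    ?_, fun I a ha b hb => ?_⟩⟩
  · obtain ⟨a, rfl⟩ := gm_surj x
    rw [mE, hmap, UltA_mem (fg _)] at hx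
    obtain ⟨b, hb⟩ := UltA_choose (P := fun n b => (1 + a n) * b = 1)
      (hx.mono fun n hn => (hE.isUnit_one_add hn).exists_right_inv)
    refine IsUnit.of_mul_eq_one (gm b) ?_
    rw [← map_one (gm (E := E)), ← map_add, ← map_mul, gm_eq]
    exact hb
  · have h1 := hT 0
    rw [map_zero, Ideal.span_singleton_zero, bot_sup_eq] at h1
    rw [mE, hmap, ← hΛ.one]
    refine tendsto_nhds_unique (h1.congr fun m => ?_) tendsto_const_nhds
    rw [Pi.zero_apply, Ideal.span_singleton_zero, bot_sup_eq]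
  · obtain ⟨β, rfl⟩ := gm_surj b
    rw [hmap, show algebraMap (PS k (n + 1)) (UP E) a = gm (fun _ => algebraMap _ E a) from rfl,
      ← map_mul, UltA_mem (fg _)] at hb
    obtain ⟨δ, hδ⟩ := UltA_choose (P := fun m δ => Λ.val (E ⧸ (Ideal.span {δ} ⊔
      mE (PS k (n + 1)) E)) ≤ ((m : ENNReal))⁻¹ ∧ δ * β m ∈ I.map (algebraMap (PS k (n + 1)) E))
      (hb.mono fun m hm => by
        obtain ⟨Δ, h0, h1⟩ := hE.almost_colon (p := p) I ha hm
        obtain ⟨e, he⟩ := hΛ.small_root hE h0 1 ((m : ENNReal))⁻¹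
          (ENNReal.inv_pos.2 (ENNReal.natCast_ne_top m))
        have h2 := he e le_rfl
        rw [pow_one] at h2
        exact ⟨rt p e Δ, h2, h1 e⟩)
    refine ⟨gm δ, le_zero_iff.1 ?_, ?_⟩
    · rw [mE, hmap]
      exact le_of_tendsto_of_tendsto (hT δ)
        (ENNReal.tendsto_inv_nat_nhds_zero.mono_left Nat.hyperfilter_le_atTop)
        (hδ.mono fun m hm => hm.1)
    · rw [hmap, ← map_mul, UltA_mem (fg _)]
      exact hδ.mono fun m hm => hm.2

end Vale.Agent.P177
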