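import Vale.Agent.P177.UltDef
import Vale.Agent.P177.FlatReg
import Vale.Agent.P202.BaseChangeAux

/-! Localising at the elements of colength zero and completing. -/

namespace Vale.Agent.P177

open IsLocalRing RingTheory.Sequence Vale.Agent.P202

universe u

theorem UltB_perfect_loc {p : ℕ} [Fact p.Prime] {D D' : Type u} [CommRing D] [CharP D p]
    [PerfectRing D p] (S : Submonoid D) [CommRing D'] [IsDomain D'] [CharP D' p] [Algebra D D']
    [IsLocalization S D'] : PerfectRing D' p := by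
  refine PerfectRing.ofSurjective D' p fun x => ?_
  obtain ⟨⟨a, s⟩, rfl⟩ := IsLocalization.mk'_surjective S x
  obtain ⟨c, hc⟩ := surjective_frobenius D p (a * s ^ (p - 1))
  refine ⟨IsLocalization.mk' D' c s, ?_⟩
  rw [frobenius_def] at hc ⊢
  rw [← IsLocalization.mk'_pow, hc]
  refine IsLocalization.mk'_eq_of_eq ?_
  rw [SubmonoidClass.coe_pow, mul_left_comm, mul_pow_sub_one (Fact.out : p.Prime).ne_zero,
    mul_comm]

theorem UltB_perfect_compl {p : ℕ} [Fact p.Prime] {D B : Type u} [CommRing D] [CharP D p]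
    [PerfectRing D p] [CommRing B] [CharP B p] (g : D →+* B) (J : Ideal D) (hJ : J.FG)
    (hsurj : ∀ (n : ℕ) (b : B), ∃ a, b - g a ∈ (J ^ n).map g)
    (hinj : ∀ (I : Ideal D) (n : ℕ), J ^ n ≤ I → ∀ a, g a ∈ I.map g → a ∈ I)
    [hc : IsAdicComplete (J.map g) B] : PerfectRing B p := by
  have hp : p ≠ 0 := (Fact.out : p.Prime).ne_zero
  let K : ℕ → Ideal D := fun n => (J ^ n).map (frobenius D p)
  have hK : ∀ n, ∃ N, J ^ N ≤ K n := fun n =>
    Ideal.exists_pow_le_of_le_radical_of_fg (fun x hx => ⟨n * p, by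
      rw [pow_mul]
      exact Ideal.mem_map_of_mem (frobenius D p) (Ideal.pow_mem_pow hx n)⟩) hJ
  have hK1 : ∀ n, K n ≤ J ^ n := fun n =>
    Ideal.map_le_iff_le_comap.2 fun x hx => Ideal.pow_mem_of_mem _ hx p (Nat.pos_of_ne_zero hp)
  have hK2 : ∀ n a, g (a ^ p) ∈ (K n).map g → a ∈ J ^ n := fun n a ha => by
    obtain ⟨N, hN⟩ := hK n
    have := hinj _ N hN _ ha
    rw [← Ideal.comap_map_of_bijective (frobenius D p) (bijective_frobenius D p) (I := J ^ n)]
    exact this
  have hK3 : ∀ n b, b ∈ (J ^ n).map g → b ^ p ∈ (K n).map g := fun n b hb => by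
    have := Ideal.mem_map_of_mem (frobenius B p) hb
    rw [Ideal.map_map, show (frobenius B p).comp g = g.comp (frobenius D p) from
      RingHom.ext fun x => (map_pow g x p).symm, ← Ideal.map_map] at this
    exact this
  have hS : ∀ (n : ℕ) (x y : B), x ≡ y [SMOD ((J.map g) ^ n • ⊤ : Submodule B B)] ↔
      x - y ∈ (J ^ n).map g := fun n x y => by
    rw [SModEq.sub_mem, smul_eq_mul, Ideal.mul_top, Ideal.map_pow]
  refine ⟨(injective_iff_map_eq_zero (frobenius B p)).2 fun b hb => ?_, fun b => ?_⟩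
  · refine hc.toIsHausdorff.haus b fun n => (hS n b 0).2 ?_
    obtain ⟨a, ha⟩ := hsurj n b
    have h1 := hK3 n _ ha
    rw [frobenius_def] at hb
    rw [sub_pow_char, hb, zero_sub, neg_mem_iff, ← map_pow] at h1
    simpa using add_mem ha (Ideal.mem_map_of_mem g (hK2 n a h1))
  · have h1 : ∀ n, ∃ c, b - g (c ^ p) ∈ (K n).map g := fun n => by
      obtain ⟨N, hN⟩ := hK n
      obtain ⟨a, ha⟩ := hsurj N b
      obtain ⟨c, rfl⟩ := surjective_frobenius D p a
      exact ⟨c, Ideal.map_mono hN ha⟩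
    choose c hc' using h1
    obtain ⟨L, hL⟩ := hc.toIsPrecomplete.prec (f := fun n => g (c n)) fun {m n} hmn => by
      rw [hS, ← map_sub]
      refine Ideal.mem_map_of_mem g (hK2 m _ ?_)
      have := sub_mem (Ideal.map_mono (Ideal.map_mono (Ideal.pow_le_pow_right hmn)) (hc' n))
        (hc' m)
      rwa [sub_sub_sub_cancel_left, ← map_sub, ← sub_pow_char] at this
    refine ⟨L, (IsHausdorff.eq_iff_smodEq (I := J.map g)).2 fun n => (hS n _ _).2 ?_⟩
    have h2 := Ideal.map_mono (hK1 n) (hK3 n _ ((hS n _ _).1 (hL n)))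
    have h3 := Ideal.map_mono (hK1 n) (hc' n)
    rw [sub_pow_char, ← map_pow] at h2
    have := neg_mem (add_mem h2 h3)
    convert this using 1
    ring

theorem UltB_reg {A D : Type u} [CommRing A] [CommRing D] (f : A →+* D) {z : List A}
    (hz : IsWeaklyRegular A z)
    (h : ∀ (I : Ideal A) (a : A), (∀ y, a * y ∈ I → y ∈ I) → ∀ b, f a * b ∈ I.map f →
      b ∈ I.map f) : IsWeaklyRegular D (z.map f) := by
  refine ⟨fun i hi => ?_⟩
  rw [List.length_map] at hi
  have h1 := hz.1 i hi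
  rw [isSMulRegular_quotient_iff_mem_of_smul_mem, smul_eq_mul, Ideal.mul_top] at h1 ⊢
  rw [← List.map_take, ← Ideal.map_ofList, List.getElem_map]
  exact h _ _ h1

theorem UltB_val {D E : Type u} [CommRing D] [CommRing E] (Λ : Len D) (j : D →+* E) (m : Ideal D)
    (hinj : ∀ J, m ≤ J → ∀ x, j x ∈ J.map j → ∃ s, Λ.val (D ⧸ (Ideal.span {s} ⊔ m)) = 0 ∧ s * x ∈ J)
    (hsurj : ∀ y, ∃ s x, Λ.val (D ⧸ (Ideal.span {s} ⊔ m)) = 0 ∧ j s * y - j x ∈ m.map j)
    (J : Ideal D) (hJ : m ≤ J) : (Λ.res j).val (E ⧸ J.map j) = Λ.val (D ⧸ J) := by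
  let := j.toAlgebra
  rw [Λ.res_val j _ fun r y => by
    obtain ⟨y, rfl⟩ := Ideal.Quotient.mk_surjective y
    rfl]
  let φ : (D ⧸ J) →ₗ[D] (E ⧸ J.map j) :=
    (Ideal.quotientMapₐ (J.map j) (Algebra.ofId D E) Ideal.le_comap_map).toLinearMap
  have hφ : ∀ x, φ (Ideal.Quotient.mk J x) = Ideal.Quotient.mk (J.map j) (j x) := fun _ => rfl
  have key : ∀ (X : Type u) [AddCommGroup X] [Module D X], (∀ x : X, ∃ s,
      Λ.val (D ⧸ (Ideal.span {s} ⊔ m)) = 0 ∧ s • x = 0 ∧ ∀ a ∈ m, a • x = 0) → Λ.val X = 0 := by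
    intro X _ _ h
    refine Λ.eq_zero_of_small fun x ε _ => ?_
    obtain ⟨s, h1, h2, h3⟩ := h x
    refine ⟨_, fun a ha => ?_, h1.le.trans zero_le⟩
    exact (sup_le ((Ideal.span_singleton_le_iff_mem _).2 h2) h3 :
      Ideal.span {s} ⊔ m ≤ Ideal.torsionOf D X x) ha
  have h1 : Λ.val (LinearMap.ker φ) = 0 := by
    refine key _ ?_
    rintro ⟨x, hx⟩
    obtain ⟨x, rfl⟩ := Ideal.Quotient.mk_surjective x
    obtain ⟨s, hs, hs'⟩ := hinj J hJ x (Ideal.Quotient.eq_zero_iff_mem.1 ((hφ x).symm.trans hx))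
    exact ⟨s, hs, Subtype.ext (Ideal.Quotient.eq_zero_iff_mem.2 hs'), fun a ha =>
      Subtype.ext (Ideal.Quotient.eq_zero_iff_mem.2 (J.mul_mem_right x (hJ ha)))⟩
  have h2 : Λ.val ((E ⧸ J.map j) ⧸ LinearMap.range φ) = 0 := by
    refine key _ fun y => ?_
    obtain ⟨y, rfl⟩ := Submodule.Quotient.mk_surjective _ y
    obtain ⟨y, rfl⟩ := Ideal.Quotient.mk_surjective y
    obtain ⟨s, x, hs, hs'⟩ := hsurj y
    refine ⟨s, hs, (Submodule.Quotient.mk_eq_zero _).2 ⟨Ideal.Quotient.mk J x, ?_⟩,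
      fun a ha => (Submodule.Quotient.mk_eq_zero _).2 ⟨0, ?_⟩⟩
    · exact (Ideal.Quotient.eq.2 (Ideal.map_mono hJ hs')).symm
    · rw [map_zero, eq_comm]
      exact Ideal.Quotient.eq_zero_iff_mem.2
        (Ideal.mul_mem_right y _ (Ideal.mem_map_of_mem j (hJ ha)))
  rw [Λ.len_ker_range φ, h1, zero_add, Λ.add _ _ _ (LinearMap.range φ).subtype
    (LinearMap.range φ).mkQ (Submodule.injective_subtype _) (LinearMap.exact_subtype_mkQ _)
    (Submodule.mkQ_surjective _), h2, add_zero]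

/-- the elements of colength zero. -/
def UltB_sig {D : Type u} [CommRing D] (Λ : Len D) (m : Ideal D) : Submonoid D where
  carrier := {δ | Λ.val (D ⧸ (Ideal.span {δ} ⊔ m)) = 0}
  one_mem' := Λ.zero _ (by
    rw [Ideal.span_singleton_one, top_sup_eq]
    infer_instance)
  mul_mem' := fun {a b} ha hb => by
    have := Λ.rel_mul_smul_le a b ⊤ m
    simp only [smul_eq_mul, Ideal.mul_top, Len.rel_top] at this
    rw [show Λ.val (D ⧸ (Ideal.span {a} ⊔ m)) = 0 from ha,
      show Λ.val (D ⧸ (Ideal.span {b} ⊔ m)) = 0 from hb, add_zero] at this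
    exact le_zero_iff.1 this

theorem UltB_main {p : ℕ} [Fact p.Prime] {A : Type u} [CommRing A] [IsLocalRing A]
    {z : List A} (hA : RegL A z) (U : PreUlt p A) (D' : Type u) [CommRing D'] [Algebra U.D D']
    [IsLocalization (UltB_sig U.Λ (mE A U.D)) D'] (E : Type u) [CommRing E] (g : D' →+* E)
    (hsurj : ∀ (n : ℕ) (b : E), ∃ a, b - g a ∈ (((mE A U.D).map (algebraMap U.D D')) ^ n).map g)
    (hinj : ∀ (I : Ideal D') (n : ℕ), ((mE A U.D).map (algebraMap U.D D')) ^ n ≤ I →
      ∀ a, g a ∈ I.map g → a ∈ I)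
    [hc : IsAdicComplete (((mE A U.D).map (algebraMap U.D D')).map g) E] :
    Nonempty (Ult p A) := by
  have := hA.noeth
  set S := UltB_sig U.Λ (mE A U.D)
  have h0 : (0 : U.D) ∉ S := fun h => by
    have h1 : U.Λ.val (U.D ⧸ (Ideal.span {0} ⊔ mE A U.D)) = 0 := h
    rw [Ideal.span_singleton_zero, bot_sup_eq, U.one] at h1
    exact one_ne_zero h1
  have hS : S ≤ nonZeroDivisors U.D := le_nonZeroDivisors_of_noZeroDivisors h0
  have : IsDomain D' := IsLocalization.isDomain_of_le_nonZeroDivisors D' hS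
  have : CharP D' p := charP_of_injective_algebraMap (IsLocalization.injective D' hS) p
  have : PerfectRing D' p := UltB_perfect_loc S
  let f : A →+* D' := (algebraMap U.D D').comp (algebraMap A U.D)
  let j : U.D →+* E := g.comp (algebraMap U.D D')
  let : Algebra A E := (g.comp f).toAlgebra
  have hm : mE A E = (mE A U.D).map j := by
    rw [mE, mE, Ideal.map_map]
    rfl
  have hm' : (mE A U.D).map j = ((mE A U.D).map (algebraMap U.D D')).map g :=
    (Ideal.map_map _ _).symm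
  have hval := UltB_val U.Λ j (mE A U.D) (fun J hJ x hx => by
    rw [← Ideal.map_map] at hx
    exact (IsLocalization.algebraMap_mem_map_algebraMap_iff S D' J x).1
      (hinj _ 1 (by rw [pow_one]; exact Ideal.map_mono hJ) _ hx)) (fun y => by
    obtain ⟨a, ha⟩ := hsurj 1 y
    obtain ⟨⟨x, s⟩, hx⟩ := IsLocalization.surj S a
    refine ⟨s, x, s.2, ?_⟩
    rw [pow_one, ← hm'] at ha
    have h1 := congrArg g hx
    rw [map_mul] at h1
    have h2 : j s * y - j x = j s * (y - g a) := by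
      rw [show j x = g a * j s from h1.symm]
      ring
    rw [h2]
    exact Ideal.mul_mem_left _ _ ha)
  have hone : (U.Λ.res j).val (E ⧸ mE A E) = 1 := by rw [hm, hval _ le_rfl, U.one]
  have : Nontrivial E := by
    by_contra hn
    rw [not_nontrivial_iff_subsingleton] at hn
    rw [Len.zero _ _ (Ideal.Quotient.mk_surjective.subsingleton)] at hone
    exact zero_ne_one hone
  have : CharP E p := (CharP.charP_iff_prime_eq_zero Fact.out).2 (by
    rw [← map_natCast g, CharP.cast_eq_zero, map_zero])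
  have : PerfectRing E p := UltB_perfect_compl g _
    (Ideal.FG.map (Ideal.FG.map (IsNoetherian.noetherian _) _) _) hsurj hinj
  have hcE : IsAdicComplete (mE A E) E := by rwa [hm, hm']
  have hpow : ∀ n : ℕ, (maximalIdeal A ^ n).map f = ((mE A U.D).map (algebraMap U.D D')) ^ n :=
    fun n => by rw [Ideal.map_pow, mE, Ideal.map_map]
  have hflat : (g.comp f).Flat := by
    have : IsAdicComplete ((maximalIdeal A).map (g.comp f)) E := hcE
    refine hA.flat_of_complete f (UltB_reg f hA.reg fun I a ha b hb => ?_) g (fun n b => ?_)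
      fun n a ha => ?_
    · obtain ⟨⟨b, s⟩, rfl⟩ := IsLocalization.mk'_surjective S b
      rw [← Ideal.map_map] at hb ⊢
      rw [show f a = algebraMap U.D D' (algebraMap A U.D a) from rfl,
        IsLocalization.mul_mk'_eq_mk'_of_mul, IsLocalization.mk'_mem_map_algebraMap_iff] at hb
      obtain ⟨t, ht, hb⟩ := hb
      obtain ⟨δ, hδ, hb'⟩ := U.colon I a ha (t * b) (by rwa [mul_left_comm])
      rw [IsLocalization.mk'_mem_map_algebraMap_iff]
      exact ⟨δ * t, S.mul_mem hδ ht, by rwa [mul_assoc]⟩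
    · rw [← Ideal.map_map, hpow]
      exact hsurj n b
    · rw [← Ideal.map_map] at ha
      exact hinj _ n (hpow n).ge a ha
  refine ⟨{ U with
    E := E
    j := j
    j_alg := fun _ => rfl
    flat := hflat
    complete := hcE
    ΛE := U.Λ.res j
    oneE := hone
    isUnit := fun δ hδ => ?_ }⟩
  rw [hm, ← Set.image_singleton, ← Ideal.map_span, ← Ideal.map_sup, hval _ le_sup_right] at hδ
  exact (IsLocalization.map_units D' (⟨δ, hδ⟩ : S)).map g

theorem PreUlt.exists_ult {p : ℕ} [Fact p.Prime] {A : Type u} [CommRing A] [IsLocalRing A]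
    {z : List A} (hA : RegL A z) (U : PreUlt p A) : Nonempty (Ult p A) := by
  have := hA.noeth
  let D' := Localization (UltB_sig U.Λ (mE A U.D))
  let J : Ideal D' := (mE A U.D).map (algebraMap U.D D')
  have hJ : J.FG := Ideal.FG.map (Ideal.FG.map (IsNoetherian.noetherian _) _) _
  have : IsAdicComplete (J.map (algebraMap D' (AdicCompletion J D'))) (AdicCompletion J D') :=
    (IsAdicComplete.map_algebraMap_iff _ _).2 (AdicCompletion.isAdicComplete hJ)
  exact UltB_main hA U D' (AdicCompletion J D') (algebraMap D' _) (compl_approx J hJ)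
    (compl_comap_map J)

end Vale.Agent.P177
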