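import Vale.Agent.P177.VanStep

/-! The vanishing theorem and reduction to primes. -/

namespace Vale.Agent.P177

open IsLocalRing Vale.Agent.P202

universe u

variable {R : Type u} [CommRing R] [IsLocalRing R] {x : List R}

theorem van_rad {a b c : Ideal R} (h : maximalIdeal R ≤ (a ⊔ b).radical) (hb : b ≤ c.radical) :
    maximalIdeal R ≤ (a ⊔ c).radical :=
  h.trans (Ideal.radical_le_radical_iff.2 (sup_le (le_sup_left.trans Ideal.le_radical)
    (hb.trans (Ideal.radical_mono le_sup_right))))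

theorem van_fin [IsNoetherianRing R] {a b : Ideal R} (h : maximalIdeal R ≤ (a ⊔ b).radical)
    {N : Type u} [AddCommGroup N] [Module R N] [Module.Finite R N]
    (hN : b ≤ (Module.annihilator R N).radical) {F : Cx R} (hF : a ≤ F.Null.radical) :
    (F.on N).h (Len.len R) ≠ ⊤ :=
  thick_of_finite N a (van_rad h hN) F (hF.trans (Ideal.radical_mono le_sup_left))

theorem van_addFun [IsNoetherianRing R] {a b : Ideal R} (h : maximalIdeal R ≤ (a ⊔ b).radical)
    (N : Type u) [AddCommGroup N] [Module R N] [Module.Finite R N]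
    (hN : b ≤ (Module.annihilator R N).radical) :
    AddFun a fun F => (F.on N).chi (Len.len R) :=
  addFun_chi (RingHom.id R) (Len.len R) N a
    (by rw [Ideal.map_id]; exact thick_of_finite N a (van_rad h hN))

theorem van_ann (P : Ideal R) : P ≤ (Module.annihilator R (R ⧸ P)).radical := by
  rw [Ideal.annihilator_quotient]
  exact Ideal.le_radical

/-- devissage in the coefficients. -/
theorem van_ind [IsNoetherianRing R] {a b : Ideal R} (h : maximalIdeal R ≤ (a ⊔ b).radical)
    (mot : Ideal R → (Cx R → ℝ) → Prop) (h0 : mot ⊤ fun _ => 0)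
    (h1 : ∀ P : Ideal R, P.IsPrime → b ≤ P → mot P fun F => (F.on (R ⧸ P)).chi (Len.len R))
    (h2 : ∀ I₁ I₂ I₃ ψ₁ ψ₂ ψ₃, I₁ * I₃ ≤ I₂ →
      (∀ F : Cx R, a ≤ F.Null.radical → ψ₂ F = ψ₁ F + ψ₃ F) → mot I₁ ψ₁ → mot I₃ ψ₃ → mot I₂ ψ₂)
    (M : Type u) [AddCommGroup M] [Module R M] [hM : Module.Finite R M]
    (hb : b ≤ (Module.annihilator R M).radical) :
    mot (Module.annihilator R M) fun F => (F.on M).chi (Len.len R) := by
  induction hM using IsNoetherianRing.induction_on_isQuotientEquivQuotientPrime R with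
  | subsingleton N =>
    have e : (fun F : Cx R => (F.on N).chi (Len.len R)) = fun _ => 0 := by
      funext F
      refine DG.chi_eq_zero_of_h _ (le_antisymm ((Cx.h_on_le _ F).trans ?_) bot_le)
      rw [(Len.len R).zero N inferInstance, mul_zero]
    rwa [e, Module.annihilator_eq_top_iff.2 inferInstance]
  | quotient N p e =>
    have e1 : Module.annihilator R N = p.1 := by
      rw [e.annihilator_eq, Ideal.annihilator_quotient]
    have e2 : (fun F : Cx R => (F.on N).chi (Len.len R)) =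
        fun F => (F.on (R ⧸ p.1)).chi (Len.len R) :=
      funext fun F => DG.chi_congr _ (Cx.hl_on_congr _ F e)
    rw [e1, p.2.radical] at hb
    rw [e1, e2]
    exact h1 _ p.2 hb
  | exact N₁ N₂ N₃ f g hf hg hfg h₁ h₃ =>
    have b1 := hb.trans (Ideal.radical_mono (f.annihilator_le_of_injective hf))
    have b3 := hb.trans (Ideal.radical_mono (g.annihilator_le_of_surjective hg))
    refine h2 _ _ _ _ _ _ (Ideal.mul_le.2 fun r hr s hs => Module.mem_annihilator.2 fun y => ?_)
      (fun F hF => Cx.chi_on_add _ F f g hf hfg hg (van_fin h b1 hF) (van_fin h b3 hF))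
      (h₁ b1) (h₃ b3)
    obtain ⟨z, hz⟩ := (hfg (s • y)).1 (by rw [map_smul, Module.mem_annihilator.1 hs])
    rw [mul_smul, ← hz, ← map_smul, Module.mem_annihilator.1 hr, map_zero]

theorem van_mono {n k : ℕ} (h : VanLt R n) (hk : k ≤ n) : VanLt R k :=
  fun a b hab hlt => h a b hab (hlt.trans_le hk)

theorem RegL.vanLt (hR : RegL R x) : VanLt R x.length := by
  have := hR.noeth
  suffices h : ∀ n, n ≤ x.length → VanLt R n from h _ le_rfl
  intro n
  induction n with
  | zero => exact fun _ a b _ hlt => absurd hlt (Nat.not_lt_zero _)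
  | succ n ih =>
    intro hn a b hab hlt F hF M _ _ _ hM
    refine van_ind hab (fun _ ψ => ψ F = 0) rfl (fun P hP hbP => ?_)
      (fun _ _ _ _ _ _ _ e h₁ h₃ => by rw [e F hF, h₁, h₃, add_zero]) M hM
    refine (van_addFun hab (R ⧸ P) (hbP.trans (van_ann P))).eq_zero hR
      (fun Q hQ haQ G hG => ?_) F hF
    have d1 := dimNat_quot_mono haQ
    have d2 := dimNat_quot_mono hbP
    exact van_step hR P Q (hab.trans (Ideal.radical_mono (sup_le_sup haQ hbP))) (by omega)
      (van_mono (ih (by omega)) (by omega)) G hG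

theorem RegL.exists_chi_eq_mul (hR : RegL R x) (a P : Ideal R) [P.IsPrime]
    (h : maximalIdeal R ≤ (a ⊔ P).radical) (hd : dimNat (R ⧸ a) + dimNat (R ⧸ P) ≤ x.length)
    (M : Type u) [AddCommGroup M] [Module R M] [Module.Finite R M]
    (hM : P ≤ (Module.annihilator R M).radical) : ∃ r : ℕ, ∀ F : Cx R, a ≤ F.Null.radical →
      (F.on M).chi (Len.len R) = r * (F.on (R ⧸ P)).chi (Len.len R) := by
  have := hR.noeth
  refine van_ind h (fun _ ψ => ∃ r : ℕ, ∀ F : Cx R, a ≤ F.Null.radical →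
    ψ F = r * (F.on (R ⧸ P)).chi (Len.len R)) ⟨0, fun _ _ => by simp⟩ (fun P' hP' hle => ?_)
    (fun _ _ _ _ _ _ _ e ⟨r, h₁⟩ ⟨s, h₃⟩ => ⟨r + s, fun F hF => by
      rw [e F hF, h₁ F hF, h₃ F hF, Nat.cast_add, add_mul]⟩) M hM
  rcases hle.eq_or_lt with rfl | hlt
  · exact ⟨1, fun _ _ => by simp⟩
  · have d1 := dimNat_quot_lt hlt hP'.ne_top
    refine ⟨0, fun F hF => ?_⟩
    rw [Nat.cast_zero, zero_mul]
    exact hR.vanLt a P' (van_rad h (hle.trans Ideal.le_radical)) (by omega) F hF _ (van_ann P')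

theorem RegL.pos_of_posP (hR : RegL R x) (h : PosP R x.length) (M N : Type u) [AddCommGroup M]
    [Module R M] [Module.Finite R M] [Nontrivial M] [AddCommGroup N] [Module R N]
    [Module.Finite R N] [Nontrivial N]
    (hMN : maximalIdeal R ≤ (Module.annihilator R N ⊔ Module.annihilator R M).radical)
    (hd : dimNat (R ⧸ Module.annihilator R N) + dimNat (R ⧸ Module.annihilator R M) = x.length)
    (F : Cx R) (hF : F.IsRes N) : 0 < (F.on M).chi (Len.len R) := by
  have := hR.noeth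
  obtain ⟨P₀, hP₀, hbP, dP⟩ := exists_prime_dimNat (Module.annihilator R M)
    fun e => not_subsingleton M (Module.annihilator_eq_top_iff.1 e)
  obtain ⟨Q₀, hQ₀, haQ, dQ⟩ := exists_prime_dimNat (Module.annihilator R N)
    fun e => not_subsingleton N (Module.annihilator_eq_top_iff.1 e)
  have key : ∀ Q : Ideal R, Q.IsPrime → Module.annihilator R N ≤ Q → ∀ G : Cx R,
      G.IsRes (R ⧸ Q) → 0 ≤ (G.on M).chi (Len.len R) ∧
        (Q = Q₀ → Module.annihilator R M ≤ P₀ → 0 < (G.on M).chi (Len.len R)) := by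
    intro Q hQ hle G hG
    have hm : maximalIdeal R ≤ (Q ⊔ Module.annihilator R M).radical :=
      hMN.trans (Ideal.radical_mono (sup_le_sup_right hle _))
    have hGQ : Q ≤ G.Null.radical := hG.le_Null_quot.trans Ideal.le_radical
    refine van_ind hm (fun I ψ => 0 ≤ ψ G ∧ (Q = Q₀ → I ≤ P₀ → 0 < ψ G))
      ⟨le_rfl, fun _ e => absurd (top_le_iff.1 e) hP₀.ne_top⟩ (fun P hP hb => ?_)
      (fun I₁ I₂ I₃ _ _ _ hI e h₁ h₃ => ?_) M Ideal.le_radical
    · have d1 := dimNat_quot_mono hle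
      have d2 := dimNat_quot_mono hb
      have hm' := van_rad hm (hb.trans Ideal.le_radical)
      rcases (show dimNat (R ⧸ Q) + dimNat (R ⧸ P) ≤ x.length by omega).eq_or_lt with e | e
      · have := h P Q hP hQ hm' e G hG
        exact ⟨this.le, fun _ _ => this⟩
      · refine ⟨(hR.vanLt Q P hm' e G hGQ _ (van_ann P)).ge, fun e1 e2 => ?_⟩
        have d3 := dimNat_quot_mono e2
        subst e1
        omega
    · rw [e G hGQ]
      refine ⟨add_nonneg h₁.1 h₃.1, fun e1 e2 => ?_⟩
      rcases hP₀.mul_le.1 (hI.trans e2) with e3 | e3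
      · exact add_pos_of_pos_of_nonneg (h₁.2 e1 e3) h₃.1
      · exact add_pos_of_nonneg_of_pos h₁.1 (h₃.2 e1 e3)
  refine (van_addFun hMN M Ideal.le_radical).pos hR (fun Q hQ hle G hG => (key Q hQ hle G hG).1)
    Q₀ ⟨⟨hQ₀, haQ⟩, fun Q hQ hle => ?_⟩ (fun G hG => (key Q₀ hQ₀ haQ G hG).2 rfl hbP) N
    Ideal.le_radical haQ F hF
  by_contra hne
  have := hQ.1
  have d1 := dimNat_quot_lt (lt_of_le_not_ge hle hne) hQ₀.ne_top
  have d2 := dimNat_quot_mono hQ.2
  omega

theorem van_res_pos [IsNoetherianRing R] :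
    0 < (((Cx.pt R).on (R ⧸ maximalIdeal R)).chi (Len.len R)) := by
  rw [Cx.chi_pt]
  have : Nontrivial (R ⧸ maximalIdeal R) :=
    Ideal.Quotient.nontrivial_iff.2 (maximalIdeal.isMaximal R).ne_top
  refine ENNReal.toReal_pos ?_ ?_
  · simpa [Len.len] using (Module.length_pos (R := R) (M := R ⧸ maximalIdeal R)).ne'
  · simpa [Len.len] using length_quot_ne_top (I := maximalIdeal R) Ideal.le_radical

theorem van_eq_bot (hR : RegL R x) {P : Ideal R} (hP : P.IsPrime)
    (hd : dimNat (R ⧸ P) = x.length) : P = ⊥ := by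
  have := hR.noeth
  have := hR.isDomain
  by_contra hne
  have d1 := dimNat_quot_lt (bot_lt_iff_ne_bot.2 hne) hP.ne_top
  rw [dimNat_quot_bot, hR.dimNat_eq] at d1
  omega

/-- the extreme cases. -/
theorem RegL.posP_of_pos (hR : RegL R x)
    (h : ∀ P Q : Ideal R, P.IsPrime → Q.IsPrime → maximalIdeal R ≤ (Q ⊔ P).radical →
      dimNat (R ⧸ Q) + dimNat (R ⧸ P) = x.length → 0 < dimNat (R ⧸ Q) → 0 < dimNat (R ⧸ P) →
      ∀ F : Cx R, F.IsRes (R ⧸ Q) → 0 < (F.on (R ⧸ P)).chi (Len.len R)) :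
    PosP R x.length := by
  have := hR.noeth
  intro P Q hP hQ hm hd F hF
  have e := Submodule.quotEquivOfEqBot (⊥ : Ideal R) rfl
  rcases Nat.eq_zero_or_pos (dimNat (R ⧸ Q)) with h1 | h1
  · obtain rfl := van_eq_bot hR hP (by omega)
    obtain rfl := dimNat_quot_eq_zero_iff.1 h1
    obtain ⟨φ, hφ⟩ := hF.exists_qIso []
    rw [DG.chi_congr _ (Cx.hl_on_congr _ F e)]
    exact van_res_pos.trans_eq (DG.chi_congr _ (hφ.hl_eq _)).symm
  rcases Nat.eq_zero_or_pos (dimNat (R ⧸ P)) with h2 | h2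
  · obtain rfl := van_eq_bot hR hQ (by omega)
    obtain rfl := dimNat_quot_eq_zero_iff.1 h2
    exact van_res_pos.trans_eq
      ((van_addFun hm _ (van_ann _)).res_eq bot_le Cx.isRes_pt (hF.congr e))
  exact h P Q hP hQ hm hd h1 h2 F hF

theorem van_dim [IsNoetherianRing R] (R' : Type u) [CommRing R'] [IsLocalRing R']
    [IsNoetherianRing R'] [Algebra R R'] [Module.Flat R R']
    (hm : (maximalIdeal R).map (algebraMap R R') = maximalIdeal R') {P : Ideal R} (hP : P ≠ ⊤) :
    Nontrivial (R' ⧸ P.map (algebraMap R R')) ∧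
      dimNat (R' ⧸ P.map (algebraMap R R')) = dimNat (R ⧸ P) := by
  have h1 : P.map (algebraMap R R') ≠ ⊤ := fun e => (maximalIdeal.isMaximal R').ne_top
    (top_le_iff.1 (e ▸ hm ▸ Ideal.map_mono (le_maximalIdeal hP)))
  have n1 : Nontrivial (R ⧸ P) := Ideal.Quotient.nontrivial_iff.2 hP
  have n2 : Nontrivial (R' ⧸ P.map (algebraMap R R')) := Ideal.Quotient.nontrivial_iff.2 h1
  have l1 : IsLocalRing (R ⧸ P) := .of_surjective' _ Ideal.Quotient.mk_surjective
  have l2 : IsLocalRing (R' ⧸ P.map (algebraMap R R')) :=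
    .of_surjective' _ Ideal.Quotient.mk_surjective
  have hf : Module.Flat (R ⧸ P) (R' ⧸ P.map (algebraMap R R')) :=
    .of_linearEquiv (Algebra.TensorProduct.quotIdealMapEquivQuotTensor R' P).toLinearEquiv
  have h2 : (maximalIdeal (R ⧸ P)).map (algebraMap (R ⧸ P) (R' ⧸ P.map (algebraMap R R'))) =
      maximalIdeal _ := by
    rw [← map_maximalIdeal_of_surjective (Ideal.Quotient.mk P) Ideal.Quotient.mk_surjective,
      ← map_maximalIdeal_of_surjective (Ideal.Quotient.mk (P.map (algebraMap R R')))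
        Ideal.Quotient.mk_surjective, ← hm, Ideal.map_map, Ideal.map_map]
    rfl
  have hl : IsLocalHom (algebraMap (R ⧸ P) (R' ⧸ P.map (algebraMap R R'))) :=
    ((local_hom_TFAE _).out 0 2).2 h2.le
  exact ⟨n2, dimNat_eq_of_flat 1 (by rw [pow_one, h2])⟩

/-- descent along a flat local map with trivial closed fibre. -/
theorem RegL.posP_of_flat (hR : RegL R x) (R' : Type u) [CommRing R'] [IsLocalRing R']
    [IsNoetherianRing R'] [Algebra R R'] [Module.Flat R R']
    (hm : (maximalIdeal R).map (algebraMap R R') = maximalIdeal R') (h : PosP R' x.length) :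
    PosP R x.length := by
  have := hR.noeth
  intro P Q hP hQ hPQ hd F hF
  obtain ⟨n1, d1⟩ := van_dim R' hm hP.ne_top
  obtain ⟨n2, d2⟩ := van_dim R' hm hQ.ne_top
  have h1 := (hR.of_flat R' hm).pos_of_posP (by rwa [List.length_map])
    (R' ⧸ P.map (algebraMap R R')) (R' ⧸ Q.map (algebraMap R R')) (by
      rw [Ideal.annihilator_quotient, Ideal.annihilator_quotient, ← hm, ← Ideal.map_sup]
      exact (Ideal.map_mono hPQ).trans (Ideal.map_radical_le _))
    (by rw [Ideal.annihilator_quotient, Ideal.annihilator_quotient, d1, d2, hd, List.length_map])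
    _ (hF.map_flat R')
  have h2 := van_fin hPQ (van_ann P) (hF.le_Null_quot.trans Ideal.le_radical)
  exact h1.trans_eq (DG.chi_congr _ fun i =>
    Cx.hl_map_flat_quot R' hm F P (ne_top_of_le_ne_top h2 (DG.hl_le_h _ _ i)))

end Vale.Agent.P177
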