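import Vale.Agent.P177.Model
import Vale.Agent.P177.ModelP
import Vale.Agent.P177.BigAmp
import Vale.Agent.P177.SV
import Vale.Agent.P177.BigMix
import Vale.Agent.P177.Van
import Vale.Agent.P177.UltA
import Vale.Agent.P177.UltB
import Vale.Agent.P177.Tor
import Vale.Agent.P202.MxGonfl

/-! Positivity. -/

namespace Vale.Agent.P177

open IsLocalRing Vale.Agent.P202 CategoryTheory

universe u

theorem Main_isLocalHom {R T : Type u} [CommRing R] [IsLocalRing R] [CommRing T] [IsLocalRing T]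
    (ψ : R →+* T) (h : ψ.Finite) : IsLocalHom ψ := by
  have h1 := Ideal.isMaximal_comap_of_isIntegral_of_isMaximal' ψ h.to_isIntegral (maximalIdeal T)
  refine ⟨fun a ha => ?_⟩
  by_contra hn
  have h2 : a ∈ (maximalIdeal T).comap ψ := by
    rw [eq_maximalIdeal h1]
    exact hn
  exact h2 ha

theorem Big.pos {p : ℕ} [Fact p.Prime] {V R A T : Type u} [CommRing V] [IsLocalRing V] [CommRing R]
    [IsLocalRing R] [CommRing A] [IsLocalRing A] [CommRing T] [IsLocalRing T] [Algebra A T]
    {d n : ℕ} {φ : PS V d →+* R} {ψ : R →+* T} {ρ : PS V (n + 1) →+* A} {z : List A}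
    (hφ : IsHyp p φ) (hm : IsModel φ ψ ρ z) {D : EtData A T} (hG : D.G ≠ 0) (𝔅 : Big p ρ D)
    (P Q : Ideal R) [Q.IsPrime] (hP : RingHom.ker ψ = P) (hQ : maximalIdeal R ≤ (Q ⊔ P).radical)
    (hQ0 : 0 < dimNat (R ⧸ Q)) (hd : dimNat (R ⧸ Q) + dimNat (R ⧸ P) = d) (F : Cx R)
    (hF : F.IsRes (R ⧸ Q)) : 0 < (F.on (R ⧸ P)).chi (Len.len R) := by
  have h := 𝔅.topData hφ hm hG
  have := h.noeth
  have := hφ.reg.noeth
  have := hm.dom
  subst hP
  have : (RingHom.ker ψ).IsPrime := RingHom.ker_isPrime ψ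
  have hx : (List.ofFn fun j => φ (MvPowerSeries.X j)).length = d := List.length_ofFn
  have hdim : dimNat (R ⧸ RingHom.ker ψ) = n + 1 := by
    rw [dimNat_eq_of_finite ψ hm.finR, h.dimNat_eq, hm.len]
  have hpR : (p : R) ∈ maximalIdeal R := by
    obtain ⟨g, hg, hk⟩ := hφ.ker
    have h1 : φ (p - g) = 0 := by
      rw [← RingHom.mem_ker, hk]
      exact Ideal.mem_span_singleton_self _
    rw [map_sub, map_natCast, sub_eq_zero] at h1
    rw [h1, ← hφ.reg.span]
    have h2 : Ideal.span (Set.range (MvPowerSeries.X : Fin d → PS V d)) ≤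
        (Ideal.ofList (List.ofFn fun j => φ (MvPowerSeries.X j))).comap φ := by
      rw [Ideal.span_le]
      rintro _ ⟨j, rfl⟩
      exact Ideal.subset_span (List.mem_ofFn.2 ⟨j, rfl⟩)
    exact h2 hg
  have hres : ∀ t : T, ∃ a, t - ψ a ∈ maximalIdeal T := fun t =>
    (hm.res t).elim fun _ hv => ⟨_, hv⟩
  have hQ' : Q ≠ ⊤ := Ideal.IsPrime.ne_top'
  have hF' : Q ≤ F.Null.radical := hF.le_Null_quot.trans Ideal.le_radical
  have hsum := h.chi_eq_sum Fact.out hφ.reg hφ.reg.vanLt hpR ψ hm.finR hres Q hQ hQ0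
    (by rw [hx, hm.len, ← hdim, hd])
    (fun i Q' hQp hlt G hG' => 𝔅.chi_eq_zero hφ hm i Q' hQp.ne_top
      (hQ.trans (Ideal.radical_mono (sup_le_sup_right hlt.le _)))
      (by have := dimNat_quot_lt hlt hQp.ne_top; omega) G hG')
    (fun i s _ _ Pj hfg hrad => by
      obtain ⟨b, Nt, h1, h2, h3⟩ := 𝔅.sys i s Pj hfg hrad
      exact ⟨b, fun β => (Nt β).map 𝔅.π, h1, fun β hfin G hG' =>
        𝔅.chi_quot_eq_zero hφ hm i Q hQ' hQ (by omega) (Nt β) (h2 β) (h3 β) hfin G hG'⟩)
    F hF'
  have hpos : 0 < ((F.map ψ).on T).chi (Len.len T) := by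
    rw [hsum]
    have : Nonempty (Fin D.P.natDegree) := ⟨⟨0, h.natDegree_pos⟩⟩
    exact Finset.sum_pos (fun i _ => 𝔅.chi_pos hφ hm i Q hQ hQ0 (by omega) F hF)
      Finset.univ_nonempty
  have : IsLocalHom ψ := Main_isLocalHom ψ hm.finR
  have : Module.Finite R (Res ψ T) := hm.finR
  obtain ⟨r, hr⟩ := hφ.reg.exists_chi_eq_mul Q (RingHom.ker ψ) hQ (by omega) (Res ψ T)
    fun a ha => Ideal.le_radical (Module.mem_annihilator.2 fun t =>
      (congrArg (· * (show T from t)) (RingHom.mem_ker.1 ha)).trans (zero_mul _))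
  have h2 : ((F.map ψ).on T).chi (Len.len T) = (F.on (Res ψ T)).chi (Len.len R) := by
    refine DG.chi_congr _ fun i => ?_
    rw [← Len.len_res ψ hres]
    exact Cx.hl_map (N := Res ψ T) _ ψ F (AddEquiv.refl T) (fun _ _ => rfl) i
  rw [h2, hr F hF'] at hpos
  exact pos_of_mul_pos_left (mul_comm (r : ℝ) _ ▸ hpos) (Nat.cast_nonneg r)

theorem IsHyp.posP {p : ℕ} [Fact p.Prime] {k R : Type u} [Field k] [CharP k p] [IsAlgClosed k]
    [CommRing R] [IsLocalRing R] {d : ℕ} {φ : PS (WittVector p k) d →+* R} (hφ : IsHyp p φ) :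
    PosP R d := by
  have hx : (List.ofFn fun j => φ (MvPowerSeries.X j)).length = d := List.length_ofFn
  suffices h : PosP R (List.ofFn fun j => φ (MvPowerSeries.X j)).length by rwa [hx] at h
  refine hφ.reg.posP_of_pos fun P Q hP hQ hPQ hd hQ0 hP0 F hF => ?_
  rw [hx] at hd
  by_cases hp : (p : R) ∈ P
  · obtain ⟨n, T, _, _, _, ψ, z, D, hk, hm, hG⟩ := hφ.exists_model_charP P hp hP0
    obtain ⟨U⟩ := exists_preUlt p k n
    obtain ⟨U'⟩ := U.exists_ult (regL_ps_field k (n + 1))
    have := hm.fin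
    obtain ⟨𝔅⟩ := U'.exists_big_charP D hG
    exact 𝔅.pos hφ hm hG P Q hk hPQ hQ0 hd F hF
  · obtain ⟨n, _, _, ρ, z, D, hρ, hm, hG⟩ := hφ.exists_model_mixed P hp
    obtain ⟨U⟩ := exists_preUlt p k n
    obtain ⟨U'⟩ := U.exists_ult (regL_ps_field k (n + 1))
    obtain ⟨𝔅⟩ := U'.exists_big_mixed hρ D hG
    exact 𝔅.pos hφ hm hG P Q Ideal.mk_ker hPQ hQ0 hd F hF

theorem Main_posP_ps (k : Type u) [Field k] (d : ℕ) : PosP (PS k d) d := by
  have hx : (List.ofFn (MvPowerSeries.X : Fin d → PS k d)).length = d := List.length_ofFn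
  suffices h : PosP (PS k d) (List.ofFn (MvPowerSeries.X : Fin d → PS k d)).length by
    rwa [hx] at h
  refine (regL_ps_field k d).posP_of_pos fun P Q hP hQ hPQ hd hQ0 hP0 F hF => ?_
  rw [hx] at hd
  exact pos_ps_field k d P Q hPQ hd hQ0 hP0 F hF

theorem Main_posP_of_isCL {k R : Type u} [Field k] [CommRing R] [IsLocalRing R] [Algebra k R]
    (h : IsCL k R) {x : List R} (hR : RegL R x) : PosP R x.length := by
  have := hR.noeth
  have hS := regL_ps_field k x.length
  have := hS.noeth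
  have := hS.isDomain
  have hsp : Ideal.span (Set.range x.get) = maximalIdeal R := by
    rw [← hR.span]
    exact congrArg Ideal.span (Set.ext fun a => List.mem_iff_get.symm)
  obtain ⟨ψ, -, -, hsurj, -⟩ := h.exists_psMap x.get fun i =>
    hsp ▸ Ideal.subset_span (Set.mem_range_self i)
  have hs := hsurj hsp
  have hinj : Function.Injective ψ.toRingHom := by
    rw [RingHom.injective_iff_ker_eq_bot]
    by_contra hn
    have h1 := dimNat_quot_lt (bot_lt_iff_ne_bot.2 hn) (RingHom.ker_ne_top _)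
    rw [dimNat_quot_bot, hS.dimNat_eq, List.length_ofFn,
      dimNat_eq_of_finite _ (RingHom.Finite.of_surjective _ hs), hR.dimNat_eq] at h1
    exact h1.false
  let e := (RingEquiv.ofBijective ψ.toRingHom ⟨hinj, hs⟩).symm
  let _ : Algebra R (PS k x.length) := e.toRingHom.toAlgebra
  have : Module.Flat R (PS k x.length) := RingHom.Flat.of_bijective (f := e.toRingHom) e.bijective
  exact hR.posP_of_flat (PS k x.length) (map_ringEquiv_maximalIdeal e) (Main_posP_ps k _)

theorem RegL.posP {R : Type u} [CommRing R] [IsLocalRing R] {x : List R} (hR : RegL R x) :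
    PosP R x.length := by
  have := hR.noeth
  obtain ⟨p, hp⟩ := CharP.exists (ResidueField R)
  rcases CharP.char_is_prime_or_zero (ResidueField R) p with hp' | rfl
  · have := Fact.mk hp'
    have hpm : (p : R) ∈ maximalIdeal R := by
      rw [← residue_eq_zero_iff, map_natCast]
      exact CharP.cast_eq_zero _ p
    obtain ⟨R', _, _, _, _, hc, hac, hfl, hloc, hm⟩ := exists_algClosed_ext p R hpm
    have hR' := hR.of_flat R' hm
    have : CharP (ResidueField R') p := by
      refine (CharP.charP_iff_prime_eq_zero hp').2 ?_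
      rw [← map_natCast (residue R'), residue_eq_zero_iff, ← hm, ← map_natCast (algebraMap R R')]
      exact Ideal.mem_map_of_mem _ hpm
    obtain ⟨φ, hφ⟩ := hR'.exists_isHyp (p := p)
    have h := hφ.posP
    rw [List.length_map] at h
    exact hR.posP_of_flat R' hm h
  · obtain ⟨R', _, _, _, hc, hfl, hloc, hm, -, -⟩ := exists_completion R
    have hfg : (maximalIdeal R').FG := hm ▸ Ideal.FG.map (IsNoetherian.noetherian _) _
    have : CharZero (ResidueField R) := CharP.charP_to_charZero _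
    have hu : ∀ y : nonZeroDivisors ℤ, IsUnit (Int.castRingHom R' y) := fun y => by
      have h1 : IsUnit ((y : ℤ) : R) := by
        rw [← residue_ne_zero_iff_isUnit, map_intCast]
        exact Int.cast_ne_zero.2 (nonZeroDivisors.coe_ne_zero y)
      simpa using h1.map (algebraMap R R')
    obtain ⟨σ, hσ, -⟩ := exists_coeffField R' ℚ (IsLocalization.lift (S := ℚ) hu)
    let _ := σ.toAlgebra
    have hCL := isCL_of_section hfg σ hσ
    have := hCL.isNoetherianRing
    have h := Main_posP_of_isCL hCL (hR.of_flat R' hm)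
    rw [List.length_map] at h
    exact hR.posP_of_flat R' hm h

theorem serre_pos (R : Type u) [CommRing R] [IsRegularLocalRing R] (M N : Type u) [AddCommGroup M]
    [Module R M] [Module.Finite R M] [Nontrivial M] [AddCommGroup N] [Module R N]
    [Module.Finite R N] [Nontrivial N] (hlen : Module.length R (TensorProduct R M N) ≠ ⊤)
    (hdim : Module.supportDim R M + Module.supportDim R N = ringKrullDim R) (d : ℕ)
    (hd : ringKrullDim R = d) :
    (∀ i, Module.length R
      (((Tor (ModuleCat.{u} R) i).obj (ModuleCat.of R M)).obj (ModuleCat.of R N)) ≠ ⊤) ∧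
    0 < ∑ i ∈ Finset.range (d + 1), (-1 : ℤ) ^ i * ((Module.length R
      (((Tor (ModuleCat.{u} R) i).obj (ModuleCat.of R M)).obj (ModuleCat.of R N))).toNat : ℤ) := by
  obtain ⟨x, hR⟩ := exists_regL R
  obtain ⟨F, hF, hdeg⟩ := hR.exists_res N
  have hxd : x.length = d := by
    rw [← hR.dimNat_eq, dimNat, hd]
    rfl
  have hMN := le_radical_of_length_tensor M N hlen
  rw [sup_comm] at hMN
  have hfin : (F.on M).h (Len.len R) ≠ ⊤ := thick_of_finite M (Module.annihilator R N) hMN F
    ((hF.le_Null.trans le_sup_left).trans Ideal.le_radical)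
  refine ⟨fun i hi => ne_top_of_le_ne_top hfin (DG.hl_le_h _ _ i) ?_, ?_⟩
  · rw [← length_Tor_eq M N F hF i, hi, ENat.toENNReal_top]
  have hd' : dimNat (R ⧸ Module.annihilator R N) + dimNat (R ⧸ Module.annihilator R M) =
      x.length := by
    rw [supportDim_eq, supportDim_eq, hd] at hdim
    rw [add_comm, hxd]
    exact_mod_cast hdim
  have hpos := hR.pos_of_posP hR.posP M N hMN hd' F hF
  rw [DG.chi_eq_sum _ (L := d + 1) fun i hi => Cx.hl_on_eq_zero _ F fun a => by
    have := hdeg a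
    omega] at hpos
  have h1 : ∀ l : ℕ∞, (l : ENNReal).toReal = (l.toNat : ℝ) := fun l => by
    induction l using ENat.recTopCoe <;> simp
  simp only [← length_Tor_eq M N F hF, h1] at hpos
  exact_mod_cast hpos

end Vale.Agent.P177
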