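import Vale.Agent.P177.SysDef

/-! Presentation of a regular local ring and of a quotient domain. -/

namespace Vale.Agent.P177

open IsLocalRing Vale.Agent.P202

universe u

/-- `R` is a hypersurface `p = g(X)` in a power series ring. -/
structure IsHyp (p : ℕ) {V R : Type u} [CommRing V] [IsLocalRing V] [CommRing R] [IsLocalRing R]
    {d : ℕ} (φ : PS V d →+* R) : Prop where
  pr : IsPRing p V
  surj : Function.Surjective φ
  ker : ∃ g ∈ Ideal.span (Set.range (MvPowerSeries.X : Fin d → PS V d)),
    RingHom.ker φ = Ideal.span {(p : PS V d) - g}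
  reg : RegL R (List.ofFn fun j => φ (MvPowerSeries.X j))

/-- `T` is finite over `R` and over the regular ring `A`, compatibly with coefficients. -/
structure IsModel {V R A T : Type u} [CommRing V] [IsLocalRing V] [CommRing R] [CommRing A]
    [IsLocalRing A] [CommRing T] [IsLocalRing T] [Algebra A T] {d n : ℕ} (φ : PS V d →+* R)
    (ψ : R →+* T) (ρ : PS V (n + 1) →+* A) (z : List A) : Prop where
  reg : RegL A z
  len : z.length = n + 1
  surj : Function.Surjective ρ
  ker : ∃ ξ, RingHom.ker ρ = Ideal.span {ξ}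
  ne : ρ (MvPowerSeries.X 0) ≠ 0
  dom : IsDomain T
  fin : Module.Finite A T
  inj : Function.Injective (algebraMap A T)
  res : ∀ t : T, ∃ v, t - ψ (φ (MvPowerSeries.C v)) ∈ maximalIdeal T
  finR : ψ.Finite
  comm : ∀ v, algebraMap A T (ρ (MvPowerSeries.C v)) = ψ (φ (MvPowerSeries.C v))

end Vale.Agent.P177
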