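import Vale.Agent.P202.MxWitt2

/-! Ideals of Witt vectors with prescribed coordinates. -/

namespace Vale.Agent.P177

open Vale.Agent.P202

universe u

variable (p : ℕ) [Fact p.Prime] {E : Type u} [CommRing E] [CharP E p]

/-- closed under roots of elements of powers of finitely generated subideals. -/
def RootClosed (J : Ideal E) : Prop :=
  ∀ K : Ideal E, K.FG → K ≤ J → ∀ (c : E) (e : ℕ), c ^ p ^ e ∈ K ^ p ^ e → c ∈ J

/-- the closed ideal generated by Teichmueller representatives. -/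
noncomputable def wId (J : Ideal E) : Ideal (WittVector p E) :=
  ⨅ ν : ℕ, Ideal.span (WittVector.teichmuller p '' J) ⊔ Ideal.span {(p : WittVector p E) ^ ν}

variable {p} [PerfectRing E p]

open WittVector

omit [PerfectRing E p] in
theorem wid_coeff_zero (c : E) (y : WittVector p E) : (teichmuller p c + y * p).coeff 0 = c := by
  rw [add_coeff_zero, mul_charP_coeff_zero, teichmuller_coeff_zero, add_zero]

omit [PerfectRing E p] in
theorem wid_coeff_succ (c : E) (y : WittVector p E) (k : ℕ) :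
    (teichmuller p c + y * p).coeff (k + 1) = y.coeff k ^ p := by
  rw [coeff_add_of_disjoint, teichmuller_coeff_pos p c _ k.succ_pos, zero_add, mul_charP_coeff_succ]
  intro n
  cases n with
  | zero => exact Or.inr (mul_charP_coeff_zero y)
  | succ n => exact Or.inl (teichmuller_coeff_pos p c _ n.succ_pos)

theorem wid_rt_succ (k : ℕ) (a : E) : rt p (k + 1) (a ^ p) = rt p k a := by
  rw [w4_rt_npow, rt_succ_pow]

theorem wid_dec (x : WittVector p E) : ∃ y, x = teichmuller p (x.coeff 0) + y * p := by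
  obtain ⟨y, hy⟩ := w4_p_dvd_of_cc (x := x - teichmuller p (x.coeff 0))
    (by rw [map_sub, w4_cc_teich, constantCoeff_apply, sub_self])
  exact ⟨y, by rw [mul_comm, ← hy]; ring⟩

theorem wid_dvd (v : E) (k : ℕ) : ∀ w : WittVector p E,
    w ∈ Ideal.span {teichmuller p v} ⊔ Ideal.span {(p : WittVector p E) ^ (k + 1)} →
    v ∣ rt p k (w.coeff k) := by
  have key : ∀ (n : ℕ) (w : WittVector p E),
      w ∈ Ideal.span {teichmuller p v} ⊔ Ideal.span {(p : WittVector p E) ^ (n + 1)} →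
      ∃ c y, w = teichmuller p (v * c) + y * p ∧
        y ∈ Ideal.span {teichmuller p v} ⊔ Ideal.span {(p : WittVector p E) ^ n} := by
    intro n w hw
    obtain ⟨_, h1, _, h2, rfl⟩ := Submodule.mem_sup.1 hw
    obtain ⟨a, rfl⟩ := Ideal.mem_span_singleton'.1 h1
    obtain ⟨b, rfl⟩ := Ideal.mem_span_singleton'.1 h2
    obtain ⟨a', ha'⟩ := wid_dec a
    refine ⟨a.coeff 0, a' * teichmuller p v + b * p ^ n, ?_, Submodule.add_mem_sup
      (Ideal.mem_span_singleton'.2 ⟨_, rfl⟩) (Ideal.mem_span_singleton'.2 ⟨_, rfl⟩)⟩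
    rw [map_mul]
    linear_combination teichmuller p v * ha'
  induction k with
  | zero =>
    intro w hw
    obtain ⟨c, y, rfl, -⟩ := key 0 w hw
    rw [wid_coeff_zero, rt_zero]
    exact dvd_mul_right _ _
  | succ k ih =>
    intro w hw
    obtain ⟨c, y, rfl, hy⟩ := key _ w hw
    rw [wid_coeff_succ, wid_rt_succ]
    exact ih y hy

omit [CharP E p] [PerfectRing E p] in
theorem wid_exists_fg {J : Ideal E} {s : WittVector p E}
    (hs : s ∈ Ideal.span (teichmuller p '' J)) :
    ∃ K : Ideal E, K.FG ∧ K ≤ J ∧ s ∈ Ideal.span (teichmuller p '' K) := by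
  induction hs using Submodule.span_induction with
  | mem _ h =>
    obtain ⟨y, hy, rfl⟩ := h
    exact ⟨Ideal.span {y}, Submodule.fg_span_singleton y, by simpa using hy,
      Ideal.subset_span ⟨y, Ideal.mem_span_singleton_self y, rfl⟩⟩
  | zero => exact ⟨⊥, Submodule.fg_bot, bot_le, zero_mem _⟩
  | add a b _ _ ha hb =>
    obtain ⟨K, h1, h2, h3⟩ := ha
    obtain ⟨K', h1', h2', h3'⟩ := hb
    exact ⟨K ⊔ K', Submodule.FG.sup h1 h1', sup_le h2 h2', add_mem
      (Ideal.span_mono (Set.image_mono (le_sup_left : K ≤ K ⊔ K')) h3)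
      (Ideal.span_mono (Set.image_mono (le_sup_right : K' ≤ K ⊔ K')) h3')⟩
  | smul a b _ hb =>
    obtain ⟨K, h1, h2, h3⟩ := hb
    exact ⟨K, h1, h2, Ideal.mul_mem_left _ _ h3⟩

omit [CharP E p] [PerfectRing E p] in
theorem wid_map_le {K : Ideal E} {R : Type u} [CommRing R] (f : E →+* R) {v : R}
    (h : ∀ a ∈ K, v ∣ f a) :
    (Ideal.span (teichmuller p '' K)).map (WittVector.map f) ≤ Ideal.span {teichmuller p v} := by
  rw [Ideal.map_span, Ideal.span_le]
  rintro _ ⟨_, ⟨y, hy, rfl⟩, rfl⟩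
  rw [map_teichmuller]
  exact Ideal.mem_span_singleton.2 (map_dvd (teichmuller p) (h y hy))

theorem wid_map_rt {R : Type u} [CommRing R] [CharP R p] [PerfectRing R p] (f : E →+* R) (m : ℕ)
    (x : E) : f (rt p m x) = rt p m (f x) :=
  w4_pow_p_pow_inj (p := p) m (by rw [← map_pow, rt_pow, rt_pow])

omit [CharP E p] [PerfectRing E p] in
theorem wid_teich_mem {J : Ideal E} {y : E} (hy : y ∈ J) : teichmuller p y ∈ wId p J :=
  (Submodule.mem_iInf _).2 fun _ => Ideal.mem_sup_left (Ideal.subset_span ⟨y, hy, rfl⟩)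

theorem wid_mem_of_coeff {J : Ideal E} (x : WittVector p E) (h : ∀ k, rt p k (x.coeff k) ∈ J) :
    x ∈ wId p J := by
  refine (Submodule.mem_iInf _).2 fun ν => ?_
  induction ν generalizing x with
  | zero => exact Ideal.mem_sup_right (by simp)
  | succ ν ih =>
    obtain ⟨y, hy⟩ := wid_dec x
    have h0 := h 0
    rw [rt_zero] at h0
    have h1 := ih y fun k => by
      have := h (k + 1)
      rwa [hy, wid_coeff_succ, wid_rt_succ] at this
    obtain ⟨a, ha, _, hb, rfl⟩ := Submodule.mem_sup.1 h1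
    obtain ⟨b, rfl⟩ := Ideal.mem_span_singleton'.1 hb
    rw [hy, add_mul, ← add_assoc]
    exact Submodule.add_mem_sup (add_mem (Ideal.subset_span ⟨_, h0, rfl⟩)
      (Ideal.mul_mem_right _ _ ha)) (Ideal.mem_span_singleton'.2 ⟨b, by ring⟩)

theorem RootClosed.mem_wId_iff {J : Ideal E} (h : RootClosed p J) (x : WittVector p E) :
    x ∈ wId p J ↔ ∀ k, rt p k (x.coeff k) ∈ J := by
  refine ⟨fun hx k => ?_, wid_mem_of_coeff x⟩
  obtain ⟨s, hs, b, hb, hx'⟩ := Submodule.mem_sup.1 ((Submodule.mem_iInf _).1 hx (k + 1))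
  obtain ⟨K, h1, h2, h3⟩ := wid_exists_fg hs
  obtain ⟨R, _, _, _, f, v, -, h4, h5⟩ := w5_exists_perf p K
  have h6 := wid_dvd v k (WittVector.map f x) (by
    rw [← hx', map_add]
    refine Submodule.add_mem_sup (wid_map_le f h4 (Ideal.mem_map_of_mem _ h3)) ?_
    obtain ⟨b, rfl⟩ := Ideal.mem_span_singleton'.1 hb
    exact Ideal.mem_span_singleton'.2 ⟨WittVector.map f b, by simp⟩)
  rw [map_coeff, ← wid_map_rt, ← pow_one v] at h6
  obtain ⟨e, he⟩ := h5 1 _ h6
  exact h K h1 h2 _ e (by rwa [one_mul] at he)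

theorem RootClosed.mem_wId_of_p_mul {J : Ideal E} (h : RootClosed p J) (x : WittVector p E)
    (hx : (p : WittVector p E) * x ∈ wId p J) : x ∈ wId p J := by
  refine wid_mem_of_coeff x fun k => ?_
  have := (h.mem_wId_iff _).1 hx (k + 1)
  rwa [mul_comm, mul_charP_coeff_succ, wid_rt_succ] at this

theorem RootClosed.map_wId {J : Ideal E} (h : RootClosed p J) :
    (wId p J).map (WittVector.constantCoeff : WittVector p E →+* E) = J := by
  refine le_antisymm (Ideal.map_le_iff_le_comap.2 fun x hx => ?_) fun y hy => ?_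
  · have := (h.mem_wId_iff _).1 hx 0
    rwa [rt_zero] at this
  · exact Ideal.mem_map_of_mem (WittVector.constantCoeff : WittVector p E →+* E) (wid_teich_mem hy)

theorem RootClosed.mem_wId_of_xi_mul {J : Ideal E} (h : RootClosed p J) {t : E} (ht : t ∈ J.radical)
    (x : WittVector p E) (hx : xi p t * x ∈ wId p J) : x ∈ wId p J := by
  obtain ⟨N, hN⟩ := ht
  obtain ⟨w, hw⟩ := w4_xi_dvd_sub (p := p) t N
  have h1 : (p : WittVector p E) ^ N * x ∈ wId p J := by
    rw [show (p : WittVector p E) ^ N * x = w * (xi p t * x) + teichmuller p (t ^ N) * x by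
      linear_combination x * hw]
    exact add_mem (Ideal.mul_mem_left _ _ hx) (Ideal.mul_mem_right _ _ (wid_teich_mem hN))
  clear hw hN
  induction N with
  | zero => simpa using h1
  | succ N ih => exact ih (h.mem_wId_of_p_mul _ (by rwa [← mul_assoc, ← pow_succ']))

omit [PerfectRing E p] in
theorem RootClosed.mem_of_teich {J : Ideal E} (h : RootClosed p J) {t : E} (ht : t ∈ J.radical)
    (c : E) (hc : ∀ ν, WittVector.teichmuller p c ∈ wId p J ⊔ JJ p t ν) : c ∈ J := by
  obtain ⟨N, hN⟩ := ht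
  have hle : wId p J ⊔ JJ p t (p ^ N) ≤ Ideal.span (teichmuller p '' J) ⊔ JJ p t (p ^ N) :=
    sup_le ((iInf_le _ (p ^ N)).trans (sup_le_sup_left
      ((Ideal.span_singleton_le_iff_mem _).2 (w4_p_pow_mem_JJ t _)) _)) le_sup_right
  obtain ⟨s, hs, b, hb, hx'⟩ := Submodule.mem_sup.1 (hle (hc _))
  obtain ⟨K, h1, h2, h3⟩ := wid_exists_fg hs
  obtain ⟨R, _, _, _, f, v, hv, h4, h5⟩ := w5_exists_perf p (K ⊔ Ideal.span {t ^ N})
  have hN' : N ≤ p ^ N := (Nat.lt_pow_self (Fact.out : p.Prime).one_lt).le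
  have h6 : rt p N v ∣ f t := by
    have := map_dvd (iterateFrobeniusEquiv R p N).symm
      ((h4 _ (Ideal.mem_sup_right (Ideal.mem_span_singleton_self _))).trans
        (by rw [map_pow]; exact pow_dvd_pow _ hN' : f (t ^ N) ∣ f t ^ p ^ N))
    rwa [show (iterateFrobeniusEquiv R p N).symm (f t ^ p ^ N) = f t from w4_rt_of_pow N _] at this
  have h7 : ∀ x, rt p N v * x = 0 → x = 0 := by
    intro x hx
    refine hv x ?_
    obtain ⟨n, hn⟩ := Nat.exists_eq_succ_of_ne_zero
      (pow_ne_zero N (Fact.out : p.Prime).ne_zero)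
    rw [← rt_pow (p := p) N v, hn, pow_succ, mul_assoc, hx, mul_zero]
  have h8 := dvd_of_teich_mem (p := p) h7 h6 (p ^ N) (p ^ N) le_rfl (f c) (by
    rw [rt_pow, ← map_teichmuller, ← hx', map_add, ← JJ_map]
    exact Submodule.add_mem_sup (wid_map_le f (fun a ha => h4 a (Ideal.mem_sup_left ha))
      (Ideal.mem_map_of_mem _ h3)) (Ideal.mem_map_of_mem _ hb))
  rw [rt_pow, ← pow_one v] at h8
  obtain ⟨e, he⟩ := h5 1 _ h8
  exact h _ (Submodule.FG.sup h1 (Submodule.fg_span_singleton _))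
    (sup_le h2 ((Ideal.span_singleton_le_iff_mem _).2 hN)) _ e (by rwa [one_mul] at he)

omit [CharP E p] [PerfectRing E p] in
theorem wId_mul_le {J J' J'' : Ideal E} (h : J * J' ≤ J'') :
    wId p J * wId p J' ≤ wId p J'' := by
  refine le_iInf fun ν => (Ideal.mul_mono (iInf_le _ ν) (iInf_le _ ν)).trans ?_
  rw [Ideal.sup_mul, Ideal.mul_sup]
  refine sup_le (sup_le (le_sup_of_le_left ?_) (le_sup_of_le_right Ideal.mul_le_right))
    (le_sup_of_le_right Ideal.mul_le_left)
  rw [Ideal.span_mul_span']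
  refine Ideal.span_mono ?_
  rintro _ ⟨_, ⟨a, ha, rfl⟩, _, ⟨b, hb, rfl⟩, rfl⟩
  exact ⟨a * b, h (Ideal.mul_mem_mul ha hb), map_mul _ _ _⟩

theorem wId_span_mul {J : Ideal E} {m : ℕ} (g : Fin m → E) (h : RootClosed p J)
    (h' : RootClosed p (Ideal.span (Set.range g) * J)) :
    wId p (Ideal.span (Set.range g) * J) = teichI p g * wId p J := by
  have _ := h
  have hge : teichI p g * wId p J ≤ wId p (Ideal.span (Set.range g) * J) := by
    refine le_trans (Ideal.mul_mono_left ?_) (wId_mul_le le_rfl)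
    rw [teichI, Ideal.span_le]
    rintro _ ⟨i, rfl⟩
    exact wid_teich_mem (Ideal.subset_span ⟨i, rfl⟩)
  refine le_antisymm (fun x hx => ?_) hge
  have step : ∀ x : wId p (Ideal.span (Set.range g) * J), ∃ (y : Fin m → E)
      (x' : wId p (Ideal.span (Set.range g) * J)), (∀ i, y i ∈ J) ∧
      x.1 = ∑ i, teichmuller p (g i) * teichmuller p (y i) + x'.1 * p := by
    intro x
    have h0 := (h'.mem_wId_iff _).1 x.2 0
    rw [rt_zero] at h0
    have h0' : x.1.coeff 0 ∈ J • Submodule.span E (Set.range g) := by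
      rw [smul_eq_mul, mul_comm]; exact h0
    obtain ⟨a, ha, ha'⟩ := (Submodule.mem_ideal_smul_span_iff_exists_sum J g _).1 h0'
    rw [Finsupp.sum_fintype _ _ (by simp)] at ha'
    obtain ⟨w, hw⟩ := w4_p_dvd_of_cc
      (x := x.1 - ∑ i, teichmuller p (g i) * teichmuller p (a i)) (by
        simp only [map_sub, map_sum, map_mul, w4_cc_teich]
        simp only [constantCoeff_apply, ← ha', smul_eq_mul, mul_comm, sub_self])
    refine ⟨a, ⟨w, h'.mem_wId_of_p_mul _ ?_⟩, ha, by linear_combination hw⟩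
    rw [← hw]
    exact sub_mem x.2 (hge (Ideal.sum_mem _ fun i _ =>
      Ideal.mul_mem_mul (Ideal.subset_span ⟨i, rfl⟩) (wid_teich_mem (ha i))))
  choose y nx hy hnx using step
  let X : ℕ → wId p (Ideal.span (Set.range g) * J) := fun n => nx^[n] ⟨x, hx⟩
  let Z : ℕ → Fin m → WittVector p E := fun n i =>
    WittVector.mk p fun k => y (X (n + k)) i ^ p ^ k
  have hZ : ∀ n i, Z n i = teichmuller p (y (X n) i) + Z (n + 1) i * p := by
    intro n i
    ext k
    cases k with
    | zero => rw [wid_coeff_zero]; simp [Z]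
    | succ k =>
      rw [wid_coeff_succ]
      simp only [Z, coeff_mk]
      rw [← pow_mul, ← pow_succ, add_assoc, add_comm 1 k]
  have hD : ∀ k n, (p : WittVector p E) ^ k ∣ (X n).1 - ∑ i, teichmuller p (g i) * Z n i := by
    intro k
    induction k with
    | zero => simp
    | succ k ih =>
      intro n
      have h1 : (X n).1 - ∑ i, teichmuller p (g i) * Z n i =
          ((X (n + 1)).1 - ∑ i, teichmuller p (g i) * Z (n + 1) i) * p := by
        rw [hnx (X n), show X (n + 1) = nx (X n) from Function.iterate_succ_apply' _ _ _]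
        simp only [hZ n, mul_add, Finset.sum_add_distrib, sub_mul, Finset.sum_mul, mul_assoc]
        ring
      rw [h1, pow_succ]
      exact mul_dvd_mul (ih _) dvd_rfl
  have h2 : x = ∑ i, teichmuller p (g i) * Z 0 i := by
    refine sub_eq_zero.1 ?_
    ext n
    rw [zero_coeff]
    exact (mem_span_p_pow_iff_le_coeff_eq_zero _ (n + 1)).1
      (Ideal.mem_span_singleton.2 (hD _ 0)) n (Nat.lt_succ_self n)
  rw [h2]
  refine Ideal.sum_mem _ fun i _ => Ideal.mul_mem_mul (Ideal.subset_span ⟨i, rfl⟩)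
    (wid_mem_of_coeff _ fun k => ?_)
  simp only [Z, coeff_mk, w4_rt_of_pow]
  exact hy _ i

theorem RootClosed.wId_map_le {J : Ideal E} (h : RootClosed p J) {E' : Type u} [CommRing E']
    [CharP E' p] [PerfectRing E' p] (f : E →+* E') (ν : ℕ) : wId p (J.map f) ≤
      (wId p J).map (WittVector.map f) ⊔ Ideal.span {(p : WittVector p E') ^ ν} := by
  refine (iInf_le _ ν).trans (sup_le (Ideal.span_le.2 ?_) le_sup_right)
  rintro _ ⟨y, hy, rfl⟩
  let L : Ideal E := J.comap (iterateFrobenius E p ν)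
  let M : Ideal (WittVector p E) := Ideal.span (teichmuller p '' L)
  have h1 : ∀ n : ℕ, M ^ n ≤ Ideal.span (teichmuller p ''
      {c | ∃ K : Ideal E, K.FG ∧ K ≤ J ∧ c ^ p ^ ν ∈ K ^ n}) := by
    intro n
    induction n with
    | zero =>
      rw [pow_zero, Ideal.one_eq_top, top_le_iff, Ideal.eq_top_iff_one]
      exact Ideal.subset_span ⟨1, ⟨⊥, Submodule.fg_bot, bot_le, by simp⟩, map_one _⟩
    | succ n ih =>
      rw [pow_succ]
      refine (Ideal.mul_mono_left ih).trans ?_
      rw [Ideal.span_mul_span']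
      refine Ideal.span_mono ?_
      rintro _ ⟨_, ⟨a, ⟨K, k1, k2, k3⟩, rfl⟩, _, ⟨b, hb, rfl⟩, rfl⟩
      refine ⟨a * b, ⟨K ⊔ Ideal.span {b ^ p ^ ν},
        Submodule.FG.sup k1 (Submodule.fg_span_singleton _),
        sup_le k2 ((Ideal.span_singleton_le_iff_mem _).2 hb), ?_⟩, map_mul _ _ _⟩
      rw [mul_pow, pow_succ]
      exact Ideal.mul_mem_mul (Ideal.pow_right_mono le_sup_left n k3)
        (Ideal.mem_sup_right (Ideal.mem_span_singleton_self _))
  have h2 : M ^ p ^ ν ≤ wId p J := (h1 _).trans (Ideal.span_le.2 (by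
    rintro _ ⟨c, ⟨K, k1, k2, k3⟩, rfl⟩
    exact wid_teich_mem (h K k1 k2 c ν k3)))
  have h3 : ∀ y ∈ J.map f, ∃ b ∈ M.map (WittVector.map f), constantCoeff b = rt p ν y := by
    intro y hy
    induction hy using Submodule.span_induction with
    | mem _ hz =>
      obtain ⟨z, hz, rfl⟩ := hz
      refine ⟨_, Ideal.mem_map_of_mem _ (Ideal.subset_span ⟨rt p ν z, ?_, rfl⟩), ?_⟩
      · show rt p ν z ^ p ^ ν ∈ J
        rwa [rt_pow]
      · rw [map_teichmuller, w4_cc_teich, wid_map_rt]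
    | zero => exact ⟨0, zero_mem _, by rw [map_zero]; exact (map_zero _).symm⟩
    | add a b _ _ ha hb =>
      obtain ⟨a', h4, h5⟩ := ha
      obtain ⟨b', h6, h7⟩ := hb
      exact ⟨a' + b', add_mem h4 h6, by rw [map_add, h5, h7, w4_rt_add]⟩
    | smul a b _ hb =>
      obtain ⟨b', h6, h7⟩ := hb
      exact ⟨teichmuller p (rt p ν a) * b', Ideal.mul_mem_left _ _ h6, by
        rw [map_mul, h7, w4_cc_teich, smul_eq_mul, w4_rt_mul]⟩
  obtain ⟨b, hb, hb'⟩ := h3 y hy
  refine w4_mem_sup_of_cc ν hb' (Ideal.map_mono h2 ?_)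
  rw [Ideal.map_pow]
  exact Ideal.pow_mem_pow hb _

end Vale.Agent.P177
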