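import Vale.Agent.P177.SysB
import Vale.Agent.P177.WId

/-! Test ideals in perfect rings and their Witt vector lifts. -/

namespace Vale.Agent.P177

open Vale.Agent.P202

universe u

section Aux

variable {S : Type u} [CommRing S] {s : Type} [Fintype s]

theorem nid_pow (q : s → Ideal S) (β : s → ℕ) (n : ℕ) : mpow q β ^ n = mpow q (n • β) := by
  simp only [mpow, ← Finset.prod_pow, ← pow_mul, Pi.smul_apply, smul_eq_mul, mul_comm]

theorem nid_anti (q : s → Ideal S) {β γ : s → ℕ} (h : ∀ j, β j ≤ γ j) : mpow q γ ≤ mpow q β := by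
  classical
  obtain ⟨δ, rfl⟩ : ∃ δ, γ = β + δ := ⟨γ - β, funext fun j => by
    have := h j
    simp only [Pi.add_apply, Pi.sub_apply]
    omega⟩
  rw [mpow_add]
  exact Ideal.mul_le_left

theorem nid_up {p : ℕ} (hp : 0 < p) {q : s → Ideal S} {β : s → ℕ} {c : S} {e e' : ℕ} (he : e ≤ e')
    (h : c ^ p ^ e ∈ mpow q (p ^ e • β + 1)) : c ^ p ^ e' ∈ mpow q (p ^ e' • β + 1) := by
  obtain ⟨f, rfl⟩ := Nat.exists_eq_add_of_le he
  have h1 := Ideal.pow_mem_pow h (p ^ f)
  rw [nid_pow, ← pow_mul, ← pow_add] at h1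
  refine nid_anti q (fun j => ?_) h1
  have := pow_pos hp f
  simp only [Pi.add_apply, Pi.smul_apply, smul_eq_mul, Pi.one_apply, pow_add]
  nlinarith

theorem nid_pigeon {m : ℕ} (g : Fin m → S) (Q n : ℕ) (h : m * Q < Q + n) :
    Ideal.span (Set.range g) ^ (Q + n) ≤
      Ideal.span (Set.range fun i => g i ^ Q) * Ideal.span (Set.range g) ^ n := by
  classical
  rw [Ideal.span, Submodule.span_pow, Submodule.span_le]
  intro a ha
  obtain ⟨f, rfl⟩ := Set.mem_pow.1 ha
  choose φ hφ using fun i => (f i).2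
  obtain ⟨y, hy⟩ := Fintype.exists_lt_card_fiber_of_mul_lt_card φ (n := Q) (by simpa using h)
  obtain ⟨T, hT, hT'⟩ := Finset.exists_subset_card_eq hy.le
  rw [List.prod_ofFn, ← Finset.prod_mul_prod_compl T]
  refine Ideal.mul_mem_mul (Ideal.subset_span ⟨y, ?_⟩) ?_
  · rw [Finset.prod_congr rfl (g := fun _ => g y) fun i hi => by
      rw [← hφ, (Finset.mem_filter.1 (hT hi)).2], Finset.prod_const, hT']
  · have := Ideal.prod_mem_prod (s := Tᶜ) (I := fun _ => Ideal.span (Set.range g))
      (x := fun i => (f i : S)) fun i _ => Ideal.subset_span (f i).2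
    rwa [Finset.prod_const, Finset.card_compl, hT', Fintype.card_fin, Nat.add_sub_cancel_left]
      at this

theorem nid_int {W M : Ideal S} (hW : W.FG) {w : S} (hw : w ∈ W) (hw' : ∀ x, w * x = 0 → x = 0)
    {y : S} (hy : ∀ a ∈ W, y * a ∈ M * W) : ∃ r : ℕ, ∀ n, y ^ n ∈ M ^ (n - r) := by
  have : Module.Finite S W := Module.Finite.iff_fg.2 hW
  obtain ⟨P, h1, -, h2, h3⟩ :=
    LinearMap.exists_monic_and_natDegree_eq_and_coeff_mem_pow_and_aeval_eq_zero S
      (algebraMap S (Module.End S W) y) M (by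
        rintro _ ⟨a, rfl⟩
        exact (Submodule.mem_smul_top_iff M W _).2 (hy a a.2))
  rw [Polynomial.aeval_algebraMap_apply] at h3
  have h4 : Polynomial.aeval y P = 0 := hw' _ (by
    have := congrArg (fun f : Module.End S W => (f ⟨w, hw⟩ : S)) h3
    rw [mul_comm]
    exact this)
  rw [Polynomial.aeval_eq_sum_range, Finset.sum_range_succ, h1.coeff_natDegree, one_smul] at h4
  refine ⟨P.natDegree, fun n => ?_⟩
  induction n using Nat.strong_induction_on with
  | _ n ih =>
    rcases le_or_gt n P.natDegree with hn | hn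
    · simp [Nat.sub_eq_zero_of_le hn]
    · obtain ⟨k, rfl⟩ := Nat.exists_eq_add_of_le hn.le
      rw [pow_add, eq_neg_of_add_eq_zero_right h4, neg_mul, Finset.sum_mul]
      refine neg_mem (Ideal.sum_mem _ fun i hi => ?_)
      have hi' := Finset.mem_range.1 hi
      rw [smul_eq_mul, mul_assoc, ← pow_add]
      have := Ideal.mul_mem_mul (h2 i) (ih (i + k) (by omega))
      rw [← pow_add] at this
      exact Ideal.pow_le_pow_right (by omega) this

end Aux

variable (p : ℕ) [Fact p.Prime] {E : Type u} [CommRing E] [CharP E p]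

/-- the asymptotic version of a product of powers. -/
def nId {s : Type} [Fintype s] (q : s → Ideal E) (β : s → ℕ) : Ideal E where
  carrier := {c | ∃ e : ℕ, c ^ p ^ e ∈ mpow q (p ^ e • β + 1)}
  add_mem' := by
    rintro a b ⟨e, ha⟩ ⟨f, hb⟩
    refine ⟨e + f, ?_⟩
    rw [add_pow_char_pow]
    exact add_mem (nid_up (Fact.out : p.Prime).pos (Nat.le_add_right _ _) ha)
      (nid_up (Fact.out : p.Prime).pos (Nat.le_add_left _ _) hb)
  zero_mem' := ⟨0, by simp⟩
  smul_mem' := by
    rintro a b ⟨e, hb⟩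
    exact ⟨e, by rw [smul_eq_mul, mul_pow]; exact Ideal.mul_mem_left _ _ hb⟩

variable {p} [PerfectRing E p]

omit [PerfectRing E p] in
theorem nid_fg {s : Type} [Fintype s] {q : s → Ideal E} {β : s → ℕ} {K : Ideal E} (hK : K.FG)
    (h : K ≤ nId p q β) :
    ∃ e : ℕ, K.map (iterateFrobenius E p e) ≤ mpow q (p ^ e • β + 1) := by
  obtain ⟨n, g, rfl⟩ := Submodule.fg_iff_exists_fin_generating_family.1 hK
  choose e he using fun i => h (Ideal.subset_span (Set.mem_range_self (f := g) i))
  refine ⟨∑ i, e i, ?_⟩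
  rw [← Ideal.span, Ideal.map_span, Ideal.span_le]
  rintro _ ⟨_, ⟨i, rfl⟩, rfl⟩
  exact nid_up (Fact.out : p.Prime).pos
    (Finset.single_le_sum (fun _ _ => Nat.zero_le _) (Finset.mem_univ i)) (he i)

theorem rootClosed_nId {s : Type} [Fintype s] [DecidableEq s] (q : s → Ideal E) (β : s → ℕ) :
    RootClosed p (nId p q β) := by
  intro K hK h c e hc
  obtain ⟨f, hf⟩ := nid_fg hK h
  have h1 := Ideal.mem_map_of_mem (iterateFrobenius E p f) hc
  rw [Ideal.map_pow] at h1
  have h2 := Ideal.pow_right_mono hf _ h1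
  rw [nid_pow, iterateFrobenius_def, ← pow_mul, ← pow_add] at h2
  refine ⟨e + f, nid_anti q (fun j => ?_) h2⟩
  have := pow_pos (Fact.out : p.Prime).pos e
  simp only [Pi.add_apply, Pi.smul_apply, smul_eq_mul, Pi.one_apply, pow_add]
  nlinarith

theorem nId_map {s : Type} [Fintype s] [DecidableEq s] (q : s → Ideal E) (β : s → ℕ) {E' : Type u}
    [CommRing E'] [CharP E' p] [PerfectRing E' p] (f : E →+* E') :
    nId p (fun j => (q j).map f) β = (nId p q β).map f := by
  refine le_antisymm ?_ (Ideal.map_le_iff_le_comap.2 ?_)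
  · rintro c ⟨e, hc⟩
    rw [← mpow_map] at hc
    rw [← w4_rt_of_pow (p := p) e c]
    generalize c ^ p ^ e = y at hc
    induction hc using Submodule.span_induction with
    | mem _ hz =>
      obtain ⟨z, hz, rfl⟩ := hz
      rw [← wid_map_rt]
      exact Ideal.mem_map_of_mem _ ⟨e, by rwa [rt_pow]⟩
    | zero => rw [show rt p e (0 : E') = 0 from map_zero _]; exact zero_mem _
    | add a b _ _ ha hb => rw [w4_rt_add]; exact add_mem ha hb
    | smul a b _ hb => rw [smul_eq_mul, w4_rt_mul]; exact Ideal.mul_mem_left _ _ hb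
  · rintro c ⟨e, hc⟩
    exact ⟨e, by rw [← mpow_map, ← map_pow]; exact Ideal.mem_map_of_mem _ hc⟩

theorem exists_sysB_nId {s : Type} [Fintype s] [DecidableEq s] (q : s → Ideal E) (m : ℕ)
    (hq : ∀ j, ∃ g : Fin m → E, q j = Ideal.span (Set.range g)) {t : E}
    (ht : ∀ x, t * x = 0 → x = 0) (htq : ∀ j, t ∈ (q j).radical) : SysB p q t m (nId p q) := by
  have hp := (Fact.out : p.Prime).pos
  have hs : ∀ (β : s → ℕ) j e, mpow q (p ^ e • (β + Pi.single j 1) + 1) =
      q j ^ p ^ e * mpow q (p ^ e • β + 1) := by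
    intro β j e
    rw [← mpow_single, ← mpow_add, smul_add, ← Pi.single_smul, smul_eq_mul, mul_one]
    congr 1
    abel
  have hmul : ∀ β j, q j * nId p q β ≤ nId p q (β + Pi.single j 1) := by
    refine fun β j => Ideal.mul_le.2 ?_
    rintro a ha b ⟨e, hb⟩
    exact ⟨e, by rw [hs, mul_pow]; exact Ideal.mul_mem_mul (Ideal.pow_mem_pow ha _) hb⟩
  refine ⟨fun β j hj => le_antisymm ?_ (hmul β j), fun β j x hx => ?_, fun β γ => ?_,
    fun β => ?_, ?_⟩
  · rintro c ⟨e, hc⟩
    obtain ⟨g, hg⟩ := hq j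
    have h1 : mpow q (p ^ e • β + 1) = q j ^ (p ^ e * β j + 1) *
        mpow q (Function.update (p ^ e • β + 1) j 0) := by
      rw [← mpow_single, ← mpow_add]
      congr 1
      funext i
      rcases eq_or_ne i j with rfl | hi
      · simp
      · simp [hi]
    have h2 : q j ^ p ^ e * mpow q (p ^ e • β + 1) ≤
        mpow q (p ^ e • β + 1) • Submodule.span E (Set.range fun i => g i ^ p ^ e) := by
      rw [smul_eq_mul, mul_comm (mpow _ _), h1, ← mul_assoc, ← mul_assoc, ← pow_add]
      refine Ideal.mul_mono_left ?_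
      rw [hg]
      refine nid_pigeon g _ _ ?_
      have := pow_pos hp e
      nlinarith
    rw [hs] at hc
    obtain ⟨a, ha, ha'⟩ := (Submodule.mem_ideal_smul_span_iff_exists_sum _ _ _).1 (h2 hc)
    rw [Finsupp.sum_fintype _ _ (by simp)] at ha'
    have h3 : c = ∑ i, g i * rt p e (a i) := w4_pow_p_pow_inj (p := p) e (by
      rw [sum_pow_char_pow, ← ha']
      simp only [mul_pow, rt_pow, smul_eq_mul, mul_comm])
    rw [h3]
    exact Ideal.sum_mem _ fun i _ => Ideal.mul_mem_mul (hg ▸ Ideal.subset_span ⟨i, rfl⟩)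
      ⟨e, by rw [rt_pow]; exact ha i⟩
  · obtain ⟨g, hg⟩ := hq j
    have hfg : (q j).FG := hg ▸ Submodule.fg_span (Set.finite_range g)
    obtain ⟨e, he⟩ := nid_fg (p := p) (q := q) (β := β + Pi.single j 1)
      (Submodule.FG.mul hfg (Submodule.fg_span_singleton x)) (Ideal.mul_le.2 fun a ha b hb => by
        obtain ⟨b, rfl⟩ := Ideal.mem_span_singleton'.1 hb
        rw [mul_left_comm]
        exact Ideal.mul_mem_left _ _ (hx a ha))
    obtain ⟨N, hN⟩ := htq j
    obtain ⟨r, hr⟩ := nid_int (W := q j ^ (p ^ e + (m * p ^ e + 1))) (M := mpow q (p ^ e • β + 1))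
      (Submodule.FG.pow hfg _) (Ideal.pow_mem_pow hN _) (y := x ^ p ^ e) (by
        rw [← pow_mul]
        generalize N * _ = n
        induction n with
        | zero => simp
        | succ n ih => exact fun y hy => ht _ (ih _ (by rwa [← mul_assoc, ← pow_succ]))) (by
        intro a ha
        have h1 : Ideal.span {x ^ p ^ e} * Ideal.span (Set.range fun i => g i ^ p ^ e) ≤
            q j ^ p ^ e * mpow q (p ^ e • β + 1) := by
          rw [Ideal.span_mul_span', Ideal.span_le, ← hs]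
          rintro _ ⟨_, rfl, _, ⟨i, rfl⟩, rfl⟩
          have := he (Ideal.mem_map_of_mem _ (Ideal.mul_mem_mul
            (hg ▸ Ideal.subset_span ⟨i, rfl⟩ : g i ∈ q j) (Submodule.mem_span_singleton_self x)))
          rwa [iterateFrobenius_def, mul_pow, mul_comm] at this
        have h2 := nid_pigeon g (p ^ e) (m * p ^ e + 1) (by omega)
        rw [← hg] at h2
        have h3 := Ideal.mul_mem_mul (Ideal.mem_span_singleton_self (x ^ p ^ e)) (h2 ha)
        rw [← mul_assoc] at h3
        have h4 := Ideal.mul_mono_left h1 h3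
        rwa [mul_comm (q j ^ p ^ e), mul_assoc, ← pow_add] at h4)
    let f := r * ∑ i, (p ^ e * β i + 1) + r
    have h5 := hr (p ^ f)
    rw [nid_pow, ← pow_mul, ← pow_add] at h5
    refine ⟨e + f, nid_anti q (fun i => ?_) h5⟩
    have h6 : f < p ^ f := Nat.lt_pow_self (Fact.out : p.Prime).one_lt
    have h7 : r * (p ^ e * β i + 1) + r ≤ f := Nat.add_le_add_right (Nat.mul_le_mul_left _
      (Finset.single_le_sum (f := fun i => p ^ e * β i + 1) (fun _ _ => Nat.zero_le _)
        (Finset.mem_univ i))) _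
    obtain ⟨d, hd⟩ : ∃ d, p ^ f = r + d := Nat.exists_eq_add_of_le (by omega)
    simp only [Pi.add_apply, Pi.smul_apply, smul_eq_mul, Pi.one_apply, pow_add, hd,
      Nat.add_sub_cancel_left]
    nlinarith
  · refine Ideal.mul_le.2 ?_
    rintro a ⟨e, ha⟩ b ⟨f, hb⟩
    refine ⟨e + f, ?_⟩
    have := Ideal.mul_mem_mul (nid_up hp (Nat.le_add_right e f) ha)
      (nid_up hp (Nat.le_add_left f e) hb)
    rw [← mul_pow, ← mpow_add] at this
    refine nid_anti q (fun i => ?_) this
    simp only [Pi.add_apply, Pi.smul_apply, smul_eq_mul, Pi.one_apply, mul_add]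
    omega
  · choose N hN using htq
    refine Ideal.mul_le.2 fun a ha b hb => ?_
    obtain ⟨a, rfl⟩ := Ideal.mem_span_singleton'.1 ha
    rw [mul_assoc]
    refine Ideal.mul_mem_left _ _ ⟨∑ j, N j, ?_⟩
    rw [mul_pow, add_comm, mpow_add, ← nid_pow]
    refine Ideal.mul_mem_mul ?_ (Ideal.pow_mem_pow hb _)
    refine Ideal.pow_mem_of_pow_mem _ (m := ∑ j, N j) ?_
      (Nat.lt_pow_self (Fact.out : p.Prime).one_lt).le
    rw [← Finset.prod_pow_eq_pow_sum]
    exact Ideal.prod_mem_prod fun j _ => by simpa using hN j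
  · rintro β x ⟨e, hx⟩
    exact ⟨e + 1, by rwa [← pow_mul, ← pow_succ', smul_smul, ← pow_succ] at hx⟩

end Vale.Agent.P177
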