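import Vale.Agent.P177.PlusBasic
import Vale.Agent.P177.LenCons
import Vale.Agent.P177.Len2
import Vale.Agent.P202.MxBaseLen

/-! Normalised length on the perfection of a power series ring. -/

namespace Vale.Agent.P177

open scoped ENNReal
open IsLocalRing Vale.Agent.P202

universe u

theorem perfLen_fin {k : Type u} [Field k] {D : ℕ} (I : Ideal (PS k D))
    (hI : maximalIdeal (PS k D) ≤ I.radical) : Module.length (PS k D) (PS k D ⧸ I) ≠ ⊤ := by
  have h1 : ∀ i : Fin D, ∃ n : ℕ, (MvPowerSeries.X i : PS k D) ^ n ∈ I := fun i =>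
    hI (varIdeal_eq_maximalIdeal (K := k) ▸ Ideal.subset_span (Set.mem_range_self i))
  choose n hn using h1
  have h2 : powIdeal (MvPowerSeries.X : Fin D → PS k D) (Finset.univ.sup n) ≤ I := by
    refine Ideal.span_le.2 ?_
    rintro _ ⟨i, rfl⟩
    exact I.pow_mem_of_pow_mem (hn i) (Finset.le_sup (Finset.mem_univ i))
  refine ne_top_of_le_ne_top ?_
    (Module.length_le_of_surjective _ (Submodule.factor_surjective h2))
  rw [bl_len_powIdeal]
  exact ENat.natCast_ne_top _

theorem perfLen_map_max (p : ℕ) [Fact p.Prime] (k : Type u) [Field k] [CharP k p] (D j : ℕ) :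
    (maximalIdeal (PS k D)).map (iterateFrobenius (PS k D) p j) =
      powIdeal MvPowerSeries.X (p ^ j) := by
  rw [← varIdeal_eq_maximalIdeal, varIdeal, Ideal.map_span, ← Set.range_comp]
  rfl

theorem perfLen_semi (p : ℕ) [Fact p.Prime] (k : Type u) [Field k] [CharP k p] (D a j : ℕ)
    {X Y : Type u} [AddCommGroup X] [Module (PS k D) X] [AddCommGroup Y] [Module (PS k D) Y]
    (θ : X →ₛₗ[iterateFrobenius (PS k D) p j] Y)
    (hθ : Submodule.span (PS k D) (Set.range θ) = ⊤) :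
    (((p : ℝ≥0∞) ^ D) ^ (a + j))⁻¹ * Module.length (PS k D) Y ≤
      (((p : ℝ≥0∞) ^ D) ^ a)⁻¹ * Module.length (PS k D) X := by
  have hp : p ≠ 0 := (Fact.out : p.Prime).ne_zero
  have h0 : ((p : ℝ≥0∞) ^ D) ^ j ≠ 0 := pow_ne_zero _ (pow_ne_zero _ (Nat.cast_ne_zero.2 hp))
  have h0' : ((p : ℝ≥0∞) ^ D) ^ j ≠ ⊤ :=
    ENNReal.pow_ne_top (ENNReal.pow_ne_top (ENNReal.natCast_ne_top p))
  have h1 := MxTower.sl_semi _ θ Set.univ (by
    rw [perfLen_map_max, bl_len_powIdeal]
    exact Nat.cast_ne_zero.2 (pow_ne_zero _ (pow_ne_zero _ hp)))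
  rw [MxTower.sl, MxTower.sl, Set.image_univ, hθ, Submodule.span_univ, Module.length_top,
    Module.length_top, perfLen_map_max, bl_len_powIdeal] at h1
  have h2 := ENat.toENNReal_le.2 h1
  rw [ENat.toENNReal_mul, ENat.toENNReal_coe, Nat.cast_pow, Nat.cast_pow, ← pow_mul, mul_comm j,
    pow_mul] at h2
  refine (mul_le_mul_right h2 _).trans (le_of_eq ?_)
  rw [pow_add, ENNReal.mul_inv (Or.inr h0') (Or.inr h0), mul_assoc, mul_left_comm (_ ^ j)⁻¹,
    ENNReal.inv_mul_cancel h0 h0', mul_one]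

variable (p : ℕ) [Fact p.Prime] (k : Type u) [Field k] [CharP k p] [PerfectRing k p] (D : ℕ)
  (Ap : Type u) [CommRing Ap] [IsDomain Ap] [CharP Ap p] [PerfectRing Ap p] [Algebra (PS k D) Ap]

/-- the maps of the tower. -/
noncomputable def perfIota (e : ℕ) : PS k D →+* Ap :=
  (iterateFrobeniusEquiv Ap p e).symm.toRingHom.comp (algebraMap (PS k D) Ap)

omit [CharP k p] [PerfectRing k p] [IsDomain Ap] in
theorem perfIota_apply (e : ℕ) (x : PS k D) :
    perfIota p k D Ap e x = rt p e (algebraMap (PS k D) Ap x) := rfl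

omit [CharP k p] [PerfectRing k p] [IsDomain Ap] in
theorem perfIota_add (a j : ℕ) (x : PS k D) :
    perfIota p k D Ap (a + j) (x ^ p ^ j) = perfIota p k D Ap a x := by
  rw [perfIota_apply, perfIota_apply, map_pow, ← w4_rt_rt, w4_rt_of_pow]

omit [CharP k p] [PerfectRing k p] [IsDomain Ap] in
theorem perfIota_pow (j : ℕ) (x : PS k D) :
    perfIota p k D Ap j (x ^ p ^ j) = algebraMap (PS k D) Ap x := by
  rw [perfIota_apply, map_pow, w4_rt_of_pow]

/-- the normalised colength at a finite level. -/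
noncomputable def perfF (J : Ideal Ap) (e : ℕ) : ℝ≥0∞ :=
  (((p : ℝ≥0∞) ^ D) ^ e)⁻¹ * Module.length (PS k D) (PS k D ⧸ J.comap (perfIota p k D Ap e))

omit [PerfectRing k p] [IsDomain Ap] in
theorem perfF_anti (J : Ideal Ap) : Antitone (perfF p k D Ap J) := by
  intro a b hab
  obtain ⟨j, rfl⟩ := Nat.exists_eq_add_of_le hab
  refine perfLen_semi p k D a j (Submodule.mapQ _ _
    (iterateFrobenius (PS k D) p j).toSemilinearMap fun x hx => ?_) ?_
  · show perfIota p k D Ap (a + j) (x ^ p ^ j) ∈ J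
    rw [perfIota_add]
    exact hx
  · rw [eq_top_iff]
    intro y _
    obtain ⟨y, rfl⟩ := Submodule.Quotient.mk_surjective _ y
    rw [← mul_one y, ← smul_eq_mul, Submodule.Quotient.mk_smul]
    exact Submodule.smul_mem _ _ (Submodule.subset_span ⟨Submodule.Quotient.mk 1,
      congrArg Submodule.Quotient.mk (map_one (iterateFrobenius (PS k D) p j))⟩)

variable (hinj : Function.Injective (algebraMap (PS k D) Ap))
  (hpow : ∀ x : Ap, ∃ (e : ℕ) (a : PS k D), x ^ p ^ e = algebraMap (PS k D) Ap a)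
include hinj hpow

omit [Fact p.Prime] [CharP k p] [PerfectRing k p] [IsDomain Ap] [CharP Ap p] [PerfectRing Ap p]
  hinj in
theorem perfLen_pow {ι : Type*} [Finite ι] (x : ι → Ap) :
    ∃ (e : ℕ) (r : ι → PS k D), ∀ i, x i ^ p ^ e = algebraMap (PS k D) Ap (r i) := by
  choose e a h using hpow
  obtain ⟨N, hN⟩ := (Set.finite_range fun i => e (x i)).bddAbove
  refine ⟨N, fun i => a (x i) ^ p ^ (N - e (x i)), fun i => ?_⟩
  rw [map_pow, ← h, ← pow_mul, ← pow_add, Nat.add_sub_cancel' (hN (Set.mem_range_self i))]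

omit [IsDomain Ap] in
theorem perfLen_flat : Module.Flat (PS k D) Ap := by
  have := PerfectRing.toPerfectField k p
  refine Module.Flat.of_forall_isTrivialRelation fun {l} a x h => ?_
  obtain ⟨e, r, hr⟩ := perfLen_pow p k D Ap hpow x
  choose g hg using fun i => exists_sum_pow_mul p e (r i)
  have h1 : ∑ i, a i ^ p ^ e * r i = 0 := hinj (by
    rw [map_zero, ← zero_pow (pow_ne_zero e (Fact.out : p.Prime).ne_zero), ← h,
      sum_pow_char_pow, map_sum]
    refine Finset.sum_congr rfl fun i _ => ?_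
    rw [map_mul, ← hr, map_pow, ← mul_pow, Algebra.smul_def])
  have h2 := sum_pow_mul_eq_zero p e (fun α => ∑ i, a i * g i α) (by
    rw [← h1]
    simp only [← hg, sum_pow_char_pow, Finset.sum_mul, Finset.mul_sum, mul_pow, mul_assoc]
    exact Finset.sum_comm)
  let ε := (Fintype.equivFin (Fin D → Fin (p ^ e))).symm
  refine ⟨_, fun i j => g i (ε j), fun j => rt p e (algebraMap (PS k D) Ap
    (MvPowerSeries.monomial (expo (ε j)) 1)), fun i => ?_, fun j => h2 _⟩
  refine (iterateFrobeniusEquiv _ p e).injective ?_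
  rw [iterateFrobeniusEquiv_def, iterateFrobeniusEquiv_def, hr, ← hg, ← ε.sum_comp, map_sum,
    sum_pow_char_pow]
  refine Finset.sum_congr rfl fun j _ => ?_
  rw [Algebra.smul_def, mul_pow, rt_pow, map_mul, map_pow]

omit [IsDomain Ap] in
theorem perfLen_comap (I : Ideal (PS k D)) :
    (I.map (algebraMap (PS k D) Ap)).comap (algebraMap (PS k D) Ap) = I := by
  have := perfLen_flat p k D Ap hinj hpow
  have : Module.FaithfullyFlat (PS k D) Ap := by
    refine ⟨fun m hm h => hm.ne_top ?_⟩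
    rw [Ideal.smul_top_eq_map, Submodule.restrictScalars_eq_top_iff] at h
    refine (Ideal.map_eq_top_iff _ hinj fun x => ?_).1 h
    obtain ⟨e, a, ha⟩ := hpow x
    exact IsIntegral.of_pow (pow_pos (Fact.out : p.Prime).pos e) (ha ▸ isIntegral_algebraMap)
  exact Ideal.comap_map_eq_self_of_faithfullyFlat I

omit [PerfectRing k p] [IsDomain Ap] hinj in
theorem perfLen_ex : ∃ Λ : Len Ap, ∀ J : Ideal Ap, mE (PS k D) Ap ≤ J.radical →
    Λ.val (Ap ⧸ J) = ⨅ e, perfF p k D Ap J e := by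
  have hp : (p : ℝ≥0∞) ≠ 0 := Nat.cast_ne_zero.2 (Fact.out : p.Prime).ne_zero
  have hc : ∀ e : ℕ, (((p : ℝ≥0∞) ^ D) ^ e)⁻¹ ≠ ⊤ := fun e =>
    ENNReal.inv_ne_top.2 (pow_ne_zero _ (pow_ne_zero _ hp))
  choose L hL using fun e => ((Len.len (PS k D)).res
    (perfIota p k D Ap e).rangeRestrict).exists_smul _ (hc e)
  have hq : ∀ e (J : Ideal (perfIota p k D Ap e).range), (L e).val (_ ⧸ J) =
      (((p : ℝ≥0∞) ^ D) ^ e)⁻¹ * Module.length (PS k D)
        (PS k D ⧸ J.comap (perfIota p k D Ap e).rangeRestrict) := fun e J => by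
    rw [hL, Len.res_quot _ _ (RingHom.rangeRestrict_surjective _)]
    rfl
  have hS : Monotone fun e => (perfIota p k D Ap e).range := by
    rintro a b hab _ ⟨x, rfl⟩
    obtain ⟨j, rfl⟩ := Nat.exists_eq_add_of_le hab
    exact ⟨_, perfIota_add p k D Ap a j x⟩
  obtain ⟨Λ, hΛ⟩ := Len.exists_directed (fun e => (perfIota p k D Ap e).range) hS
    (fun x => (hpow x).imp fun e ⟨a, ha⟩ => ⟨a, by rw [perfIota_apply, ← ha, w4_rt_of_pow]⟩) L
    (List.ofFn fun i => algebraMap (PS k D) Ap (MvPowerSeries.X i))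
    (fun e z hz => by
      obtain ⟨i, rfl⟩ := List.mem_ofFn.1 hz
      exact ⟨_, perfIota_pow p k D Ap e _⟩)
    (fun e J hJ => by
      rw [hq]
      refine ENNReal.mul_ne_top (hc e) (ENat.toENNReal_ne_top.2 (perfLen_fin _ ?_))
      rw [← varIdeal_eq_maximalIdeal]
      refine Ideal.span_le.2 ?_
      rintro _ ⟨i, rfl⟩
      obtain ⟨n, hn⟩ := hJ ((perfIota p k D Ap e).rangeRestrict (MvPowerSeries.X i ^ p ^ e))
        (List.mem_ofFn.2 ⟨i, (perfIota_pow p k D Ap e _).symm⟩)
      exact ⟨p ^ e * n, by rwa [Ideal.mem_comap, pow_mul, map_pow]⟩)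
    (fun a b hab X Y _ _ _ _ θ hθ _ => by
      obtain ⟨j, rfl⟩ := Nat.exists_eq_add_of_le hab
      rw [hL, hL]
      refine perfLen_semi p k D a j (X := Res (perfIota p k D Ap a).rangeRestrict X)
        (Y := Res (perfIota p k D Ap (a + j)).rangeRestrict Y) ⟨⟨θ, θ.map_add⟩, fun r x => ?_⟩ ?_
      · refine (θ.map_smulₛₗ ((perfIota p k D Ap a).rangeRestrict r) x).trans ?_
        exact congrArg (fun s : (perfIota p k D Ap (a + j)).range => s • θ x)
          (Subtype.ext (perfIota_add p k D Ap a j r).symm)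
      · rw [eq_top_iff]
        intro y _
        have hy : (show Y from y) ∈ Submodule.span _ (Set.range θ) := hθ ▸ Submodule.mem_top
        refine Submodule.span_induction (M := Y) (p := fun z _ =>
          (show Res (perfIota p k D Ap (a + j)).rangeRestrict Y from z) ∈
            Submodule.span (M := Res (perfIota p k D Ap (a + j)).rangeRestrict Y) (PS k D)
              (Set.range θ)) (fun z hz => Submodule.subset_span hz)
          (Submodule.zero_mem _) (fun _ _ _ _ h1 h2 => Submodule.add_mem _ h1 h2)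
          (fun s z _ h1 => ?_) hy
        obtain ⟨r, rfl⟩ := (perfIota p k D Ap (a + j)).rangeRestrict_surjective s
        exact Submodule.smul_mem _ r h1)
  refine ⟨Λ, fun J hJ => (hΛ J fun z hz => ?_).trans (iInf_congr fun e => ?_)⟩
  · obtain ⟨i, rfl⟩ := List.mem_ofFn.1 hz
    exact hJ (Ideal.mem_map_of_mem _
      (varIdeal_eq_maximalIdeal (K := k) ▸ Ideal.subset_span (Set.mem_range_self i)))
  · rw [hq, Ideal.comap_comap]
    rfl

theorem exists_perfLen : ∃ Λ : Len Ap,
    (∀ I : Ideal (PS k D), maximalIdeal (PS k D) ≤ I.radical →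
      Λ.val (Ap ⧸ I.map (algebraMap (PS k D) Ap)) = Module.length (PS k D) (PS k D ⧸ I)) ∧
    (∀ J : Ideal Ap, mE (PS k D) Ap ≤ J.radical →
      Λ.val (Ap ⧸ J.map (frobenius Ap p)) = (p : ℝ≥0∞) ^ D * Λ.val (Ap ⧸ J)) ∧
    ∀ c : Ap, c ≠ 0 → ∀ (N : ℕ) (ε : ℝ≥0∞), 0 < ε → ∃ e₀ : ℕ, ∀ e, e₀ ≤ e →
      Λ.val (Ap ⧸ (Ideal.span {rt p e c} ⊔ mE (PS k D) Ap ^ N)) ≤ ε := by
  obtain ⟨Λ, hΛ⟩ := perfLen_ex p k D Ap hpow
  have hp1 := (Fact.out : p.Prime).one_lt
  have h0 : (p : ℝ≥0∞) ^ D ≠ 0 := pow_ne_zero _ (Nat.cast_ne_zero.2 (by omega))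
  have h0' : (p : ℝ≥0∞) ^ D ≠ ⊤ := ENNReal.pow_ne_top (ENNReal.natCast_ne_top p)
  refine ⟨Λ, fun I hI => ?_, fun J hJ => ?_, fun c hc N ε hε => ?_⟩
  · have := perfLen_flat p k D Ap hinj hpow
    have h1 : ∀ e, perfF p k D Ap (mE (PS k D) Ap) e = 1 := fun e => by
      have h2 : (mE (PS k D) Ap).comap (perfIota p k D Ap e) =
          powIdeal MvPowerSeries.X (p ^ e) := by
        rw [← perfLen_comap p k D Ap hinj hpow (powIdeal _ _), perfIota, ← Ideal.comap_comap]
        congr 1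
        rw [RingEquiv.toRingHom_eq_coe, Ideal.comap_coe, Ideal.comap_symm, mE,
          ← varIdeal_eq_maximalIdeal, varIdeal, powIdeal, Ideal.map_span, Ideal.map_span,
          Ideal.map_span, ← Set.range_comp, ← Set.range_comp, ← Set.range_comp]
        congr 2
        funext i
        simp [iterateFrobenius_def]
      rw [perfF, h2, bl_len_powIdeal, ENat.toENNReal_coe, Nat.cast_pow, Nat.cast_pow, ← pow_mul,
        ← pow_mul, mul_comm e, pow_mul]
      exact ENNReal.inv_mul_cancel (pow_ne_zero _ h0) (ENNReal.pow_ne_top h0')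
    rw [Λ.val_quot_map I (perfLen_fin I hI), hΛ _ Ideal.le_radical]
    simp only [h1, ciInf_const, mul_one]
  · rw [hΛ J hJ, hΛ _ fun z hz => ?_, ← (perfF_anti p k D Ap J).iInf_nat_add 1,
      ENNReal.mul_iInf_of_ne h0 h0']
    · refine iInf_congr fun e => ?_
      have h2 : (J.map (frobenius Ap p)).comap (perfIota p k D Ap e) =
          J.comap (perfIota p k D Ap (e + 1)) := by
        ext x
        rw [Ideal.mem_comap, Ideal.mem_comap, perfIota_apply, perfIota_apply, ← rt_succ_pow]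
        exact Ideal.apply_mem_of_equiv_iff (f := frobeniusEquiv Ap p)
      rw [perfF, perfF, h2, pow_succ', ENNReal.mul_inv (Or.inl h0) (Or.inl h0'), ← mul_assoc,
        ← mul_assoc, ENNReal.mul_inv_cancel h0 h0', one_mul]
    · obtain ⟨n, hn⟩ := hJ hz
      exact ⟨n * p, pow_mul z n p ▸ Ideal.mem_map_of_mem (frobenius Ap p) hn⟩
  · obtain ⟨e1, a, ha⟩ := hpow c
    have ha0 : a ≠ 0 := fun h => pow_ne_zero (p ^ e1) hc (by rw [ha, h, map_zero])
    obtain ⟨γ, hγ⟩ := exists_notMem_varIdeal_pow ha0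
    rw [varIdeal_eq_maximalIdeal] at hγ
    obtain ⟨n, hn⟩ := ENNReal.exists_nat_mul_gt hε.ne'
      (ENNReal.natCast_ne_top (γ * (N + 1) ^ (D - 1)))
    refine ⟨n, fun e he => ?_⟩
    rw [hΛ _ fun z hz => ⟨N, Ideal.mem_sup_right (Ideal.pow_mem_pow hz N)⟩]
    refine (iInf_le _ (e + e1)).trans ?_
    have h1 : a ∈ (Ideal.span {rt p e c} ⊔ mE (PS k D) Ap ^ N).comap
        (perfIota p k D Ap (e + e1)) := by
      rw [Ideal.mem_comap, perfIota_apply, ← ha, ← w4_rt_rt, w4_rt_of_pow]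
      exact Ideal.mem_sup_left (Ideal.mem_span_singleton_self _)
    have h2 : powIdeal MvPowerSeries.X ((N + 1) * p ^ (e + e1)) ≤
        (Ideal.span {rt p e c} ⊔ mE (PS k D) Ap ^ N).comap (perfIota p k D Ap (e + e1)) := by
      refine Ideal.span_le.2 ?_
      rintro _ ⟨i, rfl⟩
      beta_reduce
      rw [SetLike.mem_coe, Ideal.mem_comap, pow_mul, perfIota_pow, map_pow]
      exact Ideal.mem_sup_right (Ideal.pow_le_pow_right N.le_succ (Ideal.pow_mem_pow
        (Ideal.mem_map_of_mem _ (varIdeal_eq_maximalIdeal (K := k) ▸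
          Ideal.subset_span (Set.mem_range_self i))) _))
    rw [perfF]
    generalize Ideal.comap (perfIota p k D Ap (e + e1)) _ = J at h1 h2
    cases D with
    | zero =>
      have h3 : IsUnit a := by
        by_contra h4
        rw [← mem_nonunits_iff, ← mem_maximalIdeal, ← varIdeal_eq_maximalIdeal, varIdeal,
          Set.range_eq_empty, Ideal.span_empty] at h4
        exact absurd h4 ha0
      have := Ideal.Quotient.subsingleton_iff.2 (J.eq_top_of_isUnit_mem h1 h3)
      rw [Module.length_eq_zero, ENat.toENNReal_zero, mul_zero]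
      exact zero_le
    | succ d =>
      have h3 := bl_len_small MvPowerSeries.X (varIdeal_eq_maximalIdeal (K := k)) a γ hγ _
        (by positivity) J h1 h2
      have h4 := bl_ratio _ _ p d (e + e1) 0 (by omega) γ (N + 1) (by simpa using h3) rfl
      rw [add_zero, Nat.cast_pow, ENNReal.div_eq_inv_mul] at h4
      refine h4.trans (ENNReal.div_le_of_le_mul' (hn.le.trans (mul_le_mul_left ?_ _)))
      exact_mod_cast (he.trans (Nat.le_add_right e e1)).trans (Nat.lt_pow_self hp1).le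

theorem perf_isIntegrallyClosed : IsIntegrallyClosed Ap := by
  refine plusBasic_closed fun u v c hc h => ?_
  obtain ⟨e, r, hr⟩ := perfLen_pow p k D Ap hpow ![u, v, c]
  have h1 : u ^ p ^ e = _ := hr 0
  have h2 : v ^ p ^ e = _ := hr 1
  have h3 : c ^ p ^ e = _ := hr 2
  obtain ⟨d, hd⟩ := plusBasic_ps_dvd p k D (r 0) (r 1) (r 2)
    (fun h4 => pow_ne_zero _ hc (by rw [h3, h4, map_zero])) fun n => by
      rw [← Ideal.mem_span_singleton, ← perfLen_comap p k D Ap hinj hpow (Ideal.span _),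
        Ideal.mem_comap, Ideal.map_span, Set.image_singleton, Ideal.mem_span_singleton, map_mul,
        map_pow, map_pow, ← h1, ← h2, ← h3, pow_right_comm u, pow_right_comm v, ← mul_pow]
      exact pow_dvd_pow_of_dvd (h _) _
  refine ⟨rt p e (algebraMap (PS k D) Ap d), (iterateFrobeniusEquiv Ap p e).injective ?_⟩
  rw [iterateFrobeniusEquiv_def, iterateFrobeniusEquiv_def, mul_pow, rt_pow, h1, h2, hd, map_mul]

theorem perf_flat : Module.Flat (PS k D) Ap := perfLen_flat p k D Ap hinj hpow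

end Vale.Agent.P177
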