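import Vale.Agent.P177.PlusDef
import Vale.Agent.P202.MxBase

/-! Absolutely integrally closed domains. -/

namespace Vale.Agent.P177

open IsLocalRing Polynomial Vale.Agent.P202

universe u

theorem plusBasic_mem_range {E L : Type*} [CommRing E] [IsDomain E] [CommRing L] [IsDomain L]
    [Algebra E L] (h : ∀ P : E[X], P.Monic → P.Splits) {x : L} (hx : IsIntegral E x) :
    x ∈ (algebraMap E L).range := by
  obtain ⟨P, hP, h1⟩ := hx
  have h2 : x ∈ (P.map (algebraMap E L)).roots := by
    rw [mem_roots (hP.map _).ne_zero, IsRoot.def, eval_map]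
    exact h1
  rw [(h P hP).roots_map_of_ne_zero (hP.map _).ne_zero, Multiset.mem_map] at h2
  obtain ⟨y, -, hy⟩ := h2
  exact ⟨y, hy⟩

theorem exists_isPlus (A : Type u) [CommRing A] [IsDomain A] :
    ∃ (E : Type u) (_ : CommRing E) (_ : Algebra A E), IsPlus A E := by
  refine ⟨integralClosure A (AlgebraicClosure (FractionRing A)), inferInstance, inferInstance,
    inferInstance, fun a b hab => ?_, inferInstance, fun P hP => ?_⟩
  · have h1 : algebraMap A (AlgebraicClosure (FractionRing A)) a =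
        algebraMap A (AlgebraicClosure (FractionRing A)) b := congrArg Subtype.val hab
    rw [IsScalarTower.algebraMap_apply A (FractionRing A),
      IsScalarTower.algebraMap_apply A (FractionRing A) _ b] at h1
    exact IsFractionRing.injective A (FractionRing A) (RingHom.injective _ h1)
  · refine Splits.of_splits_map_of_injective (i := algebraMap _ (AlgebraicClosure (FractionRing A)))
      Subtype.val_injective (IsAlgClosed.splits _) fun a ha => ?_
    rw [mem_roots (hP.map _).ne_zero, IsRoot.def, eval_map] at ha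
    exact ⟨⟨a, isIntegral_trans (A := integralClosure A (AlgebraicClosure (FractionRing A))) a
      ⟨P, hP, ha⟩⟩, rfl⟩

theorem IsPlus.charP {A E : Type u} [CommRing A] [CommRing E] [Algebra A E] (h : IsPlus A E)
    (p : ℕ) [CharP A p] : CharP E p := charP_of_injective_algebraMap h.inj p

theorem perfectRing_of_splits {E : Type u} [CommRing E] [IsDomain E] (p : ℕ) [Fact p.Prime]
    [CharP E p] (h : ∀ P : E[X], P.Monic → P.Splits) : PerfectRing E p := by
  have hp : p ≠ 0 := (Fact.out : p.Prime).ne_zero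
  refine PerfectRing.ofSurjective E p fun x => ?_
  obtain ⟨y, hy⟩ := (h _ (monic_X_pow_sub_C x hp)).exists_eval_eq_zero (by
    rw [degree_X_pow_sub_C (Nat.pos_of_ne_zero hp)]
    exact_mod_cast hp)
  exact ⟨y, by rwa [eval_sub, eval_X_pow, eval_C, sub_eq_zero] at hy⟩

theorem isIntegrallyClosed_of_splits {E : Type u} [CommRing E] [IsDomain E]
    (h : ∀ P : E[X], P.Monic → P.Splits) : IsIntegrallyClosed E :=
  (isIntegrallyClosed_iff (FractionRing E)).2 fun hx => plusBasic_mem_range h hx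

theorem isAlgClosed_of_splits {E : Type u} [CommRing E] [IsDomain E]
    (h : ∀ P : E[X], P.Monic → P.Splits) : IsAlgClosed (FractionRing E) := by
  have h1 : Function.Surjective
      (algebraMap (FractionRing E) (AlgebraicClosure (FractionRing E))) := fun x => by
    have h2 : IsAlgebraic E x := (IsFractionRing.isAlgebraic_iff E (FractionRing E) _).2
      (Algebra.IsAlgebraic.isAlgebraic x)
    obtain ⟨y, hy, h3⟩ := h2.exists_integral_multiple
    obtain ⟨z, hz⟩ := plusBasic_mem_range h h3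
    have h4 : algebraMap E (FractionRing E) y ≠ 0 :=
      (map_ne_zero_iff _ (IsFractionRing.injective E _)).2 hy
    refine ⟨algebraMap E _ z / algebraMap E _ y, ?_⟩
    rw [map_div₀, ← IsScalarTower.algebraMap_apply, hz, div_eq_iff ((_root_.map_ne_zero _).2 h4),
      ← IsScalarTower.algebraMap_apply, Algebra.smul_def, mul_comm]
  exact IsAlgClosed.of_ringEquiv _ _ (RingEquiv.ofBijective _ ⟨RingHom.injective _, h1⟩).symm

theorem plusBasic_closed {R : Type*} [CommRing R] [IsDomain R]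
    (h : ∀ a b c : R, c ≠ 0 → (∀ n : ℕ, b ^ n ∣ c * a ^ n) → b ∣ a) : IsIntegrallyClosed R := by
  refine (isIntegrallyClosed_iff (FractionRing R)).2 fun {x} hx => ?_
  obtain ⟨c, hc, h1⟩ := FractionalIdeal.isFractional_adjoin_integral (nonZeroDivisors R) x hx
  obtain ⟨a, b, hb, rfl⟩ := IsFractionRing.div_surjective (A := R) x
  have hb0 : algebraMap R (FractionRing R) b ≠ 0 :=
    (map_ne_zero_iff _ (IsFractionRing.injective R _)).2 (nonZeroDivisors.ne_zero hb)
  obtain ⟨d, rfl⟩ := h a b c (nonZeroDivisors.ne_zero hc) fun n => by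
    obtain ⟨d, hd⟩ := h1 _ (Subalgebra.pow_mem _ (Algebra.self_mem_adjoin_singleton R _) n)
    refine ⟨d, IsFractionRing.injective R (FractionRing R) ?_⟩
    rw [map_mul, map_mul, hd, Algebra.smul_def, map_pow, map_pow, div_pow]
    field_simp
  exact ⟨d, by rw [map_mul, mul_div_cancel_left₀ _ hb0]⟩

theorem plusBasic_ps_dvd (p : ℕ) [Fact p.Prime] (k : Type u) [Field k] [CharP k p]
    [PerfectRing k p] (D : ℕ) (a b c : PS k D) (hc : c ≠ 0)
    (h : ∀ e : ℕ, b ^ p ^ e ∣ c * a ^ p ^ e) : b ∣ a := by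
  have := PerfectRing.toPerfectField k p
  by_contra hn
  obtain ⟨γ, hγ⟩ := exists_notMem_varIdeal_pow hc
  obtain ⟨d, hd⟩ := h γ
  obtain ⟨g, hg⟩ := exists_sum_pow_mul p γ c
  obtain ⟨g', hg'⟩ := exists_sum_pow_mul p γ d
  have h1 := sum_pow_mul_eq_zero p γ (fun α => g α * a - b * g' α) (by
    rw [← sub_eq_zero, ← hg, ← hg', Finset.sum_mul, Finset.mul_sum, ← Finset.sum_sub_distrib] at hd
    rw [← hd]
    refine Finset.sum_congr rfl fun α _ => ?_
    rw [sub_pow_char_pow, mul_pow, mul_pow]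
    ring)
  refine hγ (hg ▸ Ideal.sum_mem _ fun α _ => Ideal.mul_mem_right _ _ (Ideal.pow_le_pow_right
    (Nat.lt_pow_self (Fact.out : p.Prime).one_lt) (Ideal.pow_mem_pow ?_ _)))
  rw [varIdeal_eq_maximalIdeal, mem_maximalIdeal, mem_nonunits_iff]
  intro hu
  exact hn (hu.dvd_mul_left.1 ⟨g' α, sub_eq_zero.1 (h1 α)⟩)

theorem isIntegrallyClosed_ps (p : ℕ) [Fact p.Prime] (k : Type u) [Field k] [CharP k p]
    [PerfectRing k p] (D : ℕ) : IsIntegrallyClosed (PS k D) := by
  have : IsDomain (PS k D) := NoZeroDivisors.to_isDomain _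
  exact plusBasic_closed fun a b c hc h => plusBasic_ps_dvd p k D a b c hc fun e => h _

theorem IsPlus.isUnit_one_add {k E : Type u} [Field k] {D : ℕ} [CommRing E] [Algebra (PS k D) E]
    (h : IsPlus (PS k D) E) {x : E} (hx : x ∈ mE (PS k D) E) : IsUnit (1 + x) := by
  by_contra hn
  have := h.int
  obtain ⟨M, hM, h1⟩ := exists_max_ideal_of_mem_nonunits (mem_nonunits_iff.2 hn)
  have h2 : mE (PS k D) E ≤ M := Ideal.map_le_iff_le_comap.2
    (eq_maximalIdeal (Ideal.isMaximal_comap_of_isIntegral_of_isMaximal M)).ge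
  exact hM.ne_top ((Ideal.eq_top_iff_one _).2 ((Submodule.add_mem_iff_left _ (h2 hx)).1 h1))

theorem Len.plusBasic_le {R : Type u} [CommRing R] (Λ Λ' : Len R) (I : Ideal R)
    (h : ∀ J : Ideal R, I ≤ J.radical → Λ.val (R ⧸ J) ≤ Λ'.val (R ⧸ J)) (X : Type u)
    [AddCommGroup X] [Module R X] (hX : ∀ x : X, ∀ z ∈ I, ∃ n : ℕ, z ^ n • x = 0) :
    Λ.val X ≤ Λ'.val X := by
  have key : ∀ N : Submodule R X, N.FG → ∀ B : Submodule R X, Λ.rel N B ≤ Λ'.rel N B := by
    intro N hN
    induction N, hN using Submodule.fg_induction with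
    | singleton x =>
      intro B
      have h1 : (Submodule.span R {x}).map B.mkQ = Submodule.span R {B.mkQ x} := by
        rw [Submodule.map_span, Set.image_singleton]
      unfold rel
      rw [Λ.len_congr_sub h1, Λ'.len_congr_sub h1,
        ← Λ.congr (Ideal.quotTorsionOfEquivSpanSingleton R _ (B.mkQ x)),
        ← Λ'.congr (Ideal.quotTorsionOfEquivSpanSingleton R _ (B.mkQ x))]
      refine h _ fun z hz => (hX x z hz).imp fun n hn => ?_
      rw [Ideal.mem_torsionOf_iff, ← map_smul, hn, map_zero]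
    | sup N₁ N₂ _ _ h1 h2 =>
      intro B
      have h3 : ∀ L : Len R, L.rel (N₁ ⊔ N₂) B = L.rel N₁ (N₂ ⊔ B) + L.rel N₂ B := fun L => by
        rw [← L.rel_sup (N₁ ⊔ N₂) B, sup_assoc,
          L.rel_add (le_sup_right : N₂ ⊔ B ≤ _) (le_sup_right : B ≤ _), L.rel_sup, L.rel_sup]
      rw [h3, h3]
      exact add_le_add (h1 _) (h2 _)
  refine Λ.cont X _ fun N hN => ?_
  rw [← Λ.rel_bot]
  exact (key N hN ⊥).trans ((Λ'.rel_bot N).trans_le (Λ'.len_sub_le N))

theorem Len.val_eq_of_quot {R : Type u} [CommRing R] (Λ Λ' : Len R) (I : Ideal R)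
    (h : ∀ J : Ideal R, I ≤ J.radical → Λ.val (R ⧸ J) = Λ'.val (R ⧸ J)) (X : Type u)
    [AddCommGroup X] [Module R X] (hX : ∀ x : X, ∀ z ∈ I, ∃ n : ℕ, z ^ n • x = 0) :
    Λ.val X = Λ'.val X :=
  le_antisymm (Λ.plusBasic_le Λ' I (fun J hJ => (h J hJ).le) X hX)
    (Λ'.plusBasic_le Λ I (fun J hJ => (h J hJ).ge) X hX)

end Vale.Agent.P177
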