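import Vale.Agent.P177.Len

/-! Absolute integral closures of power series rings. -/

namespace Vale.Agent.P177

open scoped ENNReal
open IsLocalRing Polynomial

universe u

/-- an absolute integral closure. -/
structure IsPlus (A E : Type u) [CommRing A] [CommRing E] [Algebra A E] : Prop where
  dom : IsDomain E
  inj : Function.Injective (algebraMap A E)
  int : Algebra.IsIntegral A E
  splits : ∀ P : E[X], P.Monic → P.Splits

/-- the extension of the maximal ideal. -/
abbrev mE (A E : Type u) [CommRing A] [IsLocalRing A] [CommRing E] [Algebra A E] : Ideal E :=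
  (maximalIdeal A).map (algebraMap A E)

/-- a normalised length on an absolute integral closure. -/
structure PlusLen (p D : ℕ) [Fact p.Prime] (A E : Type u) [CommRing A] [IsLocalRing A] [CommRing E]
    [CharP E p] [Algebra A E] (Λ : Len E) : Prop where
  one : Λ.val (E ⧸ mE A E) = 1
  le : ∀ I : Ideal A, maximalIdeal A ≤ I.radical →
    Λ.val (E ⧸ I.map (algebraMap A E)) ≤ Module.length A (A ⧸ I)
  inv : ∀ (g : E ≃ₐ[A] E) (J : Ideal E), mE A E ≤ J.radical →
    Λ.val (E ⧸ J.map g) = Λ.val (E ⧸ J)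
  frob : ∀ J : Ideal E, mE A E ≤ J.radical →
    Λ.val (E ⧸ J.map (frobenius E p)) = (p : ℝ≥0∞) ^ D * Λ.val (E ⧸ J)

/-- ideals of small colength contain an element of small colength. -/
def APpt {E : Type u} [CommRing E] (Λ : Len E) (m : Ideal E) : Prop :=
  ∀ (N : ℕ) (ε : ℝ≥0∞), 0 < ε → ∃ δ : ℝ≥0∞, 0 < δ ∧ ∀ J : Ideal E, m ^ N ≤ J →
    Λ.val (E ⧸ J) ≤ δ → ∃ f ∈ J, Λ.val (E ⧸ (Ideal.span {f} ⊔ m ^ N)) ≤ ε

/-- submodules are approximated by boundedly generated ones. -/
def APgen {E : Type u} [CommRing E] (Λ : Len E) (m : Ideal E) : Prop :=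
  ∀ (N r : ℕ) (ε : ℝ≥0∞), 0 < ε → ∃ s : ℕ, ∀ (K L : Submodule E (Fin r → E)),
    m ^ N • (⊤ : Submodule E (Fin r → E)) ≤ L →
      ∃ w : Fin s → Fin r → E, (∀ i, w i ∈ K) ∧ Λ.rel K (Submodule.span E (Set.range w) ⊔ L) ≤ ε

end Vale.Agent.P177
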