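import Vale.Agent.P177.PlusOrd
import Vale.Agent.P177.PlusBasic

/-! Conjugates: auxiliary lemmas. -/

namespace Vale.Agent.P177

open scoped ENNReal
open IsLocalRing Polynomial Vale.Agent.P202

universe u

/-- roots of the minimal polynomial are conjugates. -/
theorem plusGal_conj {A E : Type u} [CommRing A] [IsDomain A] [IsIntegrallyClosed A] [CommRing E]
    [Algebra A E] (h : IsPlus A E) {x y : E} (hy : aeval y (minpoly A x) = 0) :
    ∃ g : E ≃ₐ[A] E, g x = y := by
  have := h.dom
  have := h.int
  have : FaithfulSMul A E := (faithfulSMul_iff_algebraMap_injective A E).2 h.inj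
  have := isIntegrallyClosed_of_splits h.splits
  have := isAlgClosed_of_splits h.splits
  let K := FractionRing A
  let L := FractionRing E
  let _ : Algebra K L := FractionRing.liftAlgebra A L
  have : IsScalarTower A K L := FractionRing.isScalarTower_liftAlgebra A L
  have : IsIntegralClosure E A L := IsIntegralClosure.of_isIntegrallyClosed E A L
  have : Algebra.IsAlgebraic K L := isAlgebraic_of_isFractionRing (R := A) (S := E) K L
  have : IsAlgClosure K L := ⟨inferInstance, inferInstance⟩
  have hx : IsIntegral A x := Algebra.IsIntegral.isIntegral x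
  have e := minpoly.isIntegrallyClosed_eq_field_fractions K L hx
  obtain ⟨σ, hσ⟩ := minpoly.exists_algEquiv_of_root' (K := K) (x := algebraMap E L y)
    (y := algebraMap E L x) (Algebra.IsAlgebraic.isAlgebraic _) (by
      rw [e, aeval_map_algebraMap, aeval_algebraMap_apply, hy, map_zero])
  refine ⟨galRestrict A K L E σ, IsFractionRing.injective E L ?_⟩
  rw [algebraMap_galRestrict_apply, hσ]

/-- the minimal polynomial is a product over conjugates. -/
theorem plusGal_prod {A E : Type u} [CommRing A] [IsDomain A] [IsIntegrallyClosed A] [CommRing E]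
    [Algebra A E] (h : IsPlus A E) (x : E) : ∃ s : Multiset E,
      (minpoly A x).map (algebraMap A E) = (s.map fun y => X - C y).prod ∧
      s.card = (minpoly A x).natDegree ∧ ∀ y ∈ s, ∃ g : E ≃ₐ[A] E, g x = y := by
  have := h.dom
  have hx : IsIntegral A x := h.int.isIntegral x
  have hm := (minpoly.monic hx).map (algebraMap A E)
  have e := (h.splits _ hm).eq_prod_roots_of_monic hm
  refine ⟨_, e, ?_, fun y hy => plusGal_conj h ?_⟩
  · rw [← (minpoly.monic hx).natDegree_map (algebraMap A E), (h.splits _ hm).natDegree_eq_card_roots]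
  · have := (mem_roots hm.ne_zero).1 hy
    rwa [IsRoot.def, eval_map_algebraMap] at this

section Ord

variable {A E : Type u} [CommRing A] [IsLocalRing A] [CommRing E] [Algebra A E] {v : E → ℝ≥0∞}

theorem IsOrd.plusGal_zero (hv : IsOrd A v) : v 0 = ⊤ := by
  refine ENNReal.eq_top_of_forall_nnreal_le fun r => ?_
  obtain ⟨n, hn⟩ := exists_nat_ge r
  have := (hv.ord 0 n).2 (zero_mem _)
  rw [map_zero] at this
  exact le_trans (by exact_mod_cast hn) this

theorem IsOrd.plusGal_neg (hv : IsOrd A v) (x : E) : v (-x) = v x := by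
  obtain ⟨n, hn⟩ := hv.int 1 one_ne_zero
  rw [map_one] at hn
  have h1 := hv.mul 1 1
  rw [mul_one, hn] at h1
  have h0 : n = 0 := by
    have : n = n + n := by exact_mod_cast h1
    omega
  have h2 := hv.mul (-1) (-1)
  rw [neg_mul_neg, mul_one, hn, h0, Nat.cast_zero, eq_comm, add_eq_zero] at h2
  rw [← neg_one_mul, hv.mul, h2.1, zero_add]

theorem IsOrd.plusGal_pow (hv : IsOrd A v) {t : ℝ≥0∞} {x : E} (hx : t ≤ v x) (n : ℕ) :
    n * t ≤ v (x ^ n) := by
  induction n with
  | zero => simp
  | succ n ih => rw [pow_succ, hv.mul, Nat.cast_succ, add_mul, one_mul]; exact add_le_add ih hx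

theorem IsOrd.plusGal_coeff (hv : IsOrd A v) {t : ℕ} (s : Multiset E) (hs : ∀ y ∈ s, t ≤ v y)
    (j : ℕ) : (((s.card - j) * t : ℕ) : ℝ≥0∞) ≤ v ((s.map fun y => X - C y).prod.coeff j) := by
  induction s using Multiset.induction_on generalizing j with
  | empty => simp
  | cons a s ih =>
    have ih' := ih fun y hy => hs y (Multiset.mem_cons_of_mem hy)
    have ha := hs a (Multiset.mem_cons_self _ _)
    rw [Multiset.map_cons, Multiset.prod_cons, Multiset.card_cons, sub_mul, coeff_sub, coeff_C_mul,
      sub_eq_add_neg]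
    refine le_trans (le_min ?_ ?_) (hv.add _ _)
    · cases j with
      | zero => rw [coeff_X_mul_zero, hv.plusGal_zero]; exact le_top
      | succ j => rw [coeff_X_mul, Nat.add_sub_add_right]; exact ih' j
    · rw [hv.plusGal_neg, hv.mul]
      refine le_trans ?_ (add_le_add ha (ih' j))
      rw [← Nat.cast_add, Nat.cast_le]
      calc (s.card + 1 - j) * t ≤ (1 + (s.card - j)) * t := Nat.mul_le_mul_right _ (by omega)
        _ = _ := by ring

end Ord

/-- powers of an element integral over an ideal. -/
theorem plusGal_pow_mem {E : Type u} [CommRing E] (I : Ideal E) {P : E[X]} (hP : P.Monic) {x : E}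
    (hx : P.eval x = 0) (hc : ∀ j, P.coeff j ∈ I ^ (P.natDegree - j)) (n : ℕ) :
    x ^ n ∈ I ^ (n - P.natDegree) := by
  induction n using Nat.strong_induction_on with
  | _ n ih =>
    rcases le_or_gt n P.natDegree with hn | hn
    · rw [Nat.sub_eq_zero_of_le hn, pow_zero, Ideal.one_eq_top]; trivial
    rw [eval_eq_sum_range, Finset.sum_range_succ, hP.coeff_natDegree, one_mul] at hx
    have e : x ^ n = -∑ j ∈ Finset.range P.natDegree, P.coeff j * x ^ (n - P.natDegree + j) := by
      rw [← Nat.sub_add_cancel hn.le, pow_add, eq_neg_of_add_eq_zero_right hx, mul_neg,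
        Finset.mul_sum, Nat.sub_add_cancel hn.le]
      congr 1
      exact Finset.sum_congr rfl fun j _ => by rw [pow_add]; ring
    rw [e]
    refine neg_mem (Ideal.sum_mem _ fun j hj => ?_)
    have hj' := Finset.mem_range.1 hj
    have := Ideal.mul_mem_mul (hc j) (ih (n - P.natDegree + j) (by omega))
    rw [← pow_add] at this
    exact Ideal.pow_le_pow_right (by omega) this

end Vale.Agent.P177
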