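import Vale.Agent.P177.LenCons
import Vale.Agent.P202.MxWitt

/-! Almost mathematics over a perfect domain with a length function. -/

namespace Vale.Agent.P177

open scoped ENNReal
open Vale.Agent.P202

universe u

section coord

variable {T M : Type*} [CommRing T] [IsDomain T] [AddCommGroup M] [Module T M]

theorem PlusLen_basis (N : Submodule T M) (hN : N.FG) {d : T} (hd : d ≠ 0)
    (h : ∀ x : M, d • x ∈ N) : ∃ (r : ℕ) (v : Fin r → M) (c : T), c ≠ 0 ∧
      LinearIndependent T v ∧ ∀ x : M, c • x ∈ Submodule.span T (Set.range v) := by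
  classical
  obtain ⟨n, w, rfl⟩ := Submodule.fg_iff_exists_fin_generating_family.1 hN
  obtain ⟨s, h1, h2⟩ := exists_maximal_linearIndepOn T w
  have h3 : ∀ i, ∃ a : T, a ≠ 0 ∧ a • w i ∈ Submodule.span T (w '' s) := fun i => by
    by_cases hi : i ∈ s
    · exact ⟨1, one_ne_zero, by rw [one_smul]; exact Submodule.subset_span ⟨i, hi, rfl⟩⟩
    · exact h2 i hi
  choose a ha0 ha using h3
  let e := Fintype.equivFin s
  have h4 : Set.range (fun i => w (e.symm i)) = w '' s := by
    ext x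
    constructor
    · rintro ⟨i, rfl⟩
      exact ⟨_, (e.symm i).2, rfl⟩
    · rintro ⟨i, hi, rfl⟩
      exact ⟨e ⟨i, hi⟩, by simp⟩
  refine ⟨_, fun i => w (e.symm i), (∏ i, a i) * d,
    mul_ne_zero (Finset.prod_ne_zero_iff.2 fun i _ => ha0 i) hd,
    LinearIndependent.comp h1 _ e.symm.injective, fun x => ?_⟩
  rw [h4, mul_smul]
  obtain ⟨β, hβ⟩ := (Submodule.mem_span_range_iff_exists_fun T).1 (h x)
  rw [← hβ, Finset.smul_sum]
  refine Submodule.sum_mem _ fun i _ => ?_
  rw [← Finset.prod_erase_mul _ _ (Finset.mem_univ i), smul_comm, mul_smul]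
  exact Submodule.smul_mem _ _ (Submodule.smul_mem _ _ (ha i))

omit [IsDomain T] in
theorem PlusLen_coord {r : ℕ} {v : Fin r → M} {c : T} (hv : LinearIndependent T v)
    (h : ∀ x : M, c • x ∈ Submodule.span T (Set.range v)) :
    ∃ φ : M →ₗ[T] (Fin r → T), (∀ x, ∑ i, φ x i • v i = c • x) ∧
      ∀ β : Fin r → T, φ (∑ i, β i • v i) = c • β := by
  choose β hβ using fun x => (Submodule.mem_span_range_iff_exists_fun T).1 (h x)
  have inj : ∀ β β' : Fin r → T, ∑ i, β i • v i = ∑ i, β' i • v i → β = β' := fun β β' e =>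
    funext (Fintype.linearIndependent_iffₛ.1 hv β β' e)
  refine ⟨⟨⟨β, fun x y => inj _ _ ?_⟩, fun t x => inj _ _ ?_⟩, hβ, fun b => inj _ _ ?_⟩
  · simp only [Pi.add_apply, add_smul, Finset.sum_add_distrib, hβ, smul_add]
  · simp only [Pi.smul_apply, RingHom.id_apply, smul_eq_mul, mul_smul, ← Finset.smul_sum, hβ]
    exact smul_comm _ _ _
  · simp only [LinearMap.coe_mk, AddHom.coe_mk, hβ, Pi.smul_apply, smul_eq_mul, mul_smul,
      ← Finset.smul_sum]

end coord

section rank

variable {T M : Type u} [CommRing T] [IsDomain T] [AddCommGroup M] [Module T M]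
  [Module.IsTorsionFree T M] {r : ℕ} {v : Fin r → M} {c : T}

theorem PlusLen_card_le (hc : c ≠ 0) (hv : LinearIndependent T v)
    (h : ∀ x : M, c • x ∈ Submodule.span T (Set.range v)) {ι : Type} [Fintype ι] {w : ι → M}
    (hw : LinearIndependent T w) : Fintype.card ι ≤ r := by
  obtain ⟨φ, h1, -⟩ := PlusLen_coord hv h
  have h2 : LinearMap.ker φ = ⊥ := LinearMap.ker_eq_bot'.2 fun x hx => by
    have h3 := h1 x
    rw [hx] at h3
    simp only [Pi.zero_apply, zero_smul, Finset.sum_const_zero] at h3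
    exact (smul_eq_zero.1 h3.symm).resolve_left hc
  have h3 := (hw.map' φ h2).fintype_card_le_finrank
  rwa [Module.finrank_fin_fun] at h3

theorem PlusLen_finrank (hc : c ≠ 0) (hv : LinearIndependent T v)
    (h : ∀ x : M, c • x ∈ Submodule.span T (Set.range v)) : Module.finrank T M = r := by
  obtain ⟨φ, h1, -⟩ := PlusLen_coord hv h
  have h2 : Function.Injective φ := LinearMap.ker_eq_bot.1 (LinearMap.ker_eq_bot'.2 fun x hx => by
    have h3 := h1 x
    rw [hx] at h3
    simp only [Pi.zero_apply, zero_smul, Finset.sum_const_zero] at h3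
    exact (smul_eq_zero.1 h3.symm).resolve_left hc)
  refine Module.finrank_eq_of_rank_eq (le_antisymm ?_ ?_)
  · exact (φ.rank_le_of_injective h2).trans (rank_fin_fun r).le
  · simpa using hv.cardinal_lift_le_rank

end rank

section roots

variable {p : ℕ} [Fact p.Prime] {T T' : Type*} [CommRing T] [CharP T p] [PerfectRing T p]
  [CommRing T'] [CharP T' p] [PerfectRing T' p]

theorem PlusLen_map_rt (f : T →+* T') (e : ℕ) (x : T) : f (rt p e x) = rt p e (f x) :=
  w4_pow_p_pow_inj (p := p) e (by rw [← map_pow, rt_pow, rt_pow])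

theorem PlusLen_rt_ne (e : ℕ) {x : T} (hx : x ≠ 0) : rt p e x ≠ 0 := fun h =>
  hx ((iterateFrobeniusEquiv T p e).symm.map_eq_zero_iff.1 h)

variable [Algebra T T'] {r : ℕ} {v : Fin r → T'} {c : T}

theorem PlusLen_rt_smul (e : ℕ) (t : T) (x : T') : rt p e (t • x) = rt p e t • rt p e x := by
  rw [Algebra.smul_def, Algebra.smul_def, w4_rt_mul, PlusLen_map_rt]

theorem PlusLen_rt_span (h : ∀ x : T', c • x ∈ Submodule.span T (Set.range v)) (e : ℕ) (x : T') :
    rt p e c • x ∈ Submodule.span T (Set.range fun i => rt p e (v i)) := by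
  obtain ⟨β, hβ⟩ := (Submodule.mem_span_range_iff_exists_fun T).1 (h (x ^ p ^ e))
  refine (Submodule.mem_span_range_iff_exists_fun T).2 ⟨fun i => rt p e (β i), ?_⟩
  have h1 := congrArg (rt p e) hβ
  rw [PlusLen_rt_smul, w4_rt_of_pow] at h1
  rw [← h1]
  simp only [← PlusLen_rt_smul]
  exact (map_sum (iterateFrobeniusEquiv T' p e).symm _ _).symm

theorem PlusLen_rt_li (hv : LinearIndependent T v) (e : ℕ) :
    LinearIndependent T fun i => rt p e (v i) := by
  refine Fintype.linearIndependent_iff.2 fun β hβ i => ?_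
  have h1 : ∑ i, (β i ^ p ^ e) • v i = 0 := by
    refine (iterateFrobeniusEquiv T' p e).symm.map_eq_zero_iff.1 ?_
    rw [map_sum, ← hβ]
    refine Finset.sum_congr rfl fun j _ => ?_
    exact (PlusLen_rt_smul e _ _).trans (by rw [w4_rt_of_pow])
  have h2 := Fintype.linearIndependent_iff.1 hv _ h1 i
  rw [← w4_rt_of_pow (p := p) e (β i), h2]
  exact map_zero (iterateFrobeniusEquiv T p e).symm

end roots

/-- roots of nonzero elements have small colength. -/
def PlSmall (p : ℕ) [Fact p.Prime] {B : Type u} [CommRing B] [CharP B p] [PerfectRing B p]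
    (lam : Len B) (m : Ideal B) : Prop :=
  ∀ c : B, c ≠ 0 → ∀ (N : ℕ) (ε : ℝ≥0∞), 0 < ε → ∃ e₀ : ℕ, ∀ e, e₀ ≤ e →
    lam.val (B ⧸ (Ideal.span {rt p e c} ⊔ m ^ N)) ≤ ε

section almost

variable {p : ℕ} [Fact p.Prime] {B : Type u} [CommRing B] [CharP B p] [PerfectRing B p]
  {lam : Len B} {m : Ideal B}

theorem PlusLen_span_le {R X : Type u} [CommRing R] (Λ : Len R) [AddCommGroup X] [Module R X]
    {r : ℕ} (v : Fin r → X) (J : Ideal R) (h : ∀ a ∈ J, ∀ i, a • v i = 0) :
    Λ.val (Submodule.span R (Set.range v)) ≤ r * Λ.val (R ⧸ J) :=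
  Λ.le_of_span (fun i => ⟨v i, Submodule.subset_span ⟨i, rfl⟩⟩)
    ((Submodule.span_range_subtype_eq_top_iff _ _).2 rfl) J fun a ha i => Subtype.ext (h a ha i)

theorem PlusLen_tors {R X : Type u} [CommRing R] [AddCommGroup X] [Module R X] {zs : List R}
    (h : ∀ x : X, ∀ z ∈ zs, ∃ n : ℕ, z ^ n • x = 0) : Tors (Ideal.ofList zs) X := fun x => by
  obtain ⟨k, hk⟩ := Ideal.exists_pow_le_of_le_radical_of_fg (I := Ideal.ofList zs)
    (J := Ideal.torsionOf R X x) (Ideal.span_le.2 fun z hz => h x z hz)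
    (Submodule.fg_span (List.finite_toSet zs))
  exact ⟨k, fun a ha => hk ha⟩

theorem PlSmall.almost (hs : PlSmall p lam m) {Y : Type u} [AddCommGroup Y] [Module B Y]
    (hY : Tors m Y) {d : B} (hd : d ≠ 0) {c : ℝ≥0∞}
    (h : ∀ e, lam.val (LinearMap.range (LinearMap.lsmul B Y (rt p e d))) ≤ c) : lam.val Y ≤ c := by
  refine lam.cont Y c fun N hN => ?_
  obtain ⟨r, w, rfl⟩ := Submodule.fg_iff_exists_fin_generating_family.1 hN
  choose n hn using fun i => hY (w i)
  refine ENNReal.le_of_forall_pos_le_add fun ε hε _ => ?_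
  obtain ⟨δ, hδ, hδ'⟩ := ENNReal.exists_pos_mul_lt (ENNReal.natCast_ne_top r)
    (ENNReal.coe_pos.2 hε).ne'
  obtain ⟨e, he⟩ := hs d hd (Finset.univ.sup n) δ hδ
  rw [lam.len_split (LinearMap.range (LinearMap.lsmul B Y (rt p e d))).mkQ]
  refine add_le_add ((lam.len_mono (inf_le_right.trans (Submodule.ker_mkQ _).le)).trans (h e)) ?_
  rw [lam.len_congr_sub ((Submodule.map_span _ _).trans (congrArg _ (Set.range_comp _ _).symm))]
  refine (PlusLen_span_le lam _ (Ideal.span {rt p e d} ⊔ m ^ Finset.univ.sup n) ?_).trans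
    ((mul_le_mul_right (he e le_rfl) _).trans (mul_comm δ r ▸ hδ'.le))
  intro a ha i
  obtain ⟨x, hx, y, hy, rfl⟩ := Submodule.mem_sup.1 ha
  obtain ⟨t, rfl⟩ := Ideal.mem_span_singleton'.1 hx
  rw [Function.comp_apply, ← map_smul, add_smul,
    hn i y (Ideal.pow_le_pow_right (Finset.le_sup (Finset.mem_univ i)) hy), add_zero, mul_comm,
    mul_smul]
  exact (Submodule.Quotient.mk_eq_zero _).2 ⟨_, rfl⟩

theorem PlSmall.upper (hs : PlSmall p lam m) {T T' X Y : Type u} [CommRing T] [CharP T p]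
    [PerfectRing T p] [CommRing T'] [CharP T' p] [PerfectRing T' p] [Algebra B T] [Algebra B T']
    [Algebra T T'] [IsScalarTower B T T'] [AddCommGroup X] [Module T X] [Module B X]
    [IsScalarTower B T X] [AddCommGroup Y] [Module T' Y] [Module B Y] [IsScalarTower B T' Y]
    {s : ℕ} {u : Fin s → T'} {c : B} (hc : c ≠ 0)
    (hu : ∀ x : T', algebraMap B T c • x ∈ Submodule.span T (Set.range u))
    (θ : X →ₛₗ[algebraMap T T'] Y) (hθ : Submodule.span T' (Set.range θ) = ⊤) (hY : Tors m Y) :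
    lam.val Y ≤ s * lam.val X := by
  refine hs.almost hY hc fun e => ?_
  let G : (Fin s → X) →ₗ[B] Y :=
    { toFun := fun x => ∑ i, rt p e (u i) • θ (x i)
      map_add' := fun x y => by simp only [Pi.add_apply, map_add, smul_add, Finset.sum_add_distrib]
      map_smul' := fun b x => by
        rw [RingHom.id_apply, Finset.smul_sum]
        refine Finset.sum_congr rfl fun i _ => ?_
        rw [Pi.smul_apply, ← algebraMap_smul T b, map_smulₛₗ, ← IsScalarTower.algebraMap_apply,
          smul_comm, algebraMap_smul] }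
  have h1 := lam.val_pi fun _ : Fin s => X
  rw [Finset.sum_const, Finset.card_univ, Fintype.card_fin, nsmul_eq_mul] at h1
  rw [← h1]
  refine (lam.len_mono ?_).trans (lam.len_range_le G)
  rintro _ ⟨y, rfl⟩
  have h2 : ∀ t : T', rt p e c • t • y ∈ LinearMap.range G := by
    have hy : y ∈ Submodule.span T' (Set.range θ) := hθ ▸ Submodule.mem_top
    induction hy using Submodule.span_induction with
    | mem y hy =>
      obtain ⟨x, rfl⟩ := hy
      intro t
      obtain ⟨β, hβ⟩ := (Submodule.mem_span_range_iff_exists_fun T).1 (PlusLen_rt_span hu e t)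
      refine ⟨fun i => β i • x, ?_⟩
      rw [← PlusLen_map_rt, algebraMap_smul] at hβ
      rw [← smul_assoc, ← hβ, Finset.sum_smul]
      change ∑ i, rt p e (u i) • θ (β i • x) = _
      refine Finset.sum_congr rfl fun i _ => ?_
      rw [map_smulₛₗ, Algebra.smul_def, mul_comm, mul_smul]
    | zero => intro t; simp
    | add y y' _ _ h h' => intro t; rw [smul_add, smul_add]; exact add_mem (h t) (h' t)
    | smul a y _ h => intro t; rw [smul_smul t a]; exact h _
  have h3 := h2 1
  rwa [one_smul] at h3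

theorem PlSmall.lower (hs : PlSmall p lam m) {T : Type u} [CommRing T] [CharP T p]
    [PerfectRing T p] [Algebra B T] {r : ℕ} {v : Fin r → T} {c : B} (hc : c ≠ 0)
    (hv : LinearIndependent B v) (h : ∀ x : T, c • x ∈ Submodule.span B (Set.range v)) :
    r * lam.val (B ⧸ m) ≤ lam.val (T ⧸ (m • ⊤ : Submodule B T)) := by
  have h1 := lam.val_pi fun _ : Fin r => B ⧸ m
  rw [Finset.sum_const, Finset.card_univ, Fintype.card_fin, nsmul_eq_mul] at h1
  rw [← h1]
  refine hs.almost (fun x => ⟨1, fun a ha => funext fun i => ?_⟩) hc fun e => ?_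
  · obtain ⟨y, hy⟩ := Ideal.Quotient.mk_surjective (x i)
    rw [Pi.smul_apply, ← hy]
    exact Ideal.Quotient.eq_zero_iff_mem.2 (m.mul_mem_right y (pow_one m ▸ ha))
  obtain ⟨φ, -, h2⟩ := PlusLen_coord (PlusLen_rt_li hv e) (PlusLen_rt_span h e)
  let ψ : T →ₗ[B] (Fin r → B ⧸ m) := LinearMap.pi fun i => m.mkQ.comp ((LinearMap.proj i).comp φ)
  have h3 : (m • ⊤ : Submodule B T) ≤ LinearMap.ker ψ := Submodule.smul_le.2 fun a ha x _ => by
    rw [LinearMap.mem_ker, map_smul]
    funext i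
    exact (Submodule.Quotient.mk_eq_zero _).2 (m.mul_mem_right (φ x i) ha)
  refine (lam.len_mono ?_).trans (lam.len_range_le (Submodule.liftQ _ ψ h3))
  rintro _ ⟨y, rfl⟩
  choose β hβ using fun i => Ideal.Quotient.mk_surjective (y i)
  refine ⟨Submodule.Quotient.mk (∑ i, β i • rt p e (v i)), funext fun i => ?_⟩
  change m.mkQ (φ _ i) = rt p e c • y i
  rw [h2, ← hβ, Pi.smul_apply, map_smul]
  rfl

end almost

end Vale.Agent.P177
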