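import Vale.Agent.P177.PlusLenAux

/-! Finite levels of an integral extension of a perfect normal domain. -/

namespace Vale.Agent.P177

open scoped ENNReal
open Vale.Agent.P202

universe u

theorem PlusLen_field (p : ℕ) [Fact p.Prime] {B F : Type u} [CommRing B] [IsDomain B]
    [IsIntegrallyClosed B] [CharP B p] [PerfectRing B p] [Field F] [CharP F p] [Algebra B F]
    [FaithfulSMul B F] (a : Set F) (ha : a.Finite) (hint : ∀ x ∈ a, IsIntegral B x) :
    ∃ d : B, d ≠ 0 ∧ ∀ x : F, (∃ e : ℕ, x ^ p ^ e ∈ Algebra.adjoin B a) →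
      d • x ∈ Algebra.adjoin B a := by
  classical
  let K := FractionRing B
  let : Algebra K F := FractionRing.liftAlgebra B F
  have := FractionRing.isScalarTower_liftAlgebra B F
  have : CharP K p := charP_of_injective_algebraMap (IsFractionRing.injective B K) p
  have : PerfectRing K p := PerfectRing.ofSurjective K p fun x => by
    obtain ⟨y, z, -, rfl⟩ := IsFractionRing.div_surjective (A := B) x
    refine ⟨algebraMap B K (rt p 1 y) / algebraMap B K (rt p 1 z), ?_⟩
    have h1 : ∀ t : B, rt p 1 t ^ p = t := fun t => by simpa using rt_pow (p := p) 1 t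
    rw [frobenius_def, div_pow, ← map_pow, ← map_pow, h1, h1]
  have : PerfectField K := PerfectRing.toPerfectField K p
  let L := IntermediateField.adjoin K a
  have := ha.to_subtype
  have hK : ∀ x ∈ a, IsIntegral K x := fun x hx => (hint x hx).tower_top
  have : FiniteDimensional K L := IntermediateField.finiteDimensional_adjoin hK
  have : PerfectField L := Algebra.IsAlgebraic.perfectField K
  have : CharP L p := L.toSubfield.charP p
  obtain ⟨s, b, hb⟩ := FiniteDimensional.exists_is_basis_integral B K L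
  have h1 := integralClosure_le_span_dualBasis b hb
  set w := (Algebra.traceForm K L).dualBasis (traceForm_nondegenerate K L) b
  have h2 : ∀ y : L, ∃ t : nonZeroDivisors B, t • (y : F) ∈ Algebra.adjoin B a := fun y =>
    multiple_mem_adjoin_of_mem_localization_adjoin (nonZeroDivisors B) K a _ (by
      rw [← IntermediateField.adjoin_toSubalgebra_of_isAlgebraic fun x hx => (hK x hx).isAlgebraic]
      exact y.2)
  choose t ht using h2
  refine ⟨∏ i, (t (w i) : B), Finset.prod_ne_zero_iff.2 fun i _ => nonZeroDivisors.coe_ne_zero _,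
    ?_⟩
  rintro x ⟨e, hx⟩
  have h3 : Algebra.adjoin B a ≤ L.toSubalgebra.restrictScalars B :=
    Algebra.adjoin_le (IntermediateField.subset_adjoin K a)
  have h4 : IsIntegral B x := IsIntegral.of_pow (pow_pos (Fact.out : p.Prime).pos e)
    ((mem_integralClosure_iff B F).1 (Algebra.adjoin_le (S := integralClosure B F) hint hx))
  obtain ⟨y, rfl⟩ : ∃ y : L, (y : F) = x := ⟨rt p e ⟨_, h3 hx⟩, iterateFrobenius_inj F p e
    (congrArg Subtype.val (rt_pow (p := p) e (⟨_, h3 hx⟩ : L)))⟩
  have h5 : IsIntegral B y :=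
    (isIntegral_algHom_iff (L.val.restrictScalars B) Subtype.val_injective).1 h4
  obtain ⟨β, hβ⟩ := (Submodule.mem_span_range_iff_exists_fun B).1 (h1 h5)
  have h6 : (y : F) = ∑ i, β i • (w i : F) := by
    rw [← hβ]
    exact map_sum (L.val.restrictScalars B) _ _ |>.trans
      (Finset.sum_congr rfl fun i _ => map_smul (L.val.restrictScalars B) _ _)
  rw [h6, Finset.smul_sum]
  refine Subalgebra.sum_mem _ fun i _ => ?_
  rw [← Finset.prod_erase_mul _ _ (Finset.mem_univ i), smul_comm, mul_smul]
  exact Subalgebra.smul_mem _ (Subalgebra.smul_mem _ (ht _) _) _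

theorem PlusLen_rel {B T T' : Type u} [CommRing B] [IsDomain B] [CommRing T] [IsDomain T]
    [CommRing T'] [Algebra B T] [Algebra T T'] [Algebra B T'] [IsScalarTower B T T']
    [Module.IsTorsionFree B T'] (hinj : Function.Injective (algebraMap B T))
    (hint : ∀ x : T, IsIntegral B x) {r r' : ℕ} {w : Fin r' → T'} {d : B} (h1 : d ≠ 0)
    (h2 : LinearIndependent B w) (h3 : ∀ x, d • x ∈ Submodule.span B (Set.range w))
    {v : Fin r → T} (h10 : LinearIndependent B v) :
    ∃ (s : ℕ) (u : Fin s → T') (c : B), c ≠ 0 ∧ LinearIndependent T u ∧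
      (∀ x, algebraMap B T c • x ∈ Submodule.span T (Set.range u)) ∧ s * r ≤ r' := by
  obtain ⟨s, u, c, h4, h5, h6⟩ := PlusLen_basis (T := T)
    (Submodule.span _ (Set.range w)) (Submodule.fg_span (Set.finite_range w))
    (d := algebraMap B _ d) (fun h => h1 (hinj (h.trans (map_zero _).symm)))
    fun x => by
      rw [algebraMap_smul]
      exact Submodule.span_le_restrictScalars B _ _ (h3 x)
  obtain ⟨c', h8, t, h9⟩ := (hint c).isAlgebraic.exists_nonzero_dvd
    (mem_nonZeroDivisors_of_ne_zero h4)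
  refine ⟨s, u, c', h8, h5, fun x => ?_, ?_⟩
  · rw [h9, mul_comm, mul_smul]
    exact Submodule.smul_mem _ _ (h6 x)
  · have h11 := PlusLen_card_le h1 h2 h3 (linearIndependent_smul h10 h5)
    rwa [Fintype.card_prod, Fintype.card_fin, Fintype.card_fin, mul_comm] at h11

variable (p : ℕ) [Fact p.Prime] (B : Type u) {E : Type u} [CommRing B] [CommRing E] [CharP E p]
  [Algebra B E]

/-- elements with a `p`-power in a subalgebra. -/
def plPerf (S : Subalgebra B E) : Subring E where
  carrier := {x | ∃ e : ℕ, x ^ p ^ e ∈ S}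
  mul_mem' := by
    rintro x y ⟨e, hx⟩ ⟨f, hy⟩
    refine ⟨e + f, ?_⟩
    rw [mul_pow]
    refine mul_mem ?_ ?_
    · rw [pow_add, pow_mul]; exact pow_mem hx _
    · rw [add_comm, pow_add, pow_mul]; exact pow_mem hy _
  one_mem' := ⟨0, by rw [one_pow]; exact one_mem _⟩
  add_mem' := by
    rintro x y ⟨e, hx⟩ ⟨f, hy⟩
    refine ⟨e + f, ?_⟩
    rw [add_pow_char_pow]
    refine add_mem ?_ ?_
    · rw [pow_add, pow_mul]; exact pow_mem hx _
    · rw [add_comm, pow_add, pow_mul]; exact pow_mem hy _
  zero_mem' := ⟨0, by rw [pow_zero, pow_one]; exact zero_mem _⟩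
  neg_mem' := by
    rintro x ⟨e, hx⟩
    refine ⟨e, ?_⟩
    rw [neg_pow, neg_one_pow_char_pow]
    exact mul_mem (neg_mem (one_mem _)) hx

theorem plPerf_of_mem {S : Subalgebra B E} {x : E} (hx : x ∈ S) : x ∈ plPerf p B S :=
  ⟨0, by rwa [pow_zero, pow_one]⟩

instance plPerf_perfect [IsDomain E] [PerfectRing E p] (S : Subalgebra B E) :
    PerfectRing (plPerf p B S) p :=
  PerfectRing.ofSurjective _ p fun ⟨x, e, hx⟩ =>
    ⟨⟨rt p 1 x, e + 1, by rw [add_comm, pow_add, pow_mul, rt_pow]; exact hx⟩,
      Subtype.ext (by simpa [frobenius_def] using rt_pow (p := p) 1 x)⟩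

instance plPerf_algebra (S : Subalgebra B E) : Algebra B (plPerf p B S) :=
  ((algebraMap B E).codRestrict _ fun b => plPerf_of_mem p B (S.algebraMap_mem b)).toAlgebra

instance plPerf_tower (S : Subalgebra B E) : IsScalarTower B (plPerf p B S) E :=
  IsScalarTower.of_algebraMap_eq fun _ => rfl

/-- the level attached to a finite set. -/
abbrev plR (a : Finset E) : Subring E := plPerf p B (Algebra.adjoin B (a : Set E))

theorem plR_mono : Monotone (plR p B : Finset E → Subring E) := fun _ _ h _ ⟨e, hx⟩ =>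
  ⟨e, Algebra.adjoin_mono (Finset.coe_subset.2 h) hx⟩

theorem plR_self (x : E) : x ∈ plR p B ({x} : Finset E) :=
  plPerf_of_mem p B (Algebra.subset_adjoin (by simp))

variable [IsDomain B] [IsIntegrallyClosed B] [CharP B p] [PerfectRing B p] [IsDomain E]
  [FaithfulSMul B E] [Algebra.IsIntegral B E]

theorem plR_fin (a : Finset E) : ∃ (N : Submodule B (plR p B a)) (d : B), N.FG ∧ d ≠ 0 ∧
    ∀ x, d • x ∈ N := by
  let F := FractionRing E
  have : CharP F p := charP_of_injective_algebraMap (IsFractionRing.injective E F) p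
  let f := IsScalarTower.toAlgHom B E F
  have hf : Function.Injective f := IsFractionRing.injective E F
  have : FaithfulSMul B F := (faithfulSMul_iff_algebraMap_injective B F).2 (by
    rw [IsScalarTower.algebraMap_eq B E F]
    exact hf.comp (FaithfulSMul.algebraMap_injective B E))
  obtain ⟨d, hd, h⟩ := PlusLen_field p (B := B) (f '' (a : Set E)) (a.finite_toSet.image _) (by
    rintro _ ⟨x, -, rfl⟩
    exact (Algebra.IsIntegral.isIntegral x).map f)
  rw [← AlgHom.map_adjoin] at h
  let ι := (IsScalarTower.toAlgHom B (plR p B a) E).toLinearMap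
  have h1 : (Algebra.adjoin B (a : Set E)).toSubmodule.FG :=
    fg_adjoin_of_finite a.finite_toSet fun x _ => Algebra.IsIntegral.isIntegral x
  refine ⟨(Algebra.adjoin B (a : Set E)).toSubmodule.comap ι, d,
    Submodule.fg_of_fg_map_injective ι Subtype.val_injective ?_, hd, ?_⟩
  · rwa [Submodule.map_comap_eq_of_le fun x hx => ⟨⟨x, plPerf_of_mem p B hx⟩, rfl⟩]
  · rintro ⟨x, e, hx⟩
    obtain ⟨y, hy, e⟩ := h (f x) ⟨e, _, hx, map_pow f _ _⟩
    rw [Submodule.mem_comap, map_smul]
    have h2 : y = d • x := hf (e.trans (map_smul f d x).symm)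
    exact h2 ▸ hy

omit [IsDomain B] [IsIntegrallyClosed B] [CharP B p] [PerfectRing B p] [IsDomain E]
  [Algebra.IsIntegral B E] in
theorem plR_inj (a : Finset E) : Function.Injective (algebraMap B (plR p B a)) := fun _ _ h =>
  FaithfulSMul.algebraMap_injective B E (congrArg Subtype.val h)

omit [IsDomain B] [IsIntegrallyClosed B] [CharP B p] [PerfectRing B p] [IsDomain E]
  [FaithfulSMul B E] in
theorem plR_int (a : Finset E) (x : plR p B a) : IsIntegral B x :=
  (isIntegral_algHom_iff (IsScalarTower.toAlgHom B (plR p B a) E) Subtype.val_injective).1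
    (Algebra.IsIntegral.isIntegral _)

instance plR_torsionFree (a : Finset E) : Module.IsTorsionFree B (plR p B a) :=
  Module.isTorsionFree_iff_algebraMap_injective.2 (plR_inj p B a)

theorem plR_basis (a : Finset E) : ∃ (v : Fin (Module.finrank B (plR p B a)) → plR p B a) (c : B),
    c ≠ 0 ∧ LinearIndependent B v ∧ ∀ x, c • x ∈ Submodule.span B (Set.range v) := by
  obtain ⟨N, d, h1, h2, h3⟩ := plR_fin p B a
  obtain ⟨r, v, c, h4, h5, h6⟩ := PlusLen_basis N h1 h2 h3
  obtain rfl := PlusLen_finrank h4 h5 h6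
  exact ⟨v, c, h4, h5, h6⟩

theorem plR_rank_ne (a : Finset E) : Module.finrank B (plR p B a) ≠ 0 := by
  obtain ⟨v, c, h1, h2, h3⟩ := plR_basis p B a
  have h4 : LinearIndependent B fun _ : Unit => (1 : plR p B a) :=
    linearIndependent_unique_iff.2 one_ne_zero
  have h5 := PlusLen_card_le h1 h2 h3 h4
  rw [Fintype.card_unit] at h5
  omega

theorem plR_rel {a b : Finset E} [Algebra (plR p B a) (plR p B b)]
    [IsScalarTower B (plR p B a) (plR p B b)] :
    ∃ (s : ℕ) (u : Fin s → plR p B b) (c : B), c ≠ 0 ∧ LinearIndependent (plR p B a) u ∧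
      (∀ x, algebraMap B (plR p B a) c • x ∈ Submodule.span (plR p B a) (Set.range u)) ∧
      s * Module.finrank B (plR p B a) ≤ Module.finrank B (plR p B b) := by
  obtain ⟨w, d, h1, h2, h3⟩ := plR_basis p B b
  obtain ⟨v, -, -, h10, -⟩ := plR_basis p B a
  exact PlusLen_rel (plR_inj p B a) (plR_int p B a) h1 h2 h3 h10

end Vale.Agent.P177
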