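import Mathlib

/-! Valuations extending the order of vanishing. -/

namespace Vale.Agent.P177

open scoped ENNReal
open IsLocalRing

universe u

/-- a real valuation extending the order of vanishing. -/
structure IsOrd (A : Type u) {E : Type u} [CommRing A] [IsLocalRing A] [CommRing E] [Algebra A E]
    (v : E → ℝ≥0∞) : Prop where
  mul : ∀ x y, v (x * y) = v x + v y
  add : ∀ x y, min (v x) (v y) ≤ v (x + y)
  ord : ∀ (a : A) (n : ℕ), (n : ℝ≥0∞) ≤ v (algebraMap A E a) ↔ a ∈ maximalIdeal A ^ n
  int : ∀ a : A, a ≠ 0 → ∃ n : ℕ, v (algebraMap A E a) = n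

end Vale.Agent.P177
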