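import Mathlib

/-! Extending a discrete valuation to an integral extension. -/

namespace Vale.Agent.P177

open scoped ENNReal NNReal

theorem PlusVal_val {A L : Type*} [CommRing A] [Field L] (φ : A →+* L) (hφ : Function.Injective φ)
    (o : A → ℕ∞) (hmul : ∀ a b, o (a * b) = o a + o b) (hadd : ∀ a b, min (o a) (o b) ≤ o (a + b))
    (hneg : ∀ a, o (-a) = o a) (htop : ∀ a, o a = ⊤ ↔ a = 0) (t : A) (ht : o t = 1) :
    ∃ O : ValuationSubring L, O.valuation (φ t) < 1 ∧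
      ∀ (a : A) (n : ℕ), o a = n → O.valuation (φ a) = O.valuation (φ t) ^ n := by
  have := hφ.isDomain φ
  have h1 : o 1 = 0 := by
    have h := hmul 1 1
    rw [mul_one] at h
    have h' : o 1 ≠ ⊤ := fun e => one_ne_zero ((htop 1).1 e)
    exact ((WithTop.add_right_inj h').1 ((zero_add _).trans h)).symm
  let R : Subring L :=
    { carrier := {x | ∃ a b, b ≠ 0 ∧ o b ≤ o a ∧ x * φ b = φ a}
      mul_mem' := by
        rintro x y ⟨a, b, hb, hab, hx⟩ ⟨c, d, hd, hcd, hy⟩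
        refine ⟨a * c, b * d, mul_ne_zero hb hd, by rw [hmul, hmul]; exact add_le_add hab hcd, ?_⟩
        rw [map_mul, map_mul, ← hx, ← hy]
        ring
      one_mem' := ⟨1, 1, one_ne_zero, le_rfl, one_mul _⟩
      add_mem' := by
        rintro x y ⟨a, b, hb, hab, hx⟩ ⟨c, d, hd, hcd, hy⟩
        refine ⟨a * d + b * c, b * d, mul_ne_zero hb hd, le_trans (le_min ?_ ?_) (hadd _ _), ?_⟩
        · rw [hmul, hmul]; exact add_le_add hab le_rfl
        · rw [hmul, hmul]; exact add_le_add le_rfl hcd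
        · rw [map_add, map_mul, map_mul, map_mul, ← hx, ← hy]
          ring
      zero_mem' := ⟨0, 1, one_ne_zero, h1.le.trans bot_le, by rw [zero_mul, map_zero]⟩
      neg_mem' := by
        rintro x ⟨a, b, hb, hab, hx⟩
        exact ⟨-a, b, hb, by rwa [hneg], by rw [map_neg, ← hx, neg_mul]⟩ }
  have hR : ∀ a b, b ≠ 0 → o b ≤ o a → φ a / φ b ∈ R := fun a b hb hab =>
    ⟨a, b, hb, hab, div_mul_cancel₀ _ fun e => hb (hφ (e.trans φ.map_zero.symm))⟩
  let t' : R := ⟨φ t, t, 1, one_ne_zero, h1.le.trans bot_le, by rw [map_one, mul_one]⟩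
  obtain ⟨O, hO, hO'⟩ := Ideal.image_subset_nonunits_valuationSubring (Ideal.span {t'}) (by
    rw [Ne, Ideal.span_singleton_eq_top, isUnit_iff_exists_inv]
    rintro ⟨⟨x, a, b, hb, hab, hx⟩, e⟩
    have e' : φ t * x = 1 := congrArg Subtype.val e
    have h2 : b = t * a := hφ (by rw [map_mul, ← hx, ← mul_assoc, e', one_mul])
    have h3 : o a ≠ ⊤ := fun e => hb (by rw [h2, (htop a).1 e, mul_zero])
    rw [h2, hmul, ht, add_comm] at hab
    exact absurd hab (not_le.2 (ENat.lt_add_one_iff h3 |>.2 le_rfl)))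
  have hle : ∀ a b, b ≠ 0 → o b ≤ o a → O.valuation (φ a) ≤ O.valuation (φ b) := fun a b hb hab => by
    have h2 := (O.valuation_le_one_iff _).2 (hO (hR a b hb hab))
    rwa [map_div₀, div_le_one₀ (zero_lt_iff.2 ((map_ne_zero _).2
      fun e => hb (hφ (e.trans φ.map_zero.symm))))] at h2
  have hpow : ∀ n : ℕ, o (t ^ n) = n := fun n => by
    induction n with
    | zero => rw [pow_zero, h1, Nat.cast_zero]
    | succ n ih => rw [pow_succ, hmul, ih, ht, Nat.cast_succ]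
  refine ⟨O, (O.mem_nonunits_iff).1 (hO' ⟨t', Ideal.mem_span_singleton_self _, rfl⟩),
    fun a n ha => ?_⟩
  rw [← map_pow, ← map_pow]
  exact le_antisymm
    (hle _ _ (fun e => by simpa [hpow] using (htop _).2 e) ((hpow n).trans ha.symm).le)
    (hle _ _ (fun e => by simpa [ha] using (htop _).2 e) (ha.trans (hpow n).symm).le)

variable {E Γ : Type*} [CommRing E] [LinearOrderedCommGroupWithZero Γ] (V : Valuation E Γ) {τ : Γ}

theorem PlusVal_pow {A : Type*} [CommRing A] [Algebra A E] (hτ0 : τ ≠ 0) (hτ : τ < 1)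
    (hA : ∀ a : A, a ≠ 0 → ∃ n : ℕ, V (algebraMap A E a) = τ ^ n) {x : E} (hx : V x ≠ 0)
    (hint : IsIntegral A x) : ∃ n m : ℕ, n ≠ 0 ∧ V x ^ n = τ ^ m := by
  obtain ⟨P, hP, h0⟩ := hint
  rw [Polynomial.eval₂_eq_sum_range] at h0
  have hd : P.natDegree ∈ Finset.range (P.natDegree + 1) := Finset.self_mem_range_succ _
  have hf : ∀ i, V (algebraMap A E (P.coeff i) * x ^ i) =
      V (algebraMap A E (P.coeff i)) * V x ^ i := fun i => by rw [map_mul, map_pow]
  have hfd : V (algebraMap A E (P.coeff P.natDegree) * x ^ P.natDegree) = V x ^ P.natDegree := by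
    rw [hP.coeff_natDegree, map_one, one_mul, map_pow]
  have hA1 : ∀ a : A, V (algebraMap A E a) ≤ 1 := fun a => by
    rcases eq_or_ne a 0 with rfl | ha
    · simp
    · obtain ⟨n, hn⟩ := hA a ha
      exact hn ▸ pow_le_one₀ zero_le hτ.le
  have hx1 : V x ≤ 1 := by
    by_contra hc
    have h1 := V.map_sum_eq_of_lt (f := fun i => algebraMap A E (P.coeff i) * x ^ i) hd
      fun i hi => by
        rw [hfd, hf]
        obtain ⟨hi, hi'⟩ := Finset.mem_sdiff.1 hi
        exact mul_lt_of_le_one_of_lt (hA1 _) (pow_lt_pow_right₀ (not_le.1 hc)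
          (lt_of_le_of_ne (Nat.lt_succ_iff.1 (Finset.mem_range.1 hi)) (by simpa using hi')))
    rw [h0, map_zero, hfd] at h1
    exact pow_ne_zero _ hx h1.symm
  obtain ⟨j, hj, hj'⟩ := Finset.exists_max_image (Finset.range (P.natDegree + 1))
    (fun i => V (algebraMap A E (P.coeff i) * x ^ i)) ⟨_, hd⟩
  have hj0 : V (algebraMap A E (P.coeff j) * x ^ j) ≠ 0 := fun e => by
    have := hj' _ hd
    rw [e, hfd, le_zero_iff] at this
    exact pow_ne_zero _ hx this
  obtain ⟨i, hij, hi⟩ : ∃ i, i ≠ j ∧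
      V (algebraMap A E (P.coeff i) * x ^ i) = V (algebraMap A E (P.coeff j) * x ^ j) := by
    by_contra hc
    push Not at hc
    have h1 := V.map_sum_eq_of_lt (f := fun i => algebraMap A E (P.coeff i) * x ^ i) hj
      fun i hi => by
        obtain ⟨hi, hi'⟩ := Finset.mem_sdiff.1 hi
        exact lt_of_le_of_ne (hj' i hi) (hc i (by simpa using hi'))
    rw [h0, map_zero] at h1
    exact hj0 h1.symm
  have key : ∀ i j, i < j → V (algebraMap A E (P.coeff j) * x ^ j) ≠ 0 →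
      V (algebraMap A E (P.coeff i) * x ^ i) = V (algebraMap A E (P.coeff j) * x ^ j) →
      ∃ n m : ℕ, n ≠ 0 ∧ V x ^ n = τ ^ m := by
    intro i j hij h0 h
    obtain ⟨a, ha⟩ := hA (P.coeff i) fun e => h0 (by rw [← h, e]; simp)
    obtain ⟨b, hb⟩ := hA (P.coeff j) fun e => h0 (by rw [e]; simp)
    obtain ⟨n, rfl⟩ := Nat.exists_eq_add_of_lt hij
    rw [hf, hf, ha, hb, add_assoc, add_comm i, pow_add, ← mul_assoc,
      mul_left_inj' (pow_ne_zero _ hx)] at h
    have h1 : b ≤ a := (pow_le_pow_iff_right_of_lt_one₀ (zero_lt_iff.2 hτ0) hτ).1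
      (h.le.trans (mul_le_of_le_one_right' (pow_le_one₀ zero_le hx1)))
    obtain ⟨m, rfl⟩ := Nat.exists_eq_add_of_le h1
    rw [pow_add, mul_right_inj' (pow_ne_zero _ hτ0)] at h
    exact ⟨n + 1, m, n.succ_ne_zero, h.symm⟩
  rcases lt_or_gt_of_ne hij with h | h
  · exact key i j h hj0 hi
  · exact key j i h (hi ▸ hj0) hi.symm

theorem PlusVal_real (hτ0 : τ ≠ 0) (hτ : τ < 1)
    (h : ∀ x, V x ≠ 0 → ∃ n m : ℕ, n ≠ 0 ∧ V x ^ n = τ ^ m) :
    ∃ v : E → ℝ≥0∞, (∀ x y, v (x * y) = v x + v y) ∧ (∀ x y, min (v x) (v y) ≤ v (x + y)) ∧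
      v 0 = ⊤ ∧ ∀ (x : E) (m : ℕ), V x = τ ^ m → v x = m := by
  classical
  choose! n m hn hnm using h
  let v : E → ℝ≥0∞ := fun x => if V x = 0 then ⊤ else ((m x / n x : ℝ≥0) : ℝ≥0∞)
  have hτ' := zero_lt_iff.2 hτ0
  have hv : ∀ (x : E) (a b : ℕ), b ≠ 0 → V x ^ b = τ ^ a → v x = ((a / b : ℝ≥0) : ℝ≥0∞) := by
    intro x a b hb hx
    have hx0 : V x ≠ 0 := fun e => pow_ne_zero a hτ0 (by rw [← hx, e, zero_pow hb])
    have h1 : τ ^ (m x * b) = τ ^ (a * n x) := by
      rw [pow_mul, pow_mul, ← hnm x hx0, ← hx, ← pow_mul, ← pow_mul, mul_comm]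
    have h2 := (pow_right_inj₀ hτ' hτ.ne).1 h1
    simp only [v, if_neg hx0, ENNReal.coe_inj]
    rw [div_eq_div_iff (Nat.cast_ne_zero.2 (hn x hx0)) (Nat.cast_ne_zero.2 hb)]
    exact_mod_cast h2
  have hv0 : ∀ x, V x = 0 → v x = ⊤ := fun x hx => if_pos hx
  have hmono : ∀ x z, V z ≤ V x → v x ≤ v z := by
    intro x z hzx
    by_cases hz : V z = 0
    · rw [hv0 z hz]
      exact le_top
    have hx : V x ≠ 0 := fun e => hz (le_zero_iff.1 (e ▸ hzx))
    have h1 : τ ^ (m z * n x) ≤ τ ^ (m x * n z) := by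
      rw [pow_mul, pow_mul, ← hnm x hx, ← hnm z hz, ← pow_mul, ← pow_mul, mul_comm]
      exact pow_le_pow_left₀ zero_le hzx _
    rw [hv x _ _ (hn x hx) (hnm x hx), hv z _ _ (hn z hz) (hnm z hz), ENNReal.coe_le_coe,
      div_le_div_iff₀ (Nat.cast_pos.2 (Nat.pos_of_ne_zero (hn x hx)))
        (Nat.cast_pos.2 (Nat.pos_of_ne_zero (hn z hz)))]
    exact_mod_cast (pow_le_pow_iff_right_of_lt_one₀ hτ' hτ).1 h1
  refine ⟨v, fun x y => ?_, fun x y => ?_, hv0 0 (map_zero V), fun x a hx => ?_⟩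
  · by_cases hx : V x = 0
    · rw [hv0 x hx, hv0 _ (by rw [map_mul, hx, zero_mul]), top_add]
    by_cases hy : V y = 0
    · rw [hv0 y hy, hv0 _ (by rw [map_mul, hy, mul_zero]), add_top]
    rw [hv x _ _ (hn x hx) (hnm x hx), hv y _ _ (hn y hy) (hnm y hy),
      hv (x * y) (m x * n y + n x * m y) (n x * n y) (mul_ne_zero (hn x hx) (hn y hy)) (by
        rw [map_mul, mul_pow, pow_mul, hnm x hx, mul_comm (n x), pow_mul, hnm y hy, ← pow_mul,
          ← pow_mul, ← pow_add, mul_comm (n x)]),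
      ← ENNReal.coe_add,
      div_add_div _ _ (Nat.cast_ne_zero.2 (hn x hx)) (Nat.cast_ne_zero.2 (hn y hy))]
    push_cast
    rfl
  · rcases le_max_iff.1 (V.map_add x y) with h | h
    · exact (min_le_left _ _).trans (hmono _ _ h)
    · exact (min_le_right _ _).trans (hmono _ _ h)
  · rw [hv x a 1 one_ne_zero (by rw [pow_one, hx])]
    simp

end Vale.Agent.P177
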