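import Vale.Agent.P177.PlusOrd
import Vale.Agent.P177.PlusBasic
import Vale.Agent.P177.Reg
import Vale.Agent.P177.Len2
import Vale.Agent.P177.PlusValAux

/-! The order valuation on the absolute integral closure. -/

namespace Vale.Agent.P177

open scoped ENNReal NNReal
open IsLocalRing Vale.Agent.P202

universe u

variable {p : ℕ} [Fact p.Prime] {k : Type u} [Field k] [CharP k p] [IsAlgClosed k] {D : ℕ}
  {E : Type u} [CommRing E] [CharP E p] [PerfectRing E p] [Algebra (PS k D) E]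

omit [IsAlgClosed k] in
theorem PlusVal_mem_pow (a : PS k D) (n : ℕ) :
    a ∈ maximalIdeal (PS k D) ^ n ↔ (n : ℕ∞) ≤ MvPowerSeries.order a := by
  rw [← varIdeal_eq_maximalIdeal, mem_varIdeal_pow_iff]
  exact ⟨MvPowerSeries.nat_le_order, fun h α hα =>
    MvPowerSeries.coeff_of_lt_order (lt_of_lt_of_le (Nat.cast_lt.2 hα) h)⟩

theorem IsPlus.exists_isOrd (h : IsPlus (PS k D) E) (hD : 0 < D) :
    ∃ v : E → ℝ≥0∞, IsOrd (PS k D) v := by
  have := h.dom
  have hinj := IsFractionRing.injective E (FractionRing E)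
  have hφ : Function.Injective
      ((algebraMap E (FractionRing E)).comp (algebraMap (PS k D) E)) := hinj.comp h.inj
  have ht : MvPowerSeries.order (MvPowerSeries.X ⟨0, hD⟩ : PS k D) = 1 := by
    rw [MvPowerSeries.X_def, MvPowerSeries.order_monomial_of_ne_zero one_ne_zero,
      Finsupp.degree_single, Nat.cast_one]
  obtain ⟨O, hO, hO'⟩ := PlusVal_val _ hφ MvPowerSeries.order MvPowerSeries.order_mul
    (fun _ _ => MvPowerSeries.min_order_le_add) MvPowerSeries.order_neg
    (fun _ => MvPowerSeries.order_eq_top_iff) _ ht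
  have hτ : O.valuation (((algebraMap E (FractionRing E)).comp (algebraMap (PS k D) E))
      (MvPowerSeries.X ⟨0, hD⟩)) ≠ 0 := (map_ne_zero _).2 fun e => by
    rw [hφ (e.trans (map_zero _).symm), MvPowerSeries.order_zero] at ht
    exact ENat.top_ne_one ht
  have hA : ∀ a : PS k D, a ≠ 0 → ∃ n : ℕ, MvPowerSeries.order a = n := fun a ha =>
    ⟨_, (MvPowerSeries.ne_zero_iff_order_finite.1 ha).symm⟩
  obtain ⟨v, h1, h2, h3, h4⟩ := PlusVal_real (O.valuation.comap (algebraMap E (FractionRing E)))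
    hτ hO fun x hx => PlusVal_pow (O.valuation.comap (algebraMap E (FractionRing E))) hτ hO
      (fun a ha => (hA a ha).imp fun n hn => hO' a n hn) hx (h.int.isIntegral x)
  refine ⟨v, h1, h2, fun a n => ?_, fun a ha => (hA a ha).imp fun n hn => h4 _ n (hO' a n hn)⟩
  rcases eq_or_ne a 0 with rfl | ha
  · simp [h3]
  · obtain ⟨m, hm⟩ := hA a ha
    rw [h4 (algebraMap _ E a) m (hO' a m hm), PlusVal_mem_pow, hm, Nat.cast_le, Nat.cast_le]

/-- a line along which the order does not jump. -/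
theorem PlusVal_line {d n : ℕ} {a : PS k (d + 1)} (ha : a ∈ maximalIdeal (PS k (d + 1)) ^ n)
    (ha' : a ∉ maximalIdeal (PS k (d + 1)) ^ (n + 1)) :
    ∃ (w : Fin d → PS k (d + 1)) (T : PS k (d + 1)), (∀ j, w j ∈ maximalIdeal (PS k (d + 1))) ∧
      maximalIdeal (PS k (d + 1)) ≤ Ideal.span {T} ⊔ Ideal.span (Set.range w) ∧
      T ^ n ∈ Ideal.span (Set.range w) ⊔ Ideal.span {a} := by
  have hm : Ideal.span (Set.range MvPowerSeries.X) = maximalIdeal (PS k (d + 1)) :=
    varIdeal_eq_maximalIdeal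
  have hX : ∀ j, MvPowerSeries.X j ∈ maximalIdeal (PS k (d + 1)) := fun j =>
    hm ▸ Ideal.subset_span ⟨j, rfl⟩
  rw [← hm, Ideal.mem_span_pow_iff_exists_isHomogeneous] at ha
  obtain ⟨P, hP, rfl⟩ := ha
  have hdeg : ∀ α ∈ P.support, ∑ j, α j = n := fun α hα => by
    rw [← Finsupp.degree_eq_sum]
    by_contra hc
    exact MvPolynomial.mem_support_iff.1 hα (hP.coeff_eq_zero hc)
  have h0 : MvPolynomial.X 0 * MvPolynomial.map MvPowerSeries.constantCoeff P ≠ 0 := by
    refine mul_ne_zero (MvPolynomial.X_ne_zero _) fun e => ha' ?_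
    rw [MvPolynomial.eval_eq']
    refine Ideal.sum_mem _ fun α hα => ?_
    rw [pow_succ', ← hdeg α hα, ← Finset.prod_pow_eq_pow_sum]
    refine Ideal.mul_mem_mul ((mxps_mem_max _).2 ?_)
      (Ideal.prod_mem_prod fun j _ => Ideal.pow_mem_pow (hX j) _)
    rw [← MvPolynomial.coeff_map, e, MvPolynomial.coeff_zero]
    exact zero_mem _
  obtain ⟨x, hx⟩ : ∃ x : Fin (d + 1) → k, MvPolynomial.eval x
      (MvPolynomial.X 0 * MvPolynomial.map MvPowerSeries.constantCoeff P) ≠ 0 := by
    by_contra hc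
    push Not at hc
    exact h0 (MvPolynomial.funext fun x => (hc x).trans (map_zero _).symm)
  rw [map_mul, MvPolynomial.eval_X, mul_ne_zero_iff] at hx
  let T : PS k (d + 1) := MvPowerSeries.C (x 0)⁻¹ * MvPowerSeries.X 0
  let w : Fin d → PS k (d + 1) := fun j => MvPowerSeries.X j.succ - MvPowerSeries.C (x j.succ) * T
  have hw : ∀ j, MvPowerSeries.X j - MvPowerSeries.C (x j) * T ∈ Ideal.span (Set.range w) :=
    fun j => Fin.cases (by
      rw [← mul_assoc, ← map_mul, mul_inv_cancel₀ hx.1, map_one, one_mul, sub_self]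
      exact zero_mem _) (fun j => Ideal.subset_span ⟨j, rfl⟩) j
  refine ⟨w, T, fun j => sub_mem (hX _) (Ideal.mul_mem_left _ _ (Ideal.mul_mem_left _ _ (hX 0))),
    hm ▸ Ideal.span_le.2 ?_, ?_⟩
  · rintro _ ⟨j, rfl⟩
    have := Submodule.add_mem_sup
      (Ideal.mul_mem_left _ (MvPowerSeries.C (x j)) (Ideal.mem_span_singleton_self T)) (hw j)
    rwa [add_sub_cancel] at this
  have hu : IsUnit (MvPolynomial.eval (fun j => (MvPowerSeries.C (x j) : PS k (d + 1))) P) := by
    rw [MvPowerSeries.isUnit_iff_constantCoeff, isUnit_iff_ne_zero]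
    refine fun e => hx.2 (Eq.trans ?_ e)
    rw [MvPolynomial.eval_map, MvPolynomial.eval₂_eq', MvPolynomial.eval_eq', map_sum]
    simp only [map_mul, map_prod, map_pow, MvPowerSeries.constantCoeff_C]
  have h1 : T ^ n * MvPolynomial.eval (fun j => (MvPowerSeries.C (x j) : PS k (d + 1))) P -
      MvPolynomial.eval MvPowerSeries.X P ∈ Ideal.span (Set.range w) := by
    have h2 := fun j => Ideal.Quotient.eq.2 (hw j)
    rw [← Ideal.Quotient.eq, MvPolynomial.eval_eq', MvPolynomial.eval_eq', Finset.mul_sum, map_sum,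
      map_sum]
    refine Finset.sum_congr rfl fun α hα => ?_
    simp only [map_mul, map_prod, map_pow, h2, mul_pow, Finset.prod_mul_distrib,
      Finset.prod_pow_eq_pow_sum, hdeg α hα]
    ring
  have h3 := Submodule.add_mem_sup h1
    (Ideal.mem_span_singleton_self (MvPolynomial.eval MvPowerSeries.X P))
  rw [sub_add_cancel] at h3
  exact (Ideal.mul_unit_mem_iff_mem _ hu).1 h3

/-- a generic system of linear forms. -/
theorem exists_lin_forms {a : PS k D} {n : ℕ} (hD : 0 < D) (ha : a ∉ maximalIdeal (PS k D) ^ (n + 1))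
    (N : ℕ) : ∃ I : Ideal (PS k D), I ≤ maximalIdeal (PS k D) ^ N ∧ (∀ y, a * y ∈ I → y ∈ I) ∧
      maximalIdeal (PS k D) ≤ (I ⊔ Ideal.span {a}).radical ∧
      Module.length (PS k D) (PS k D ⧸ (I ⊔ Ideal.span {a})) ≤ (n * N ^ (D - 1) : ℕ) := by
  classical
  rcases Nat.eq_zero_or_pos N with rfl | hN
  · refine ⟨⊤, by simp, fun _ _ => trivial, le_top.trans (le_sup_left.trans Ideal.le_radical), ?_⟩
    rw [top_sup_eq, Module.length_eq_zero]
    exact bot_le
  by_cases ham : a ∈ maximalIdeal (PS k D)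
  swap
  · have hu : IsUnit a := not_not.1 ham
    rw [Ideal.span_singleton_eq_top.2 hu]
    refine ⟨⊥, bot_le, fun y hy => (Ideal.unit_mul_mem_iff_mem _ hu).1 hy,
      le_top.trans (le_sup_right.trans Ideal.le_radical), ?_⟩
    rw [sup_top_eq, Module.length_eq_zero]
    exact bot_le
  obtain ⟨d, rfl⟩ := Nat.exists_eq_add_one_of_ne_zero hD.ne'
  have hex : ∃ n, a ∉ maximalIdeal (PS k (d + 1)) ^ (n + 1) := ⟨n, ha⟩
  have h0 : a ∈ maximalIdeal (PS k (d + 1)) ^ Nat.find hex := by
    rcases Nat.eq_zero_or_eq_succ_pred (Nat.find hex) with e | e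
    · simp [e]
    · rw [e]
      exact not_not.1 (Nat.find_min hex (by omega))
  obtain ⟨w, T, hw, hm, hT⟩ := PlusVal_line h0 (Nat.find_spec hex)
  have hW : Ideal.ofList (List.ofFn w) = Ideal.span (Set.range w) := by
    rw [Ideal.ofList]
    congr 1
    ext x
    exact List.mem_ofFn
  have hmem : ∀ x ∈ (List.ofFn w).map (· ^ N), ∃ j, x = w j ^ N := fun x hx => by
    obtain ⟨y, hy, rfl⟩ := List.mem_map.1 hx
    obtain ⟨j, rfl⟩ := List.mem_ofFn.1 hy
    exact ⟨j, rfl⟩
  have hrad : maximalIdeal (PS k (d + 1)) ≤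
      (Ideal.ofList ((List.ofFn w).map (· ^ N)) ⊔ Ideal.span {a}).radical := by
    have h1 : Ideal.span (Set.range w) ≤
        (Ideal.ofList ((List.ofFn w).map (· ^ N)) ⊔ Ideal.span {a}).radical :=
      Ideal.span_le.2 (by
        rintro _ ⟨j, rfl⟩
        exact ⟨N, Ideal.mem_sup_left (Ideal.subset_span
          (List.mem_map.2 ⟨w j, List.mem_ofFn.2 ⟨j, rfl⟩, rfl⟩))⟩)
    exact hm.trans (sup_le ((Ideal.span_singleton_le_iff_mem _).2 (Ideal.mem_radical_of_pow_mem
      (sup_le h1 (le_sup_right.trans Ideal.le_radical) hT))) h1)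
  refine ⟨Ideal.ofList ((List.ofFn w).map (· ^ N)), Ideal.span_le.2 fun x hx => ?_, fun y hy => ?_,
    hrad, ?_⟩
  · obtain ⟨j, rfl⟩ := hmem x hx
    exact Ideal.pow_mem_pow (hw j) N
  · have h1 := (regL_ps_field k (d + 1)).isWeaklyRegular (w := (List.ofFn w).map (· ^ N) ++ [a])
      ⟨fun x hx => (List.mem_append.1 hx).elim (fun hx => by
        obtain ⟨j, rfl⟩ := hmem x hx
        exact Ideal.pow_mem_of_mem _ (hw j) N hN) fun hx => List.mem_singleton.1 hx ▸ ham,
        by rwa [bot_sup_eq, Ideal.ofList_append, Ideal.ofList_singleton]⟩ (by simp)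
    rw [RingTheory.Sequence.isWeaklyRegular_append_iff,
      RingTheory.Sequence.isWeaklyRegular_singleton_iff, smul_top_ideal] at h1
    exact (isSMulRegular_quotient_iff_mem_of_smul_mem _ _).1 h1.2 y hy
  · let Λ := Len.len (PS k (d + 1))
    have h1 := Λ.rel_pow_le (List.ofFn w) N (⊤ : Submodule _ (PS k (d + 1))) (Ideal.span {a})
    have h2 := Λ.Len2_pow T (Nat.find hex) (⊤ : Submodule _ (PS k (d + 1)))
      (Ideal.span (Set.range w))
    rw [smul_top_ideal, smul_top_ideal] at h1 h2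
    rw [hW, List.length_ofFn, Λ.rel_top] at h1
    have h3 : Λ.rel ⊤ (Ideal.span {T} ⊔ Ideal.span (Set.range w)) ≤ 1 := by
      refine (Λ.rel_mono le_rfl hm).trans ?_
      rw [Λ.rel_top]
      exact ((congrArg ENat.toENNReal length_residue).trans ENat.toENNReal_one).le
    have h4 := (Λ.rel_mono le_rfl (sup_le ((Ideal.span_singleton_le_iff_mem _).2 hT)
      le_sup_left)).trans (h2.trans (mul_le_mul' (Nat.cast_le.2 (Nat.find_min' hex ha)) h3))
    have h5 := h1.trans (mul_le_mul_right h4 _)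
    rw [mul_one, mul_comm] at h5
    rw [← ENat.toENNReal_le, Nat.add_sub_cancel]
    exact h5.trans (by simp)

end Vale.Agent.P177
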