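import Vale.Agent.P177.Cx

/-! Kronecker products and the signed differential on tensor powers. -/

namespace Vale.Agent.P177

universe u

variable {R : Type u} [CommRing R] {n : ℕ}

/-- Kronecker product of a family of matrices. -/
def powKr {ι κ : Type} (A : Fin n → Matrix ι κ R) : Matrix (Fin n → ι) (Fin n → κ) R :=
  Matrix.of fun J J' => ∏ k, A k (J k) (J' k)

theorem powKr_mul {ι κ μ : Type} [Fintype κ] [DecidableEq κ] (A : Fin n → Matrix ι κ R)
    (B : Fin n → Matrix κ μ R) : powKr A * powKr B = powKr fun k => A k * B k := by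
  ext J J'
  simp only [powKr, Matrix.mul_apply, Matrix.of_apply, ← Finset.prod_mul_distrib]
  rw [Finset.prod_univ_sum, Fintype.piFinset_univ]

theorem powKr_split {ι κ : Type} (A : Fin n → Matrix ι κ R) (k : Fin n) (J : Fin n → ι)
    (J' : Fin n → κ) :
    powKr A J J' = A k (J k) (J' k) * ∏ j ∈ Finset.univ.erase k, A j (J j) (J' j) :=
  (Finset.mul_prod_erase _ (fun j => A j (J j) (J' j)) (Finset.mem_univ k)).symm

theorem powKr_add {ι κ : Type} {A B C : Fin n → Matrix ι κ R} (k : Fin n)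
    (h : ∀ j, j ≠ k → A j = C j ∧ B j = C j) (hk : A k + B k = C k) :
    powKr A + powKr B = powKr C := by
  ext J J'
  rw [Matrix.add_apply, powKr_split A k, powKr_split B k, powKr_split C k, ← hk, Matrix.add_apply,
    add_mul]
  congr 2 <;> refine Finset.prod_congr rfl fun j hj => ?_
  · rw [(h j (Finset.ne_of_mem_erase hj)).1]
  · rw [(h j (Finset.ne_of_mem_erase hj)).2]

theorem powKr_zero {ι κ : Type} {A : Fin n → Matrix ι κ R} (k : Fin n) (hk : A k = 0) :
    powKr A = 0 := by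
  ext J J'
  rw [powKr_split A k, hk, Matrix.zero_apply, zero_mul, Matrix.zero_apply]

theorem powKr_anti {ι κ : Type} {A B : Fin n → Matrix ι κ R} (k : Fin n)
    (h : ∀ j, j ≠ k → A j = B j) (hk : A k + B k = 0) : powKr A + powKr B = 0 := by
  classical
  rw [powKr_add (C := Function.update B k 0) k (fun j hj => by simp [h j hj, hj]) (by simp [hk])]
  exact powKr_zero k (by simp)

theorem powKr_diag {ι : Type} [DecidableEq ι] (c : Fin n → ι → R) :
    powKr (fun k => Matrix.diagonal (c k)) = Matrix.diagonal fun J => ∏ k, c k (J k) := by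
  ext J J'
  rcases eq_or_ne J J' with rfl | h
  · simp [powKr]
  · obtain ⟨k, hk⟩ := Function.ne_iff.1 h
    rw [powKr_split _ k, Matrix.diagonal_apply_ne _ hk, zero_mul, Matrix.diagonal_apply_ne _ h]

theorem powKr_smul_one {ι : Type} [DecidableEq ι] (c : Fin n → R) :
    powKr (fun k => c k • (1 : Matrix ι ι R)) = (∏ k, c k) • 1 := by
  simp only [Matrix.smul_one_eq_diagonal]
  exact powKr_diag fun k _ => c k

namespace Cx

/-- the sign operator. -/
def powSg (F : Cx R) : Matrix F.ι F.ι R := Matrix.diagonal fun a => (-1) ^ F.deg a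

theorem powSg_sq (F : Cx R) : F.powSg * F.powSg = 1 := by
  rw [powSg, Matrix.diagonal_mul_diagonal, ← Matrix.diagonal_one]
  congr 1
  funext a
  rw [← mul_pow]
  simp

theorem powSg_anti (F : Cx R) {M : Matrix F.ι F.ι R}
    (h : ∀ a b, M a b ≠ 0 → F.deg a = F.deg b + 1 ∨ F.deg b = F.deg a + 1) :
    M * F.powSg + F.powSg * M = 0 := by
  ext a b
  rw [powSg, Matrix.add_apply, Matrix.mul_diagonal, Matrix.diagonal_mul, Matrix.zero_apply]
  by_cases h0 : M a b = 0
  · simp [h0]
  · rcases h a b h0 with h1 | h1 <;> rw [h1] <;> ring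

theorem powSg_comm {F G : Cx R} {A : Matrix G.ι F.ι R}
    (hA : ∀ a b, A a b ≠ 0 → G.deg a = F.deg b) : A * F.powSg = G.powSg * A := by
  ext a b
  rw [powSg, powSg, Matrix.mul_diagonal, Matrix.diagonal_mul]
  by_cases h0 : A a b = 0
  · simp [h0]
  · rw [hA a b h0, mul_comm]

/-- an operator acting on the factor `k`, with Koszul signs. -/
def powOp (F : Cx R) (k : Fin n) (M : Matrix F.ι F.ι R) :
    Matrix (Fin n → F.ι) (Fin n → F.ι) R :=
  powKr fun j => if j < k then F.powSg else if j = k then M else 1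

theorem powOp_apply (F : Cx R) (k : Fin n) (M : Matrix F.ι F.ι R) (J J' : Fin n → F.ι) :
    F.powOp k M J J' = if ∀ j, j ≠ k → J j = J' j then
      (-1) ^ (∑ j ∈ Finset.Iio k, F.deg (J j)) * M (J k) (J' k) else 0 := by
  rw [powOp, powKr_split _ k, if_neg (lt_irrefl k), if_pos rfl]
  split_ifs with h
  · rw [mul_comm, ← Finset.prod_pow_eq_pow_sum]
    congr 1
    rw [← Finset.prod_subset (s₁ := Finset.Iio k) (fun j hj => Finset.mem_erase.2
      ⟨(Finset.mem_Iio.1 hj).ne, Finset.mem_univ j⟩) fun j hj hj' => ?_]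
    · refine Finset.prod_congr rfl fun j hj => ?_
      rw [if_pos (Finset.mem_Iio.1 hj), ← h j (Finset.mem_Iio.1 hj).ne, powSg,
        Matrix.diagonal_apply_eq]
    · rw [if_neg (fun h1 => hj' (Finset.mem_Iio.2 h1)), if_neg (Finset.ne_of_mem_erase hj),
        ← h j (Finset.ne_of_mem_erase hj), Matrix.one_apply_eq]
  · push Not at h
    obtain ⟨j, hj, h1⟩ := h
    rw [Finset.prod_eq_zero (Finset.mem_erase.2 ⟨hj, Finset.mem_univ j⟩), mul_zero]
    split_ifs
    · exact Matrix.diagonal_apply_ne _ h1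
    · exact Matrix.one_apply_ne h1

theorem powOp_mul_self (F : Cx R) (k : Fin n) (M M' : Matrix F.ι F.ι R) :
    F.powOp k M * F.powOp k M' = powKr fun j => if j = k then M * M' else 1 := by
  rw [powOp, powOp, powKr_mul]
  congr 1
  funext j
  rcases lt_trichotomy j k with h | rfl | h
  · simp [h, h.ne, powSg_sq]
  · simp
  · simp [h.not_gt, h.ne']

theorem powOp_anti (F : Cx R) {k k' : Fin n} (h : k < k') {M : Matrix F.ι F.ι R}
    (hM : M * F.powSg + F.powSg * M = 0) (M' : Matrix F.ι F.ι R) :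
    F.powOp k M * F.powOp k' M' + F.powOp k' M' * F.powOp k M = 0 := by
  rw [powOp, powOp, powKr_mul, powKr_mul]
  refine powKr_anti k (fun j hj => ?_) (by simpa [h] using hM)
  rcases lt_or_gt_of_ne hj with h1 | h1
  · simp [h1, h1.trans h]
  · simp [h1.not_gt, hj]

/-- the differential of the tensor power. -/
def powD (F : Cx R) (n : ℕ) : Matrix (Fin n → F.ι) (Fin n → F.ι) R :=
  fun J J' => ∑ k, if ∀ j, j ≠ k → J j = J' j then
    (-1) ^ (∑ j ∈ Finset.Iio k, F.deg (J j)) * F.d (J k) (J' k) else 0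

theorem powD_eq (F : Cx R) (n : ℕ) : F.powD n = ∑ k, F.powOp k F.d := by
  ext J J'
  rw [Matrix.sum_apply]
  exact Finset.sum_congr rfl fun k _ => (F.powOp_apply k F.d J J').symm

theorem powD_anti (F : Cx R) : F.d * F.powSg + F.powSg * F.d = 0 :=
  F.powSg_anti fun a b h => Or.inr (F.hdeg a b h)

theorem powD_dd (F : Cx R) (n : ℕ) : F.powD n * F.powD n = 0 := by
  rw [powD_eq, Finset.sum_mul_sum, ← Finset.sum_product']
  refine Finset.sum_involution (fun p _ => p.swap) (fun p _ => ?_) (fun p _ h e => h ?_)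
    (fun p _ => by simp) fun p _ => rfl
  · rcases lt_trichotomy p.1 p.2 with h | h | h
    · exact F.powOp_anti h F.powD_anti _
    · simp only [Prod.fst_swap, Prod.snd_swap, ← h, powOp_mul_self]
      rw [powKr_zero p.1 (by simp [F.dd]), add_zero]
    · rw [add_comm]
      exact F.powOp_anti h F.powD_anti _
  · have h1 : p.2 = p.1 := congrArg Prod.fst e
    rw [h1, powOp_mul_self]
    exact powKr_zero p.1 (by simp [F.dd])

theorem powD_deg_aux (g g' : Fin n → ℕ) (k : Fin n) (h : ∀ j, j ≠ k → g j = g' j)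
    (hk : g' k = g k + 1) : ∑ j, g' j = ∑ j, g j + 1 := by
  rw [← Finset.add_sum_erase _ g' (Finset.mem_univ k), ← Finset.add_sum_erase _ g
    (Finset.mem_univ k), hk, Finset.sum_congr rfl fun j hj => h j (Finset.ne_of_mem_erase hj)]
  ring

theorem powD_hdeg (F : Cx R) (n : ℕ) (J J' : Fin n → F.ι) (h : F.powD n J J' ≠ 0) :
    ∑ k, F.deg (J' k) = ∑ k, F.deg (J k) + 1 := by
  obtain ⟨k, -, hk⟩ := Finset.exists_ne_zero_of_sum_ne_zero h
  have h1 : ∀ j, j ≠ k → J j = J' j := by
    by_contra h1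
    exact hk (if_neg h1)
  rw [if_pos h1] at hk
  exact powD_deg_aux _ _ k (fun j hj => by rw [h1 j hj])
    (F.hdeg _ _ fun h2 => hk (by rw [h2, mul_zero]))

theorem powD_null (F : Cx R) (l : ℕ) {a : R} {H : Matrix F.ι F.ι R}
    (h : F.d * H + H * F.d = a • 1) (hH : ∀ b c, H b c ≠ 0 → F.deg b = F.deg c + 1) :
    F.powD (l + 1) * F.powOp 0 H + F.powOp 0 H * F.powD (l + 1) = a • 1 := by
  rw [powD_eq, Finset.sum_mul, Finset.mul_sum, ← Finset.sum_add_distrib, Fin.sum_univ_succ,
    Finset.sum_eq_zero fun k _ => ?_, add_zero, powOp_mul_self, powOp_mul_self,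
    powKr_add (C := fun j => (if j = 0 then a else 1) • (1 : Matrix F.ι F.ι R)) 0
      (fun j hj => by simp [hj]) (by simpa using h), powKr_smul_one]
  · simp
  · exact (add_comm _ _).trans
      (F.powOp_anti (Fin.succ_pos k) (F.powSg_anti fun b c h => Or.inl (hH b c h)) _)

theorem powD_comm {F G : Cx R} (A : Matrix G.ι F.ι R) (hd : A * F.d = G.d * A)
    (hA : ∀ a b, A a b ≠ 0 → G.deg a = F.deg b) (n : ℕ) :
    powKr (fun _ : Fin n => A) * F.powD n = G.powD n * powKr fun _ : Fin n => A := by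
  rw [powD_eq, powD_eq, Matrix.mul_sum, Matrix.sum_mul]
  refine Finset.sum_congr rfl fun k _ => ?_
  rw [powOp, powOp, powKr_mul, powKr_mul]
  congr 1
  funext j
  split_ifs
  · exact powSg_comm hA
  · exact hd
  · rw [Matrix.mul_one, Matrix.one_mul]

/-- the sign of the rotation. -/
def powS (F : Cx R) {l : ℕ} (J : Fin (l + 1) → F.ι) : R :=
  (-1) ^ (F.deg (J 0) * ∑ k : Fin l, F.deg (J k.succ))

/-- the signed rotation. -/
def powR (F : Cx R) (l : ℕ) : Matrix (Fin (l + 1) → F.ι) (Fin (l + 1) → F.ι) R :=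
  fun J J' => if J' = J ∘ finRotate (l + 1) then F.powS J else 0

theorem powR_mul (F : Cx R) (l : ℕ) {κ : Type} (M : Matrix (Fin (l + 1) → F.ι) κ R)
    (J : Fin (l + 1) → F.ι) (c : κ) :
    (F.powR l * M) J c = F.powS J * M (J ∘ finRotate (l + 1)) c := by
  simp only [Matrix.mul_apply, powR, ite_mul, zero_mul, Finset.sum_ite_eq', Finset.mem_univ,
    if_true]

theorem pow_comp_inj {l : ℕ} {α : Type} {J J' : Fin (l + 1) → α} :
    J ∘ finRotate (l + 1) = J' ∘ finRotate (l + 1) ↔ J = J' :=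
  (finRotate (l + 1)).surjective.right_cancellable

theorem pow_comp_surj {l : ℕ} {α : Type} (J : Fin (l + 1) → α) :
    ∃ J' : Fin (l + 1) → α, J = J' ∘ finRotate (l + 1) :=
  ⟨J ∘ (finRotate (l + 1)).symm, funext fun k => by simp⟩

theorem mul_powR (F : Cx R) (l : ℕ) {κ : Type} (M : Matrix κ (Fin (l + 1) → F.ι) R) (c : κ)
    (J : Fin (l + 1) → F.ι) :
    (M * F.powR l) c (J ∘ finRotate (l + 1)) = M c J * F.powS J := by
  simp only [Matrix.mul_apply, powR, mul_ite, mul_zero, pow_comp_inj, Finset.sum_ite_eq,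
    Finset.mem_univ, if_true]

theorem pow_sum_Iio {l : ℕ} (g : Fin (l + 1) → ℕ) (k : Fin (l + 1)) :
    ∑ j ∈ Finset.Iio k, g j = ∑ j, if j < k then g j else 0 := by
  rw [← Finset.sum_filter]
  exact Finset.sum_congr (by ext j; simp) fun _ _ => rfl

theorem pow_rot_castSucc {l : ℕ} (i : Fin l) : finRotate (l + 1) i.castSucc = i.succ := by
  rw [finRotate_apply, Fin.coeSucc_eq_succ]

theorem pow_sum_rot {l : ℕ} (g : Fin (l + 1) → ℕ) (k : Fin (l + 1)) :
    ∑ j ∈ Finset.Iio k, g (finRotate (l + 1) j) =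
      ∑ i : Fin l, if i.castSucc < k then g i.succ else 0 := by
  rw [pow_sum_Iio, Fin.sum_univ_castSucc, if_neg (Fin.le_last k).not_gt, add_zero]
  simp only [pow_rot_castSucc]

theorem powR_d (F : Cx R) (l : ℕ) : F.powR l * F.powD (l + 1) = F.powD (l + 1) * F.powR l := by
  ext J J''
  obtain ⟨J', rfl⟩ := pow_comp_surj J''
  rw [powR_mul, mul_powR, powD, powD, Finset.mul_sum, Finset.sum_mul,
    ← Equiv.sum_comp (finRotate (l + 1)) (fun k => _ * F.powS J')]
  refine Finset.sum_congr rfl fun k _ => ?_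
  have h0 : (∀ j, j ≠ k → (J ∘ finRotate (l + 1)) j = (J' ∘ finRotate (l + 1)) j) ↔
      ∀ j, j ≠ finRotate (l + 1) k → J j = J' j := by
    refine ⟨fun h j hj => ?_, fun h j hj => h _ ((finRotate (l + 1)).injective.ne hj)⟩
    obtain ⟨i, rfl⟩ := (finRotate (l + 1)).surjective j
    exact h i fun e => hj (by rw [e])
  rw [if_congr h0 rfl rfl]
  split_ifs with h
  swap
  · rw [mul_zero, zero_mul]
  simp only [Function.comp_apply]
  by_cases h1 : F.d (J (finRotate (l + 1) k)) (J' (finRotate (l + 1) k)) = 0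
  · simp only [h1, mul_zero, zero_mul]
  have h2 := F.hdeg _ _ h1
  rw [mul_right_comm, ← mul_assoc, pow_sum_rot fun j => F.deg (J j)]
  congr 1
  induction k using Fin.lastCases with
  | last =>
    rw [finRotate_last] at h h2 ⊢
    have h3 : ∑ i : Fin l, F.deg (J' i.succ) = ∑ i : Fin l, F.deg (J i.succ) :=
      Finset.sum_congr rfl fun i _ => by rw [h _ (Fin.succ_ne_zero i)]
    simp only [powS, h2, h3, Fin.castSucc_lt_last, if_true]
    rw [show Finset.Iio (0 : Fin (l + 1)) = ∅ from Finset.Iio_bot, Finset.sum_empty, pow_zero,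
      one_mul, add_mul, one_mul, pow_add]
  | cast m =>
    rw [pow_rot_castSucc] at h h2 ⊢
    have h3 : ∑ i : Fin l, F.deg (J' i.succ) = ∑ i : Fin l, F.deg (J i.succ) + 1 :=
      powD_deg_aux _ _ m (fun i hi => by rw [h _ fun e => hi (Fin.succ_injective _ e)]) h2
    rw [pow_sum_Iio, Fin.sum_univ_succ, if_pos (Fin.succ_pos m)]
    simp only [powS, h3, ← h 0 (Fin.succ_ne_zero m).symm, Fin.castSucc_lt_castSucc_iff,
      Fin.succ_lt_succ_iff]
    have h4 : ((-1 : R) ^ F.deg (J 0)) * (-1) ^ F.deg (J 0) = 1 := by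
      rw [← mul_pow]; simp
    rw [mul_add, mul_one, pow_add, pow_add]
    linear_combination (-((-1 : R) ^ (F.deg (J 0) * ∑ i : Fin l, F.deg (J i.succ)) *
      (-1) ^ (∑ i : Fin l, if i < m then F.deg (J i.succ) else 0))) * h4

theorem pow_rot_val {l : ℕ} (m : ℕ) (k : Fin (l + 1)) :
    (((finRotate (l + 1) ^ m) k : Fin (l + 1)) : ℕ) = (k + m) % (l + 1) := by
  induction m with
  | zero => simp [Nat.mod_eq_of_lt k.2]
  | succ m ih =>
    rw [pow_succ', Equiv.Perm.mul_apply, finRotate_apply, Fin.val_add, ih, Fin.val_one',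
      ← Nat.add_mod, add_assoc]

theorem powR_pow_apply (F : Cx R) (l m : ℕ) (J J' : Fin (l + 1) → F.ι) :
    (F.powR l ^ m) J J' = if J' = J ∘ (finRotate (l + 1) ^ m : Equiv.Perm _) then
      ∏ i ∈ Finset.range m, F.powS (J ∘ (finRotate (l + 1) ^ i : Equiv.Perm _)) else 0 := by
  induction m generalizing J' with
  | zero => simp [Matrix.one_apply, eq_comm]
  | succ m ih =>
    obtain ⟨K, rfl⟩ := pow_comp_surj J'
    rw [pow_succ, mul_powR, ih, pow_succ, Equiv.Perm.coe_mul, ← Function.comp_assoc]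
    simp only [pow_comp_inj]
    split_ifs with h
    · rw [Finset.prod_range_succ, h]
    · rw [zero_mul]

theorem pow_even (g t : Fin n → ℕ) (h : ∀ k, g k + t k = ∑ j, g j) : Even (∑ k, g k * t k) := by
  rw [← ZMod.natCast_eq_zero_iff_even]
  have h1 : ∀ x : ZMod 2, x * x = x := by decide
  have h2 : ∀ k, (t k : ZMod 2) = ∑ j, (g j : ZMod 2) - g k := fun k => by
    rw [eq_sub_iff_add_eq', ← Nat.cast_add, h, Nat.cast_sum]
  simp only [Nat.cast_sum, Nat.cast_mul, h2, mul_sub, Finset.sum_sub_distrib, h1,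
    ← Finset.sum_mul, sub_self]

theorem powR_pow (F : Cx R) (l : ℕ) : F.powR l ^ (l + 1) = 1 := by
  ext J J'
  have h1 : finRotate (l + 1) ^ (l + 1) = 1 := Equiv.ext fun k => Fin.ext (by
    rw [pow_rot_val, Nat.add_mod_right, Nat.mod_eq_of_lt k.2]; rfl)
  have h2 : ∀ i : Fin (l + 1), (finRotate (l + 1) ^ (i : ℕ)) 0 = i := fun i => Fin.ext (by
    rw [pow_rot_val, Fin.val_zero, zero_add, Nat.mod_eq_of_lt i.2])
  rw [powR_pow_apply, h1, Matrix.one_apply, ← Fin.prod_univ_eq_prod_range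
    fun i => F.powS (J ∘ (finRotate (l + 1) ^ i : Equiv.Perm _))]
  simp only [powS, Function.comp_apply, h2, Finset.prod_pow_eq_pow_sum]
  rw [(pow_even (fun k => F.deg (J k)) _ fun k => ?_).neg_one_pow]
  · simp [eq_comm]
  · rw [← Equiv.sum_comp (finRotate (l + 1) ^ (k : ℕ)) fun j => F.deg (J j), Fin.sum_univ_succ, h2]

theorem powKr_deg {F G : Cx R} {A : Matrix G.ι F.ι R} (hA : ∀ a b, A a b ≠ 0 → G.deg a = F.deg b)
    {J : Fin n → G.ι} {J' : Fin n → F.ι} (h : powKr (fun _ => A) J J' ≠ 0) (k : Fin n) :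
    G.deg (J k) = F.deg (J' k) :=
  hA _ _ fun h1 => h (by rw [powKr_split _ k, h1, zero_mul])

theorem powR_comm {F G : Cx R} (A : Matrix G.ι F.ι R)
    (hA : ∀ a b, A a b ≠ 0 → G.deg a = F.deg b) (l : ℕ) :
    powKr (fun _ : Fin (l + 1) => A) * F.powR l = G.powR l * powKr fun _ : Fin (l + 1) => A := by
  ext J J''
  obtain ⟨J', rfl⟩ := pow_comp_surj J''
  have h1 : powKr (fun _ : Fin (l + 1) => A) (J ∘ finRotate (l + 1)) (J' ∘ finRotate (l + 1)) =
      powKr (fun _ : Fin (l + 1) => A) J J' :=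
    Equiv.prod_comp (finRotate (l + 1)) fun k => A (J k) (J' k)
  rw [powR_mul, mul_powR, h1]
  by_cases h : powKr (fun _ : Fin (l + 1) => A) J J' = 0
  · rw [h, mul_zero, zero_mul]
  · simp only [powS, powKr_deg hA h, mul_comm]

end Cx

end Vale.Agent.P177
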