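import Vale.Agent.P177.Cx2
import Vale.Agent.P177.EDG
import Vale.Agent.P177.PowAux

/-! Tensor powers of complexes with their cyclic action. -/

namespace Vale.Agent.P177

open scoped ENNReal

universe u

variable {R : Type u} [CommRing R]

/-- tensor power of a matrix. -/
def kron {ι κ : Type} (A : Matrix ι κ R) (l : ℕ) :
    Matrix (Fin (l + 1) → ι) (Fin (l + 1) → κ) R :=
  fun J J' => ∏ k, A (J k) (J' k)

theorem kron_mul {ι κ μ : Type} [Fintype κ] [DecidableEq κ] (A : Matrix ι κ R) (B : Matrix κ μ R)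
    (l : ℕ) : kron (A * B) l = kron A l * kron B l :=
  (powKr_mul (fun _ => A) fun _ => B).symm

theorem kron_smul_one {ι : Type} [DecidableEq ι] (c : R) (l : ℕ) :
    kron (c • (1 : Matrix ι ι R)) l = c ^ (l + 1) • 1 :=
  (powKr_smul_one fun _ => c).trans (by simp)

namespace Cx

/-- the `(l+1)`-fold tensor power. -/
def pow (F : Cx R) (l : ℕ) : Cx R where
  ι := Fin (l + 1) → F.ι
  deg J := ∑ k, F.deg (J k)
  d J J' := ∑ k, if ∀ j, j ≠ k → J j = J' j then
    (-1) ^ (∑ j ∈ Finset.Iio k, F.deg (J j)) * F.d (J k) (J' k) else 0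
  dd := F.powD_dd (l + 1)
  hdeg := F.powD_hdeg (l + 1)

/-- the signed rotation of the factors. -/
def rot (F : Cx R) (l : ℕ) : Matrix (F.pow l).ι (F.pow l).ι R :=
  fun (J J' : Fin (l + 1) → F.ι) => if J' = J ∘ finRotate (l + 1) then
    (-1) ^ (F.deg (J 0) * ∑ k : Fin l, F.deg (J k.succ)) else 0

theorem rot_mul_d (F : Cx R) (l : ℕ) : F.rot l * (F.pow l).d = (F.pow l).d * F.rot l :=
  F.powR_d l

theorem rot_deg (F : Cx R) (l : ℕ) (J J' : (F.pow l).ι) (h : F.rot l J J' ≠ 0) :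
    (F.pow l).deg J = (F.pow l).deg J' := by
  have h1 : J' = J ∘ finRotate (l + 1) := by
    by_contra h1
    exact h (if_neg h1)
  rw [h1]
  exact (Equiv.sum_comp (finRotate (l + 1)) fun k => F.deg (J k)).symm

theorem rot_pow (F : Cx R) (l : ℕ) : F.rot l ^ (l + 1) = 1 := F.powR_pow l

theorem pow_mact_pow {ι : Type} [Fintype ι] [DecidableEq ι] (A : Matrix ι ι R) {N : Type u}
    [AddCommGroup N] [Module R N] (m : ℕ) (x : ι → N) : (mact A N ^ m) x = mact (A ^ m) N x := by
  induction m with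
  | zero => rw [pow_zero, pow_zero, ← one_smul R (1 : Matrix ι ι R), mact_smul_one, one_smul]; rfl
  | succ m ih => rw [pow_succ', pow_succ', Module.End.mul_apply, ih, mact_mul]

/-- the tensor power with coefficients and cyclic action. -/
def onPow (F : Cx R) (l : ℕ) (N : Type u) [AddCommGroup N] [Module R N] : EDG R (l + 1) where
  toDG := (F.pow l).on N
  τ := mact (F.rot l) N
  τ_d := (onHom (F.rot l) (F.rot_mul_d l) (F.rot_deg l) N).d
  τ_pr := (onHom (F.rot l) (F.rot_mul_d l) (F.rot_deg l) N).pr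
  τ_pow x := (pow_mact_pow (F.rot l) (l + 1) x).trans (by
    rw [rot_pow, ← one_smul R (1 : Matrix (F.pow l).ι (F.pow l).ι R)]
    exact (mact_smul_one _ _).trans (one_smul R x))

/-- `l` times the cyclic Adams operation of order `l + 1`. -/
noncomputable def psi (Λ : Len R) (F : Cx R) (l : ℕ) (N : Type u) [AddCommGroup N] [Module R N] :
    ℝ :=
  (F.onPow l N).psi Λ

theorem onPow_τ_apply (F : Cx R) (l : ℕ) {N : Type u} [AddCommGroup N] [Module R N]
    (x : (Fin (l + 1) → F.ι) → N) (J : Fin (l + 1) → F.ι) :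
    mact (F.rot l) N x J = (-1 : R) ^ (F.deg (J 0) * ∑ k : Fin l, F.deg (J k.succ)) •
      x (J ∘ finRotate (l + 1)) := by
  show ∑ J' : Fin (l + 1) → F.ι, (if J' = J ∘ finRotate (l + 1) then F.powS J else 0) • x J' = _
  simp only [ite_smul, zero_smul, Finset.sum_ite_eq', Finset.mem_univ, if_true]
  rfl

theorem map_pow {R' : Type u} [CommRing R'] (F : Cx R) (φ : R →+* R') (l : ℕ) :
    (F.pow l).map φ = (F.map φ).pow l := by
  refine cx_ext (Matrix.ext fun (J J' : Fin (l + 1) → F.ι) => ?_)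
  show φ (∑ k, if ∀ j, j ≠ k → J j = J' j then
    (-1) ^ (∑ j ∈ Finset.Iio k, F.deg (J j)) * F.d (J k) (J' k) else 0) =
    ∑ k, if ∀ j, j ≠ k → J j = J' j then
    (-1) ^ (∑ j ∈ Finset.Iio k, F.deg (J j)) * φ (F.d (J k) (J' k)) else 0
  simp only [_root_.map_sum, apply_ite φ, map_mul, _root_.map_pow, map_neg, map_one, map_zero]

theorem Null_le_pow (F : Cx R) (l : ℕ) : F.Null ≤ (F.pow l).Null := fun _ ha => by
  obtain ⟨H, h, hH⟩ := exists_graded_of_mem_Null ha
  exact ⟨F.powOp 0 H, F.powD_null l h hH⟩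

/-- tensor power of a matrix between two complexes. -/
def kronP {F G : Cx R} (A : Matrix G.ι F.ι R) (l : ℕ) : Matrix (G.pow l).ι (F.pow l).ι R :=
  kron A l

theorem kron_mul_d {F G : Cx R} (A : Matrix G.ι F.ι R) (hd : A * F.d = G.d * A)
    (hA : ∀ a b, A a b ≠ 0 → G.deg a = F.deg b) (l : ℕ) :
    kronP A l * (F.pow l).d = (G.pow l).d * kronP A l :=
  powD_comm A hd hA (l + 1)

theorem kron_deg {F G : Cx R} (A : Matrix G.ι F.ι R) (hA : ∀ a b, A a b ≠ 0 → G.deg a = F.deg b)
    (l : ℕ) (J : (G.pow l).ι) (J' : (F.pow l).ι) (h : kronP A l J J' ≠ 0) :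
    (G.pow l).deg J = (F.pow l).deg J' :=
  Finset.sum_congr (s₁ := Finset.univ) rfl fun k _ => powKr_deg (n := l + 1) hA h k

theorem kron_mul_rot {F G : Cx R} (A : Matrix G.ι F.ι R)
    (hA : ∀ a b, A a b ≠ 0 → G.deg a = F.deg b) (l : ℕ) :
    kronP A l * F.rot l = G.rot l * kronP A l :=
  powR_comm A hA l

/-- tensor power of a map of complexes. -/
def powHom {F G : Cx R} (A : Matrix G.ι F.ι R) (hd : A * F.d = G.d * A)
    (hA : ∀ a b, A a b ≠ 0 → G.deg a = F.deg b) (l : ℕ) (N : Type u) [AddCommGroup N]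
    [Module R N] : EDG.Hom (F.onPow l N) (G.onPow l N) where
  toHom := onHom (kronP A l) (kron_mul_d A hd hA l) (kron_deg A hA l) N
  τ x := (mact_mul (kronP A l) (F.rot l) x).symm.trans
    ((congrArg (fun M => mact M N x) (kron_mul_rot A hA l)).trans
      (mact_mul (G.rot l) (kronP A l) x))

/-- change of coefficients. -/
def powMap (F : Cx R) (l : ℕ) {N N' : Type u} [AddCommGroup N] [Module R N] [AddCommGroup N']
    [Module R N'] (g : N →ₗ[R] N') : EDG.Hom (F.onPow l N) (F.onPow l N') where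
  toHom := (F.pow l).onMap g
  τ x := funext fun a => by
    show g (∑ b, F.rot l a b • x b) = ∑ b, F.rot l a b • g (x b)
    simp only [_root_.map_sum, map_smul]

variable (Λ : Len R) {N N' N'' : Type u} [AddCommGroup N] [Module R N] [AddCommGroup N']
  [Module R N'] [AddCommGroup N''] [Module R N''] {l : ℕ}

theorem hl_pow_zero (F : Cx R) (i : ℕ) : ((F.pow 0).on N).hl Λ i = (F.on N).hl Λ i := by
  refine (DG.Hom.qIso_of_bijective (X := (F.pow 0).on N) (Y := F.on N)
    ⟨LinearMap.funLeft R N fun (a : F.ι) (_ : Fin 1) => a,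
      fun (x : (Fin 1 → F.ι) → N) => funext fun (a : F.ι) => ?_,
      fun j (x : (Fin 1 → F.ι) → N) => funext fun (a : F.ι) => ?_⟩
    (LinearEquiv.funCongrLeft R N (Equiv.funUnique (Fin 1) F.ι).symm).bijective).hl_eq Λ i
  · show ∑ J : Fin 1 → F.ι, F.powD 1 (fun _ => a) J • x J = ∑ b, F.d a b • x fun _ => b
    rw [← Equiv.sum_comp (Equiv.funUnique (Fin 1) F.ι).symm]
    refine Finset.sum_congr rfl fun b _ => ?_
    congr 1
    rw [powD, Fin.sum_univ_one, if_pos fun j hj => absurd (Subsingleton.elim j 0) hj,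
      show Finset.Iio (0 : Fin 1) = ∅ from Finset.Iio_bot, Finset.sum_empty, pow_zero, one_mul]
    rfl
  · show (if ∑ _k : Fin 1, F.deg a = j then x fun _ => a else 0) =
      if F.deg a = j then x fun _ => a else 0
    rw [Fin.sum_univ_one]

theorem psi_congr (hl : IsUnit ((l + 1 : ℕ) : R)) (F : Cx R) (e : N ≃ₗ[R] N') :
    F.psi Λ l N = F.psi Λ l N' :=
  EDG.psi_congr Λ hl (F.powMap l e.toLinearMap)
    (DG.Hom.qIso_of_bijective _ e.bijective.comp_left)

theorem psi_add_coeff (hl : IsUnit ((l + 1 : ℕ) : R)) (F : Cx R) (f : N' →ₗ[R] N)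
    (g : N →ₗ[R] N'') (hf : Function.Injective f) (hfg : Function.Exact f g)
    (hg : Function.Surjective g) (h' : ((F.pow l).on N').h Λ ≠ ⊤)
    (h'' : ((F.pow l).on N'').h Λ ≠ ⊤) : F.psi Λ l N = F.psi Λ l N' + F.psi Λ l N'' :=
  EDG.psi_add Λ hl (F.powMap l f) (F.powMap l g) hf.comp_left (Cx2_exact (F.pow l) hfg)
    hg.comp_left h' h''

theorem psi_of_null (hl : IsUnit ((l + 1 : ℕ) : R)) (F : Cx R) (h : F.Null = ⊤) :
    F.psi Λ l N = 0 :=
  EDG.psi_eq_zero_of_h Λ hl (h_on_of_null Λ (F.pow l) (top_le_iff.1 (h ▸ F.Null_le_pow l)))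

theorem psi_pt : (pt R).psi Λ l N = l * (Λ.val N).toReal := by
  have h1 : (((pt R).pow l).on N).chi Λ = ((pt R).on N).chi Λ := by
    refine DG.chi_congr Λ ((DG.Hom.qIso_of_bijective (X := ((pt R).pow l).on N) (Y := (pt R).on N)
      ⟨LinearMap.funLeft R N fun (a : Unit) (_ : Fin (l + 1)) => a,
        fun (x : (Fin (l + 1) → Unit) → N) => funext fun (a : Unit) => ?_,
        fun j (x : (Fin (l + 1) → Unit) → N) => funext fun (a : Unit) => ?_⟩
      (LinearEquiv.funCongrLeft R N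
        (Equiv.ofUnique Unit (Fin (l + 1) → Unit))).bijective).hl_eq Λ)
    · show ∑ J : Fin (l + 1) → Unit, (pt R).powD (l + 1) (fun _ => a) J • x J =
        ∑ b : Unit, (0 : R) • x fun _ => b
      simp [powD, pt]
    · show (if ∑ _k : Fin (l + 1), 0 = j then x fun _ => a else 0) =
        if 0 = j then x fun _ => a else 0
      rw [Finset.sum_const_zero]
  have h2 : ∀ x, ((pt R).onPow l N).τ x = x := fun (x : (Fin (l + 1) → Unit) → N) =>
    funext fun (J : Fin (l + 1) → Unit) => by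
      refine (onPow_τ_apply (pt R) l x J).trans ?_
      rw [show (pt R).deg (J 0) = 0 from rfl, zero_mul, pow_zero, one_smul]
      exact congrArg x (Subsingleton.elim _ _)
  rw [psi, EDG.psi_of_trivial Λ _ h2,
    show ((pt R).onPow l N).toDG = ((pt R).pow l).on N from rfl, h1, chi_pt]
  push_cast
  ring

end Cx

end Vale.Agent.P177
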