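import Vale.Agent.P177.Eqf2
import Vale.Agent.P177.Len2

/-! Finiteness for boxes in tensor powers of split complexes. -/

namespace Vale.Agent.P177

universe u

variable {R : Type u} [CommRing R] {l : ℕ}

theorem Pure0_rel_inf (Λ : Len R) {X : Type u} [AddCommGroup X] [Module R X]
    (A B C : Submodule R X) : Λ.rel A (B ⊓ C) ≤ Λ.rel A B + Λ.rel A C := by
  refine (Λ.rel_le_add A (A ⊓ B) (B ⊓ C)).trans (add_le_add (Λ.rel_inf A B).le ?_)
  rw [← Λ.rel_inf (A ⊓ B) (B ⊓ C)]
  refine le_trans (Λ.rel_mono le_rfl (B' := (A ⊓ B) ⊓ C) ?_) ?_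
  · exact le_inf inf_le_left (inf_le_inf_right C inf_le_right)
  · rw [Λ.rel_inf]
    exact Λ.rel_mono inf_le_left le_rfl

theorem Pure0_rel_finset (Λ : Len R) {X : Type u} [AddCommGroup X] [Module R X] {σ : Type}
    (A : Submodule R X) (B : σ → Submodule R X) (h : ∀ s, Λ.rel A (B s) ≠ ⊤) (t : Finset σ) :
    Λ.rel A (t.inf B) ≠ ⊤ := by
  classical
  induction t using Finset.induction_on with
  | empty =>
    rw [Finset.inf_empty, Λ.rel_of_le le_top]
    exact ENNReal.zero_ne_top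
  | insert s t _ ih =>
    rw [Finset.inf_insert]
    exact ne_top_of_le_ne_top (ENNReal.add_ne_top.2 ⟨h s, ih⟩) (Pure0_rel_inf Λ _ _ _)

/-- a complex that is a finite product, disregarding the grading. -/
theorem Pure0_h_prod (Λ : Len R) {σ : Type} [Fintype σ] (X : DG R) (Y : σ → DG R)
    (f : ∀ s, X.M →ₗ[R] (Y s).M) (hd : ∀ s x, f s (X.d x) = (Y s).d (f s x))
    (hi : ∀ x x', (∀ s, f s x = f s x') → x = x')
    (hs : ∀ y : ∀ s, (Y s).M, ∃ x, ∀ s, f s x = y s) (hfin : ∀ s, (Y s).h Λ ≠ ⊤) : X.h Λ ≠ ⊤ := by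
  refine ne_top_of_le_ne_top (Pure0_rel_finset Λ (LinearMap.ker X.d)
    (fun s => (LinearMap.range (Y s).d).comap (f s)) (fun s => ?_) Finset.univ)
    (Λ.rel_mono le_rfl fun x hx => ?_)
  · rw [← Λ.rel_map_comap]
    refine ne_top_of_le_ne_top (hfin s) (Λ.rel_mono ?_ le_rfl)
    rintro _ ⟨x, hx, rfl⟩
    rw [LinearMap.mem_ker, ← hd, LinearMap.mem_ker.1 hx, map_zero]
  · have h1 : ∀ s, ∃ y, (Y s).d y = f s x := fun s =>
      (Submodule.mem_finsetInf.1 hx) s (Finset.mem_univ s)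
    choose y hy using h1
    obtain ⟨z, hz⟩ := hs y
    exact ⟨z, hi _ _ fun s => by rw [hd, hz, hy]⟩

theorem Pure0_pow_d (F : Cx R) (J J' : Fin (l + 1) → F.ι) : (F.pow l).d J J' =
    ∑ k, if ∀ j, j ≠ k → J j = J' j then
      (-1) ^ (∑ j ∈ Finset.Iio k, F.deg (J j)) * F.d (J k) (J' k) else 0 := rfl

section Split

variable {F G : Cx R} {κ : Type} (e : κ × F.ι ≃ G.ι) (c : κ → ℕ)

/-- the sign comparing a summand with the tensor power. -/
def Pure0_sg (F : Cx R) (c : κ → ℕ) (s : Fin (l + 1) → κ) (J : Fin (l + 1) → F.ι) : R :=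
  (-1) ^ ∑ m, (∑ j ∈ Finset.Iio m, c (s j) + c (s m)) * F.deg (J m)

theorem Pure0_sg_mul (s : Fin (l + 1) → κ) (J : Fin (l + 1) → F.ι) :
    Pure0_sg F c s J * Pure0_sg F c s J = 1 := by
  rw [Pure0_sg, ← pow_add, ← two_mul, pow_mul]
  simp

theorem Pure0_d_eq (hdeg : ∀ b i, G.deg (e (b, i)) = F.deg i + c b)
    (hd : ∀ b i i', G.d (e (b, i)) (e (b, i')) = (-1) ^ c b * F.d i i')
    (s : Fin (l + 1) → κ) (J J' : Fin (l + 1) → F.ι) :
    Pure0_sg F c s J * (G.pow l).d (fun k => e (s k, J k)) (fun k => e (s k, J' k)) =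
      (F.pow l).d J J' * Pure0_sg F c s J' := by
  rw [Pure0_pow_d, Pure0_pow_d, Finset.mul_sum, Finset.sum_mul]
  refine Finset.sum_congr rfl fun k _ => ?_
  simp only [EmbeddingLike.apply_eq_iff_eq, Prod.mk.injEq, true_and]
  split_ifs with h
  · by_cases h0 : F.d (J k) (J' k) = 0
    · rw [hd, h0]
      simp
    have h1 := F.hdeg _ _ h0
    have h2 : ∑ m, (∑ j ∈ Finset.Iio m, c (s j) + c (s m)) * F.deg (J' m) =
        ∑ m, (∑ j ∈ Finset.Iio m, c (s j) + c (s m)) * F.deg (J m) +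
          (∑ j ∈ Finset.Iio k, c (s j) + c (s k)) := by
      have h3 : ∀ m, (∑ j ∈ Finset.Iio m, c (s j) + c (s m)) * F.deg (J' m) =
          (∑ j ∈ Finset.Iio m, c (s j) + c (s m)) * F.deg (J m) +
            if m = k then ∑ j ∈ Finset.Iio k, c (s j) + c (s k) else 0 := by
        intro m
        split_ifs with hm
        · rw [hm, h1, mul_add, mul_one]
        · rw [h m hm, add_zero]
      simp only [h3, Finset.sum_add_distrib, Finset.sum_ite_eq', Finset.mem_univ, if_true]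
    simp only [hd, hdeg, Pure0_sg, h2, Finset.sum_add_distrib, pow_add]
    ring
  · simp

theorem Pure0_d_ne (hd : ∀ b b' i i', b ≠ b' → G.d (e (b, i)) (e (b', i')) = 0)
    {s s' : Fin (l + 1) → κ} (hs : s ≠ s') (J J' : Fin (l + 1) → F.ι) :
    (G.pow l).d (fun k => e (s k, J k)) (fun k => e (s' k, J' k)) = 0 := by
  obtain ⟨j, hj⟩ := Function.ne_iff.1 hs
  rw [Pure0_pow_d]
  refine Finset.sum_eq_zero fun k _ => ?_
  split_ifs with h
  · rcases eq_or_ne j k with rfl | hjk
    · rw [hd _ _ _ _ hj, mul_zero]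
    · exact absurd (congrArg Prod.fst (e.injective (h j hjk))) hj
  · rfl

variable {N : Type u} [AddCommGroup N] [Module R N]

theorem Pure0_mact (hdeg : ∀ b i, G.deg (e (b, i)) = F.deg i + c b)
    (hd : ∀ b i i', G.d (e (b, i)) (e (b, i')) = (-1) ^ c b * F.d i i')
    (hd' : ∀ b b' i i', b ≠ b' → G.d (e (b, i)) (e (b', i')) = 0)
    (s : Fin (l + 1) → κ) (x : (G.pow l).ι → N) (J : Fin (l + 1) → F.ι) :
    Pure0_sg F c s J • mact (G.pow l).d N x (fun k => e (s k, J k)) =
      ∑ J' : (F.pow l).ι, (F.pow l).d J J' • Pure0_sg F c s J' • x fun k => e (s k, J' k) := by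
  refine (congrArg _ (mact_apply (G.pow l).d x _)).trans (Finset.smul_sum.trans (Eq.symm ?_))
  refine Fintype.sum_of_injective (fun (J' : (F.pow l).ι) k => e (s k, J' k))
    (fun J₁ J₂ h => funext fun k => congrArg Prod.snd (e.injective (congrFun h k))) _ _
    (fun K hK => ?_) fun J' => ?_
  · have h1 : K = fun k => e ((e.symm (K k)).1, (e.symm (K k)).2) := by simp
    have h2 : s ≠ fun k => (e.symm (K k)).1 := by
      rintro rfl
      exact hK ⟨_, h1.symm⟩
    rw [h1, Pure0_d_ne e hd' h2, zero_smul, smul_zero]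
  · rw [smul_smul, smul_smul]
    exact congrArg (· • _) (Pure0_d_eq e c hdeg hd s J J').symm

/-- finiteness for a box in a power of a sum of shifted copies of a complex. -/
theorem Pure0_box_ne_top [Fintype κ] (Λ : Len R) (hdeg : ∀ b i, G.deg (e (b, i)) = F.deg i + c b)
    (hd : ∀ b i i', G.d (e (b, i)) (e (b, i')) = (-1) ^ c b * F.d i i')
    (hd' : ∀ b b' i i', b ≠ b' → G.d (e (b, i)) (e (b', i')) = 0)
    (A : (Fin (l + 1) → G.ι) → Submodule R N) (hA : (G.onPow l N).Stable (Cx.box A))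
    (W : (Fin (l + 1) → κ) → Submodule R N) 
    (hW : ∀ s (J : Fin (l + 1) → F.ι), A (fun k => e (s k, J k)) = W s)
    (hfin : ∀ s, ((F.pow l).on (W s)).h Λ ≠ ⊤) : ((G.onPow l N).sub _ hA).toDG.h Λ ≠ ⊤ := by
  classical
  have hm : ∀ s (x : Cx.box A) (J : Fin (l + 1) → F.ι),
      Pure0_sg F c s J • x.1 (fun k => e (s k, J k)) ∈ W s := fun s x J =>
    Submodule.smul_mem _ _ (hW s J ▸ x.2 _ (Set.mem_univ _))
  let f : ∀ s, Cx.box A →ₗ[R] (Fin (l + 1) → F.ι) → W s := fun s =>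
    { toFun := fun x J => ⟨_, hm s x J⟩
      map_add' := fun x y => funext fun J => Subtype.ext (smul_add _ _ _)
      map_smul' := fun r x => funext fun J => Subtype.ext (smul_comm _ _ _) }
  refine Pure0_h_prod Λ _ (fun s => (F.pow l).on (W s)) f (fun s x => ?_) (fun x x' h => ?_)
    (fun y => ?_) hfin
  · refine funext fun J => Subtype.ext ((Pure0_mact e c hdeg hd hd' s x.1 J).trans ?_)
    exact (Submodule.coe_sum (W s) (fun J' : (F.pow l).ι => (F.pow l).d J J' • f s x J') _).symm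
  · refine Subtype.ext (funext fun K => ?_)
    have h1 : K = fun k => e ((e.symm (K k)).1, (e.symm (K k)).2) := by simp
    have key : ∀ (s : Fin (l + 1) → κ) (J : Fin (l + 1) → F.ι),
        x.1 (fun k => e (s k, J k)) = x'.1 fun k => e (s k, J k) := fun s J => by
      have h2 : Pure0_sg F c s J • x.1 (fun k => e (s k, J k)) =
          Pure0_sg F c s J • x'.1 fun k => e (s k, J k) :=
        congrArg Subtype.val (congrFun (h s) J)
      have h3 := congrArg (Pure0_sg F c s J • ·) h2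
      simpa only [smul_smul, Pure0_sg_mul, one_smul] using h3
    rw [h1]
    exact key _ _
  · refine ⟨⟨fun K => Pure0_sg F c (fun k => (e.symm (K k)).1) (fun k => (e.symm (K k)).2) •
      (y (fun k => (e.symm (K k)).1) fun k => (e.symm (K k)).2).1, fun K _ => ?_⟩, fun s => ?_⟩
    · have h1 : K = fun k => e ((e.symm (K k)).1, (e.symm (K k)).2) := by simp
      have h2 : A K = W fun k => (e.symm (K k)).1 := by rw [← hW _ fun k => (e.symm (K k)).2, ← h1]
      exact h2.ge (Submodule.smul_mem _ _ (Subtype.prop _))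
    · refine funext fun J => Subtype.ext ?_
      have key : ∀ (s' : Fin (l + 1) → κ) (J' : Fin (l + 1) → F.ι), s' = s → J' = J →
          Pure0_sg F c s J • Pure0_sg F c s' J' • (y s' J').1 = (y s J).1 := by
        rintro _ _ rfl rfl
        rw [smul_smul, Pure0_sg_mul, one_smul]
      exact key _ _ (by simp) (by simp)

end Split

end Vale.Agent.P177
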