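import Vale.Agent.P177.Eqf2
import Vale.Agent.P177.Amp
import Vale.Agent.P177.Pure0Aux

/-! Additivity and Koszul complexes. -/

namespace Vale.Agent.P177

open RingTheory.Sequence

universe u

variable {R : Type u} [CommRing R] {l : ℕ}

theorem Pure0_sub_top (hl : IsUnit ((l + 1 : ℕ) : R)) (Λ : Len R) (X : EDG R (l + 1))
    (A : Submodule R X.M) (hA : X.Stable A) (h : ∀ x, x ∈ A) : (X.sub A hA).psi Λ = X.psi Λ :=
  EDG.psi_congr Λ hl (⟨X.toDG.subHom A hA.toStable, fun _ => rfl⟩ : EDG.Hom (X.sub A hA) X)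
    (DG.Hom.qIso_of_bijective _ ⟨Subtype.val_injective, fun x => ⟨⟨x, h x⟩, rfl⟩⟩)

theorem Pure0_h_congr (Λ : Len R) {N N' : Type u} [AddCommGroup N] [Module R N] [AddCommGroup N']
    [Module R N'] (F : Cx R) (e : N ≃ₗ[R] N') : (F.on N).h Λ = (F.on N').h Λ :=
  DG.h_congr Λ (F.hl_on_congr Λ e)

/-- passing from a box to the graded complex. -/
theorem Pure0_gr (hp : (l + 1).Prime) (hl : IsUnit ((l + 1 : ℕ) : R)) (Λ : Len R) {N : Type u}
    [AddCommGroup N] [Module R N] (G : Cx R) (pat : G.ι → ℕ)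
    (h : ∀ a b, G.d a b ≠ 0 → pat a ≤ pat b) (hm : ∀ a, pat a < 2)
    (A : (Fin (l + 1) → G.ι) → Submodule R N) (hL : (G.onPow l N).Stable (Cx.box A))
    (hA : ((G.gr pat h).onPow l N).Stable (Cx.box A))
    (hfin : (((G.gr pat h).onPow l N).sub _ hA).toDG.h Λ ≠ ⊤) :
    ((G.onPow l N).sub _ hL).toDG.h Λ ≠ ⊤ ∧ ∃ hv : ∀ v, ((G.gr pat h).onPow l N).Stable
      (Cx.box fun J => if ∀ k, pat (J k) = v then A J else ⊥),
      ((G.onPow l N).sub _ hL).psi Λ = (((G.gr pat h).onPow l N).sub _ (hv 0)).psi Λ +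
        (((G.gr pat h).onPow l N).sub _ (hv 1)).psi Λ := by
  obtain ⟨h1, h2⟩ := Cx.psi_eq_gr Λ hl G pat h _ hL A hA (fun x hx J _ => hx J (Set.mem_univ J))
    (fun J y hy => ⟨Pi.single J y, fun J' _ => by
      rcases eq_or_ne J' J with rfl | hJ
      · exact (Pi.single_eq_same (M := fun _ => N) J' y).symm ▸ hy
      · exact (Pi.single_eq_of_ne (M := fun _ => N) hJ y).symm ▸ (A J').zero_mem,
      Pi.single_eq_same _ _, fun J' hJ _ => Pi.single_eq_of_ne hJ _⟩) hfin
  obtain ⟨hv, h3⟩ := Cx.psi_eq_sum_const Λ hp hl (G.gr pat h) pat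
    (fun a b hab => by
      by_contra hn
      exact hab (if_neg hn)) A hA hfin 2 hm
  refine ⟨h1, hv, h2.trans (h3.trans ?_)⟩
  rw [Finset.sum_range_succ, Finset.sum_range_one]

theorem Cx.IsExt.psi_add (hp : (l + 1).Prime) (hl : IsUnit ((l + 1 : ℕ) : R)) (Λ : Len R)
    {N : Type u} [AddCommGroup N] [Module R N] {C' C C'' : Cx R} (h : Cx.IsExt C' C C'')
    (hfin : (((C'.sum C'').pow l).on N).h Λ ≠ ⊤) :
    C.psi Λ l N = C'.psi Λ l N + C''.psi Λ l N := by
  obtain ⟨e, e1, e2, e3, e4, e5⟩ := h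
  let pat : C.ι → ℕ := fun c => Sum.elim (fun _ => 0) (fun _ => 1) (e.symm c)
  have p0 : ∀ a, pat (e (.inl a)) = 0 := fun a => by simp [pat]
  have p1 : ∀ a, pat (e (.inr a)) = 1 := fun a => by simp [pat]
  have hpat : ∀ a b, C.d a b ≠ 0 → pat a ≤ pat b := by
    intro a b hab
    obtain ⟨a | a, rfl⟩ := e.surjective a
    · rw [p0]
      exact Nat.zero_le _
    · obtain ⟨b | b, rfl⟩ := e.surjective b
      · exact absurd (e5 a b) hab
      · rw [p1, p1]
  have hm : ∀ a, pat a < 2 := fun a => by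
    obtain ⟨a | a, rfl⟩ := e.surjective a
    · rw [p0]
      exact two_pos
    · rw [p1]
      exact one_lt_two
  have hst : ∀ G : Cx R, (G.onPow l N).Stable (Cx.box fun _ => ⊤) := fun G =>
    G.stable_box _ (fun _ => rfl) fun _ _ _ _ _ => trivial
  have gd : ∀ a b, (C.gr pat hpat).d a b = if pat a = pat b then C.d a b else 0 := fun _ _ => rfl
  obtain ⟨-, hv, h1⟩ := Pure0_gr hp hl Λ C pat hpat hm _ (hst C) (hst _)
    (Pure0_box_ne_top (F := C'.sum C'') (G := C.gr pat hpat)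
      ((Equiv.punitProd.{0, 0} _).trans e) (fun _ => 0) Λ
      (by
        rintro _ (a | a)
        · exact e1 a
        · exact e2 a)
      (by
        rintro _ (a | a) (b | b) <;> rw [pow_zero, one_mul]
        · exact (gd _ _).trans ((if_pos ((p0 a).trans (p0 b).symm)).trans (e3 a b))
        · exact (gd _ _).trans (if_neg fun hh => zero_ne_one ((p0 a).symm.trans (hh.trans (p1 b))))
        · exact (gd _ _).trans (if_neg fun hh => one_ne_zero ((p1 a).symm.trans (hh.trans (p0 b))))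
        · exact (gd _ _).trans ((if_pos ((p1 a).trans (p1 b).symm)).trans (e4 a b)))
      (fun _ _ _ _ hb => absurd rfl hb) _ (hst _) (fun _ => ⊤) (fun _ _ => rfl)
      fun _ => (Pure0_h_congr Λ _ Submodule.topEquiv).trans_ne hfin)
  rw [Pure0_sub_top hl Λ _ _ (hst C) fun x J _ => trivial] at h1
  have h2 := Cx.psi_box_eq Λ (F := C') (G := C.gr pat hpat) (fun a => e (.inl a))
    (e.injective.comp Sum.inl_injective) e1
    (fun a b => (gd _ _).trans ((if_pos ((p0 a).trans (p0 b).symm)).trans (e3 a b))) _ (hv 0) ⊤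
    (fun J => if_pos fun k => p0 _) fun J ⟨k, hk⟩ => if_neg fun hh => by
      obtain ⟨a | a, ha⟩ := e.surjective (J k)
      · exact hk ⟨a, ha⟩
      · exact one_ne_zero ((p1 a).symm.trans (ha ▸ hh k))
  have h3 := Cx.psi_box_eq Λ (F := C'') (G := C.gr pat hpat) (fun a => e (.inr a))
    (e.injective.comp Sum.inr_injective) e2
    (fun a b => (gd _ _).trans ((if_pos ((p1 a).trans (p1 b).symm)).trans (e4 a b))) _ (hv 1) ⊤
    (fun J => if_pos fun k => p1 _) fun J ⟨k, hk⟩ => if_neg fun hh => by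
      obtain ⟨a | a, ha⟩ := e.surjective (J k)
      · exact zero_ne_one ((p0 a).symm.trans (ha ▸ hh k))
      · exact hk ⟨a, ha⟩
  rw [← C'.psi_congr Λ hl Submodule.topEquiv, ← C''.psi_congr Λ hl Submodule.topEquiv, ← h2, ← h3]
  exact h1

section Quot

variable (N : Type u) [AddCommGroup N] [Module R N]

/-- the quotient by the multiples of an element. -/
abbrev Pure0Q (a : R) : Type u := N ⧸ Ideal.span {a} • (⊤ : Submodule R N)

variable {N}

theorem Pure0_mem {a : R} {x : N} : x ∈ Ideal.span {a} • (⊤ : Submodule R N) ↔ ∃ y, a • y = x := by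
  rw [Len2_span_smul, Submodule.map_top]
  rfl

theorem Pure0_mk_eq_zero {a : R} {x : N} :
    (Submodule.Quotient.mk x : Pure0Q N a) = 0 ↔ ∃ y, a • y = x :=
  (Submodule.Quotient.mk_eq_zero _).trans Pure0_mem

/-- multiplication between quotients. -/
def Pure0_mul (b c d : R) (h : b * c = d) : Pure0Q N c →ₗ[R] Pure0Q N d :=
  Submodule.mapQ _ _ (LinearMap.lsmul R N b) fun x hx => by
    obtain ⟨y, rfl⟩ := Pure0_mem.1 hx
    exact Pure0_mem.2 ⟨y, by rw [← h, mul_smul]; rfl⟩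

theorem Pure0_mul_inj {b c d : R} (h : b * c = d) (hb : IsSMulRegular N b) :
    Function.Injective (Pure0_mul (N := N) b c d h) := by
  rw [injective_iff_map_eq_zero]
  intro x hx
  obtain ⟨x, rfl⟩ := Submodule.Quotient.mk_surjective _ x
  obtain ⟨y, hy⟩ := (Pure0_mk_eq_zero (x := b • x)).1 hx
  rw [← h, mul_smul] at hy
  exact Pure0_mk_eq_zero.2 ⟨y, hb hy⟩

theorem Pure0_mul_range {b c d : R} (h : b * c = d) : LinearMap.range (Pure0_mul (N := N) b c d h)
    = LinearMap.range (LinearMap.lsmul R (Pure0Q N d) b) := by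
  ext z
  constructor
  · rintro ⟨x, rfl⟩
    obtain ⟨x, rfl⟩ := Submodule.Quotient.mk_surjective _ x
    exact ⟨Submodule.Quotient.mk x, rfl⟩
  · rintro ⟨x, rfl⟩
    obtain ⟨x, rfl⟩ := Submodule.Quotient.mk_surjective _ x
    exact ⟨Submodule.Quotient.mk x, rfl⟩

theorem Pure0_pow (hl : IsUnit ((l + 1 : ℕ) : R)) (Λ : Len R) (F : Cx R) {a : R}
    (ha : IsSMulRegular N a) (hfin : ((F.pow l).on (Pure0Q N a)).h Λ ≠ ⊤) (i : ℕ) :
    ((F.pow l).on (Pure0Q N (a ^ i))).h Λ ≠ ⊤ ∧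
      F.psi Λ l (Pure0Q N (a ^ i)) = i * F.psi Λ l (Pure0Q N a) := by
  induction i with
  | zero =>
    have h1 : Subsingleton (Pure0Q N (a ^ 0)) :=
      Submodule.Quotient.subsingleton_iff.2 (eq_top_iff.2 fun x _ => Pure0_mem.2 ⟨x, by simp⟩)
    have h2 : ((F.pow l).on (Pure0Q N (a ^ 0))).h Λ = 0 :=
      le_antisymm ((Cx.h_on_le Λ _).trans (by rw [Λ.zero _ h1, mul_zero])) zero_le
    refine ⟨h2.trans_ne ENNReal.zero_ne_top, ?_⟩
    rw [Nat.cast_zero, zero_mul]
    exact EDG.psi_eq_zero_of_h Λ hl h2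
  | succ i ih =>
    have hle : Ideal.span {a ^ (i + 1)} • (⊤ : Submodule R N) ≤ Ideal.span {a} • ⊤ := fun x hx => by
      obtain ⟨y, rfl⟩ := Pure0_mem.1 hx
      exact Pure0_mem.2 ⟨a ^ i • y, by rw [pow_succ', mul_smul]⟩
    have h1 := Pure0_mul_inj (pow_succ' a i).symm ha
    have h2 : Function.Exact (Pure0_mul (N := N) _ _ _ (pow_succ' a i).symm)
        (Submodule.factor hle) := by
      intro z
      obtain ⟨x, rfl⟩ := Submodule.Quotient.mk_surjective _ z
      refine (Pure0_mk_eq_zero (x := x)).trans ⟨?_, ?_⟩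
      · rintro ⟨y, rfl⟩
        exact ⟨Submodule.Quotient.mk y, rfl⟩
      · rintro ⟨y, hy⟩
        obtain ⟨y, rfl⟩ := Submodule.Quotient.mk_surjective _ y
        have h3 := hle ((Submodule.Quotient.eq _).1 hy.symm)
        obtain ⟨w, hw⟩ := Pure0_mem.1 h3
        exact ⟨w + y, by rw [smul_add, hw]; exact sub_add_cancel _ _⟩
    have h3 := Submodule.factor_surjective hle
    refine ⟨ne_top_of_le_ne_top (ENNReal.add_ne_top.2 ⟨ih.1, hfin⟩)
      (Cx.h_on_le_add Λ _ _ _ h1 h2 h3), ?_⟩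
    rw [F.psi_add_coeff Λ hl _ _ h1 h2 h3 ih.1 hfin, ih.2, Nat.cast_succ, add_mul, one_mul]

theorem Pure0_kron {ι : Type} [Fintype ι] [DecidableEq ι] (w : ι → R) (x : (Fin (l + 1) → ι) → N)
    (J : Fin (l + 1) → ι) : mact (kron (Matrix.diagonal w) l) N x J = (∏ k, w (J k)) • x J := by
  rw [mact_apply, Finset.sum_eq_single J]
  · simp [kron]
  · intro J' _ h
    obtain ⟨k, hk⟩ := Function.ne_iff.1 h
    rw [kron, Finset.prod_eq_zero (Finset.mem_univ k) (Matrix.diagonal_apply_ne' w hk), zero_smul]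
  · exact fun h => absurd (Finset.mem_univ J) h

theorem Pure0_stable (G : Cx R) (w : G.ι → R) (h : ∀ i j, G.d i j ≠ 0 → w i ∣ w j) :
    (G.onPow l N).Stable (Cx.box fun J => LinearMap.range (LinearMap.lsmul R N (∏ k, w (J k)))) := by
  refine G.stable_box _ (fun J => ?_) fun J k i y hy => ?_
  · exact congrArg (fun r => LinearMap.range (LinearMap.lsmul R N r))
      (Equiv.prod_comp (finRotate (l + 1)) fun k => w (J k))
  · by_cases h0 : G.d i (J k) = 0
    · rw [h0, zero_smul]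
      exact Submodule.zero_mem _
    obtain ⟨c, hc⟩ := h _ _ h0
    obtain ⟨z, rfl⟩ := hy
    refine Submodule.smul_mem _ _ ⟨c • z, ?_⟩
    have h1 : (fun j => w (Function.update J k i j)) = Function.update (fun j => w (J j)) k (w i) :=
      funext fun j => Function.apply_update (fun _ => w) J k i j
    rw [LinearMap.lsmul_apply, LinearMap.lsmul_apply, smul_smul, h1,
      Finset.prod_update_of_mem (Finset.mem_univ k),
      ← Finset.mul_prod_erase _ (fun j => w (J j)) (Finset.mem_univ k), hc, Finset.sdiff_singleton_eq_erase,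
      mul_right_comm]

end Quot

theorem Pure0_diag (F : Cx R) (b c s t : R) (h : s * b = c * t) :
    Matrix.diagonal (Sum.elim (fun _ => s) fun _ => t) *
        Matrix.fromBlocks F.d (b • (1 : Matrix F.ι F.ι R)) 0 (-F.d) =
      Matrix.fromBlocks F.d (c • (1 : Matrix F.ι F.ι R)) 0 (-F.d) *
        Matrix.diagonal (Sum.elim (fun _ => s) fun _ => t) := by
  ext (i | i) (j | j) <;> rw [Matrix.diagonal_mul, Matrix.mul_diagonal]
  · simp [mul_comm]
  · rcases eq_or_ne i j with rfl | hij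
    · simpa using h
    · simp [hij]
  · simp
  · simp [mul_comm]

theorem Cx.psi_kos (hp : (l + 1).Prime) (hl : IsUnit ((l + 1 : ℕ) : R)) (Λ : Len R) {N : Type u}
    [AddCommGroup N] [Module R N] (F : Cx R) {a : R} (ha : IsSMulRegular N a)
    (hfin : ((F.pow l).on (N ⧸ Ideal.span {a} • (⊤ : Submodule R N))).h Λ ≠ ⊤) :
    (F.kos a).psi Λ l N =
      ((l + 1 : ℕ) : ℝ) * F.psi Λ l (N ⧸ Ideal.span {a} • (⊤ : Submodule R N)) := by
  let w₁ : F.ι ⊕ F.ι → R := Sum.elim (fun _ => 1) fun _ => a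
  let w₂ : F.ι ⊕ F.ι → R := Sum.elim (fun _ => a) fun _ => 1
  have hw : ∀ J : Fin (l + 1) → F.ι ⊕ F.ι, (∏ k, w₁ (J k)) * ∏ k, w₂ (J k) = a ^ (l + 1) := by
    intro J
    rw [← Finset.prod_mul_distrib, Finset.prod_congr rfl (g := fun _ => a) fun k _ => by
      rcases J k with i | i <;> simp [w₁, w₂]]
    simp
  have hw1 : ∀ J : Fin (l + 1) → F.ι ⊕ F.ι, IsSMulRegular N (∏ k, w₁ (J k)) := fun J =>
    IsSMulRegular.of_mul (a := ∏ k, w₂ (J k)) (by rw [mul_comm, hw]; exact ha.pow _)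
  have hw2 : ∀ J : Fin (l + 1) → F.ι ⊕ F.ι, IsSMulRegular N (∏ k, w₂ (J k)) := fun J =>
    IsSMulRegular.of_mul (a := ∏ k, w₁ (J k)) (by rw [hw]; exact ha.pow _)
  have hw3 : ∀ J : Fin (l + 1) → F.ι ⊕ F.ι, ∃ i, a ^ i = ∏ k, w₂ (J k) := fun J =>
    (Submonoid.powers a).prod_mem fun k _ => by
      rcases J k with i | i
      · exact Submonoid.mem_powers a
      · exact one_mem _
  let pat : F.ι ⊕ F.ι → ℕ := Sum.elim (fun _ => 0) fun _ => 1
  have hpat : ∀ i j, (F.kos 1).d i j ≠ 0 → pat i ≤ pat j := by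
    rintro (i | i) (j | j) h
    exacts [le_rfl, zero_le_one, absurd rfl h, le_rfl]
  have hdv : ∀ i j, (F.kos 1).d i j ≠ 0 → w₁ i ∣ w₁ j := by
    rintro (i | i) (j | j) h
    exacts [dvd_rfl, one_dvd _, absurd rfl h, dvd_rfl]
  have hL := Pure0_stable (l := l) (N := Pure0Q N (a ^ (l + 1))) (F.kos 1) w₁ hdv
  have hA := Pure0_stable (l := l) (N := Pure0Q N (a ^ (l + 1))) ((F.kos 1).gr pat hpat) w₁
    fun i j h => hdv i j fun h' => h (ite_eq_right_iff.2 fun _ => h')
  let em : Bool × F.ι ≃ F.ι ⊕ F.ι := Equiv.boolProdEquivSum F.ι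
  let wb : Bool → R := fun b => cond b a 1
  have hwb : ∀ b i, w₁ (em (b, i)) = wb b := by rintro (_ | _) i <;> rfl
  obtain ⟨h1, hv, h2⟩ := Pure0_gr hp hl Λ (F.kos 1) pat hpat
    (by rintro (i | i) <;> simp [pat]) _ hL hA
    (Pure0_box_ne_top (F := F) (G := (F.kos 1).gr pat hpat) em Bool.toNat Λ
      (by rintro (_ | _) i <;> rfl)
      (by
        rintro (_ | _) i j
        · exact (one_mul (F.d i j)).symm.trans (by simp)
        · exact (neg_one_mul (F.d i j)).symm.trans (by simp))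
      (by
        rintro (_ | _) (_ | _) i j h
        exacts [absurd rfl h, rfl, rfl, absurd rfl h]) _ hA
      (fun s => LinearMap.range (LinearMap.lsmul R _ (∏ k, wb (s k))))
      (fun s J => congrArg (fun r => LinearMap.range (LinearMap.lsmul R _ r))
        (Finset.prod_congr rfl fun k _ => hwb _ _)) fun s => by
        rcases isEmpty_or_nonempty F.ι with hF | ⟨⟨i₀⟩⟩
        · refine ne_top_of_le_ne_top ?_ (Cx.h_on_le Λ _)
          have : IsEmpty (F.pow l).ι := ⟨fun J => hF.elim (J 0)⟩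
          simp
        obtain ⟨i, hi⟩ := hw3 fun k => em (s k, i₀)
        have k1 := hw fun k => em (s k, i₀)
        have k2 := hw1 fun k => em (s k, i₀)
        rw [← hi] at k1
        simp only [hwb] at k1 k2
        rw [← Pure0_mul_range k1,
          ← Pure0_h_congr Λ _ (LinearEquiv.ofInjective _ (Pure0_mul_inj k1 k2))]
        exact (Pure0_pow hl Λ F ha hfin i).1)
  have gd : ∀ i j, ((F.kos 1).gr pat hpat).d (.inl i) (.inl j) = F.d i j := fun _ _ => rfl
  have h3 := Cx.psi_box_eq Λ (F := F) (G := (F.kos 1).gr pat hpat) Sum.inl Sum.inl_injective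
    (fun _ => rfl) gd _ (hv 0) ⊤
    (fun J => (if_pos fun k => rfl).trans (LinearMap.range_eq_top.2 fun x =>
      ⟨x, (congrArg (· • x) Finset.prod_const_one).trans (one_smul R x)⟩))
    fun J ⟨k, hk⟩ => if_neg fun hh => by
      have k1 := hh k
      rcases hJ : J k with i | i
      · exact hk ⟨i, hJ.symm⟩
      · rw [hJ] at k1
        exact one_ne_zero k1
  have h4 := Cx.psi_box_eq Λ (F := F) (G := (F.kos 1).gr pat hpat) Sum.inl Sum.inl_injective
    (fun _ => rfl) gd _ (hv 1) ⊥ (fun J => if_neg fun hh => zero_ne_one (hh 0))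
    fun J _ => ite_eq_right_iff.2 fun hh => by
      have k1 : ∏ k, w₁ (J k) = a ^ (l + 1) := by
        rw [Finset.prod_congr rfl (g := fun _ => a) fun k _ => by
          have k2 := hh k
          rcases hJ : J k with i | i
          · rw [hJ] at k2
            exact absurd k2 zero_ne_one
          · rfl]
        simp
      rw [k1, LinearMap.range_eq_bot]
      refine LinearMap.ext fun x => ?_
      obtain ⟨x, rfl⟩ := Submodule.Quotient.mk_surjective _ x
      exact (Pure0_mk_eq_zero (x := a ^ (l + 1) • x)).2 ⟨x, rfl⟩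
  have h5 : F.psi Λ l (⊥ : Submodule R (Pure0Q N (a ^ (l + 1)))) = 0 :=
    EDG.psi_eq_zero_of_h Λ hl (le_antisymm ((Cx.h_on_le Λ _).trans
      (by rw [Λ.zero _ inferInstance, mul_zero])) zero_le)
  rw [h3, h4, h5, add_zero, F.psi_congr Λ hl Submodule.topEquiv,
    (Pure0_pow hl Λ F ha hfin (l + 1)).2] at h2
  have hdeg : ∀ (w : F.ι ⊕ F.ι → R) (b c : R) (i j : F.ι ⊕ F.ι), Matrix.diagonal w i j ≠ 0 →
      (F.kos b).deg i = (F.kos c).deg j := fun w b c i j h => by
    rcases eq_or_ne i j with rfl | hij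
    · rfl
    · exact absurd (Matrix.diagonal_apply_ne w hij) h
  let f := Cx.powHom (F := F.kos 1) (G := F.kos a) (Matrix.diagonal w₂)
    (Pure0_diag F 1 a a 1 (by simp))
    (hdeg w₂ a 1) l N
  let g₁ := Cx.powHom (F := F.kos a) (G := F.kos 1) (Matrix.diagonal w₁)
    (Pure0_diag F a 1 1 a rfl)
    (hdeg w₁ 1 a) l N
  let g₂ := (F.kos 1).powMap l (Ideal.span {a ^ (l + 1)} • (⊤ : Submodule R N)).mkQ
  have hf : ∀ x J, f.f x J = (∏ k, w₂ (J k)) • x J := Pure0_kron w₂
  have hg : ∀ x J, g₂.f (g₁.f x) J = Submodule.Quotient.mk ((∏ k, w₁ (J k)) • x J) := fun x J =>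
    congrArg Submodule.Quotient.mk (Pure0_kron w₁ x J)
  let g : EDG.Hom ((F.kos a).onPow l N) (((F.kos 1).onPow l _).sub _ hL) :=
    ⟨⟨(g₂.f ∘ₗ g₁.f).codRestrict _ fun x J _ => ⟨Submodule.Quotient.mk (x J), (hg x J).symm⟩,
      fun x => Subtype.ext ((congrArg g₂.f (g₁.d x)).trans (g₂.d _)),
      fun i x => Subtype.ext ((congrArg g₂.f (g₁.pr i x)).trans (g₂.pr i _))⟩,
      fun x => Subtype.ext ((congrArg g₂.f (g₁.τ x)).trans (g₂.τ _))⟩
  have hn : (F.kos 1).Null = ⊤ := (Ideal.eq_top_iff_one _).2 (F.mem_Null_kos 1)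
  have h6 := EDG.psi_add Λ hl f g
    (fun x y h => funext fun J => hw2 J ((hf x J).symm.trans ((congrFun h J).trans (hf y J))))
    (fun x => ⟨fun h => by
      have k1 : ∀ J, ∃ y, a ^ (l + 1) • y = (∏ k, w₁ (J k)) • x J := fun J =>
        Pure0_mk_eq_zero.1 ((hg x J).symm.trans (congrFun (congrArg Subtype.val h) J))
      choose y hy using k1
      refine ⟨y, funext fun J => (hf y J).trans (hw1 J ?_)⟩
      exact (mul_smul _ _ _).symm.trans ((congrArg (· • y J) (hw J)).trans (hy J)), by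
      rintro ⟨y, rfl⟩
      refine Subtype.ext (funext fun J => (hg _ J).trans (Pure0_mk_eq_zero.2 ⟨y J, ?_⟩))
      exact (congrArg (· • y J) (hw J)).symm.trans
        ((mul_smul _ _ _).trans (congrArg _ (hf y J).symm))⟩)
    (fun z => by
      have k1 : ∀ J, ∃ y : N, Submodule.Quotient.mk ((∏ k, w₁ (J k)) • y) = z.1 J := fun J => by
        obtain ⟨y, hy⟩ := z.2 J (Set.mem_univ J)
        obtain ⟨y, rfl⟩ := Submodule.Quotient.mk_surjective _ y
        exact ⟨y, hy⟩
      choose y hy using k1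
      exact ⟨y, Subtype.ext (funext fun J => (hg y J).trans (hy J))⟩)
    ((Cx.h_on_of_null Λ _ (top_le_iff.1 (hn ▸ (F.kos 1).Null_le_pow l))).trans_ne
      ENNReal.zero_ne_top) h1
  have h7 : ((F.kos 1).onPow l N).psi Λ = 0 := (F.kos 1).psi_of_null Λ hl hn
  rw [h7, zero_add, h2] at h6
  exact h6

theorem Cx.psi_kosL (hp : (l + 1).Prime) (hl : IsUnit ((l + 1 : ℕ) : R)) (Λ : Len R) {N : Type u}
    [AddCommGroup N] [Module R N] (y : List R) (hy : IsWeaklyRegular N y)
    (hfin : Λ.val (N ⧸ Ideal.ofList y • (⊤ : Submodule R N)) ≠ ⊤) :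
    ((Cx.pt R).kosL y).psi Λ l N = l * ((l + 1 : ℕ) : ℝ) ^ y.length *
      (Λ.val (N ⧸ Ideal.ofList y • (⊤ : Submodule R N))).toReal := by
  induction y generalizing N with
  | nil =>
    rw [Λ.congr (Submodule.quotEquivOfEqBot _ (by simp)), List.length_nil, pow_zero, mul_one]
    exact Cx.psi_pt Λ
  | cons a as ih =>
    obtain ⟨h1, h2⟩ := (isWeaklyRegular_cons_iff N a as).1 hy
    have e := Submodule.quotEquivOfEq _ _ (Submodule.ideal_span_singleton_smul a (⊤ : Submodule R N))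
    rw [Λ.congr (Submodule.quotOfListConsSMulTopEquivQuotSMulTopInner N a as)] at hfin ⊢
    have h3 : (((Cx.pt R).kosL as).on (QuotSMulTop a N)).h Λ ≠ ⊤ := by
      rw [DG.h_congr Λ ((Cx.pt R).hl_kosL_of_reg Λ h2), Cx.h_pt]
      exact hfin
    have h4 : ((((Cx.pt R).kosL as).pow l).on (QuotSMulTop a N)).h Λ ≠ ⊤ :=
      Cx.h_ne_top_of_thick Λ _ as (fun z hz => Ideal.le_radical (Ideal.mem_sup_left
        (Cx.Null_le_pow _ l (Cx.le_Null_kosL _ as (Ideal.mem_sup_right
          (Ideal.subset_span hz)))))) h3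
    have h5 := Cx.psi_kos hp hl Λ ((Cx.pt R).kosL as) h1 ((Pure0_h_congr Λ _ e).trans_ne h4)
    rw [Cx.psi_congr Λ hl _ e, ih h2 hfin] at h5
    refine h5.trans ?_
    rw [List.length_cons, pow_succ]
    ring

end Vale.Agent.P177
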