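import Mathlib

/-! Common zeros of polynomials and valuation rings over a normal domain. -/

namespace Vale.Agent.P177

open MvPolynomial

universe u

theorem rootAux_height (K : Type u) [Field K] (σ : Type) [Finite σ] :
    ∀ (m : Ideal (MvPolynomial σ K)), m.IsMaximal → m.height = Nat.card σ := by
  induction σ using Finite.induction_empty_option with
  | of_equiv e H =>
    intro m hm
    have := H (m.comap (renameEquiv K e).toRingEquiv) (Ideal.comap_isMaximal_of_equiv _)
    rw [RingEquiv.height_comap] at this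
    rw [this, Nat.card_congr e]
  | h_empty =>
    intro m hm
    have : m = ⊥ := by
      let e := (isEmptyRingEquiv K PEmpty)
      have h1 : (m.map e).IsMaximal := Ideal.map_isMaximal_of_equiv e
      have h2 := Ideal.eq_bot_of_prime (m.map e)
      rwa [Ideal.map_eq_bot_iff_of_injective e.injective] at h2
    simp [this]
  | @h_option α _ IH =>
    intro m hm
    let e := (optionEquivLeft K α).toRingEquiv
    have h1 : (m.map e).IsMaximal := Ideal.map_isMaximal_of_equiv e
    rw [← e.height_map]
    generalize m.map e = m' at h1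
    have h2 : m'.LiesOver (m'.under (MvPolynomial α K)) := ⟨rfl⟩
    rw [Polynomial.height_eq_height_add_one (m'.under (MvPolynomial α K)) m',
      IH (m'.under (MvPolynomial α K)) (Polynomial.isMaximal_comap_C_of_isJacobsonRing m')]
    simp

/-- fewer equations than unknowns: the origin is not the only solution. -/
theorem rootAux_zero {K : Type u} [Field K] [IsAlgClosed K] {n : ℕ}
    (F : Fin n → MvPolynomial (Fin (n + 1)) K) (h0 : ∀ i, eval 0 (F i) = 0) :
    ∃ x : Fin (n + 1) → K, x ≠ 0 ∧ ∀ i, eval x (F i) = 0 := by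
  classical
  by_contra hcon
  push Not at hcon
  set s : Finset (MvPolynomial (Fin (n + 1)) K) := Finset.univ.image F with hs
  have hz : zeroLocus K (Ideal.span (s : Set (MvPolynomial (Fin (n + 1)) K))) = {0} := by
    rw [zeroLocus_span]
    ext x
    simp only [hs, Finset.coe_image, Finset.coe_univ, Set.image_univ, Set.mem_range,
      forall_exists_index, forall_apply_eq_imp_iff, Set.mem_setOf_eq, Set.mem_singleton_iff,
      coe_aeval_eq_eval]
    refine ⟨fun h => ?_, fun h i => h ▸ h0 i⟩
    by_contra hx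
    obtain ⟨i, hi⟩ := hcon x hx
    exact hi (h i)
  have hr := vanishingIdeal_zeroLocus_eq_radical (K := K)
    (Ideal.span (s : Set (MvPolynomial (Fin (n + 1)) K)))
  rw [hz] at hr
  have hm : (vanishingIdeal K {(0 : Fin (n + 1) → K)}).IsMaximal := inferInstance
  have h1 : vanishingIdeal K {(0 : Fin (n + 1) → K)} ∈
      (Ideal.span (s : Set (MvPolynomial (Fin (n + 1)) K))).minimalPrimes := by
    rw [← Ideal.radical_minimalPrimes, ← hr, Ideal.minimalPrimes_eq_subsingleton_self]
    rfl
  have h2 := Ideal.height_le_card_of_mem_minimalPrimes_span_finset h1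
  rw [rootAux_height K _ _ hm] at h2
  have h3 : s.card ≤ n := Finset.card_image_le.trans (by simp)
  have h4 : Nat.card (Fin (n + 1)) ≤ s.card := by exact_mod_cast h2
  rw [Nat.card_eq_fintype_card, Fintype.card_fin] at h4
  omega

variable {E K : Type u} [CommRing E] [IsDomain E] [Field K] [Algebra E K] [IsFractionRing E K]

omit [Field K] [Algebra E K] [IsFractionRing E K] in
theorem rootAux_ne_top {t : E} (ht : ∀ x, IsUnit (1 + t * x)) : Ideal.span {t} ≠ ⊤ := by
  intro h
  obtain ⟨a, ha⟩ := (Ideal.span_singleton_eq_top.1 h).exists_right_inv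
  have := ht (-a)
  rw [mul_neg, ha, add_neg_cancel] at this
  exact not_isUnit_zero this

theorem rootAux_val0 {t : E} (ht : ∀ x, IsUnit (1 + t * x)) :
    ∃ V : ValuationSubring K, (∀ e, algebraMap E K e ∈ V) ∧ algebraMap E K t ∈ V.nonunits := by
  have h : Ideal.span {(algebraMap E K).rangeRestrict t} ≠ ⊤ := by
    intro h
    obtain ⟨a, ha⟩ := (Ideal.span_singleton_eq_top.1 h).exists_right_inv
    obtain ⟨e, rfl⟩ := (algebraMap E K).rangeRestrict_surjective a
    have h1 : algebraMap E K (t * e) = algebraMap E K 1 := by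
      rw [map_mul, map_one]
      exact congrArg Subtype.val ha
    exact rootAux_ne_top ht (Ideal.span_singleton_eq_top.2
      (IsUnit.of_mul_eq_one e (IsFractionRing.injective E K h1)))
  obtain ⟨V, hV⟩ := Ideal.image_subset_nonunits_valuationSubring _ h
  exact ⟨V, fun e => hV.1 ⟨e, rfl⟩, hV.2 ⟨_, Ideal.subset_span rfl, rfl⟩⟩

theorem rootAux_val [IsIntegrallyClosed E] {t : E} (ht : ∀ x, IsUnit (1 + t * x)) {x : K}
    (hx : ∀ V : ValuationSubring K, (∀ e, algebraMap E K e ∈ V) → algebraMap E K t ∈ V.nonunits →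
      x ∈ V) : ∃ e, algebraMap E K e = x := by
  by_contra hxR
  have hx0 : x ≠ 0 := fun h => hxR ⟨0, by rw [map_zero, h]⟩
  let := invertibleOfNonzero hx0
  let B := Algebra.adjoin E {x⁻¹}
  let xinv : B := ⟨x⁻¹, Algebra.subset_adjoin rfl⟩
  have h1 : (Ideal.span {t}).map (algebraMap E B) ⊔ .span {xinv} ≠ ⊤ := fun eq => by
    obtain ⟨q, hq, hqx⟩ := Algebra.exists_aeval_invOf_eq_zero_of_idealMap_adjoin_sup_span_eq_top
      x⁻¹ _ (rootAux_ne_top ht) eq
    obtain ⟨a, ha⟩ := Ideal.mem_span_singleton'.1 hq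
    have H : IsUnit q.leadingCoeff := by
      have := ht a
      rwa [mul_comm, ha, add_sub_cancel] at this
    refine hxR (IsIntegrallyClosed.isIntegral_iff.1 ⟨.C H.unit⁻¹.1 * q, ?_, ?_⟩)
    · simp [Polynomial.Monic]
    · simpa using .inr hqx
  obtain ⟨V, hV⟩ := Ideal.image_subset_nonunits_valuationSubring (A := B.toSubring) _ h1
  have h2 := hx V (fun e => hV.1 (B.algebraMap_mem e))
    (hV.2 ⟨_, Ideal.mem_sup_left (Ideal.mem_map_of_mem _ (Ideal.subset_span rfl)), rfl⟩)
  exact (V.inv_mem_nonunits_iff.1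
    (hV.2 ⟨xinv, Ideal.mem_sup_right (Ideal.subset_span rfl), rfl⟩)).resolve_left hx0 h2

end Vale.Agent.P177
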