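import Vale.Agent.P177.PlusBasic
import Vale.Agent.P177.RootAux
import Vale.Agent.P202.MxAndre

/-! Approximate Teichmueller roots. -/

namespace Vale.Agent.P177

open Polynomial Vale.Agent.P202

universe u

section Hom

open WittVector

variable {p : ℕ} [Fact p.Prime] {E : Type u} [CommRing E] (t : E) (P : (WittVector p E)[X])
  {n : ℕ} {B C : Type u} [CommRing B] [CommRing C]

/-- the homogeneous form of the equation. -/
noncomputable def rootG (g : E →+* B) (y : Fin (n + 2) → B) : WittVector p B :=
  ∑ k ∈ Finset.range (P.natDegree + 1), WittVector.map g (P.coeff k) *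
      (teichmuller p (y 1) ^ k * teichmuller p (y 0) ^ (P.natDegree - k)) -
    xi p (g t) * ∑ j : Fin n, teichmuller p (y j.succ.succ) ^ P.natDegree * (p : WittVector p B) ^ (j : ℕ)

theorem rootG_map (g : E →+* B) (h : B →+* C) (y : Fin (n + 2) → B) :
    WittVector.map h (rootG t P g y) = rootG t P (h.comp g) fun i => h (y i) := by
  simp only [rootG, xi, map_sub, map_sum, map_mul, map_pow, map_natCast, map_teichmuller]
  rfl

theorem rootG_smul (g : E →+* B) (c : B) (y : Fin (n + 2) → B) :
    (rootG t P g fun i => c * y i) = teichmuller p c ^ P.natDegree * rootG t P g y := by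
  simp only [rootG, map_mul, mul_pow, mul_sub, Finset.mul_sum]
  congr 1
  · refine Finset.sum_congr rfl fun k hk => ?_
    have hk' : k ≤ P.natDegree := Nat.lt_succ_iff.1 (Finset.mem_range.1 hk)
    have : teichmuller p c ^ P.natDegree =
        teichmuller p c ^ k * teichmuller p c ^ (P.natDegree - k) := by
      rw [← pow_add, Nat.add_sub_cancel' hk']
    rw [this]
    ring
  · exact Finset.sum_congr rfl fun j _ => by ring

theorem root_van_mul {m : ℕ} (a : WittVector p B) {b : WittVector p B}
    (h : ∀ i < m, b.coeff i = 0) : ∀ i < m, (a * b).coeff i = 0 :=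
  (mem_ker_truncate m _).1 (Ideal.mul_mem_left _ a ((mem_ker_truncate m _).2 h))

theorem rootG_one (y : Fin (n + 2) → E) (h : y 0 = 1) :
    P.eval (teichmuller p (y 1)) - rootG t P (RingHom.id E) y ∈ Ideal.span {xi p t} := by
  have e : P.eval (teichmuller p (y 1)) = ∑ k ∈ Finset.range (P.natDegree + 1),
      WittVector.map (RingHom.id E) (P.coeff k) *
        (teichmuller p (y 1) ^ k * teichmuller p (y 0) ^ (P.natDegree - k)) := by
    rw [eval_eq_sum_range, h, map_one]
    exact Finset.sum_congr rfl fun k _ => by rw [one_pow, mul_one]; rfl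
  rw [rootG, ← e, sub_sub_cancel]
  exact Ideal.mul_mem_right _ _ (Ideal.mem_span_singleton_self _)

theorem rootG_triv [IsDomain B] [CharP B p] (hP : P.Monic) (hd : 0 < P.natDegree) (g : E →+* B)
    (hg : g t = 0) (y : Fin (n + 2) → B) (h0 : y 0 = 0)
    (h : ∀ i < n + 1, (rootG t P g y).coeff i = 0) (i : Fin (n + 2)) : y i = 0 := by
  have hp := (Fact.out : p.Prime).pos
  have e : rootG t P g y = teichmuller p (y 1 ^ P.natDegree) -
      ∑ j : Fin n, teichmuller p (y j.succ.succ ^ P.natDegree) *
        (p : WittVector p B) ^ ((j : ℕ) + 1) := by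
    rw [rootG, Finset.sum_range_succ, Finset.sum_eq_zero, hP.coeff_natDegree, map_one,
      Nat.sub_self, pow_zero, mul_one, one_mul, zero_add, xi, hg, teichmuller_zero, sub_zero,
      Finset.mul_sum, map_pow]
    · congr 1
      exact Finset.sum_congr rfl fun j _ => by rw [map_pow]; ring
    · intro k hk
      rw [h0, teichmuller_zero, zero_pow (Nat.sub_ne_zero_of_lt (Finset.mem_range.1 hk)),
        mul_zero, mul_zero]
  rw [e, ← le_coeff_eq_iff_le_sub_coeff_eq_zero] at h
  have hs : ∀ m, (∑ j : Fin n, teichmuller p (y j.succ.succ ^ P.natDegree) *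
      (p : WittVector p B) ^ ((j : ℕ) + 1)).coeff m = ∑ j : Fin n,
      (teichmuller p (y j.succ.succ ^ P.natDegree) *
        (p : WittVector p B) ^ ((j : ℕ) + 1)).coeff m := by
    refine sum_coeff_eq_coeff_sum _ fun m => ⟨fun a b => Subtype.ext (Fin.ext ?_)⟩
    have ha : m = (a.1 : ℕ) + 1 := by
      by_contra hne
      exact a.2.2 (teichmuller_mul_pow_coeff_of_ne _ hne)
    have hb : m = (b.1 : ℕ) + 1 := by
      by_contra hne
      exact b.2.2 (teichmuller_mul_pow_coeff_of_ne _ hne)
    omega
  refine Fin.cases h0 (fun i => Fin.cases ?_ (fun j => ?_) i) i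
  · have h1 := h 0 (Nat.succ_pos n)
    rw [hs, teichmuller_coeff_zero, Finset.sum_eq_zero fun j _ =>
      teichmuller_mul_pow_coeff_of_ne _ (Nat.succ_ne_zero _).symm] at h1
    exact pow_eq_zero_iff hd.ne' |>.1 h1
  · have h1 := h ((j : ℕ) + 1) (Nat.succ_lt_succ j.2)
    rw [hs, teichmuller_coeff_pos p _ _ (Nat.succ_pos _), Finset.sum_eq_single j,
      teichmuller_mul_pow_coeff] at h1
    · exact (pow_eq_zero_iff hd.ne').1 ((pow_eq_zero_iff (pow_pos hp _).ne').1 h1.symm)
    · intro k _ hk
      exact teichmuller_mul_pow_coeff_of_ne _ fun h2 => hk (Fin.ext (by omega))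
    · exact fun h2 => absurd (Finset.mem_univ j) h2

theorem rootG_val {K : Type u} [Field K] [CharP E p] (hP : P.Monic) (hd : 0 < P.natDegree)
    (g : E →+* K) (x : Fin (n + 2) → K) (hx : x ≠ 0)
    (h : ∀ i < n + 1, (rootG t P g x).coeff i = 0) (V : ValuationSubring K) (hV : ∀ e, g e ∈ V)
    (ht : g t ∈ V.nonunits) : x 0 ≠ 0 ∧ ∀ i, (x 0)⁻¹ * x i ∈ V := by
  obtain ⟨i0, -, hi0⟩ := Finset.exists_max_image Finset.univ (fun i => V.valuation (x i))
    Finset.univ_nonempty
  have h0 : x i0 ≠ 0 := fun h1 => hx (funext fun i => by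
    have := hi0 i (Finset.mem_univ i)
    rw [h1, map_zero, le_zero_iff, Valuation.zero_iff] at this
    exact this)
  have hv0 : V.valuation (x i0) ≠ 0 := by rwa [Ne, Valuation.zero_iff]
  have hy : ∀ i, (x i0)⁻¹ * x i ∈ V := fun i => by
    rw [← V.valuation_le_one_iff, map_mul, map_inv₀, inv_mul_le_one₀ (zero_lt_iff.2 hv0)]
    exact hi0 i (Finset.mem_univ i)
  let y : Fin (n + 2) → V := fun i => ⟨_, hy i⟩
  let f : E →+* V := g.codRestrict V hV
  have h1 : ∀ i < n + 1, (rootG t P f y).coeff i = 0 := fun i hi => by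
    have e := rootG_map t P f V.subtype y
    have e' : (rootG t P (V.subtype.comp f) fun i => V.subtype (y i)) =
        rootG t P g fun i => (x i0)⁻¹ * x i := rfl
    rw [e', rootG_smul] at e
    have h2 := root_van_mul (teichmuller p (x i0)⁻¹ ^ P.natDegree) h i hi
    rw [← e, WittVector.map_coeff] at h2
    exact Subtype.ext h2
  let π := IsLocalRing.residue V
  have : CharP (IsLocalRing.ResidueField V) p := (CharP.charP_iff_prime_eq_zero Fact.out).2 (by
    rw [← map_natCast (π.comp f), CharP.cast_eq_zero, map_zero])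
  have hu : IsUnit (y 0) := by
    by_contra hu
    have h2 := rootG_triv t P hP hd (π.comp f) ((IsLocalRing.residue_eq_zero_iff _).2
      ((V.coe_mem_nonunits_iff (a := f t)).1 ht)) (fun i => π (y i))
      ((IsLocalRing.residue_eq_zero_iff _).2 hu) (fun i hi => by
        rw [← rootG_map, WittVector.map_coeff, h1 i hi, map_zero]) i0
    have h3 : y i0 = 1 := Subtype.ext (inv_mul_cancel₀ h0)
    rw [h3, map_one] at h2
    exact one_ne_zero h2
  obtain ⟨w, hw⟩ := hu.exists_left_inv
  have hw' : (w : K) * ((x i0)⁻¹ * x 0) = 1 := congrArg Subtype.val hw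
  have hx0 : x 0 ≠ 0 := fun h2 => by simp [h2] at hw'
  refine ⟨hx0, fun i => ?_⟩
  have e : (x 0)⁻¹ * x i = w * ((x i0)⁻¹ * x i) := by
    rw [← one_mul ((x 0)⁻¹ * x i), ← hw']
    field_simp
  rw [e]
  exact mul_mem w.2 (hy i)

end Hom

theorem exists_teich_root {p : ℕ} [Fact p.Prime] {E : Type u} [CommRing E] [IsDomain E] [CharP E p]
    [PerfectRing E p] (hs : ∀ P : E[X], P.Monic → P.Splits) (t : E) (ht : ∀ x, IsUnit (1 + t * x))
    (P : (WittVector p E)[X]) (hP : P.Monic) (hd : 0 < P.natDegree) (ν : ℕ) :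
    ∃ τ : E, P.eval (WittVector.teichmuller p τ) ∈ JJ p t ν := by
  have := isAlgClosed_of_splits hs
  have := isIntegrallyClosed_of_splits hs
  set K := FractionRing E
  have ev : ∀ (x : Fin (ν + 2) → K) (i : ℕ), MvPolynomial.eval x ((rootG t P
      (MvPolynomial.C.comp (algebraMap E K)) (MvPolynomial.X (σ := Fin (ν + 2)))).coeff i) =
      (rootG t P (algebraMap E K) x).coeff i := fun x i => by
    have e : (MvPolynomial.eval x).comp (MvPolynomial.C.comp (algebraMap E K)) = algebraMap E K :=
      RingHom.ext fun c => by simp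
    rw [← WittVector.map_coeff, rootG_map, e]
    simp only [MvPolynomial.eval_X]
  obtain ⟨x, hx, h⟩ := rootAux_zero (K := K) (n := ν + 1) (fun i => (rootG t P
      (MvPolynomial.C.comp (algebraMap E K)) MvPolynomial.X).coeff i) fun i => by
    have e := rootG_smul t P (algebraMap E K) 0 (0 : Fin (ν + 2) → K)
    simp only [zero_mul, WittVector.teichmuller_zero, zero_pow hd.ne'] at e
    rw [ev]
    exact (congrArg (fun w => w.coeff i) e).trans (WittVector.zero_coeff _ _ _)
  have h' : ∀ i < ν + 1, (rootG t P (algebraMap E K) x).coeff i = 0 := fun i hi => by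
    rw [← ev]
    exact h ⟨i, hi⟩
  obtain ⟨V, hV1, hV2⟩ := rootAux_val0 (K := K) ht
  have hx0 := (rootG_val t P hP hd _ x hx h' V hV1 hV2).1
  choose z hz using fun i => rootAux_val (K := K) ht (x := (x 0)⁻¹ * x i) fun V h1 h2 =>
    (rootG_val t P hP hd _ x hx h' V h1 h2).2 i
  have hz0 : z 0 = 1 := IsFractionRing.injective E K (by rw [hz, map_one, inv_mul_cancel₀ hx0])
  have h1 : rootG t P (RingHom.id E) z ∈ Ideal.span {(p : WittVector p E) ^ ν} := by
    rw [WittVector.mem_span_p_pow_iff_le_coeff_eq_zero]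
    intro i hi
    have e := rootG_map t P (RingHom.id E) (algebraMap E K) z
    simp only [hz, RingHom.comp_id] at e
    rw [rootG_smul] at e
    have h2 := root_van_mul (WittVector.teichmuller p (x 0)⁻¹ ^ P.natDegree) h' i (by omega)
    rw [← e, WittVector.map_coeff] at h2
    exact IsFractionRing.injective E K (h2.trans (map_zero _).symm)
  refine ⟨z 1, ?_⟩
  rw [← sub_add_cancel (P.eval _) (rootG t P (RingHom.id E) z), JJ, Ideal.span_insert]
  exact add_mem (Ideal.mem_sup_left (rootG_one t P z hz0)) (Ideal.mem_sup_right h1)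

/-- countable saturation for polynomial equations. -/
def Satur (E : Type u) [CommRing E] : Prop :=
  ∀ F : ℕ → MvPolynomial ℕ E, (∀ n, ∃ x : ℕ → E, ∀ i < n, MvPolynomial.eval x (F i) = 0) →
    ∃ x : ℕ → E, ∀ i, MvPolynomial.eval x (F i) = 0

theorem Satur.root_two {E : Type u} [CommRing E] (h : Satur E) {σ : Type} [Encodable σ]
    (F G : ℕ → MvPolynomial σ E) (hF : ∀ n, ∃ x : σ → E, ∀ i < n,
      MvPolynomial.eval x (F i) = 0 ∧ MvPolynomial.eval x (G i) = 0) :
    ∃ x : σ → E, ∀ i, MvPolynomial.eval x (F i) = 0 ∧ MvPolynomial.eval x (G i) = 0 := by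
  obtain ⟨x, hx⟩ := h (fun i => MvPolynomial.rename Encodable.encode
    (if i % 2 = 0 then F (i / 2) else G (i / 2))) fun n => by
      obtain ⟨x, hx⟩ := hF n
      refine ⟨Function.extend Encodable.encode x 0, fun i hi => ?_⟩
      rw [MvPolynomial.eval_rename, Function.extend_comp Encodable.encode_injective]
      split_ifs
      · exact (hx _ (by omega)).1
      · exact (hx _ (by omega)).2
  refine ⟨x ∘ Encodable.encode, fun i => ⟨?_, ?_⟩⟩
  · have := hx (2 * i)
    rwa [MvPolynomial.eval_rename, if_pos (by omega), show 2 * i / 2 = i by omega] at this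
  · have := hx (2 * i + 1)
    rwa [MvPolynomial.eval_rename, if_neg (by omega), show (2 * i + 1) / 2 = i by omega] at this

variable {p : ℕ} [Fact p.Prime] {E : Type u} [CommRing E] [CharP E p] [PerfectRing E p]

theorem Satur.exists_teich_root [IsDomain E] (h : Satur E) (hs : ∀ P : E[X], P.Monic → P.Splits)
    (t : E) (ht : ∀ x, IsUnit (1 + t * x)) (P : (WittVector p E)[X]) (hP : P.Monic)
    (hd : 0 < P.natDegree) :
    ∃ τ : E, P.eval (WittVector.teichmuller p τ) ∈ Ideal.span {xi p t} := by
  have ev : ∀ x : ℕ → E, WittVector.map (MvPolynomial.eval x) (andreVec t P) =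
      P.eval (WittVector.teichmuller p (x 0)) - xi p t * WittVector.mk p fun j => x (j + 1) :=
    fun x => by
    have e : (MvPolynomial.eval x).comp MvPolynomial.C = RingHom.id E :=
      RingHom.ext fun c => by simp
    have e' : WittVector.map (p := p) (RingHom.id E) = RingHom.id _ := rfl
    rw [andre_map_vec, e, e', Polynomial.map_id]
    simp only [MvPolynomial.eval_X, MvPolynomial.eval_C]
  obtain ⟨x, hx⟩ := h (fun i => (andreVec t P).coeff i) fun n => by
    obtain ⟨τ, hτ⟩ := Vale.Agent.P177.exists_teich_root hs t ht P hP hd n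
    obtain ⟨a, b, hab⟩ := Ideal.mem_span_pair.1 hτ
    refine ⟨fun j => Nat.casesOn j τ a.coeff, fun i hi => ?_⟩
    rw [← WittVector.map_coeff, ev]
    refine (WittVector.mem_span_p_pow_iff_le_coeff_eq_zero _ n).1 ?_ i hi
    have e : P.eval (WittVector.teichmuller p τ) - xi p t * a = b * (p : WittVector p E) ^ n := by
      rw [← hab]; ring
    exact e ▸ Ideal.mul_mem_left _ _ (Ideal.mem_span_singleton_self _)
  refine ⟨x 0, ?_⟩
  have h0 : WittVector.map (MvPolynomial.eval x) (andreVec t P) = 0 := by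
    ext1 i
    rw [WittVector.map_coeff, hx, WittVector.zero_coeff]
  rw [ev, sub_eq_zero] at h0
  rw [h0]
  exact Ideal.mul_mem_right _ _ (Ideal.mem_span_singleton_self _)

theorem root_rt_dvd {m n : ℕ} (h : m ≤ n) (γ : E) : rt p n γ ∣ rt p m γ := by
  induction n, h using Nat.le_induction with
  | base => exact dvd_rfl
  | succ n _ ih =>
    refine Dvd.dvd.trans ?_ ih
    rw [← rt_succ_pow n]
    exact dvd_pow_self _ (Fact.out : p.Prime).ne_zero

/-- a single almost-unit works for all levels. -/
theorem Satur.exists_dvd (h : Satur E) (t γ : E) (x : WittVector p E)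
    (hx : ∀ m ν : ℕ, WittVector.teichmuller p (rt p m γ) * x ∈
      Ideal.span {WittVector.teichmuller p γ} ⊔ JJ p t ν) :
    ∃ δ : E, (∀ m, δ ∣ rt p m γ) ∧ WittVector.teichmuller p δ * x ∈
      Ideal.span {WittVector.teichmuller p γ, xi p t} := by
  let W : WittVector p (MvPolynomial (Option (ℕ ⊕ ℕ ⊕ ℕ)) E) :=
    WittVector.teichmuller p (MvPolynomial.X none) * WittVector.map MvPolynomial.C x -
      (WittVector.mk p (fun j => MvPolynomial.X (some (.inr (.inl j)))) *
        WittVector.map MvPolynomial.C (WittVector.teichmuller p γ) +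
      WittVector.mk p (fun j => MvPolynomial.X (some (.inr (.inr j)))) *
        WittVector.map MvPolynomial.C (xi p t))
  have ev : ∀ y : Option (ℕ ⊕ ℕ ⊕ ℕ) → E, WittVector.map (MvPolynomial.eval y) W =
      WittVector.teichmuller p (y none) * x -
        (WittVector.mk p (fun j => y (some (.inr (.inl j)))) * WittVector.teichmuller p γ +
          WittVector.mk p (fun j => y (some (.inr (.inr j)))) * xi p t) := fun y => by
    have e : ∀ w : WittVector p E,
        WittVector.map (MvPolynomial.eval y) (WittVector.map MvPolynomial.C w) = w := fun w => by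
      ext1 i
      rw [WittVector.map_coeff, WittVector.map_coeff, MvPolynomial.eval_C]
    simp only [W, map_sub, map_add, map_mul, e, andre_map_mk, MvPolynomial.eval_X]
    rw [WittVector.map_teichmuller, MvPolynomial.eval_X]
  obtain ⟨y, hy⟩ := h.root_two (fun m => MvPolynomial.X none * MvPolynomial.X (some (.inl m)) -
      MvPolynomial.C (rt p m γ)) (fun i => W.coeff i) fun n => by
    obtain ⟨a, ha, b, hb, hab⟩ := Submodule.mem_sup.1 (hx n n)
    obtain ⟨u, rfl⟩ := Ideal.mem_span_singleton'.1 ha
    obtain ⟨v, w, rfl⟩ := Ideal.mem_span_pair.1 hb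
    have hc : ∀ m, ∃ c, m ≤ n → rt p m γ = rt p n γ * c := fun m => by
      by_cases hm : m ≤ n
      · obtain ⟨c, hc⟩ := root_rt_dvd (p := p) hm γ
        exact ⟨c, fun _ => hc⟩
      · exact ⟨0, fun h => absurd h hm⟩
    choose c hc using hc
    refine ⟨fun o => o.elim (rt p n γ) (Sum.elim c (Sum.elim u.coeff v.coeff)), fun i hi =>
      ⟨?_, ?_⟩⟩
    · simp [hc i hi.le]
    · rw [← WittVector.map_coeff, ev]
      refine (WittVector.mem_span_p_pow_iff_le_coeff_eq_zero _ n).1 ?_ i hi
      have e : WittVector.teichmuller p (rt p n γ) * x - (u * WittVector.teichmuller p γ +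
          v * xi p t) = w * (p : WittVector p E) ^ n := by
        rw [← hab]; ring
      exact e ▸ Ideal.mul_mem_left _ _ (Ideal.mem_span_singleton_self _)
  refine ⟨y none, fun m => ⟨y (some (.inl m)), ?_⟩, ?_⟩
  · have := (hy m).1
    simp only [map_sub, map_mul, MvPolynomial.eval_X, MvPolynomial.eval_C] at this
    exact (sub_eq_zero.1 this).symm
  · have h0 : WittVector.map (MvPolynomial.eval y) W = 0 := by
      ext1 i
      rw [WittVector.map_coeff, (hy i).2, WittVector.zero_coeff]
    rw [ev, sub_eq_zero] at h0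
    exact Ideal.mem_span_pair.2 ⟨_, _, h0.symm⟩

end Vale.Agent.P177
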