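import Vale.Agent.P177.Flag

/-! Contractible complexes are stably trivial. -/

namespace Vale.Agent.P177

open Matrix

universe u

variable {S : Type u} [CommRing S]

theorem split_ne {ι κ μ : Type} [Fintype κ] {A : Matrix ι κ S} {B : Matrix κ μ S} {a : ι} {c : μ}
    (h : (A * B) a c ≠ 0) : ∃ b, A a b ≠ 0 ∧ B b c ≠ 0 := by
  rw [Matrix.mul_apply] at h
  obtain ⟨b, -, hb⟩ := Finset.exists_ne_zero_of_sum_ne_zero h
  exact ⟨b, left_ne_zero_of_mul hb, right_ne_zero_of_mul hb⟩

theorem split_core (F : Cx S) {n r : ℕ} (du : Fin n → ℕ) (dv : Fin r → ℕ) (anti : Antitone dv)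
    (h : Matrix F.ι F.ι S) (E : Matrix F.ι (Fin r) S) (E' : Matrix (Fin r) F.ι S)
    (A : Matrix (Fin n) (Fin r) S) (A' : Matrix (Fin r) (Fin n) S)
    (h1 : F.d * h + h * F.d = 1) (h2 : h * h = 0) (h3 : ∀ b c, h b c ≠ 0 → F.deg b = F.deg c + 1)
    (e1 : E * E' = 1) (e2 : A * A' = 1) (e3 : E' * (F.d * (h * E)) + A' * A = 1)
    (e4 : h * (E * A') = 0) (e5 : A * (E' * F.d) = 0)
    (g1 : ∀ x v, E x v ≠ 0 → F.deg x = dv v) (g2 : ∀ v x, E' v x ≠ 0 → dv v = F.deg x)
    (g3 : ∀ w v, A w v ≠ 0 → du w = dv v) (g4 : ∀ v w, A' v w ≠ 0 → dv v = du w) :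
    ∃ Θ : Triv (F.sum (Cx.triv S (Fin n) du)), Θ.c = 1 := by
  have dd : ∀ {κ : Type} (X : Matrix F.ι κ S), F.d * (F.d * X) = 0 := fun X => by
    rw [← Matrix.mul_assoc, F.dd, Matrix.zero_mul]
  have hh : ∀ {κ : Type} (X : Matrix F.ι κ S), h * (h * X) = 0 := fun X => by
    rw [← Matrix.mul_assoc, h2, Matrix.zero_mul]
  have hd : ∀ {κ : Type} (X : Matrix F.ι κ S), h * (F.d * X) = X - F.d * (h * X) := fun X => by
    rw [← Matrix.mul_assoc, eq_sub_of_add_eq' h1, Matrix.sub_mul, Matrix.one_mul, Matrix.mul_assoc]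
  have ee : ∀ {κ : Type} (X : Matrix F.ι κ S), E * (E' * X) = X := fun X => by
    rw [← Matrix.mul_assoc, e1, Matrix.one_mul]
  have e5' : A * (E' * (F.d * h)) = 0 := by
    rw [← Matrix.mul_assoc E', ← Matrix.mul_assoc, e5, Matrix.zero_mul]
  let P : Bool → Matrix F.ι (Fin r) S := fun t => cond t (h * E) (F.d * (h * E))
  let Q : Bool → Matrix (Fin r) F.ι S := fun t => cond t (E' * F.d) (E' * (F.d * h))
  have k1 : P true * Q true + P false * Q false = 1 := by
    simp only [P, Q, cond, Matrix.mul_assoc, ee, hd, h2, Matrix.mul_zero, sub_zero]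
    rw [add_comm, h1]
  have k2 : ∀ t, P t * A' = 0 := fun t => by cases t <;> simp [P, Matrix.mul_assoc, e4]
  have k3 : ∀ t, A * Q t = 0 := fun t => by cases t <;> simp [Q, e5, e5']
  have k4 : ∀ s t, Q s * P t = if s = t then E' * (F.d * (h * E)) else 0 := fun s t => by
    cases s <;> cases t <;> simp [P, Q, Matrix.mul_assoc, hd, hh, dd]
  have gp : ∀ {κ : Type} (X : Matrix F.ι κ S) x v, (F.d * (h * X)) x v ≠ 0 →
      ∃ y, F.deg x = F.deg y ∧ X y v ≠ 0 := fun X x v k => by
    obtain ⟨a, a1, a2⟩ := split_ne k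
    obtain ⟨b, b1, b2⟩ := split_ne a2
    exact ⟨b, by have := F.hdeg _ _ a1; have := h3 _ _ b1; omega, b2⟩
  let M : Matrix (F.ι ⊕ Fin n × Bool) (Fin r × Bool) S := Matrix.of fun j a =>
    Sum.elim (fun x => P a.2 x a.1) (fun w => if w.2 = a.2 then A w.1 a.1 else 0) j
  let M' : Matrix (Fin r × Bool) (F.ι ⊕ Fin n × Bool) S := Matrix.of fun a j =>
    Sum.elim (fun x => Q a.2 a.1 x) (fun w => if a.2 = w.2 then A' a.1 w.1 else 0) j
  have m1 : M * M' = (1 : S) • 1 := by
    rw [one_smul]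
    ext (x | ⟨w, s⟩) (y | ⟨w', s'⟩)
    · have := congrFun (congrFun k1 x) y
      simpa [M, M', Matrix.mul_apply, Fintype.sum_prod_type, Finset.sum_add_distrib,
        Matrix.one_apply] using this
    · have := congrFun (congrFun (k2 s') x) w'
      cases s' <;> simpa [M, M', Matrix.mul_apply, Fintype.sum_prod_type] using this
    · have := congrFun (congrFun (k3 s) w) y
      cases s <;> simpa [M, M', Matrix.mul_apply, Fintype.sum_prod_type] using this
    · have := congrFun (congrFun e2 w) w'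
      cases s <;> cases s' <;>
        simp [M, M', Matrix.mul_apply, Fintype.sum_prod_type, Matrix.one_apply] at this ⊢ <;>
        exact this
  have m2 : M' * M = (1 : S) • 1 := by
    rw [one_smul]
    ext ⟨v, s⟩ ⟨v', t⟩
    have := congrFun (congrFun e3 v) v'
    have k := congrFun (congrFun (k4 s t) v) v'
    rw [Matrix.mul_apply] at k
    rw [Matrix.add_apply, Matrix.mul_apply (M := A')] at this
    rw [Matrix.mul_apply, Fintype.sum_sum_type]
    refine (congrArg (· + _) k).trans ?_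
    cases s <;> cases t <;>
      simp [M, M', Fintype.sum_prod_type, Matrix.one_apply] at this ⊢ <;> exact this
  have m3 : (fromBlocks F.d 0 0 (Matrix.of fun a b : Fin n × Bool =>
      if a.1 = b.1 ∧ a.2 = false ∧ b.2 = true then (1 : S) else 0)) * M =
      M * Matrix.of fun a b : Fin r × Bool =>
        if a.1 = b.1 ∧ a.2 = false ∧ b.2 = true then (1 : S) else 0 := by
    ext (x | ⟨w, s⟩) ⟨v, t⟩
    · have : (F.d * P t) x v = if t then P false x v else 0 := by cases t <;> simp [P, dd]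
      cases t <;>
        simpa [M, Matrix.mul_apply, Fintype.sum_prod_type, Fintype.sum_sum_type] using this
    · cases s <;> cases t <;>
        simp [M, Matrix.mul_apply, Fintype.sum_prod_type, Fintype.sum_sum_type]
  have m4 : M' * (fromBlocks F.d 0 0 (Matrix.of fun a b : Fin n × Bool =>
      if a.1 = b.1 ∧ a.2 = false ∧ b.2 = true then (1 : S) else 0)) =
      (Matrix.of fun a b : Fin r × Bool =>
        if a.1 = b.1 ∧ a.2 = false ∧ b.2 = true then (1 : S) else 0) * M' := by
    ext ⟨v, t⟩ (x | ⟨w, s⟩)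
    · have : (Q t * F.d) v x = if t then 0 else Q true v x := by
        have := hd (1 : Matrix F.ι F.ι S)
        rw [Matrix.mul_one, Matrix.mul_one] at this
        cases t <;> simp [Q, Matrix.mul_assoc, F.dd, this, Matrix.mul_sub, dd]
      cases t <;>
        simpa [M', Matrix.mul_apply, Fintype.sum_prod_type, Fintype.sum_sum_type] using this
    · cases s <;> cases t <;>
        simp [M', Matrix.mul_apply, Fintype.sum_prod_type, Fintype.sum_sum_type]
  refine ⟨⟨r, dv, anti, M, M', 1, m1, m2, ?_, ?_, m3, m4⟩, rfl⟩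
  · rintro (x | ⟨w, s⟩) ⟨v, t⟩ k
    · cases t
      · obtain ⟨y, y1, y2⟩ := gp E x v k
        exact y1.trans (g1 _ _ y2)
      · obtain ⟨b, b1, b2⟩ := split_ne (A := h) (B := E) k
        exact (h3 _ _ b1).trans (congrArg (· + 1) (g1 _ _ b2))
    · obtain rfl : s = t := by_contra fun hn => k (if_neg hn)
      have := g3 w v fun h0 => k ((if_pos rfl).trans h0)
      change (if s then du w + 1 else du w) = if s then dv v + 1 else dv v
      rw [this]
  · rintro ⟨v, t⟩ (x | ⟨w, s⟩) k
    · cases t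
      · obtain ⟨b, b1, b2⟩ := split_ne (A := E') (B := F.d * h) k
        obtain ⟨a, a1, a2⟩ := split_ne b2
        have := F.hdeg _ _ a1
        have := h3 _ _ a2
        exact (g2 _ _ b1).trans (show F.deg b = F.deg x by omega)
      · obtain ⟨b, b1, b2⟩ := split_ne (A := E') (B := F.d) k
        exact (congrArg (· + 1) (g2 _ _ b1)).trans (F.hdeg _ _ b2).symm
    · obtain rfl : t = s := by_contra fun hn => k (if_neg hn)
      have := g4 v w fun h0 => k ((if_pos rfl).trans h0)
      change (if t then dv v + 1 else dv v) = if t then du w + 1 else du w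
      rw [this]

theorem exists_triv_of_null (F : Cx S) (h : F.Null = ⊤) :
    ∃ (n : ℕ) (dg : Fin n → ℕ) (Θ : Triv (F.sum (Cx.triv S (Fin n) dg))), Θ.c = 1 := by
  obtain ⟨H, H1, H3⟩ := Cx.exists_graded_of_mem_Null (F := F) (a := 1) (h ▸ Submodule.mem_top)
  rw [one_smul] at H1
  have hd : ∀ X : Matrix F.ι F.ι S, H * (F.d * X) = X - F.d * (H * X) := fun X => by
    rw [← mul_assoc, eq_sub_of_add_eq' H1, sub_mul, one_mul, mul_assoc]
  have dd : ∀ X : Matrix F.ι F.ι S, F.d * (F.d * X) = 0 := fun X => by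
    rw [← mul_assoc, F.dd, zero_mul]
  obtain ⟨h, h1, h2, h3⟩ : ∃ h : Matrix F.ι F.ι S, F.d * h + h * F.d = 1 ∧ h * h = 0 ∧
      ∀ b c, h b c ≠ 0 → F.deg b = F.deg c + 1 := by
    have k : F.d * (H * F.d) = F.d := by rw [eq_sub_of_add_eq' H1, mul_sub, dd, mul_one, sub_zero]
    refine ⟨H * (F.d * H), ?_, ?_, fun b c k => ?_⟩
    · rw [← mul_assoc, ← mul_assoc, mul_assoc F.d H, k, mul_assoc, mul_assoc, k, H1]
    · have : F.d * (H * (H * F.d)) = 0 := by
        rw [eq_sub_of_add_eq (add_comm (F.d * H) _ ▸ H1 : H * F.d + F.d * H = 1), mul_sub H, mul_one,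
          mul_sub, ← mul_assoc H, ← mul_assoc, k, sub_self]
      have e : H * (F.d * H) * (H * (F.d * H)) = H * (F.d * (H * (H * F.d))) * H := by
        simp only [mul_assoc]
      rw [e, this, mul_zero, zero_mul]
    · obtain ⟨a, a1, a2⟩ := split_ne k
      obtain ⟨b, b1, b2⟩ := split_ne a2
      have := H3 _ _ a1
      have := F.hdeg _ _ b1
      have := H3 _ _ b2
      omega
  let L := Finset.univ.sup F.deg + 1
  have hL : ∀ a, F.deg a < L := fun a => Nat.lt_succ_of_le (Finset.le_sup (Finset.mem_univ a))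
  let V := {p : Fin L × F.ι // F.deg p.2 ≤ p.1 ∧ F.deg p.2 % 2 = p.1 % 2}
  let W := {p : Fin L × F.ι // F.deg p.2 < p.1 ∧ F.deg p.2 % 2 ≠ p.1 % 2}
  obtain ⟨T, hT0⟩ : ∃ T, T = F.d + h := ⟨_, rfl⟩
  have Ta : ∀ a b, T a b = F.d a b + h a b := fun a b => by rw [hT0, Matrix.add_apply]
  have hT : T * T = 1 := by rw [hT0, add_mul, mul_add, mul_add, F.dd, h2, zero_add, add_zero, h1]
  have t1 : ∀ a b, F.deg b ≤ F.deg a → F.d a b = 0 := fun a b k =>
    by_contra fun hn => by have := F.hdeg a b hn; omega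
  have t2 : ∀ a b, F.deg a ≤ F.deg b → h a b = 0 := fun a b k =>
    by_contra fun hn => by have := h3 a b hn; omega
  have t3 : ∀ a b, T a b ≠ 0 → F.deg b = F.deg a + 1 ∨ F.deg a = F.deg b + 1 := fun a b k =>
    by_contra fun hn => k (by
      rw [not_or] at hn
      rw [Ta, by_contra fun k => hn.1 (F.hdeg a b k),
        by_contra fun k => hn.2 (h3 a b k), add_zero])
  let E : Matrix F.ι V S := Matrix.of fun x v => if x = v.1.2 ∧ F.deg x = v.1.1 then 1 else 0
  let A : Matrix W V S := Matrix.of fun w v => if w.1.1 = v.1.1 then T w.1.2 v.1.2 else 0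
  let A' : Matrix V W S := Matrix.of fun v w => if v.1.1 = w.1.1 then T v.1.2 w.1.2 else 0
  have sub : ∀ (p : Fin L × F.ι → Prop) [DecidablePred p] (f : Fin L × F.ι → S) (i : Fin L),
      ∑ v : {q // p q}, (if v.1.1 = i then f v.1 else 0) = ∑ a, if p (i, a) then f (i, a) else 0 := by
    intro p _ f i
    rw [← Finset.sum_subtype (Finset.univ.filter p) (by simp) fun q => if q.1 = i then f q else 0,
      Finset.sum_filter, Fintype.sum_prod_type, Finset.sum_eq_single i (by simp +contextual)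
        (by simp)]
    simp
  have mE : ∀ {κ : Type} (X : Matrix V κ S) x k,
      (E * X) x k = X ⟨(⟨_, hL x⟩, x), le_rfl, rfl⟩ k := fun X x k => by
    rw [Matrix.mul_apply, Finset.sum_eq_single ⟨(⟨_, hL x⟩, x), le_rfl, rfl⟩ _ (by simp)]
    · simp [E]
    · rintro ⟨⟨i, a⟩, _⟩ _ hn
      refine mul_eq_zero_of_left (if_neg ?_) _
      rintro ⟨rfl, k⟩
      exact hn (Subtype.ext (Prod.ext (Fin.ext k.symm) rfl))
  have mE' : ∀ {κ : Type} (X : Matrix F.ι κ S) (v : V) k,
      (Eᵀ * X) v k = if F.deg v.1.2 = v.1.1 then X v.1.2 k else 0 := fun X v k => by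
    simp [E, Matrix.mul_apply, ite_and]
  have mE'' : ∀ {κ : Type} (X : Matrix κ F.ι S) (v : V) k,
      (X * E) k v = if F.deg v.1.2 = v.1.1 then X k v.1.2 else 0 := fun X v k => by
    simp [E, Matrix.mul_apply, ite_and]
  have e1 : E * Eᵀ = 1 := by
    ext x y
    rw [mE, Matrix.one_apply]
    exact if_congr ⟨fun k => k.1.symm, fun k => ⟨k.symm, k ▸ rfl⟩⟩ rfl rfl
  have e2 : A * A' = 1 := by
    ext ⟨⟨i, a⟩, a1, a2⟩ ⟨⟨j, b⟩, b1, b2⟩
    have := sub (fun p => F.deg p.2 ≤ p.1 ∧ F.deg p.2 % 2 = p.1 % 2)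
      (fun q => T a q.2 * if q.1 = j then T q.2 b else 0) i
    refine Eq.trans (Finset.sum_congr rfl fun v _ => by
      simp only [A, A', Matrix.of_apply, ite_mul, zero_mul, eq_comm (a := i)]) (this.trans ?_)
    rcases eq_or_ne i j with rfl | hij
    · refine Eq.trans (Finset.sum_congr rfl fun c _ => ?_) ((congrFun (congrFun hT a) b).trans ?_)
      · rw [if_pos rfl]
        split_ifs with k
        · rfl
        · by_contra hn
          have := t3 _ _ (left_ne_zero_of_mul (Ne.symm hn))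
          dsimp only at a1 a2 k
          omega
      · simp [Matrix.one_apply]
    · simp [hij]
  have e3 : Eᵀ * (F.d * (h * E)) + A' * A = 1 := by
    ext ⟨⟨i, a⟩, a1, a2⟩ ⟨⟨j, b⟩, b1, b2⟩
    have := sub (fun p => F.deg p.2 < p.1 ∧ F.deg p.2 % 2 ≠ p.1 % 2)
      (fun q => T a q.2 * if q.1 = j then T q.2 b else 0) i
    rw [Matrix.add_apply, mE', ← Matrix.mul_assoc, mE'', Matrix.mul_apply (M := A'),
      (Finset.sum_congr rfl fun v _ => by
        simp only [A, A', Matrix.of_apply, ite_mul, zero_mul, eq_comm (a := i)]).trans this]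
    dsimp only at a1 a2 b1 b2 ⊢
    rcases eq_or_ne i j with rfl | hij
    · refine Eq.trans ?_ ((congrFun (congrFun hT a) b).trans (by simp [Matrix.one_apply]))
      rw [Matrix.mul_apply, Matrix.mul_apply, Finset.ite_sum_zero, Finset.ite_sum_zero,
        ← Finset.sum_add_distrib]
      refine Finset.sum_congr rfl fun c _ => ?_
      rw [if_pos rfl]
      by_cases k : F.deg c ≤ i
      · have z : F.deg a = i → F.d a c = 0 := fun k' => t1 _ _ (by omega)
        by_cases k0 : T a c = 0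
        · simp +contextual [z, k0]
        · have := t3 _ _ k0
          rw [if_pos (show F.deg c < i ∧ F.deg c % 2 ≠ i % 2 by omega)]
          simp +contextual [z]
      · rw [if_neg (show ¬ (F.deg c < i ∧ F.deg c % 2 ≠ i % 2) by omega), add_zero,
          Ta, Ta, t2 a c (by omega), t1 c b (by omega), add_zero,
          zero_add]
        by_cases k0 : F.d a c * h c b = 0
        · simp [k0]
        · have := F.hdeg _ _ (left_ne_zero_of_mul k0)
          have := h3 _ _ (right_ne_zero_of_mul k0)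
          rw [if_pos (by omega), if_pos (by omega)]
    · have z : F.deg a = i → F.deg b = j → (F.d * h) a b = 0 := fun k1 k2 => by_contra fun hn => by
        obtain ⟨c, c1, c2⟩ := split_ne hn
        have := F.hdeg _ _ c1
        have := h3 _ _ c2
        exact hij (Fin.ext (by omega))
      simp +contextual [hij, z]
  have e4 : h * (E * A') = 0 := by
    ext x ⟨⟨j, b⟩, b1, b2⟩
    rw [Matrix.mul_apply]
    simp only [mE, A', Matrix.of_apply, Fin.ext_iff]
    dsimp only at b1 b2 ⊢
    by_cases k : F.deg b + 1 = j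
    · refine Eq.trans (Finset.sum_congr rfl fun c _ => ?_) (congrFun (congrFun h2 x) b)
      split_ifs with k'
      · rw [Ta, t1 c b (by omega), zero_add]
      · exact congrArg (h x c * ·) (by_contra fun hn : h c b ≠ 0 => k' ((h3 _ _ hn).trans k)).symm
    · refine Finset.sum_eq_zero fun c _ => mul_eq_zero_of_right _ ?_
      split_ifs with k'
      · exact by_contra fun hn => by have := t3 _ _ hn; omega
      · rfl
  have e5 : A * (Eᵀ * F.d) = 0 := by
    ext ⟨⟨j, b⟩, b1, b2⟩ x
    have := fun y => congrFun (congrFun (Matrix.transpose_mul A Eᵀ) y) ⟨⟨j, b⟩, b1, b2⟩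
    simp only [Matrix.transpose_apply, Matrix.transpose_transpose, mE] at this
    rw [← Matrix.mul_assoc, Matrix.mul_apply]
    simp only [this]
    simp only [A, Matrix.of_apply, Fin.ext_iff]
    dsimp only at b1 b2 ⊢
    by_cases k : F.deg b + 1 = j
    · refine Eq.trans (Finset.sum_congr rfl fun c _ => ?_) (congrFun (congrFun F.dd b) x)
      split_ifs with k'
      · rw [Ta, t2 b c (by omega), add_zero]
      · exact congrArg (· * F.d c x)
          (by_contra fun hn : F.d b c ≠ 0 => k' (k.symm.trans (F.hdeg _ _ hn).symm)).symm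
    · refine Finset.sum_eq_zero fun c _ => mul_eq_zero_of_left ?_ _
      split_ifs with k'
      · exact by_contra fun hn => by have := t3 _ _ hn; omega
      · rfl
  let w := (Fintype.equivFin W).symm
  let v0 := (Fintype.equivFin V).symm
  let v := (Tuple.sort fun k => OrderDual.toDual ((v0 k).1.1 : ℕ)).trans v0
  refine ⟨_, fun k => (w k).1.1, split_core F _ (fun k => (v k).1.1)
    (Tuple.monotone_sort fun k => OrderDual.toDual ((v0 k).1.1 : ℕ)) h
    (E.submatrix id v) (Eᵀ.submatrix v id) (A.submatrix w v) (A'.submatrix v w) h1 h2 h3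
    ?_ ?_ ?_ ?_ ?_ (fun x k hk => ?_) (fun k x hk => ?_) (fun x k hk => ?_) fun x k hk => ?_⟩
  · rw [submatrix_mul_equiv, e1, submatrix_id_id]
  · rw [submatrix_mul_equiv, e2, submatrix_one_equiv]
  · rw [submatrix_mul_equiv, ← submatrix_one_equiv v, ← e3]
    rfl
  · rw [submatrix_mul_equiv]
    exact congrArg (Matrix.submatrix · id w) e4
  · exact (submatrix_mul_equiv A (Eᵀ * F.d) w v id).trans (congrArg (Matrix.submatrix · w id) e5)
  · exact (by_contra fun hn => hk (if_neg hn) : x = _ ∧ F.deg x = _).2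
  · exact (by_contra fun hn => hk (if_neg hn) : x = _ ∧ F.deg x = _).2.symm
  · exact congrArg Fin.val (by_contra fun hn => hk (if_neg hn))
  · exact congrArg Fin.val (by_contra fun hn => hk (if_neg hn))

theorem split_clear {ι κ : Type} [Fintype ι] [Fintype κ] [DecidableEq ι] [DecidableEq κ] {ϖ : S}
    (hϖ : ∀ x, ϖ * x = 0 → x = 0) (D : Matrix ι ι S) (t : Matrix κ κ S)
    (M : Matrix ι κ (Localization.Away ϖ)) (M' : Matrix κ ι (Localization.Away ϖ))
    (m1 : M * M' = 1) (m2 : M' * M = 1)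
    (c1 : D.map (algebraMap S _) * M = M * t.map (algebraMap S _))
    (c2 : M' * D.map (algebraMap S _) = t.map (algebraMap S _) * M') :
    ∃ (N : Matrix ι κ S) (N' : Matrix κ ι S) (C : ℕ), N * N' = ϖ ^ C • 1 ∧ N' * N = ϖ ^ C • 1 ∧
      (∀ a b, N a b ≠ 0 → M a b ≠ 0) ∧ (∀ a b, N' a b ≠ 0 → M' a b ≠ 0) ∧ D * N = N * t ∧
      N' * D = t * N' := by
  set φ := algebraMap S (Localization.Away ϖ)
  have inj : Function.Injective φ := IsLocalization.injective (M := Submonoid.powers ϖ) _
    (Submonoid.powers_le.2 (mem_nonZeroDivisors_iff_left.2 hϖ))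
  obtain ⟨⟨_, C, rfl⟩, hb⟩ := IsLocalization.exist_integer_multiples_of_finite
    (Submonoid.powers ϖ) (Sum.elim (fun p : ι × κ => M p.1 p.2) fun p : κ × ι => M' p.1 p.2)
  choose f hf using hb
  let N : Matrix ι κ S := Matrix.of fun a b => f (.inl (a, b))
  let N' : Matrix κ ι S := Matrix.of fun a b => f (.inr (a, b))
  have n1 : N.map φ = φ (ϖ ^ C) • M := by
    ext a b
    exact (hf _).trans (Algebra.smul_def _ _)
  have n2 : N'.map φ = φ (ϖ ^ C) • M' := by
    ext a b
    exact (hf _).trans (Algebra.smul_def _ _)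
  have one : ∀ {ι : Type} [DecidableEq ι] (a : S),
      (a • (1 : Matrix ι ι S)).map φ = φ a • 1 := fun a => by
    ext x y
    simp [Matrix.one_apply, apply_ite φ]
  refine ⟨N, N', C + C, Matrix.map_injective inj ?_, Matrix.map_injective inj ?_,
    fun j a k h0 => k (inj ?_), fun a j k h0 => k (inj ?_), Matrix.map_injective inj ?_,
    Matrix.map_injective inj ?_⟩
  · simp only [Matrix.map_mul, n1, n2, one, Matrix.smul_mul, Matrix.mul_smul, m1]
    rw [pow_add, map_mul, mul_smul]
  · simp only [Matrix.map_mul, n1, n2, one, Matrix.smul_mul, Matrix.mul_smul, m2]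
    rw [pow_add, map_mul, mul_smul]
  · rw [← Matrix.map_apply (f := φ), n1, Matrix.smul_apply, h0, smul_zero, map_zero]
  · rw [← Matrix.map_apply (f := φ), n2, Matrix.smul_apply, h0, smul_zero, map_zero]
  · simp only [Matrix.map_mul, n1, Matrix.smul_mul, Matrix.mul_smul]
    exact congrArg (φ (ϖ ^ C) • ·) c1
  · simp only [Matrix.map_mul, n2, Matrix.smul_mul, Matrix.mul_smul]
    exact congrArg (φ (ϖ ^ C) • ·) c2

theorem split_descend (G : Cx S) {ϖ : S} (hϖ : ∀ x, ϖ * x = 0 → x = 0)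
    (Θ : Triv (G.map (algebraMap S (Localization.Away ϖ)))) (h : Θ.c = 1) :
    ∃ (Θ : Triv G) (C : ℕ), Θ.c = ϖ ^ C := by
  obtain ⟨r, dg, anti, M, M', c, m1, m2, g1, g2, c1, c2⟩ := Θ
  obtain rfl : c = 1 := h
  have tr : (show Matrix (Fin r × Bool) (Fin r × Bool) _ from (Cx.triv _ (Fin r) dg).d) =
      (show Matrix (Fin r × Bool) (Fin r × Bool) S from (Cx.triv S (Fin r) dg).d).map
        (algebraMap S (Localization.Away ϖ)) := by
    ext x y
    change (if x.1 = y.1 ∧ x.2 = false ∧ y.2 = true then 1 else 0) =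
      algebraMap S _ (if x.1 = y.1 ∧ x.2 = false ∧ y.2 = true then 1 else 0)
    rw [apply_ite (algebraMap S _), map_one, map_zero]
  rw [tr] at c1 c2
  obtain ⟨N, N', C, k1, k2, k3, k4, k5, k6⟩ := split_clear hϖ G.d _ M M'
    (m1.trans (one_smul _ _)) (m2.trans (one_smul _ _)) c1 c2
  exact ⟨⟨r, dg, anti, N, N', ϖ ^ C, k1, k2, fun j a k => g1 j a (k3 j a k),
    fun a j k => g2 a j (k4 a j k), k5, k6⟩, C, rfl⟩

theorem exists_triv (F : Cx S) {ϖ : S} (hϖ : ∀ x, ϖ * x = 0 → x = 0) (h : ϖ ∈ F.Null.radical) :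
    ∃ (n : ℕ) (dg : Fin n → ℕ) (Θ : Triv (F.sum (Cx.triv S (Fin n) dg))) (C : ℕ),
      Θ.c = ϖ ^ C := by
  obtain ⟨k, hk⟩ := h
  obtain ⟨n, dg, h1⟩ := exists_triv_of_null (F.map (algebraMap S (Localization.Away ϖ)))
    (Ideal.eq_top_of_isUnit_mem _ (F.map_Null_le _ (Ideal.mem_map_of_mem _ hk))
      (map_pow (algebraMap S (Localization.Away ϖ)) ϖ k ▸
        (IsLocalization.Away.algebraMap_isUnit ϖ).pow k))
  rw [← Cx.map_triv (algebraMap S (Localization.Away ϖ)), ← Cx.map_sum] at h1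
  obtain ⟨Θ, h1⟩ := h1
  exact ⟨n, dg, split_descend _ hϖ Θ h1⟩

end Vale.Agent.P177
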