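import Vale.Agent.P177.MRees

/-! Saturated systems of ideals. -/

namespace Vale.Agent.P177

universe u

/-- a graded system of ideals squeezed between products of powers. -/
structure SysB (p : ℕ) {B : Type u} [CommRing B] {s : Type} [Fintype s] [DecidableEq s]
    (q : s → Ideal B) (z₀ : B) (b : ℕ) (N : (s → ℕ) → Ideal B) : Prop where
  gen : ∀ β j, b ≤ β j → N (β + Pi.single j 1) = q j * N β
  sat : ∀ β j x, (∀ g ∈ q j, g * x ∈ N (β + Pi.single j 1)) → x ∈ N β
  mul : ∀ β γ, N β * N γ ≤ N (β + γ)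
  low : ∀ β, Ideal.span {z₀} * mpow q β ≤ N β
  root : ∀ β x, x ^ p ∈ N (p • β) → x ∈ N β

end Vale.Agent.P177
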