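import Vale.Agent.P177.Geo
import Vale.Agent.P177.MReesAR
import Vale.Agent.P177.Split
import Vale.Agent.P177.Dim
import Vale.Agent.P177.Len2

/-! Growth of lattices in a Noetherian local domain. -/

namespace Vale.Agent.P177

open scoped ENNReal
open IsLocalRing Vale.Agent.P202

universe u

variable {T : Type u} [CommRing T] [IsLocalRing T] [IsNoetherianRing T] [IsDomain T]

theorem exists_rel_le {s : Type} [Fintype s] [DecidableEq s] (P : s → Ideal T) {q : Ideal T}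
    (hq : maximalIdeal T ≤ q.radical) : ∃ C : ℕ, ∀ (δ : s → ℕ) (j : ℕ),
      (Len.len T).rel (mpow P δ) (q ^ j * mpow P δ) ≤
        (C * (∑ i, δ i + j + 1) ^ dimNat T : ℕ) := by
  obtain ⟨κ, hκ⟩ := exists_ar_inf P q
  obtain ⟨C, hC⟩ := exists_length_pow_le hq
  refine ⟨C * (κ + 1) ^ dimNat T, fun δ j => ?_⟩
  have h1 : κ * ∑ i, δ i + κ + j ≤ (κ + 1) * (∑ i, δ i + j + 1) :=
    Nat.le.intro (k := κ * j + ∑ i, δ i + 1) (by ring)
  have h2 : C * (κ * ∑ i, δ i + κ + j) ^ dimNat T ≤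
      C * (κ + 1) ^ dimNat T * (∑ i, δ i + j + 1) ^ dimNat T := by
    rw [mul_assoc, ← mul_pow]
    exact Nat.mul_le_mul_left _ (Nat.pow_le_pow_left h1 _)
  refine ((Len.len T).rel_mono le_rfl (hκ δ j)).trans ?_
  rw [Len.rel_inf]
  refine ((Len.len T).rel_mono le_top le_rfl).trans ?_
  rw [Len.rel_top]
  refine le_trans ?_ (Nat.cast_le.2 h2)
  have h3 := ENat.toENNReal_le.2 (hC (κ * ∑ i, δ i + κ + j))
  rw [ENat.toENNReal_coe] at h3
  exact h3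

theorem exists_mul_rel_le {s : Type} [Fintype s] [DecidableEq s] (P : s → Ideal T) {q : Ideal T}
    (hq : maximalIdeal T ≤ q.radical) {g : T} (hg : g ≠ 0) : ∃ C : ℕ, ∀ (δ : s → ℕ) (j r : ℕ),
      r * (Len.len T).rel (mpow P δ) (Ideal.span {g} * mpow P δ ⊔ q ^ j * mpow P δ) ≤
        (C * (∑ i, δ i + j + r + 1) ^ dimNat T : ℕ) := by
  obtain ⟨c, hc⟩ := exists_ar_colon P q hg
  obtain ⟨C, hC⟩ := exists_rel_le P hq
  refine ⟨C * (c + 1) ^ dimNat T, fun δ j r => ?_⟩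
  have h1 : ∑ i, δ i + (j + r * c) + 1 ≤ (c + 1) * (∑ i, δ i + j + r + 1) :=
    Nat.le.intro (k := c * (∑ i, δ i + j + 1) + r) (by ring)
  have h2 : C * (∑ i, δ i + (j + r * c) + 1) ^ dimNat T ≤
      C * (c + 1) ^ dimNat T * (∑ i, δ i + j + r + 1) ^ dimNat T := by
    rw [mul_assoc, ← mul_pow]
    exact Nat.mul_le_mul_left _ (Nat.pow_le_pow_left h1 _)
  have h3 := hC δ (j + r * c)
  exact ((Len.len T).mul_rel_le (mpow P δ) q g c j r
    (fun i => (Len.len T).rel_of_le fun y hy => hc δ i y hy.1 hy.2)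
    (ne_top_of_le_ne_top (ENNReal.natCast_ne_top _) h3)).trans (h3.trans (Nat.cast_le.2 h2))

/-- a flag for the base change of a complex. -/
theorem exists_flag_family {R : Type u} [CommRing R] (ψ : R →+* T) (F : Cx R) {ϖ : T} (hϖ : ϖ ≠ 0)
    (hF : ϖ ∈ (F.map ψ).Null.radical) {q : Ideal T} (hq : ϖ ∈ q.radical) :
    ∃ (n : ℕ) (dg : Fin n → ℕ) (Φ : Flag ((F.sum (Cx.triv R (Fin n) dg)).map ψ)) (s : Type)
      (_ : Fintype s) (_ : DecidableEq s) (P : s → Ideal T) (_ : Φ.In P) (j₀ : s) (C : ℕ),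
      P j₀ = q ∧ Φ.c = ϖ ^ C ∧ ∀ j, ϖ ∈ (P j).radical := by
  obtain ⟨n, dg, Θ₀, C, h₀⟩ := exists_triv (F.map ψ)
    (fun y hy => (mul_eq_zero.1 hy).resolve_left hϖ) hF
  obtain ⟨Θ, hΘ⟩ : ∃ Θ : Triv ((F.sum (Cx.triv R (Fin n) dg)).map ψ), Θ.c = ϖ ^ C := by
    rw [Cx.map_sum, Cx.map_triv]
    exact ⟨Θ₀, h₀⟩
  obtain ⟨Φ, hΦ, h⟩ := Θ.exists_flag
  obtain ⟨s, i1, i2, P, I, j₀, hj, hP⟩ := Φ.exists_in q
  have hc : Φ.c = ϖ ^ C := by rw [← hΘ, ← hΦ]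
  refine ⟨n, dg, Φ, s, i1, i2, P, I, j₀, C, hj, hc, fun j => ?_⟩
  rcases hP j with h1 | h1 | ⟨a, h1 | h1⟩ <;> rw [h1]
  · exact hq
  · exact ⟨C, hc ▸ Ideal.mem_span_singleton_self _⟩
  · exact Ideal.mem_radical_of_pow_mem (m := C) (hΘ ▸ (h a).1)
  · exact Ideal.mem_radical_of_pow_mem (m := C) (hΘ ▸ (h a).2.1)

end Vale.Agent.P177
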