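import Vale.Agent.P177.TopB
import Vale.Agent.P177.TBound

/-! Comparison of the leading terms. -/

namespace Vale.Agent.P177

open scoped ENNReal
open IsLocalRing Vale.Agent.P202

universe u

theorem top_abs {a b e₁ e₂ : ℝ≥0∞} {r c₁ c₂ : ℕ} (ha : a ≠ ⊤) (hb : b ≠ ⊤) (h₁ : a ≤ b + e₁)
    (h₂ : b ≤ a + e₂) (k₁ : r * e₁ ≤ c₁) (k₂ : r * e₂ ≤ c₂) :
    (r : ℝ) * |a.toReal - b.toReal| ≤ c₁ + c₂ := by
  have key : ∀ {a b e : ℝ≥0∞} {c : ℕ}, b ≠ ⊤ → a ≤ b + e → r * e ≤ c →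
      (r : ℝ) * a.toReal ≤ r * b.toReal + c := by
    intro a b e c hb h k
    have h3 : r * a ≤ r * b + c := by
      refine (mul_le_mul_right h _).trans ?_
      rw [mul_add]
      exact add_le_add_right k _
    have hrb : (r : ℝ≥0∞) * b ≠ ⊤ := ENNReal.mul_ne_top (ENNReal.natCast_ne_top r) hb
    have := ENNReal.toReal_mono (ENNReal.add_ne_top.2 ⟨hrb, ENNReal.natCast_ne_top c⟩) h3
    rwa [ENNReal.toReal_add hrb (ENNReal.natCast_ne_top c), ENNReal.toReal_mul,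
      ENNReal.toReal_mul, ENNReal.toReal_natCast, ENNReal.toReal_natCast] at this
  have k3 := key hb h₁ k₁
  have k4 := key ha h₂ k₂
  have : (0 : ℝ) ≤ c₁ := Nat.cast_nonneg _
  have : (0 : ℝ) ≤ c₂ := Nat.cast_nonneg _
  rw [← abs_of_nonneg (Nat.cast_nonneg (α := ℝ) r), ← abs_mul, abs_le]
  constructor <;> linarith

theorem top_pow_mem {T : Type u} [CommRing T] {s : Type} [Fintype s] (P : s → Ideal T) {a : T}
    (hP : ∀ j, a ∈ (P j).radical) (β : s → ℕ) : ∃ L : ℕ, a ^ L ∈ mpow P β := by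
  refine Finset.prod_induction _ (fun I : Ideal T => a ∈ I.radical) (fun I J hI hJ => ?_) ?_
    fun j _ => ?_
  · rw [Ideal.radical_mul]
    exact ⟨hI, hJ⟩
  · rw [Ideal.one_eq_top, Ideal.radical_top]
    trivial
  · rcases Nat.eq_zero_or_pos (β j) with h | h
    · rw [h, pow_zero, Ideal.one_eq_top, Ideal.radical_top]
      trivial
    · rw [Ideal.radical_pow _ h.ne']
      exact hP j

theorem top_pi_le {B : Type u} [CommRing B] {ι : Type} (c g : B) (U U' W : ι → Ideal B)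
    (hW : ∀ i, W i ≤ U' i) :
    (Submodule.pi Set.univ fun i => Ideal.span {g} * U i ⊔ W i).map (LinearMap.lsmul B (ι → B) c) ≤
      Ideal.span {g} • (Submodule.pi Set.univ U).map (LinearMap.lsmul B (ι → B) c) ⊔
        (Submodule.pi Set.univ U').map (LinearMap.lsmul B (ι → B) c) := by
  rintro _ ⟨x, hx, rfl⟩
  have : ∀ i, ∃ a ∈ U i, ∃ w ∈ U' i, g * a + w = x i := fun i => by
    obtain ⟨y, hy, w, hw, e⟩ := Submodule.mem_sup.1 (hx i trivial)
    obtain ⟨a, ha, rfl⟩ := Ideal.mem_span_singleton_mul.1 hy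
    exact ⟨a, ha, w, hW i hw, e⟩
  choose a ha w hw e using this
  have hx' : x = g • a + w := funext fun i => (e i).symm
  rw [hx', map_add, map_smul]
  exact Submodule.add_mem_sup
    (Submodule.smul_mem_smul (Ideal.mem_span_singleton_self g) ⟨a, fun i _ => ha i, rfl⟩)
    ⟨w, fun i _ => hw i, rfl⟩

theorem TopData.exists_abs_le {p : ℕ} {A T B : Type u} [CommRing A] [IsLocalRing A] [CommRing T]
    [IsLocalRing T] [Algebra A T] [CommRing B] [Algebra A B] {z : List A} {ϖ : A} {D : EtData A T}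
    {Λ : Len B} {σ : Fin D.P.natDegree → T →ₐ[A] B} (hp : p.Prime) (h : TopData p z ϖ D Λ σ)
    {s : Type} [Fintype s] [DecidableEq s] (P : s → Ideal T)
    (hP : ∀ j, algebraMap A T ϖ ∈ (P j).radical) (j₀ : s)
    (hj₀ : P j₀ = (maximalIdeal A).map (algebraMap A T)) {b : ℕ}
    {N : Fin D.P.natDegree → (s → ℕ) → Ideal B}
    (hN : ∀ i, SysB p (fun j => (P j).map (σ i)) (algebraMap A B ϖ) b (N i)) :
    ∃ C : ℕ, ∀ (δ δ' : s → ℕ) (j r : ℕ),
      mpow P ((fun _ => b) + δ') ≤ mpow P ((fun _ => b) + δ) →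
      P j₀ ^ j * mpow P ((fun _ => b) + δ) ≤ mpow P ((fun _ => b) + δ') →
      (∀ i, N i ((fun _ => b) + δ') ≤ N i ((fun _ => b) + δ)) →
      (∀ i, (maximalIdeal A).map (algebraMap A B) ^ j * N i ((fun _ => b) + δ) ≤
        N i ((fun _ => b) + δ')) →
      (r : ℝ) * |((Len.len T).rel (mpow P ((fun _ => b) + δ)) (mpow P ((fun _ => b) + δ'))).toReal -
        ∑ i, (Λ.rel (N i ((fun _ => b) + δ)) (N i ((fun _ => b) + δ'))).toReal| ≤
        C * ((∑ i, δ i + j + r + 1 : ℕ) : ℝ) ^ z.length := by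
  have := h.noeth
  have := h.dom
  have := h.reg.isDomain
  obtain ⟨L, hL⟩ := top_pow_mem P hP fun _ => b
  have hq : maximalIdeal T ≤ (P j₀).radical := hj₀ ▸ h.max_le
  have hc : D.G * ϖ ^ L ≠ 0 := mul_ne_zero h.G_ne (pow_ne_zero _ h.ϖ_ne)
  have hg : D.G * ϖ ^ L * ϖ ≠ 0 := mul_ne_zero hc h.ϖ_ne
  set c := D.G * ϖ ^ L with hcdef
  have hgT : algebraMap A T (c * ϖ) ≠ 0 := fun e => hg (h.inj (e.trans (map_zero _).symm))
  obtain ⟨C₀, hC₀⟩ := Vale.Agent.P177.exists_rel_le P hq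
  obtain ⟨C₁, hC₁⟩ := Vale.Agent.P177.exists_mul_rel_le P hq hgT
  choose C₂ hC₂ using fun i => TopData.exists_rel_le hp h P hP j₀ hj₀ i (hN i)
  choose C₃ hC₃ using fun i => TopData.exists_mul_rel_le hp h P hP j₀ hj₀ i (hN i) hg
  refine ⟨C₁ * (∑ _i : s, b + 1) ^ z.length + ∑ i, C₃ i, fun δ δ' j r h1 h2 h3 h4 => ?_⟩
  set f := LinearMap.lsmul B (Fin D.P.natDegree → B) (algebraMap A B c) with hf
  have hinj : Function.Injective f := by
    rw [injective_iff_map_eq_zero]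
    intro x hx
    exact funext fun i => h.reg_of_ne hc _ (congrFun hx i)
  have hBA : ∀ δ : s → ℕ, (Submodule.pi Set.univ fun i => N i ((fun _ => b) + δ)).map f ≤
      gam σ (mpow P ((fun _ => b) + δ)) := by
    rintro δ _ ⟨x, hx, rfl⟩
    rw [← Finset.univ_sum_single (f x)]
    refine Submodule.sum_mem _ fun i _ => ?_
    have e : f x i = algebraMap A B D.G * (σ i (algebraMap A T ϖ ^ L) * x i) := by
      simp [hf, hcdef, mul_assoc]
    rw [e]
    refine h.single_mem_gam _ i ?_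
    rw [mpow_add, Ideal.map_mul]
    refine Ideal.mul_mem_mul (Ideal.mem_map_of_mem _ hL) ?_
    exact (mpow_map (σ i : T →+* B) P δ).ge ((hN i).le_mpow δ (hx i trivial))
  have hAB : ∀ δ : s → ℕ, ∀ x ∈ gam σ (mpow P ((fun _ => b) + δ)), algebraMap A B (c * ϖ) • x ∈
      (Submodule.pi Set.univ fun i => N i ((fun _ => b) + δ)).map f := by
    intro δ x hx
    refine ⟨algebraMap A B ϖ • x, fun i _ => (hN i).low _ ?_, by simp [hf, mul_smul, smul_comm c ϖ]⟩
    refine Ideal.mul_mem_mul (Ideal.mem_span_singleton_self _) ?_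
    exact (mpow_map (σ i : T →+* B) P _).le (mem_map_of_mem_gam σ hx i)
  obtain ⟨k1, k2⟩ := Λ.rel_compare (algebraMap A B (c * ϖ)) (hBA δ) (hBA δ') (hAB δ) (hAB δ')
  have f1 : (Len.len T).rel (mpow P ((fun _ => b) + δ)) (mpow P ((fun _ => b) + δ')) ≠ ⊤ :=
    ne_top_of_le_ne_top (ENNReal.natCast_ne_top _)
      (((Len.len T).rel_mono le_rfl h2).trans (hC₀ _ j))
  have f2 : ∀ i, Λ.rel (N i ((fun _ => b) + δ)) (N i ((fun _ => b) + δ')) ≠ ⊤ := fun i =>
    ne_top_of_le_ne_top (ENNReal.natCast_ne_top _) ((Λ.rel_mono le_rfl (h4 i)).trans (hC₂ i δ j))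
  rw [h.rel_gam h1 f1, Λ.rel_map_of_injective f hinj, Λ.rel_pi] at k1 k2
  rw [← ENNReal.toReal_sum fun i _ => f2 i]
  refine (top_abs (c₁ := C₁ * (∑ _i : s, b + 1) ^ z.length * (∑ i, δ i + j + r + 1) ^ z.length)
    (c₂ := ∑ i, C₃ i * (∑ i, δ i + j + r + 1) ^ z.length) f1
    (ENNReal.sum_ne_top.2 fun i _ => f2 i) k1 k2 ?_ ?_).trans (le_of_eq ?_)
  · have e : Ideal.span {algebraMap A B (c * ϖ)} • gam σ (mpow P ((fun _ => b) + δ)) ⊔
        gam σ (mpow P ((fun _ => b) + δ')) = gam σ (Ideal.span {algebraMap A T (c * ϖ)} *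
          mpow P ((fun _ => b) + δ) ⊔ mpow P ((fun _ => b) + δ')) := by
      have := gam_map_mul σ (Ideal.span {c * ϖ}) (mpow P ((fun _ => b) + δ))
      rw [Ideal.map_span, Ideal.map_span, Set.image_singleton, Set.image_singleton] at this
      rw [gam_sup, this]
    rw [e, h.rel_gam (sup_le Ideal.mul_le_right h1)
      (ne_top_of_le_ne_top f1 ((Len.len T).rel_mono le_rfl le_sup_right))]
    refine (mul_le_mul_right ((Len.len T).rel_mono le_rfl (sup_le_sup_left h2 _)) _).trans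
      ((hC₁ _ j r).trans (Nat.cast_le.2 ?_))
    rw [h.dimNat_eq, mul_assoc, ← mul_pow]
    refine Nat.mul_le_mul_left _ (Nat.pow_le_pow_left ?_ _)
    simp only [Pi.add_apply, Finset.sum_add_distrib]
    nlinarith [Nat.zero_le ((∑ _i : s, b) * (∑ i, δ i + j + r))]
  · refine (mul_le_mul_right ((Λ.rel_mono le_rfl (top_pi_le _ _ _ _ _ h4)).trans
      (Λ.rel_map_le f _ _)) _).trans ?_
    rw [Λ.rel_pi, Finset.mul_sum, Nat.cast_sum]
    exact Finset.sum_le_sum fun i _ => hC₃ i δ j r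
  · rw [← Finset.sum_mul]
    push_cast
    ring

end Vale.Agent.P177
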