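import Vale.Agent.P177.Gam
import Vale.Agent.P177.FlatReg
import Vale.Agent.P177.MReesAR

/-! Growth of the saturated systems. -/

namespace Vale.Agent.P177

open scoped ENNReal
open IsLocalRing Vale.Agent.P202

universe u

variable {p : ℕ} {B : Type u} [CommRing B] {s : Type} [Fintype s] [DecidableEq s]

theorem SysB.mono {q : s → Ideal B} {z₀ : B} {b b' : ℕ} {N : (s → ℕ) → Ideal B}
    (h : SysB p q z₀ b N) (hb : b ≤ b') : SysB p q z₀ b' N :=
  ⟨fun β j hj => h.gen β j (hb.trans hj), h.sat, h.mul, h.low, h.root⟩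

theorem SysB.toSat {q : s → Ideal B} {z₀ : B} {b : ℕ} {N : (s → ℕ) → Ideal B}
    (h : SysB p q z₀ b N) : Sat (N := B) q fun β => N ((fun _ => b) + β) :=
  ⟨fun β j => by
    rw [← add_assoc]
    exact h.gen _ j (Nat.le_add_right b (β j)),
  fun β j x hx => h.sat _ j x fun g hg => by
    rw [add_assoc]
    exact hx g hg⟩

theorem SysB.le_mpow {q : s → Ideal B} {z₀ : B} {b : ℕ} {N : (s → ℕ) → Ideal B}
    (h : SysB p q z₀ b N) (β : s → ℕ) : N ((fun _ => b) + β) ≤ mpow q β := by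
  have h1 := h.toSat.add 0 β
  rw [zero_add] at h1
  exact h1.le.trans Ideal.mul_le_left

theorem SysB.topB_pow {q : s → Ideal B} {z₀ : B} {b : ℕ} {N : (s → ℕ) → Ideal B}
    (h : SysB p q z₀ b N) {β : s → ℕ} {x : B} (hx : x ∈ N β) (n : ℕ) :
    x ^ (n + 1) ∈ N ((n + 1) • β) := by
  induction n with
  | zero => simpa using hx
  | succ n ih =>
    rw [pow_succ, succ_nsmul]
    exact h.mul _ _ (Ideal.mul_mem_mul ih hx)

theorem SysB.topB_root {q : s → Ideal B} {z₀ : B} {b : ℕ} {N : (s → ℕ) → Ideal B}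
    (h : SysB p q z₀ b N) (e : ℕ) {β : s → ℕ} {x : B} (hx : x ^ p ^ e ∈ N (p ^ e • β)) :
    x ∈ N β := by
  induction e generalizing β x with
  | zero => simpa using hx
  | succ e ih =>
    refine h.root β x (ih ?_)
    rwa [← pow_mul, ← mul_nsmul', ← pow_succ', ← pow_succ]

/-- powers of elements of the system lie in the ordinary products up to a fixed factor. -/
theorem SysB.topB_mem {q : s → Ideal B} {z₀ : B} {b : ℕ} {N : (s → ℕ) → Ideal B}
    (h : SysB p q z₀ b N) {w : B} (hw : w ∈ mpow q fun _ => b) (δ : s → ℕ) {x : B}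
    (hx : x ∈ N ((fun _ => b) + δ)) {Q : ℕ} (hQ : 0 < Q) :
    w * x ^ Q ∈ mpow q (Q • ((fun _ => b) + δ)) := by
  obtain ⟨n, rfl⟩ : ∃ n, Q = n + 1 := ⟨Q - 1, by omega⟩
  have e : (n + 1) • ((fun _ => b) + δ) = (fun _ => b) + (δ + n • ((fun _ => b) + δ)) := by
    rw [succ_nsmul', add_assoc]
  have h1 := h.topB_pow hx n
  rw [e] at h1 ⊢
  rw [mpow_add]
  exact Ideal.mul_mem_mul hw (h.le_mpow _ h1)

theorem topB_exists_pow_mem {T : Type u} [CommRing T] (P : s → Ideal T) {w : T}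
    (hP : ∀ j, w ∈ (P j).radical) (β : s → ℕ) : ∃ L : ℕ, w ^ L ∈ mpow P β := by
  choose n hn using hP
  refine ⟨∑ j, n j * β j, ?_⟩
  rw [← Finset.prod_pow_eq_pow_sum, mpow]
  exact Ideal.prod_mem_prod fun j _ => pow_mul w (n j) (β j) ▸ Ideal.pow_mem_pow (hn j) _

theorem topB_colon {T : Type u} [CommRing T] {q M : Ideal T} {g : T} {c : ℕ}
    (hc : ∀ i : ℕ, ∀ x ∈ M, g * x ∈ q ^ (i + c) * M → x ∈ q ^ i * M) (Q i : ℕ) :
    ∀ x ∈ M, g ^ Q * x ∈ q ^ (i + Q * c) * M → x ∈ q ^ i * M := by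
  induction Q with
  | zero => exact fun x _ hx => by simpa using hx
  | succ Q ih =>
    intro x hx h
    refine ih x hx (hc _ _ (M.mul_mem_left _ hx) ?_)
    rwa [← mul_assoc, ← pow_succ', add_assoc, ← add_one_mul]

variable {A T : Type u} [CommRing A] [IsLocalRing A] [CommRing T] [IsLocalRing T]
  [Algebra A T] [Algebra A B] {z : List A} {ϖ : A} {D : EtData A T} {Λ : Len B}
  {σ : Fin D.P.natDegree → T →ₐ[A] B} (hp : p.Prime) (h : TopData p z ϖ D Λ σ) (P : s → Ideal T)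
  (hP : ∀ j, algebraMap A T ϖ ∈ (P j).radical) (j₀ : s)
  (hj₀ : P j₀ = (maximalIdeal A).map (algebraMap A T)) (i : Fin D.P.natDegree) {b : ℕ}
  {N : (s → ℕ) → Ideal B} (hN : SysB p (fun j => (P j).map (σ i)) (algebraMap A B ϖ) b N)

section
include hj₀

omit [IsLocalRing T] [Fintype s] [DecidableEq s] in
theorem topB_map_eq : (P j₀).map (σ i) = (maximalIdeal A).map (algebraMap A B) := by
  rw [hj₀]
  exact (Ideal.map_map (algebraMap A T) (σ i : T →+* B)).trans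
    (by rw [AlgHom.comp_algebraMap])

omit [IsLocalRing T] in
theorem topB_map_mpow (β : s → ℕ) (j : ℕ) : (P j₀ ^ j * mpow P β).map (σ i) =
    mpow (fun j => (P j).map (σ i)) (β + Pi.single j₀ j) := by
  rw [mul_comm, ← mpow_single, ← mpow_add]
  exact mpow_map (σ i : T →+* B) P _

omit [IsLocalRing T] in
include hN in
theorem topB_shift (δ : s → ℕ) (j : ℕ) : N ((fun _ => b) + (δ + Pi.single j₀ j)) =
    (maximalIdeal A).map (algebraMap A B) ^ j * N ((fun _ => b) + δ) := by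
  have h1 := hN.toSat.add δ (Pi.single j₀ j)
  rw [mpow_single, topB_map_eq P j₀ hj₀ i] at h1
  exact h1

end

include hp h hP hj₀ hN

/-- transfer of a containment from the finite level. -/
theorem TopData.topB_transfer (δ : s → ℕ) (j : ℕ) (S : Ideal B) (hS : S ≤ N ((fun _ => b) + δ))
    (H : ∀ x ∈ S, ∀ Q : ℕ, 0 < Q → ∀ w ∈ mpow (fun j => (P j).map (σ i)) fun _ => b,
      (Pi.single i (algebraMap A B D.G * (w * x ^ Q)) : Fin D.P.natDegree → B) ∈
        gam σ (P j₀ ^ (Q * j) * mpow P (Q • ((fun _ => b) + δ)))) :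
    Λ.rel S ((maximalIdeal A).map (algebraMap A B) ^ j * N ((fun _ => b) + δ)) = 0 := by
  have := h.flat
  have := h.reg.isDomain
  obtain ⟨L, hL⟩ := topB_exists_pow_mem P hP fun _ => b
  have hw : algebraMap A B ϖ ^ L ∈ mpow (fun j => (P j).map (σ i)) fun _ => b := by
    have h1 := Ideal.mem_map_of_mem (σ i : T →+* B) hL
    rw [mpow_map, map_pow] at h1
    exact (σ i).commutes ϖ ▸ h1
  refine Λ.rel_eq_zero_of_small _ _ fun x hx ε hε => ?_
  obtain ⟨q₀, hq₀⟩ := h.reg.small_root Λ (by rw [h.one]; exact ENNReal.one_ne_top)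
    (mul_ne_zero h.ϖ_ne (mul_ne_zero h.G_ne (pow_ne_zero L h.ϖ_ne))) j ε hε
  obtain ⟨η, hη⟩ := h.root (ϖ * (D.G * ϖ ^ L)) q₀
  refine ⟨_, fun a ha => ?_, hq₀ _ (Nat.lt_pow_self hp.one_lt).le η hη⟩
  have h1 := mem_map_of_mem_gam σ (H x hx (p ^ q₀) (pow_pos hp.pos _) _ hw) i
  rw [Pi.single_eq_same, topB_map_mpow P j₀ hj₀ i] at h1
  have h2 := hN.low _ (Ideal.mul_mem_mul (Ideal.mem_span_singleton_self _) h1)
  have e1 : algebraMap A B ϖ * (algebraMap A B D.G * (algebraMap A B ϖ ^ L * x ^ p ^ q₀)) =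
      (η * x) ^ p ^ q₀ := by
    rw [mul_pow, hη, map_mul, map_mul, map_pow]
    ring
  have e2 : p ^ q₀ • ((fun _ => b) + δ) + Pi.single j₀ (p ^ q₀ * j) =
      p ^ q₀ • ((fun _ => b) + (δ + Pi.single j₀ j) : s → ℕ) := by
    rw [← add_assoc, smul_add (p ^ q₀) (_ + δ), ← Pi.single_smul', smul_eq_mul]
  rw [e1, e2] at h2
  have h3 := hN.topB_root q₀ h2
  rw [topB_shift P j₀ hj₀ i hN] at h3
  obtain ⟨a₁, h₁, a₂, h₂, rfl⟩ := Submodule.mem_sup.1 ha
  obtain ⟨c, rfl⟩ := Ideal.mem_span_singleton'.1 h₁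
  rw [smul_eq_mul, add_mul, mul_assoc]
  exact Ideal.add_mem _ (Ideal.mul_mem_left _ c h3) (Ideal.mul_mem_mul h₂ (hS hx))

theorem TopData.exists_rel_le : ∃ C : ℕ, ∀ (δ : s → ℕ) (j : ℕ),
    Λ.rel (N ((fun _ => b) + δ))
      ((maximalIdeal A).map (algebraMap A B) ^ j * N ((fun _ => b) + δ)) ≤
        (C * (∑ i, δ i + j + 1) ^ z.length : ℕ) := by
  have := h.flat
  have := h.reg.noeth
  have := h.noeth
  have := h.dom
  obtain ⟨κ, hκ⟩ := exists_ar_inf P (P j₀)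
  obtain ⟨C, hC⟩ := exists_length_pow_le (T := A) (q := maximalIdeal A) Ideal.le_radical
  refine ⟨C * (κ * ∑ _i : s, b + κ + 1) ^ z.length, fun δ j => ?_⟩
  let k := κ * ∑ i, ((fun _ => b) + δ : s → ℕ) i + κ + j
  refine (Λ.rel_le_add _ (N ((fun _ => b) + δ) ⊓ (maximalIdeal A).map (algebraMap A B) ^ k)
    _).trans ?_
  rw [h.topB_transfer hp P hP j₀ hj₀ i hN δ j _ inf_le_left, add_zero, Λ.rel_inf]
  · refine (Λ.rel_mono le_top le_rfl).trans ?_
    rw [Λ.rel_top, ← Ideal.map_pow, Λ.val_quot_map _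
      (ne_top_of_le_ne_top (ENat.natCast_ne_top _) (hC k)), h.one, mul_one]
    refine (ENat.toENNReal_le.2 (hC k)).trans ?_
    rw [ENat.toENNReal_coe, Nat.cast_le, h.reg.dimNat_eq, mul_assoc, ← mul_pow]
    refine Nat.mul_le_mul_left _ (Nat.pow_le_pow_left ?_ _)
    simp only [k, Pi.add_apply, Finset.sum_add_distrib]
    generalize ∑ _i : s, b = x
    generalize ∑ i, δ i = y
    nlinarith [Nat.zero_le (κ * x * y), Nat.zero_le (κ * x * j), Nat.zero_le (κ * j)]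
  · intro x hx Q hQ w hw
    refine h.mem_gam_of_smul (I := P j₀ ^ (Q * k)) (J := mpow P (Q • ((fun _ => b) + δ))) 1
      (fun τ h1 h2 => hκ _ _ ⟨h1, ?_⟩) (h.single_mem_gam _ i ?_) ?_
    · rw [map_one, one_mul] at h2
      refine Ideal.pow_le_pow_right ?_ h2
      simp only [k, Pi.smul_apply, smul_eq_mul, ← Finset.mul_sum]
      generalize ∑ i, ((fun _ => b) + δ : s → ℕ) i = y
      nlinarith [Nat.le_mul_of_pos_left κ hQ]
    · exact (mpow_map (σ i : T →+* B) P _).ge (hN.topB_mem hw δ hx.1 hQ)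
    · rw [map_one, one_smul]
      refine h.single_mem_gam _ i (Ideal.mul_mem_left _ w ?_)
      rw [Ideal.map_pow, topB_map_eq P j₀ hj₀ i, mul_comm, pow_mul]
      exact Ideal.pow_mem_pow hx.2 Q

theorem TopData.exists_mul_rel_le {g : A} (hg : g ≠ 0) : ∃ C : ℕ, ∀ (δ : s → ℕ) (j r : ℕ),
    r * Λ.rel (N ((fun _ => b) + δ)) (Ideal.span {algebraMap A B g} * N ((fun _ => b) + δ) ⊔
      (maximalIdeal A).map (algebraMap A B) ^ j * N ((fun _ => b) + δ)) ≤
        (C * (∑ i, δ i + j + r + 1) ^ z.length : ℕ) := by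
  have := h.noeth
  have := h.dom
  obtain ⟨c, hc⟩ := exists_ar_colon P (P j₀) ((map_ne_zero_iff _ h.inj).2 hg)
  obtain ⟨C, hC⟩ := h.exists_rel_le hp P hP j₀ hj₀ i hN
  refine ⟨C * (c + 1) ^ z.length, fun δ j r => ?_⟩
  refine (Λ.mul_rel_le (N ((fun _ => b) + δ)) ((maximalIdeal A).map (algebraMap A B))
    (algebraMap A B g) c j r (fun k => ?_)
    (ne_top_of_le_ne_top (ENNReal.natCast_ne_top _) (hC δ _))).trans ((hC δ _).trans ?_)
  · refine h.topB_transfer hp P hP j₀ hj₀ i hN δ k _ inf_le_left fun x hx Q hQ w hw => ?_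
    refine h.mem_gam_of_smul
      (I := P j₀ ^ (Q * k + Q * c) * mpow P (Q • ((fun _ => b) + δ : s → ℕ)))
      (J := mpow P (Q • ((fun _ => b) + δ : s → ℕ))) (g ^ Q)
      (fun τ h1 h2 => topB_colon (hc (Q • ((fun _ => b) + δ : s → ℕ))) Q (Q * k) τ h1
        (by rwa [← map_pow]))
      (h.single_mem_gam _ i ((mpow_map (σ i : T →+* B) P _).ge (hN.topB_mem hw δ hx.1 hQ))) ?_
    have h1 : algebraMap A B g * x ∈ N ((fun _ => b) + (δ + Pi.single j₀ (k + c))) := by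
      rw [topB_shift P j₀ hj₀ i hN]
      exact hx.2
    have h2 := hN.topB_mem hw _ h1 hQ
    have e2 : Q • ((fun _ => b) + (δ + Pi.single j₀ (k + c)) : s → ℕ) =
        Q • ((fun _ => b) + δ) + Pi.single j₀ (Q * k + Q * c) := by
      rw [← add_assoc, smul_add Q (_ + δ), ← Pi.single_smul', smul_eq_mul, mul_add]
    rw [e2, ← topB_map_mpow P j₀ hj₀ i] at h2
    have e3 : algebraMap A B (g ^ Q) * (algebraMap A B D.G * (w * x ^ Q)) =
        algebraMap A B D.G * (w * (algebraMap A B g * x) ^ Q) := by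
      rw [map_pow]
      ring
    rw [← Pi.single_smul', smul_eq_mul, e3]
    exact h.single_mem_gam _ i h2
  · rw [Nat.cast_le, mul_assoc, ← mul_pow]
    refine Nat.mul_le_mul_left _ (Nat.pow_le_pow_left ?_ _)
    generalize ∑ i, δ i = y
    nlinarith [Nat.zero_le (c * y), Nat.zero_le (c * j)]

end Vale.Agent.P177
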