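import Vale.Agent.P177.Root

/-! The large perfect ring. -/

namespace Vale.Agent.P177

open IsLocalRing Polynomial Vale.Agent.P202

universe u

/-- a saturated absolutely integrally closed domain with a length function. -/
structure PreUlt (p : ℕ) [Fact p.Prime] (A : Type u) [CommRing A] [IsLocalRing A] where
  D : Type u
  [cr : CommRing D]
  [dom : IsDomain D]
  [ch : CharP D p]
  [pf : PerfectRing D p]
  [alg : Algebra A D]
  inj : Function.Injective (algebraMap A D)
  splits : ∀ P : D[X], P.Monic → P.Splits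
  unit : ∀ x ∈ mE A D, IsUnit (1 + x)
  sat : Satur D
  Λ : Len D
  one : Λ.val (D ⧸ mE A D) = 1
  colon : ∀ (I : Ideal A) (a : A), (∀ y, a * y ∈ I → y ∈ I) → ∀ b : D,
    algebraMap A D a * b ∈ I.map (algebraMap A D) →
      ∃ δ : D, Λ.val (D ⧸ (Ideal.span {δ} ⊔ mE A D)) = 0 ∧ δ * b ∈ I.map (algebraMap A D)

attribute [instance] PreUlt.cr PreUlt.dom PreUlt.ch PreUlt.pf PreUlt.alg

/-- its flat completed localisation. -/
structure Ult (p : ℕ) [Fact p.Prime] (A : Type u) [CommRing A] [IsLocalRing A] extends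
    PreUlt p A where
  E : Type u
  [crE : CommRing E]
  [chE : CharP E p]
  [pfE : PerfectRing E p]
  [algE : Algebra A E]
  j : D →+* E
  j_alg : ∀ a, j (algebraMap A D a) = algebraMap A E a
  flat : Module.Flat A E
  complete : IsAdicComplete (mE A E) E
  ΛE : Len E
  oneE : ΛE.val (E ⧸ mE A E) = 1
  isUnit : ∀ δ : D, ΛE.val (E ⧸ (Ideal.span {j δ} ⊔ mE A E)) = 0 → IsUnit (j δ)

attribute [instance] Ult.crE Ult.chE Ult.pfE Ult.algE

end Vale.Agent.P177
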