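import Vale.Agent.P177.TBound
import Vale.Agent.P177.Pure
import Vale.Agent.P177.Geo2
import Vale.Agent.P177.VanDef

/-! The inductive step of the vanishing theorem. -/

namespace Vale.Agent.P177

open IsLocalRing Vale.Agent.P202

universe u

/-- growth of the operation on the twisted lattices. -/
theorem VanStep_core {T : Type u} [CommRing T] [IsLocalRing T] [IsNoetherianRing T] [IsDomain T]
    {F : Cx T} {Φ : Flag F} {s : Type} [Fintype s] [DecidableEq s] {P : s → Ideal T} (I : Φ.In P)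
    (hP : ∀ j, P j ≠ ⊥) (hc : Φ.c ≠ 0) (hF : maximalIdeal T ≤ F.Null.radical) :
    ∃ C : ℝ, ∀ l : ℕ, (l + 1).Prime → Even l → IsUnit ((l + 1 : ℕ) : T) → ∃ β : s → ℕ,
      |F.psi (Len.len T) l (mpow P β)| ≤ l * (C * ((l + 1 : ℕ) : ℝ) ^ dimNat T) := by
  obtain ⟨b, hb⟩ := exists_sat P hP
  have hs := hb b le_rfl
  have hreg : IsSMulRegular T Φ.c := fun y z h => mul_left_cancel₀ hc h
  obtain ⟨C, hC⟩ := exists_rel_le P hF
  have key : ∀ (γ : s → ℕ) (π : Fin Φ.r) (n : ℕ),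
      (Len.len T).rel (mpow P ((fun _ => b) + (γ + n • I.ex (π, false))))
        (mpow P ((fun _ => b) + (γ + n • I.ex (π, true)))) ≤
        (C * (∑ i, ((fun _ => b) + (γ + n • I.ex (π, false)) : s → ℕ) i + n + 1) ^ dimNat T : ℕ) :=
    fun γ π n => ((Len.len T).rel_mono le_rfl (I.pow_smul_le hs hreg γ π n le_rfl)).trans (hC _ n)
  refine ⟨∑ π : Fin Φ.r, (C * (∑ _i : s, b + ∑ i, I.ex (π, false) i + 2) ^ dimNat T : ℕ),
    fun l hp hev hl => ⟨(fun _ => b) + (0 + (l + 1) • I.one), ?_⟩⟩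
  have h1 := I.psi_eq hs hreg (Len.len T) (fun γ π => by
    have h2 := key γ π 1
    rw [one_smul, one_smul] at h2
    exact ne_top_of_le_ne_top (ENNReal.natCast_ne_top _) h2) hp hev hl 0
  refine (congrArg abs h1).trans_le ?_
  rw [abs_mul, Nat.abs_cast, Finset.sum_mul]
  refine mul_le_mul_of_nonneg_left ((Finset.abs_sum_le_sum_abs _ _).trans
    (Finset.sum_le_sum fun π _ => ?_)) (Nat.cast_nonneg _)
  rw [abs_mul, abs_neg_one_pow, one_mul, ENNReal.abs_toReal]
  refine (ENNReal.toReal_le_of_le_ofReal (Nat.cast_nonneg _)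
    ((key 0 π (l + 1)).trans (ENNReal.ofReal_natCast _).ge)).trans ?_
  rw [← Nat.cast_pow, ← Nat.cast_mul, mul_assoc, ← mul_pow]
  refine Nat.cast_le.2 (Nat.mul_le_mul_left _ (Nat.pow_le_pow_left ?_ _))
  simp only [Pi.add_apply, Pi.zero_apply, Pi.smul_apply, smul_eq_mul, zero_add,
    Finset.sum_add_distrib, ← Finset.mul_sum]
  exact Nat.le.intro (k := (∑ _i : s, b) * l + l) (by ring)

/-- large primes that are units. -/
theorem VanStep_prime (R : Type u) [CommRing R] [IsLocalRing R] (M : ℕ) :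
    ∃ l : ℕ, M ≤ l ∧ (l + 1).Prime ∧ Even l ∧ IsUnit ((l + 1 : ℕ) : R) := by
  obtain ⟨p, hp, hp'⟩ := Nat.exists_infinite_primes (M + 3)
  obtain ⟨p', hq, hq'⟩ := Nat.exists_infinite_primes (p + 1)
  have key : ∀ r : ℕ, M + 3 ≤ r → r.Prime → IsUnit (r : R) →
      ∃ l : ℕ, M ≤ l ∧ (l + 1).Prime ∧ Even l ∧ IsUnit ((l + 1 : ℕ) : R) := fun r h1 h2 h3 => by
    obtain ⟨l, rfl⟩ : ∃ l, r = l + 1 := ⟨r - 1, by omega⟩
    exact ⟨l, by omega, h2, by simpa using h2.even_sub_one (by omega), h3⟩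
  obtain ⟨a, c, h⟩ : IsCoprime (p : R) (p' : R) :=
    ((Nat.coprime_primes hp' hq').2 (by omega)).cast
  rcases isUnit_or_isUnit_of_add_one h with h1 | h1
  · exact key p hp hp' (isUnit_of_mul_isUnit_right h1)
  · exact key p' (by omega) hq' (isUnit_of_mul_isUnit_right h1)

variable {R : Type u} [CommRing R] [IsLocalRing R] {x : List R}

theorem VanStep_chi (P : Ideal R) [IsLocalRing (R ⧸ P)] (G : Cx R) (L : Type u) [AddCommGroup L]
    [Module R L] [Module (R ⧸ P) L] [IsScalarTower R (R ⧸ P) L] :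
    ((G.map (Ideal.Quotient.mk P)).on L).chi (Len.len (R ⧸ P)) = (G.on L).chi (Len.len R) := by
  have := IsLocalHom.of_surjective (Ideal.Quotient.mk P) Ideal.Quotient.mk_surjective
  rw [← Len.len_res (Ideal.Quotient.mk P) fun b => (Ideal.Quotient.mk_surjective b).imp
    fun a ha => by rw [ha, sub_self]; exact zero_mem _]
  exact DG.chi_congr _ (Cx.hl_map (Len.len R) (Ideal.Quotient.mk P) G (AddEquiv.refl L)
    fun r y => (algebraMap_smul (R ⧸ P) r y).symm)

theorem VanStep_sum (Λ : Len R) (F : Cx R) (n : ℕ) (dg : Fin n → ℕ) (N : Type u) [AddCommGroup N]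
    [Module R N] : ((F.sum (Cx.triv R (Fin n) dg)).on N).chi Λ = (F.on N).chi Λ :=
  DG.chi_congr _ fun i => by
    rw [Cx.hl_sum, le_zero_iff.1 ((DG.hl_le_h Λ _ i).trans
      (Cx.h_on_of_null Λ _ (Cx.Null_triv _ dg)).le), add_zero]

theorem van_step (hR : RegL R x) (P Q : Ideal R) [P.IsPrime] [Q.IsPrime]
    (hPQ : maximalIdeal R ≤ (Q ⊔ P).radical) (hlt : dimNat (R ⧸ Q) + dimNat (R ⧸ P) < x.length)
    (ih : VanLt R (dimNat (R ⧸ Q) + dimNat (R ⧸ P))) (F : Cx R) (hF : F.IsRes (R ⧸ Q)) :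
    (F.on (R ⧸ P)).chi (Len.len R) = 0 := by
  have := hR.noeth
  have := hR.isDomain
  have hPm : P ≤ maximalIdeal R := le_maximalIdeal Ideal.IsPrime.ne_top'
  rcases hPm.eq_or_lt with hP | hP
  · have hQ : Q ≠ ⊥ := by
      rintro rfl
      rw [dimNat_quot_bot, hR.dimNat_eq] at hlt
      omega
    obtain ⟨a, ha, ha0⟩ := Submodule.exists_mem_ne_zero_of_ne_bot hQ
    refine Cx.chi_on_eq_zero_of_val _ F ?_
      (F.sum_sign_eq_zero (hF.le_Null_quot ha) fun h => ha0 h.eq_zero)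
    exact fun h => length_quot_ne_top (hP.ge.trans Ideal.le_radical) (ENat.toENNReal_eq_top.1 h)
  obtain ⟨r, hr, hrP⟩ := SetLike.exists_of_lt hP
  have := IsLocalRing.of_surjective' (Ideal.Quotient.mk P) Ideal.Quotient.mk_surjective
  have hϖ : Ideal.Quotient.mk P r ≠ 0 := fun h => hrP (Ideal.Quotient.eq_zero_iff_mem.1 h)
  have hm : maximalIdeal (R ⧸ P) ≤ (Q.map (Ideal.Quotient.mk P)).radical := by
    rw [← map_maximalIdeal_of_surjective (Ideal.Quotient.mk P) Ideal.Quotient.mk_surjective]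
    refine (Ideal.map_mono hPQ).trans ((Ideal.map_radical_le _).trans (Ideal.radical_mono ?_))
    rw [Ideal.map_sup, Ideal.map_quotient_self, sup_bot_eq]
  have hrm : Ideal.Quotient.mk P r ∈ maximalIdeal (R ⧸ P) := by
    rw [← map_maximalIdeal_of_surjective (Ideal.Quotient.mk P) Ideal.Quotient.mk_surjective]
    exact Ideal.mem_map_of_mem _ hr
  have hN : ∀ G : Cx R, Q ≤ G.Null → maximalIdeal (R ⧸ P) ≤
      (G.map (Ideal.Quotient.mk P)).Null.radical := fun G hG =>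
    hm.trans (Ideal.radical_mono ((Ideal.map_mono hG).trans (G.map_Null_le _)))
  obtain ⟨n, dg, Φ, s, _, _, P', I, -, C, -, hc, hP'⟩ := exists_flag_family (Ideal.Quotient.mk P) F
    hϖ (hN F hF.le_Null_quot hrm) (q := ⊤) (Ideal.le_radical Submodule.mem_top)
  rw [← VanStep_sum _ F n dg]
  have hG := (hF.sum_triv (Fin n) dg).le_Null_quot
  generalize F.sum (Cx.triv R (Fin n) dg) = G at Φ I hc hG ⊢
  obtain ⟨K, hK⟩ := VanStep_core I (fun j h => hϖ (by
    have h1 := hP' j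
    rw [h] at h1
    exact IsNilpotent.eq_zero (mem_nilradical.1 h1))) (hc ▸ pow_ne_zero _ hϖ) (hN G hG)
  have hann : ∀ (L : Type u) [AddCommGroup L] [Module R L] [Module (R ⧸ P) L]
      [IsScalarTower R (R ⧸ P) L], P ≤ Module.annihilator R L := fun L _ _ _ _ a ha =>
    Module.mem_annihilator.2 fun y => by
      rw [← algebraMap_smul (R ⧸ P) a y, Ideal.Quotient.algebraMap_eq,
        Ideal.Quotient.eq_zero_iff_mem.2 ha, zero_smul]
  have hth : ∀ (L : Type u) [AddCommGroup L] [Module (R ⧸ P) L] [Module.Finite (R ⧸ P) L],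
      Thick (Len.len (R ⧸ P)) L (Q.map (Ideal.Quotient.mk P)) := fun L _ _ _ =>
    thick_of_finite L _ (hm.trans (Ideal.radical_mono le_sup_left))
  have hfin : ∀ (L : Type u) [AddCommGroup L] [Module (R ⧸ P) L] [Module.Finite (R ⧸ P) L],
      ((G.map (Ideal.Quotient.mk P)).on L).h (Len.len (R ⧸ P)) ≠ ⊤ := fun L _ _ _ =>
    hth L _ ((Ideal.map_mono hG).trans ((G.map_Null_le _).trans (le_sup_left.trans
      Ideal.le_radical)))
  have hchi : ∀ N : Ideal (R ⧸ P), Ideal.Quotient.mk P r ∈ N.radical →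
      ((G.map (Ideal.Quotient.mk P)).on N).chi (Len.len (R ⧸ P)) =
        (G.on (R ⧸ P)).chi (Len.len R) := fun N hrN => by
    have h1 := (G.map (Ideal.Quotient.mk P)).chi_on_add (Len.len (R ⧸ P)) N.subtype N.mkQ
      N.subtype_injective (LinearMap.exact_subtype_mkQ N) N.mkQ_surjective (hfin _) (hfin _)
    have : Module.Finite R ((R ⧸ P) ⧸ N) := Module.Finite.trans (R ⧸ P) _
    have h2 : (G.on ((R ⧸ P) ⧸ N)).chi (Len.len R) = 0 := by
      refine ih Q (P ⊔ Ideal.span {r}) (hPQ.trans (Ideal.radical_mono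
        (sup_le_sup_left le_sup_left _))) (Nat.add_lt_add_left (dimNat_quot_lt ?_ ?_) _) G
        (hG.trans Ideal.le_radical) _ (sup_le ((hann _).trans Ideal.le_radical) ?_)
      · exact lt_of_le_of_ne le_sup_left fun h => hrP
          (h ▸ Ideal.mem_sup_right (Ideal.mem_span_singleton_self r))
      · exact ne_top_of_le_ne_top (maximalIdeal.isMaximal R).ne_top
          (sup_le hPm ((Ideal.span_singleton_le_iff_mem _).2 hr))
      · obtain ⟨k, hk⟩ := hrN
        refine (Ideal.span_singleton_le_iff_mem _).2 ⟨k, Module.mem_annihilator.2 fun y => ?_⟩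
        obtain ⟨y, rfl⟩ := N.mkQ_surjective y
        rw [← algebraMap_smul (R ⧸ P), ← map_smul, Ideal.Quotient.algebraMap_eq, map_pow]
        exact (Submodule.Quotient.mk_eq_zero _).2 (N.mul_mem_right _ hk)
    rw [VanStep_chi P G (R ⧸ P), VanStep_chi P G ((R ⧸ P) ⧸ N), h2, add_zero] at h1
    exact h1.symm
  by_contra hne
  have hpos := abs_pos.2 hne
  obtain ⟨M, hM⟩ := exists_nat_gt (K / |(G.on (R ⧸ P)).chi (Len.len R)|)
  obtain ⟨l, hMl, hp, hev, hl⟩ := VanStep_prime R (M + 1)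
  obtain ⟨β, hβ⟩ := hK l hp hev (by simpa only [map_natCast] using hl.map (Ideal.Quotient.mk P))
  have hrβ : Ideal.Quotient.mk P r ∈ (mpow P' β).radical :=
    Finset.prod_induction _ (fun J : Ideal (R ⧸ P) => Ideal.Quotient.mk P r ∈ J.radical)
      (fun J J' h h' => by rw [Ideal.radical_mul]; exact ⟨h, h'⟩)
      (by rw [Ideal.one_eq_top]; exact Ideal.le_radical Submodule.mem_top) fun j _ => by
        obtain ⟨k, hk⟩ := hP' j
        exact ⟨k * β j, by rw [pow_mul]; exact Ideal.pow_mem_pow hk _⟩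
  rw [psi_eq_of_pure hR Q hp hl (Ideal.Quotient.mk P) (Len.len (R ⧸ P)) (mpow P' β) (hth _)
    (fun Q' hQ' hlt' F' hF' => ?_) G (hG.trans Ideal.le_radical), hchi _ hrβ] at hβ
  · obtain ⟨e, he⟩ : ∃ e, x.length - dimNat (R ⧸ Q) = dimNat (R ⧸ P) + (e + 1) :=
      ⟨x.length - dimNat (R ⧸ Q) - dimNat (R ⧸ P) - 1, by omega⟩
    have hl0 : (0 : ℝ) < l := Nat.cast_pos.2 (by omega)
    have hl1 : (1 : ℝ) ≤ ((l + 1 : ℕ) : ℝ) := Nat.one_le_cast.2 (by omega)
    rw [he, mul_assoc, abs_mul, Nat.abs_cast, abs_mul, abs_of_nonneg (by positivity), pow_add,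
      mul_assoc, mul_comm K] at hβ
    have h1 := le_of_mul_le_mul_left (le_of_mul_le_mul_left hβ hl0) (by positivity)
    have h2 : (M : ℝ) ≤ ((l + 1 : ℕ) : ℝ) ^ (e + 1) :=
      (Nat.cast_le.2 (by omega)).trans (le_self_pow₀ hl1 (by omega))
    rw [div_lt_iff₀ hpos] at hM
    exact absurd (hM.trans_le (mul_le_mul_of_nonneg_right h2 hpos.le)) (not_lt.2 h1)
  · have : Module.Finite R (mpow P' β) := Module.Finite.trans (R ⧸ P) _
    rw [VanStep_chi P F' (mpow P' β)]
    exact ih Q' P (hPQ.trans (Ideal.radical_mono (sup_le_sup_right hlt'.le _)))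
      (Nat.add_lt_add_right (dimNat_quot_lt hlt' hQ'.ne_top) _) F'
      (hF'.le_Null_quot.trans Ideal.le_radical) _ ((hann _).trans Ideal.le_radical)

end Vale.Agent.P177
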