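import Vale.Agent.P177.UltDef
import Vale.Agent.P177.FlatReg
import Vale.Agent.P202.MxBase

/-! Witt vectors of the large perfect ring. -/

namespace Vale.Agent.P177

open IsLocalRing Vale.Agent.P202

universe u

theorem WittBase_tele {R : Type u} [CommRing R] (I : ℕ → Ideal R) (hI : Antitone I) (b : ℕ → R)
    (hb : ∀ N, b (N + 1) - b N ∈ I N) {m n : ℕ} (h : m ≤ n) : b n - b m ∈ I m := by
  induction n, h using Nat.le_induction with
  | base => simp
  | succ n hn ih => simpa using add_mem (hI hn (hb n)) ih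

/-- completeness for a cofinal filtration. -/
theorem WittBase_cofinal {R : Type u} [CommRing R] (J : Ideal R) (I : ℕ → Ideal R)
    (h1 : ∀ N, J ^ (N + N) ≤ I N) (h2 : ∀ N, ∃ M, N ≤ M ∧ I M ≤ J ^ N)
    (hsep : ∀ b, (∀ N, b ∈ I N) → b = 0)
    (hc : ∀ b : ℕ → R, (∀ N, b (N + 1) - b N ∈ I N) → ∃ c, ∀ N, c - b N ∈ I N) :
    IsAdicComplete J R where
  haus' x hx := hsep x fun N => h1 N (by simpa [SModEq.zero] using hx (N + N))
  prec' f hf := by
    simp only [smul_eq_mul, Ideal.mul_top, SModEq.sub_mem] at hf ⊢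
    obtain ⟨c, hc⟩ := hc (fun N => f (N + N)) fun N => h1 N (by
      rw [← neg_sub]
      exact neg_mem (hf (by omega)))
    refine ⟨c, fun n => ?_⟩
    obtain ⟨M, hM, hle⟩ := h2 n
    simpa using sub_mem (hf (show n ≤ M + M by omega)) (hle (hc M))

variable {p : ℕ} [Fact p.Prime]

theorem witt_p_notMem_sq {E : Type u} [CommRing E] [CharP E p] [PerfectRing E p]
    (M : Ideal (WittVector p E)) (hM : M.IsMaximal) : (p : WittVector p E) ∉ M ^ 2 := by
  intro hp
  have hpM : (p : WittVector p E) ∈ M := Ideal.pow_le_self two_ne_zero hp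
  have hker : RingHom.ker (WittVector.constantCoeff : WittVector p E →+* E) ≤ M := fun x hx =>
    Ideal.mem_of_dvd M (w4_p_dvd_of_cc hx) hpM
  have hs := witt_constantCoeff_surjective p E
  have hn : (M.map (WittVector.constantCoeff : WittVector p E →+* E)).IsMaximal :=
    Ideal.IsMaximal.map_of_surjective_of_ker_le hs hker
  set N := M.map (WittVector.constantCoeff : WittVector p E →+* E)
  have : CharP (E ⧸ N) p := (CharP.charP_iff_prime_eq_zero Fact.out).2 (by
    rw [← map_natCast (Ideal.Quotient.mk N), CharP.cast_eq_zero, map_zero])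
  have : PerfectRing (E ⧸ N) p := PerfectRing.ofSurjective _ _ fun y => by
    obtain ⟨y, rfl⟩ := Ideal.Quotient.mk_surjective y
    obtain ⟨x, rfl⟩ := (PerfectRing.bijective_frobenius (R := E) (p := p)).2 y
    exact ⟨Ideal.Quotient.mk N x, (map_pow _ _ _).symm⟩
  have h1 : M.map (WittVector.map (Ideal.Quotient.mk N)) ≤
      Ideal.span {(p : WittVector p (E ⧸ N))} := by
    rw [Ideal.map_le_iff_le_comap]
    intro x hx
    rw [Ideal.mem_comap, WittVector.mem_span_p_iff_coeff_zero_eq_zero, WittVector.map_coeff,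
      Ideal.Quotient.eq_zero_iff_mem]
    exact Ideal.mem_map_of_mem (WittVector.constantCoeff : WittVector p E →+* E) hx
  have h2 := Ideal.mem_map_of_mem (WittVector.map (p := p) (Ideal.Quotient.mk N)) hp
  rw [Ideal.map_pow, map_natCast] at h2
  have h3 := Ideal.pow_right_mono h1 2 h2
  rw [Ideal.span_singleton_pow, Ideal.mem_span_singleton] at h3
  obtain ⟨y, hy⟩ := h3
  have h4 := witt_p_reg (1 - (p : WittVector p (E ⧸ N)) * y) (by linear_combination hy)
  have h5 := congrArg WittVector.constantCoeff h4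
  rw [map_sub, map_one, map_mul, w4_cc_p, zero_mul, sub_zero, map_zero] at h5
  exact one_ne_zero h5

/-- Witt vectors whose first coefficients lie in a power of an ideal. -/
noncomputable def WittBaseI (p : ℕ) [Fact p.Prime] {E : Type u} [CommRing E] (J : Ideal E) (N : ℕ) :
    Ideal (WittVector p E) :=
  RingHom.ker ((WittVector.truncate N).comp (WittVector.map (p := p) (Ideal.Quotient.mk (J ^ N))))

theorem WittBase_sub_mem {E : Type u} [CommRing E] (J : Ideal E) (N : ℕ) (x y : WittVector p E) :
    x - y ∈ WittBaseI p J N ↔ ∀ k < N, x.coeff k - y.coeff k ∈ J ^ N := by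
  rw [WittBaseI, RingHom.sub_mem_ker_iff, TruncatedWittVector.ext_iff]
  simp only [RingHom.comp_apply, WittVector.coeff_truncate, WittVector.map_coeff,
    Ideal.Quotient.eq]
  exact ⟨fun h k hk => h ⟨k, hk⟩, fun h k => h k k.2⟩

theorem WittBase_mem {E : Type u} [CommRing E] (J : Ideal E) (N : ℕ) (x : WittVector p E) :
    x ∈ WittBaseI p J N ↔ ∀ k < N, x.coeff k ∈ J ^ N := by
  simpa using WittBase_sub_mem J N x 0

open Pointwise in
theorem WittBase_teich_pow {E : Type u} [CommRing E] {n : ℕ} (z : Fin n → E) (N : ℕ) :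
    teichI p z ^ N ≤ RingHom.ker (WittVector.map (p := p)
      (Ideal.Quotient.mk (Ideal.span (Set.range z) ^ N))) := by
  have : ∀ N, ∀ y ∈ (Set.range fun i : Fin n => WittVector.teichmuller p (z i)) ^ N,
      ∃ x ∈ Ideal.span (Set.range z) ^ N, y = WittVector.teichmuller p x := by
    intro N
    induction N with
    | zero => exact fun y hy => ⟨1, by simp, by simpa using hy⟩
    | succ N ih =>
      intro y hy
      rw [pow_succ] at hy ⊢
      obtain ⟨y, hy, _, ⟨i, rfl⟩, rfl⟩ := hy
      obtain ⟨x, hx, rfl⟩ := ih y hy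
      exact ⟨_, Ideal.mul_mem_mul hx (Ideal.subset_span ⟨i, rfl⟩), (map_mul _ _ _).symm⟩
  rw [teichI, Ideal.span, Submodule.span_pow, Submodule.span_le]
  intro y hy
  obtain ⟨x, hx, rfl⟩ := this N y hy
  rw [SetLike.mem_coe, RingHom.mem_ker, WittVector.map_teichmuller,
    Ideal.Quotient.eq_zero_iff_mem.2 hx, WittVector.teichmuller_zero]

theorem witt_complete {E : Type u} [CommRing E] [CharP E p] [PerfectRing E p] {n : ℕ}
    (z : Fin n → E) [IsAdicComplete (Ideal.span (Set.range z)) E] :
    IsAdicComplete (Ideal.span {(p : WittVector p E)} ⊔ teichI p z) (WittVector p E) := by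
  set J := Ideal.span (Set.range z) with hJ
  have hp : 0 < p := (Fact.out : p.Prime).pos
  refine WittBase_cofinal _ (WittBaseI p J) (fun N => ?_) (fun N => ?_) (fun b hb => ?_)
    fun b hb => ?_
  · refine Ideal.sup_pow_add_le_pow_sup_pow.trans (sup_le (fun x hx => ?_) fun x hx => ?_)
    · rw [Ideal.span_singleton_pow, WittVector.mem_span_p_pow_iff_le_coeff_eq_zero] at hx
      exact (WittBase_mem J N x).2 fun k hk => hx k hk ▸ zero_mem _
    · rw [WittBaseI, RingHom.mem_ker, RingHom.comp_apply,
        RingHom.mem_ker.1 (WittBase_teich_pow z N hx), map_zero]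
  · have hle : N + 1 ≤ (N + 1 + n) * p ^ N :=
      (Nat.le_add_right _ n).trans (Nat.le_mul_of_pos_right _ (pow_pos hp N))
    refine ⟨(N + 1 + n) * p ^ N, (Nat.le_succ N).trans hle, fun x hx => ?_⟩
    have hpw : ∀ ν, N ≤ ν → Ideal.span {(p : WittVector p E) ^ ν} ≤
        (Ideal.span {(p : WittVector p E)} ⊔ teichI p z) ^ N := fun ν hν => by
      rw [← Ideal.span_singleton_pow]
      exact (Ideal.pow_le_pow_right hν).trans (Ideal.pow_right_mono le_sup_left N)
    have h1 := Ideal.mem_span_singleton.2
      (WittVector.dvd_sub_sum_teichmuller_iterateFrobeniusEquiv_coeff x N)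
    rw [← sub_add_cancel x _]
    refine add_mem (hpw _ (Nat.le_succ N) h1) (sum_mem fun i hi => Ideal.mul_mem_right _ _ ?_)
    have hi' : i ≤ N := Finset.mem_Iic.1 hi
    refine sup_le (Ideal.pow_right_mono le_sup_right N) (hpw N le_rfl)
      (teich_mem_pow z _ i ((N + 1 + n) * p ^ N) N ?_ ?_ N)
    · have e : ∀ (i : ℕ) (c : E), (((frobeniusEquiv E p).symm ^ i) c) ^ p ^ i = c := by
        intro i
        induction i with
        | zero => intro c; simp
        | succ i ih =>
          intro c
          rw [pow_succ, RingAut.mul_apply, pow_succ, pow_mul, ih, frobeniusEquiv_symm_pow_p]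
      rw [e]
      exact (WittBase_mem J _ x).1 hx i (by omega)
    · exact Nat.mul_le_mul (by omega) (Nat.pow_le_pow_right hp hi')
  · ext k
    rw [WittVector.zero_coeff]
    refine IsHausdorff.haus (I := J) (M := E) inferInstance _ fun N => ?_
    rw [SModEq.zero, smul_eq_mul, Ideal.mul_top]
    exact Ideal.pow_le_pow_right (Nat.le_add_right N (k + 1))
      ((WittBase_mem J _ b).1 (hb (N + (k + 1))) k (by omega))
  · have hanti : Antitone (WittBaseI p J) := fun N N' h x hx => (WittBase_mem J N x).2
      fun k hk => Ideal.pow_le_pow_right h ((WittBase_mem J N' x).1 hx k (by omega))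
    have h1 : ∀ k, ∃ c : E, ∀ N, (b (N + (k + 1))).coeff k - c ∈ J ^ N := by
      intro k
      obtain ⟨c, hc⟩ := IsPrecomplete.prec (I := J) (M := E) inferInstance
        (f := fun N => (b (N + (k + 1))).coeff k) fun {m m'} h => by
          rw [smul_eq_mul, Ideal.mul_top, SModEq.comm, SModEq.sub_mem]
          exact Ideal.pow_le_pow_right (Nat.le_add_right m (k + 1)) ((WittBase_sub_mem J _ _ _).1
            (WittBase_tele _ hanti b hb (Nat.add_le_add_right h (k + 1))) k (by omega))
      exact ⟨c, fun N => by simpa [SModEq.sub_mem] using hc N⟩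
    choose c hc using h1
    refine ⟨WittVector.mk p c, fun N => (WittBase_sub_mem J N _ _).2 fun k hk => ?_⟩
    have h2 := (WittBase_sub_mem J N _ _).1
      (WittBase_tele _ hanti b hb (Nat.le_add_right N (k + 1))) k hk
    simpa using sub_mem h2 (hc k N)

variable (p) (k : Type u) [Field k] [CharP k p] [PerfectRing k p] (D : ℕ)

theorem exists_teich_lift : ∃ s : PS (WittVector p k) D →+* WittVector p (PS k D),
    (∀ j, s (MvPowerSeries.X j) = WittVector.teichmuller p (MvPowerSeries.X j)) ∧
    ∀ f, (s f).coeff 0 = MvPowerSeries.map WittVector.constantCoeff f := by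
  obtain ⟨ψ, hC, hX⟩ := exists_psMap_filt (fun N => RingHom.ker (WittVector.map (p := p)
    (Ideal.Quotient.mk (varIdeal k D ^ N)))) (fun N N' h x hx => by
      rw [← sub_zero x, BaseAux.sub_mem_ker_map] at hx ⊢
      exact fun j => Ideal.pow_le_pow_right h (hx j))
    (fun b hb => WittVector.ext fun j => sub_eq_zero.1 <| BaseAux.ps_sep k _ fun N =>
      (BaseAux.sub_mem_ker_map p _ b 0).1 (by simpa using hb N) j)
    (fun b hb => by
      choose c hc using fun j => BaseAux.ps_compl k (fun N => (b N).coeff j) fun N =>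
        (BaseAux.sub_mem_ker_map p _ _ _).1 (hb N) j
      exact ⟨WittVector.mk p c, fun N => (BaseAux.sub_mem_ker_map p _ _ _).2 fun j => hc j N⟩)
    (WittVector.map (MvPowerSeries.C : k →+* PS k D))
    (fun i : Fin D => WittVector.teichmuller p (MvPowerSeries.X i))
    (WittBase_teich_pow MvPowerSeries.X)
  refine ⟨ψ, hX, fun f => DFunLike.congr_fun (psMap_unique_filt (varIdeal k D) (BaseAux.ps_sep k)
    (WittVector.constantCoeff.comp ψ) (MvPowerSeries.map WittVector.constantCoeff)
    (fun v => ?_) (fun i => ?_) fun i => ?_) f⟩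
  · simp [hC]
  · simp [hX]
  · rw [RingHom.comp_apply, hX]
    exact Ideal.subset_span ⟨i, rfl⟩

variable {p k D}

theorem Ult.witt (U : Ult p (PS k D)) (s : PS (WittVector p k) D →+* WittVector p (PS k D))
    (hX : ∀ j, s (MvPowerSeries.X j) = WittVector.teichmuller p (MvPowerSeries.X j))
    (h0 : ∀ f, (s f).coeff 0 = MvPowerSeries.map WittVector.constantCoeff f) :
    ((WittVector.map (algebraMap (PS k D) U.E)).comp s).Flat ∧
      IsAdicComplete ((maximalIdeal (PS (WittVector p k) D)).map
        ((WittVector.map (algebraMap (PS k D) U.E)).comp s)) (WittVector p U.E) := by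
  have _ := h0
  set F := (WittVector.map (algebraMap (PS k D) U.E)).comp s with hF
  let z : Fin D → U.E := fun j => algebraMap (PS k D) U.E (MvPowerSeries.X j)
  have hFX : ∀ j, F (MvPowerSeries.X j) = WittVector.teichmuller p (z j) := fun j => by
    rw [hF, RingHom.comp_apply, hX, WittVector.map_teichmuller]
  have hA := regL_ps_pRing (isPRing_witt p k) D
  have hk := regL_ps_field k D
  have ofl : ∀ {R : Type u} [CommRing R] (x : Fin D → R),
      Ideal.ofList (List.ofFn x) = Ideal.span (Set.range x) := fun x =>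
    congrArg Ideal.span (Set.ext fun _ => List.mem_ofFn' _ _)
  have e1 : mE (PS k D) U.E = Ideal.span (Set.range z) := by
    rw [mE, ← hk.span, Ideal.map_ofList, List.map_ofFn, ofl]
    rfl
  have e2 : ((p : PS (WittVector p k) D) :: List.ofFn MvPowerSeries.X).map F =
      (p : WittVector p U.E) :: List.ofFn fun j => WittVector.teichmuller p (z j) := by
    rw [List.map_cons, map_natCast, List.map_ofFn]
    exact congrArg (fun x => _ :: List.ofFn x) (funext hFX)
  have hc : IsAdicComplete ((maximalIdeal (PS (WittVector p k) D)).map F) (WittVector p U.E) := by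
    have : IsAdicComplete (Ideal.span (Set.range z)) U.E := e1 ▸ U.complete
    rw [← hA.span, Ideal.map_ofList, e2, Ideal.ofList_cons, ofl]
    exact witt_complete z
  refine ⟨?_, hc⟩
  have := hA.noeth
  refine flat_of_complete F _ (hA.flat_quot F ?_)
  rw [e2, FlatReg_iff]
  refine ⟨fun y hy => witt_p_reg y hy, ?_⟩
  have := U.flat
  have h1 := (FlatReg_iff _).1 (RingTheory.Sequence.IsWeaklyRegular.of_flat (S := U.E) hk.reg)
  have h2 := FlatReg_comap WittVector.constantCoeff (witt_constantCoeff_surjective p U.E)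
    (List.ofFn fun j => WittVector.teichmuller p (z j)) ⊥ (by
      rw [List.map_ofFn] at h1 ⊢
      exact h1)
  rwa [← RingHom.ker_eq_comap_bot, WittVector.ker_constantCoeff, ← bot_sup_eq (Ideal.span _)] at h2

end Vale.Agent.P177
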